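import Crest.Agent.R188.Std

/-! # R188 / Wv : arithmetic in `W(V)/(p - [t]γ)` for a perfect valuation ring `V`. -/

set_option autoImplicit false
open IsLocalRing Crest.Agent.R183 WittVector Polynomial

namespace Crest.Agent.R188

section
variable {p : ℕ} [Fact p.Prime] {V : Type} [CommRing V]

/-- `F = p - [t] γ` (cf. `Psi_dist`) -/
noncomputable abbrev FF (t : V) (γ : WittVector p V) : WittVector p V :=
  (p : WittVector p V) - teichmuller p t * γ

/-- the ideal `(F, [t]^n)` -/
noncomputable def II (F : WittVector p V) (t : V) (n : ℕ) : Ideal (WittVector p V) :=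
  Ideal.span {F, teichmuller p t ^ n}

theorem II.anti (F : WittVector p V) (t : V) {n n' : ℕ} (h : n ≤ n') : II F t n' ≤ II F t n := by
  intro y hy
  obtain ⟨a, b, rfl⟩ := Ideal.mem_span_pair.1 hy
  refine Ideal.mem_span_pair.2 ⟨a, b * teichmuller p t ^ (n' - n), ?_⟩
  rw [mul_assoc, ← pow_add, Nat.sub_add_cancel h]

theorem II.mul {F : WittVector p V} {t : V} {n n' : ℕ} {y y' : WittVector p V} (h : y ∈ II F t n)
    (h' : y' ∈ II F t n') : y * y' ∈ II F t (n + n') := by
  obtain ⟨a, b, rfl⟩ := Ideal.mem_span_pair.1 h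
  obtain ⟨a', b', rfl⟩ := Ideal.mem_span_pair.1 h'
  exact Ideal.mem_span_pair.2 ⟨a * (a' * F + b' * teichmuller p t ^ n') +
    b * teichmuller p t ^ n * a', b * b', by ring⟩

theorem II.pow_le (F : WittVector p V) (t : V) (n : ℕ) : II F t 1 ^ n ≤ II F t n := by
  induction n with
  | zero => exact fun y _ => Ideal.mem_span_pair.2 ⟨0, y, by ring⟩
  | succ n ih =>
    rw [pow_succ]
    exact Ideal.mul_le.2 fun y hy y' hy' => II.mul (ih hy) hy'

theorem II.self (F : WittVector p V) (t : V) (n : ℕ) : F ∈ II F t n := by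
  exact Ideal.subset_span (Set.mem_insert _ _)

theorem II.teich {F : WittVector p V} {t b : V} {n : ℕ} (h : t ^ n ∣ b) :
    teichmuller p b ∈ II F t n := by
  obtain ⟨c, rfl⟩ := h
  exact Ideal.mem_span_pair.2 ⟨0, teichmuller p c, by rw [map_mul, map_pow]; ring⟩

theorem II.p_pow (t : V) (γ : WittVector p V) (n : ℕ) :
    (p : WittVector p V) ^ n ∈ II (FF t γ) t n := by
  exact II.pow_le _ t n (Ideal.pow_mem_pow (Ideal.mem_span_pair.2 ⟨1, γ, by ring⟩) n)

theorem II.span_le (t : V) (γ : WittVector p V) {n n' : ℕ} (h : n ≤ n') :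
    Ideal.span {FF t γ, (p : WittVector p V) ^ n'} ≤
      II (FF t γ) t n := by
  rw [Ideal.span_le, Set.insert_subset_iff, Set.singleton_subset_iff]
  exact ⟨II.self _ t n, II.anti _ t h (II.p_pow t γ n')⟩

/-- constant coefficients: `(p : 𝕎 V).coeff 0 = p = 0` -/
theorem II.coeff_zero [CharP V p] {t : V} {γ y : WittVector p V}
    (h : y ∈ II (FF t γ) t 1) : t ∣ y.coeff 0 := by
  obtain ⟨a, b, rfl⟩ := Ideal.mem_span_pair.1 h
  have h1 : WittVector.constantCoeff (a * FF t γ + b * teichmuller p t ^ 1) =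
      t * (b.coeff 0 - a.coeff 0 * γ.coeff 0) := by
    rw [pow_one, map_add, map_mul, map_mul, map_sub, map_mul]
    simp only [WittVector.constantCoeff_apply, coeff_p_zero, teichmuller_coeff_zero]
    ring
  exact ⟨_, h1⟩

/-- if `ξ ≡ η mod t^(n p^n)` then `[ξ] ≡ [η] mod (p^n, [t]^n)`: the coefficients of `[ξ] - [η]` die in
`V/t^(n p^n)` (`map_teichmuller`); split `init n + tail n`, `R183.exists_teich_mul`,
`mem_span_p_pow_iff_le_coeff_eq_zero`. -/
theorem teich_sub_mem [CharP V p] [PerfectRing V p] {t ξ η : V} {n : ℕ}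
    (h : t ^ (n * p ^ n) ∣ ξ - η) : teichmuller p ξ - teichmuller p η ∈
      Ideal.span {(p : WittVector p V) ^ n, teichmuller p t ^ n} := by
  have h1 : teichmuller p ξ - teichmuller p η ∈ WI p (Ideal.span {t ^ (n * p ^ n)}) := by
    rw [WI, RingHom.mem_ker, map_sub, map_teichmuller, map_teichmuller,
      Ideal.Quotient.eq.2 (Ideal.mem_span_singleton.2 h), sub_self]
  generalize teichmuller p ξ - teichmuller p η = x at h1
  obtain ⟨z, -, hz⟩ := exists_teich_mul (𝔪 := ⊤) (b := t ^ n) (y := init n x) fun i => by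
    by_cases hi : i < n
    · have h2 : (t ^ n) ^ p ^ i ∣ x.coeff i := by
        refine Dvd.dvd.trans ?_ (Ideal.mem_span_singleton.1 (mem_WI.1 h1 i))
        rw [← pow_mul]
        exact pow_dvd_pow t (Nat.mul_le_mul_left n
          (Nat.pow_le_pow_right (Fact.out : p.Prime).pos hi.le))
      obtain ⟨μ, hμ⟩ := h2
      exact ⟨μ, trivial, by rw [← hμ]; simp [init, select, hi]⟩
    · exact ⟨0, trivial, by simp [init, select, hi]⟩
  obtain ⟨w, hw⟩ := Ideal.mem_span_singleton.1
    ((mem_span_p_pow_iff_le_coeff_eq_zero (tail n x) n).2 fun m hm => by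
      simp [tail, select, hm.not_ge])
  refine Ideal.mem_span_pair.2 ⟨w, z, ?_⟩
  rw [← init_add_tail x n, hz, hw, map_pow]
  ring

variable [IsDomain V] [ValuationRing V] [CharP V p] [PerfectRing V p] {t : V}
  (ht : t ∈ maximalIdeal V) (γ : WittVector p V)
include ht

theorem II.ne_top {n : ℕ} (hn : 1 ≤ n) : II (FF t γ) t n ≠ ⊤ := by
  intro h
  have h1 : (1 : WittVector p V) ∈ II (FF t γ) t 1 := II.anti _ t hn (h ▸ Submodule.mem_top)
  have h2 := II.coeff_zero h1
  rw [one_coeff_zero] at h2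
  exact ht (isUnit_of_dvd_one h2)

/-- VAL.  `y = [y₀] + p y' ≡ [y₀] + [t] γ y'`.  If `t ∣ y₀` factor out `[t]` and induct on `n`;
otherwise `t = y₀ t'` with `t' ∈ 𝔪` and `1 + [t'] γ y'` is a unit (`witt_isUnit`). -/
theorem val_form (n : ℕ) (y : WittVector p V) : ∃ (b : V) (υ : WittVector p V), IsUnit υ ∧
    y - teichmuller p b * υ ∈ II (FF t γ) t n := by
  induction n generalizing y with
  | zero =>
    exact ⟨0, 1, isUnit_one, Ideal.mem_span_pair.2
      ⟨0, y - teichmuller p 0 * 1, by rw [pow_zero, mul_one _, zero_mul, zero_add]⟩⟩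
  | succ n ih =>
    obtain ⟨y', hy'⟩ := Ideal.mem_span_singleton.1
      ((mem_span_p_iff_coeff_zero_eq_zero (y - teichmuller p (y.coeff 0))).2
        ((map_sub WittVector.constantCoeff y (teichmuller p (y.coeff 0))).trans
          (sub_self (y.coeff 0))))
    by_cases h : t ∣ y.coeff 0
    · obtain ⟨c, hc⟩ := h
      obtain ⟨b, υ, hυ, hb⟩ := ih (teichmuller p c + γ * y')
      refine ⟨t * b, υ, hυ, ?_⟩
      have e : y - teichmuller p (t * b) * υ =
          (teichmuller p c + γ * y' - teichmuller p b * υ) * teichmuller p t + y' * FF t γ := by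
        rw [hc, map_mul] at hy'
        rw [map_mul]
        linear_combination hy'
      rw [e]
      exact add_mem (II.mul hb (II.teich (by rw [pow_one])))
        (Ideal.mul_mem_left _ _ (II.self _ t _))
    · obtain ⟨c, hc⟩ := (ValuationRing.dvd_total t (y.coeff 0)).resolve_left h
      have hcm : c ∈ maximalIdeal V := fun hu => h (by
        rw [hc]
        exact hu.mul_right_dvd.2 dvd_rfl)
      refine ⟨y.coeff 0, 1 + teichmuller p c * (γ * y'), witt_isUnit ?_, ?_⟩
      · rw [add_coeff_zero, WittVector.mul_coeff_zero, one_coeff_zero, teichmuller_coeff_zero]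
        simpa using isUnit_one_sub_self_of_mem_nonunits _
          (neg_mem (Ideal.mul_mem_right ((γ * y').coeff 0) _ hcm))
      · have e : y - teichmuller p (y.coeff 0) * (1 + teichmuller p c * (γ * y')) =
            y' * FF t γ := by
          have e1 : teichmuller p t = teichmuller p (y.coeff 0) * teichmuller p c := by
            rw [← map_mul, ← hc]
          rw [FF, e1]
          linear_combination hy'
        rw [e]
        exact Ideal.mul_mem_left _ _ (II.self _ t _)

/-- ND (cf. `R183.key_not_mem`).  If `t^n = b c`, `c ∈ 𝔪`, then `[b] υ' = F z` with `υ'` a unit;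
`p^n z ∈ ([b])`, so `z = [b] z'` (`R183.p_sat`), `F` is a unit, absurd. -/
theorem nd {n : ℕ} {b : V} {υ : WittVector p V} (hυ : IsUnit υ)
    (h : teichmuller p b * υ ∈ II (FF t γ) t n) : t ^ n ∣ b := by
  by_cases hb : b = 0
  · rw [hb]; exact dvd_zero _
  by_contra hn
  obtain ⟨c, hc⟩ : b ∣ t ^ n := (ValuationRing.dvd_total (t ^ n) b).resolve_left hn
  have hcm : c ∈ maximalIdeal V := by
    rw [mem_maximalIdeal, mem_nonunits_iff]
    intro hu
    exact hn (hc ▸ (hu.mul_right_dvd).2 dvd_rfl)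
  obtain ⟨a, e, hae⟩ := Ideal.mem_span_pair.1 h
  obtain ⟨w, hw⟩ := sub_dvd_pow_sub_pow (p : WittVector p V) (teichmuller p t * γ) n
  have ht' : teichmuller p t ^ n = teichmuller p b * teichmuller p c := by
    rw [← map_pow, hc, map_mul]
  have h1 : (p : WittVector p V) ^ n * a ∈ Ideal.span {teichmuller p b} := by
    refine Ideal.mem_span_singleton.2
      ⟨(υ - e * teichmuller p c) * w + teichmuller p c * γ ^ n * a, ?_⟩
    rw [mul_pow, ht'] at hw
    rw [ht'] at hae
    simp only [FF] at hae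
    linear_combination a * hw + w * hae
  obtain ⟨z, rfl⟩ := Ideal.mem_span_singleton.1 (p_sat b n a h1)
  have hb' : teichmuller p b ≠ 0 := fun h0 => hb (by simpa using congrArg (·.coeff 0) h0)
  have h2 : υ = z * FF t γ + e * teichmuller p c :=
    mul_left_cancel₀ hb' (by rw [← hae, ht']; ring)
  have h3 := congrArg WittVector.constantCoeff h2
  rw [map_add, map_mul, map_mul, map_sub, map_mul] at h3
  have hu := hυ.map (WittVector.constantCoeff : WittVector p V →+* V)
  rw [h3] at hu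
  simp only [WittVector.constantCoeff_apply, coeff_p_zero, teichmuller_coeff_zero] at hu
  refine (mem_nonunits_iff.1 ((mem_maximalIdeal _).1 ?_)) hu
  refine add_mem (Ideal.mul_mem_left _ _ ?_) (Ideal.mul_mem_left _ _ hcm)
  rw [zero_sub]
  exact neg_mem (Ideal.mul_mem_right _ _ ht)

/-- PRODUCT LEMMA (`val_form` at level `n + n'` for both factors, `nd`) -/
theorem II.prime {n n' : ℕ} {y y' : WittVector p V}
    (h : y * y' ∈ II (FF t γ) t (n + n')) :
    y ∈ II (FF t γ) t n ∨ y' ∈ II (FF t γ) t n' := by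
  obtain ⟨b, υ, hυ, hb⟩ := val_form ht γ (n + n') y
  obtain ⟨b', υ', hυ', hb'⟩ := val_form ht γ (n + n') y'
  have h1 : teichmuller p (b * b') * (υ * υ') ∈ II (FF t γ) t (n + n') := by
    have : teichmuller p (b * b') * (υ * υ') = y * y' - (y - teichmuller p b * υ) * y' -
        teichmuller p b * υ * (y' - teichmuller p b' * υ') := by
      rw [map_mul]; ring
    rw [this]
    exact sub_mem (sub_mem h (Ideal.mul_mem_right _ _ hb)) (Ideal.mul_mem_left _ _ hb')
  have h2 := nd ht γ (hυ.mul hυ') h1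
  have h3 : t ^ n ∣ b ∨ t ^ n' ∣ b' := by
    by_cases hn : t ^ n ∣ b
    · exact Or.inl hn
    right
    have hb0 : b ≠ 0 := fun h0 => hn (h0 ▸ dvd_zero _)
    obtain ⟨c, hc⟩ : b ∣ t ^ n := (ValuationRing.dvd_total (t ^ n) b).resolve_left hn
    rw [pow_add, hc, mul_assoc, mul_dvd_mul_iff_left hb0] at h2
    exact (Dvd.intro_left c rfl).trans h2
  rcases h3 with h3 | h3
  · left
    have := add_mem (II.anti _ _ (Nat.le_add_right n n') hb)
      (Ideal.mul_mem_right υ _ (II.teich (F := FF t γ) h3))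
    rwa [sub_add_cancel] at this
  · right
    have := add_mem (II.anti _ _ (Nat.le_add_left n' n) hb')
      (Ideal.mul_mem_right υ' _ (II.teich (F := FF t γ) h3))
    rwa [sub_add_cancel] at this

theorem II.prime_list {n : ℕ} (l : List (WittVector p V)) (hl : l ≠ [])
    (h : l.prod ∈ II (FF t γ) t (l.length * n)) :
    ∃ y ∈ l, y ∈ II (FF t γ) t n := by
  induction l with
  | nil => exact absurd rfl hl
  | cons y l ih =>
    by_cases hl' : l = []
    · subst hl'
      exact ⟨y, List.mem_cons_self, by simpa using h⟩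
    rw [List.prod_cons, List.length_cons, add_mul, one_mul, add_comm] at h
    rcases II.prime ht γ h with h1 | h1
    · exact ⟨y, List.mem_cons_self, h1⟩
    · obtain ⟨y', hy', h2⟩ := ih hl' h1
      exact ⟨y', List.mem_cons_of_mem _ hy', h2⟩

/-- ideal version: if a product of ideals is deep then one factor is deep -/
theorem II.prime_ideals {A : Type} [CommRing A] (Ψ : A →+* WittVector p V) {n : ℕ}
    (l : List (Ideal A)) (hl : l ≠ [])
    (h : ∀ y ∈ l.prod, Ψ y ∈ II (FF t γ) t (l.length * n)) :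
    ∃ q ∈ l, ∀ y ∈ q, Ψ y ∈ II (FF t γ) t n := by
  induction l with
  | nil => exact absurd rfl hl
  | cons q l ih =>
    by_cases hl' : l = []
    · subst hl'
      exact ⟨q, List.mem_cons_self, by simpa using h⟩
    by_cases hq : ∀ y ∈ q, Ψ y ∈ II (FF t γ) t n
    · exact ⟨q, List.mem_cons_self, hq⟩
    push Not at hq
    obtain ⟨y, hy, hy'⟩ := hq
    obtain ⟨q', hq', h2⟩ := ih hl' fun y' hy'' => by
      have h1 := h (y * y') (by rw [List.prod_cons]; exact Ideal.mul_mem_mul hy hy'')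
      rw [map_mul, List.length_cons, add_mul, one_mul, add_comm] at h1
      exact (II.prime ht γ h1).resolve_left hy'
    exact ⟨q', List.mem_cons_of_mem _ hq', h2⟩

end

/-- a polynomial over a valuation ring of an algebraically closed field, with a unit coefficient in
positive degree and unit constant term, has a root in the valuation ring (otherwise it is
`c ∏ (1 - X/ρ)` with `1/ρ ∈ 𝔪`, so its higher coefficients lie in `𝔪`) -/
theorem exists_root_val {K : Type} [Field K] [IsAlgClosed K] (V : ValuationSubring K) (q : V[X])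
    (h0 : IsUnit (q.coeff 0)) {i : ℕ} (hi : 0 < i) (h1 : IsUnit (q.coeff i)) :
    ∃ y : V, q.eval y = 0 := by
  classical
  by_contra hno
  push Not at hno
  have hinj : Function.Injective (algebraMap V K) := Subtype.val_injective
  set Q := q.map (algebraMap V K) with hQ
  have hr : ∀ ρ ∈ Q.roots, ρ ∉ V := fun ρ hρ hV => by
    have h := (mem_roots'.1 hρ).2
    refine hno ⟨ρ, hV⟩ (hinj ?_)
    rw [map_zero, ← eval₂_at_apply, ← eval_map]
    exact h
  let σ : K → V := fun ρ => if h : ρ⁻¹ ∈ V then ⟨ρ⁻¹, h⟩ else 0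
  have hσ : ∀ ρ ∈ Q.roots, algebraMap V K (σ ρ) = ρ⁻¹ := fun ρ hρ => by
    have h : ρ⁻¹ ∈ V := (V.mem_or_inv_mem ρ).resolve_left (hr ρ hρ)
    simp only [σ, dif_pos h]
    rfl
  have hρ0 : ∀ ρ ∈ Q.roots, ρ ≠ 0 := fun ρ hρ h => hr ρ hρ (h ▸ V.zero_mem)
  have hσm : ∀ ρ ∈ Q.roots, residue V (σ ρ) = 0 := fun ρ hρ => by
    rw [residue_eq_zero_iff, mem_maximalIdeal, mem_nonunits_iff]
    intro hu
    obtain ⟨w, hw⟩ := hu.exists_right_inv
    have h := congrArg (algebraMap V K) hw
    rw [map_mul, hσ ρ hρ, map_one, inv_mul_eq_one₀ (hρ0 ρ hρ)] at h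
    exact hr ρ hρ (h ▸ w.2)
  let r : V[X] := (Q.roots.map fun ρ => 1 - C (σ ρ) * X).prod
  have hsp : Q = C Q.leadingCoeff * (Q.roots.map fun ρ => X - C ρ).prod :=
    (IsAlgClosed.splits Q).eq_prod_roots
  have h2 : (Q.roots.map fun ρ => X - C ρ).prod =
      C (Q.roots.map fun ρ => -ρ).prod * r.map (algebraMap V K) := by
    rw [Polynomial.map_multiset_prod, map_multiset_prod, Multiset.map_map, Multiset.map_map,
      ← Multiset.prod_map_mul]
    refine congrArg _ (Multiset.map_congr rfl fun ρ hρ => ?_)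
    simp only [Function.comp, Polynomial.map_sub, Polynomial.map_one, Polynomial.map_mul, map_C,
      map_X, hσ ρ hρ]
    rw [mul_sub, ← mul_assoc, ← C_mul, neg_mul, mul_inv_cancel₀ (hρ0 ρ hρ)]
    simp only [map_neg, map_one]
    ring
  have hr1 : r.map (residue V) = 1 := by
    rw [Polynomial.map_multiset_prod, Multiset.map_map]
    refine Multiset.prod_eq_one fun x hx => ?_
    obtain ⟨ρ, hρ, rfl⟩ := Multiset.mem_map.1 hx
    simp [hσm ρ hρ]
  have hr0 : r.coeff 0 = 1 := by
    rw [coeff_zero_eq_eval_zero, eval_multiset_prod, Multiset.map_map]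
    refine Multiset.prod_eq_one fun x hx => ?_
    obtain ⟨ρ, hρ, rfl⟩ := Multiset.mem_map.1 hx
    simp
  rw [h2, ← mul_assoc, ← C_mul] at hsp
  have h3 : algebraMap V K (q.coeff 0) = Q.leadingCoeff * (Q.roots.map fun ρ => -ρ).prod := by
    rw [← coeff_map, ← hQ]
    conv_lhs => rw [hsp]
    rw [coeff_C_mul, coeff_map, hr0, map_one, mul_one]
  have h4 : q = C (q.coeff 0) * r := by
    apply map_injective _ hinj
    rw [Polynomial.map_mul, map_C, h3]
    exact hsp
  have h5 := congrArg (fun f => (Polynomial.map (residue V) f).coeff i) h4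
  simp only [Polynomial.map_mul, hr1, mul_one, map_C, coeff_map] at h5
  rw [coeff_C_of_ne_zero hi.ne', residue_eq_zero_iff, mem_maximalIdeal, mem_nonunits_iff] at h5
  exact h5 h1

section AS
variable {p : ℕ} [Fact p.Prime] {K : Type} [Field K] [IsAlgClosed K] (V : ValuationSubring K)
  [CharP V p] [PerfectRing V p] {t : V} (ht : t ∈ maximalIdeal V) (γ : WittVector p V)
include ht

omit ht in
theorem wvc_newton (b : ℕ → V) {E : ℕ} (hE : 0 < E) (hbE : b E = 1) :
    ∃ (lam : V) (j₀ : ℕ), 0 < j₀ ∧ j₀ ≤ E ∧ lam ^ j₀ * b j₀ = b 0 ∧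
      ∀ j ≤ E, b 0 ∣ lam ^ j * b j := by
  classical
  have hρ : ∀ j : ℕ, ∃ z : K, 0 < j → z ^ j = (b 0 : K) / b j := fun j => by
    by_cases hj : 0 < j
    · obtain ⟨z, hz⟩ := IsAlgClosed.exists_pow_nat_eq ((b 0 : K) / b j) hj
      exact ⟨z, fun _ => hz⟩
    · exact ⟨0, fun h => absurd h hj⟩
  choose ρ hρ using hρ
  have hρ' : ∀ j, 0 < j → b j ≠ 0 → ρ j ^ j * b j = b 0 := fun j hj hb => by
    rw [hρ j hj, div_mul_cancel₀]
    exact fun h => hb (Subtype.ext h)
  have hEm : E ∈ (Finset.range (E + 1)).filter fun j => 0 < j ∧ b j ≠ 0 := by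
    simp [hE, hbE]
  obtain ⟨j₀, hj₀, hmin⟩ := Finset.exists_min_image
    ((Finset.range (E + 1)).filter fun j => 0 < j ∧ b j ≠ 0) (fun j => V.valuation (ρ j)) ⟨E, hEm⟩
  simp only [Finset.mem_filter, Finset.mem_range] at hj₀
  have h1 : V.valuation (ρ E) ≤ 1 := by
    have := hρ' E hE (by rw [hbE]; exact one_ne_zero)
    rw [hbE, OneMemClass.coe_one, mul_one] at this
    rw [← pow_le_one_iff hE.ne', ← map_pow, this]
    exact V.valuation_le_one _
  refine ⟨⟨ρ j₀, (V.valuation_le_one_iff _).1 ((hmin E hEm).trans h1)⟩, j₀, hj₀.2.1, by omega,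
    Subtype.ext (hρ' j₀ hj₀.2.1 hj₀.2.2), fun j hj => ?_⟩
  rcases Nat.eq_zero_or_pos j with rfl | hj0
  · exact dvd_mul_left _ _
  by_cases hb : b j = 0
  · rw [hb, mul_zero]; exact dvd_zero _
  have h2 : V.valuation (ρ j₀ ^ j * b j) ≤ V.valuation (b 0) := by
    rw [← hρ' j hj0 hb, map_mul, map_mul, map_pow, map_pow]
    exact mul_le_mul_left (pow_le_pow_left' (hmin j (by simp [hj0, hb]; omega)) j) _
  obtain ⟨a, ha⟩ := (V.valuation_le_iff _ _).1 h2
  exact ⟨a, Subtype.ext (by rw [mul_comm (b 0)]; exact ha.symm)⟩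

omit ht [IsAlgClosed K] in
theorem wvc_dvd {y : WittVector p V} (h : y.coeff 0 = 0) : (p : WittVector p V) ∣ y :=
  Ideal.mem_span_singleton.1 ((mem_span_p_iff_coeff_zero_eq_zero y).2 h)

/-- NEWTON STEP.  Let `Q = ∑ c_j Y^j` be monic of degree `E ≥ 1`, `c_0 ∈ I_i`, `i < n`.  By `val_form`
at level `n`: `c_j ≡ [b_j] υ_j` (`b_E = 1`); `t^i ∣ b_0` (`nd`); if `b_0 = 0` take `y = 0`.  Choose
`ρ_j ∈ K` with `ρ_j^j = b_0/b_j` (`b_j ≠ 0`, `j ≥ 1`) and `λ` the one of largest order, so
`λ^j b_j = b_0 e_j`, `e_j ∈ V`, one `e_j` (`j ≥ 1`) a unit, `λ ∈ V`.  `q = ∑ e_j (υ_j)₀ Y^j` has a root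
`y'` (`exists_root_val`); `Q([λ y']) ≡ [b_0] · p · w`, and `p ∈ I_1`. -/
theorem as_step (Q : (WittVector p V)[X]) (hQ : Q.Monic) (hd : 0 < Q.natDegree) {i n : ℕ}
    (hi : i < n) (h0 : Q.coeff 0 ∈ II (FF t γ) t i) :
    ∃ y : V, Q.eval (teichmuller p y) ∈ II (FF t γ) t (i + 1) := by
  classical
  have hb : ∀ j, ∃ (b : V) (υ : WittVector p V), IsUnit υ ∧
      Q.coeff j - teichmuller p b * υ ∈ II (FF t γ) t n ∧ (j = Q.natDegree → b = 1) := fun j => by
    by_cases hj : j = Q.natDegree
    · refine ⟨1, 1, isUnit_one, ?_, fun _ => rfl⟩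
      rw [hj, hQ.coeff_natDegree, map_one, mul_one, sub_self]
      exact zero_mem _
    · obtain ⟨b, υ, h1, h2⟩ := val_form ht γ n (Q.coeff j)
      exact ⟨b, υ, h1, h2, fun h => absurd h hj⟩
  choose b υ hυ hb hbE using hb
  have hb0 : t ^ i ∣ b 0 := by
    refine nd ht γ (hυ 0) ?_
    have := sub_mem h0 (II.anti _ _ hi.le (hb 0))
    rwa [sub_sub_cancel] at this
  by_cases h00 : b 0 = 0
  · refine ⟨0, ?_⟩
    have := hb 0
    rw [h00, teichmuller_zero, zero_mul, sub_zero] at this
    rw [teichmuller_zero, ← coeff_zero_eq_eval_zero]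
    exact II.anti _ _ hi this
  obtain ⟨lam, j₀, h1, h2, h3, h4⟩ := wvc_newton V b hd (hbE _ rfl)
  have h5 : ∀ j, ∃ e : V, j ≤ Q.natDegree → lam ^ j * b j = b 0 * e := fun j => by
    by_cases hj : j ≤ Q.natDegree
    · obtain ⟨e, he⟩ := h4 j hj
      exact ⟨e, fun _ => he⟩
    · exact ⟨0, fun h => absurd h hj⟩
  choose e he using h5
  have he0 : e 0 = 1 := mul_left_cancel₀ h00 (by rw [← he 0 (Nat.zero_le _)]; simp)
  have he1 : e j₀ = 1 := mul_left_cancel₀ h00 (by rw [← he j₀ h2, h3, mul_one])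
  have hu : ∀ j, IsUnit ((υ j).coeff 0) := fun j => (hυ j).map WittVector.constantCoeff
  set q : V[X] := ∑ j ∈ Finset.range (Q.natDegree + 1), monomial j (e j * (υ j).coeff 0) with hq
  have hqc : ∀ j ≤ Q.natDegree, q.coeff j = e j * (υ j).coeff 0 := fun j hj => by
    rw [hq, finsetSum_coeff]
    simp only [coeff_monomial]
    rw [Finset.sum_ite_eq', if_pos (Finset.mem_range.2 (by omega))]
  obtain ⟨y, hy⟩ := exists_root_val V q (by rw [hqc 0 (Nat.zero_le _), he0, one_mul]; exact hu 0) h1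
    (by rw [hqc j₀ h2, he1, one_mul]; exact hu j₀)
  refine ⟨lam * y, ?_⟩
  set S : WittVector p V := ∑ j ∈ Finset.range (Q.natDegree + 1),
    teichmuller p (e j * y ^ j) * υ j with hS
  have hS0 : S ∈ II (FF t γ) t 1 := by
    refine Ideal.mem_of_dvd _ (wvc_dvd V ?_) (by simpa using II.p_pow t γ 1)
    rw [← WittVector.constantCoeff_apply, hS, map_sum, ← hy, hq, eval_finsetSum]
    refine Finset.sum_congr rfl fun j _ => ?_
    rw [map_mul, WittVector.constantCoeff_apply, WittVector.constantCoeff_apply, teichmuller_coeff_zero, eval_monomial]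
    ring
  have e1 : Q.eval (teichmuller p (lam * y)) = teichmuller p (b 0) * S +
      ∑ j ∈ Finset.range (Q.natDegree + 1),
        (Q.coeff j - teichmuller p (b j) * υ j) * teichmuller p (lam * y) ^ j := by
    rw [eval_eq_sum_range, hS, Finset.mul_sum, ← Finset.sum_add_distrib]
    refine Finset.sum_congr rfl fun j hj => ?_
    have : teichmuller p (b 0) * teichmuller p (e j * y ^ j) =
        teichmuller p (b j) * teichmuller p (lam * y) ^ j := by
      rw [← map_pow, ← map_mul, ← map_mul, ← mul_assoc, ← he j (by simpa [Nat.lt_succ_iff] using hj)]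
      congr 1
      ring
    rw [← mul_assoc, this]
    ring
  rw [e1]
  exact add_mem (II.mul (II.teich hb0) hS0)
    (sum_mem fun j _ => Ideal.mul_mem_right _ _ (II.anti _ _ hi (hb j)))

/-- AS.  Induct on `i ≤ n`.  Given `a` let `α^(p^n) = a`, apply `as_step` to
`Q.comp ((X + C [α])^(p^n))` and put `a' = (α + y)^(p^n)`: `[α + y] ≡ [α] + [y] mod p`, so
`[a'] ≡ ([α] + [y])^(p^n) mod p^(n+1)` (`dvd_sub_pow_of_dvd_sub`). -/
theorem as_root (Q : (WittVector p V)[X]) (hQ : Q.Monic) (hd : 0 < Q.natDegree) (n : ℕ) :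
    ∃ a : V, Q.eval (teichmuller p a) ∈ II (FF t γ) t n := by
  induction n with
  | zero =>
    exact ⟨0, Ideal.mem_of_dvd _ (one_dvd _)
      (by simpa using II.teich (F := FF t γ) (t := t) (n := 0) (b := 1) (by simp))⟩
  | succ n ih =>
    obtain ⟨a, ha⟩ := ih
    obtain ⟨α, rfl⟩ := (bijective_iterateFrobenius V p n).2 a
    rw [iterateFrobenius_def] at ha
    have hp : 0 < p ^ n := pow_pos (Fact.out : p.Prime).pos n
    have hm : ((X + C (teichmuller p α)) ^ p ^ n : (WittVector p V)[X]).Monic :=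
      (monic_X_add_C _).pow _
    have hdeg : ((X + C (teichmuller p α)) ^ p ^ n : (WittVector p V)[X]).natDegree = p ^ n := by
      rw [(monic_X_add_C _).natDegree_pow, natDegree_X_add_C, mul_one]
    obtain ⟨y, hy⟩ := as_step V ht γ (Q.comp ((X + C (teichmuller p α)) ^ p ^ n))
      (hQ.comp hm (by omega)) (by
        rw [natDegree_comp_eq_of_mul_ne_zero (by simp [hQ.leadingCoeff, hm.leadingCoeff]), hdeg]
        positivity) n.lt_succ_self
      (by simpa [coeff_zero_eq_eval_zero, eval_comp] using ha)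
    refine ⟨(y + α) ^ p ^ n, ?_⟩
    simp only [eval_comp, eval_pow, eval_add, eval_X, eval_C] at hy
    have h1 : (p : WittVector p V) ∣
        teichmuller p (y + α) - (teichmuller p y + teichmuller p α) := by
      refine wvc_dvd V ?_
      rw [← WittVector.constantCoeff_apply, map_sub, map_add WittVector.constantCoeff]
      simp
    have h2 := Ideal.mem_of_dvd _ ((dvd_sub_pow_of_dvd_sub h1 n).trans (sub_dvd_eval_sub _ _ Q))
      (II.p_pow t γ (n + 1))
    have h3 := add_mem h2 hy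
    rwa [sub_add_cancel, ← map_pow] at h3

/-- approximate factorisation into Teichmüller roots (induct on the degree, `divByMonic`) -/
theorem as_split (Q : (WittVector p V)[X]) (hQ : Q.Monic) (n : ℕ) :
    ∃ l : List V, l.length = Q.natDegree ∧ ∀ j,
      (Q - (l.map fun r => X - C (teichmuller p r)).prod).coeff j ∈
        II (FF t γ) t n := by
  induction hd : Q.natDegree generalizing Q with
  | zero =>
    refine ⟨[], rfl, fun j => ?_⟩
    rw [hQ.natDegree_eq_zero.1 hd]
    simp
  | succ d ih =>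
    obtain ⟨a, ha⟩ := as_root V ht γ Q hQ (by omega) n
    have hm := monic_X_sub_C (teichmuller p a)
    have h1 : (Q /ₘ (X - C (teichmuller p a))).Monic := by
      rw [Monic, leadingCoeff_divByMonic_of_monic hm, hQ.leadingCoeff]
      rw [degree_X_sub_C, degree_eq_natDegree hQ.ne_zero, hd]
      exact_mod_cast Nat.le_add_left 1 d
    obtain ⟨l, hl, h2⟩ := ih _ h1 (by rw [natDegree_divByMonic _ hm, natDegree_X_sub_C, hd]; rfl)
    refine ⟨a :: l, by rw [List.length_cons, hl], ?_⟩
    rw [← Ideal.mem_map_C_iff] at h2 ⊢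
    have e := modByMonic_add_div Q (X - C (teichmuller p a))
    rw [modByMonic_X_sub_C_eq_C_eval] at e
    have h3 := add_mem (Ideal.mem_map_of_mem (C : WittVector p V →+* _) ha)
      (Ideal.mul_mem_left _ (X - C (teichmuller p a)) h2)
    rw [mul_sub, ← add_sub_assoc, e] at h3
    rwa [List.map_cons, List.prod_cons]

end AS

end Crest.Agent.R188
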