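import Crest.Agent.R188.AAAuxA
import Crest.Agent.R188.Wv

/-! # R188 / AA : deep points of `V(J)` are approximable by points of transcendence degree `≤ dim A/J`. -/

set_option autoImplicit false
open IsLocalRing Crest.Agent.R183 WittVector Polynomial

namespace Crest.Agent.R188

/-- a valuation ring of an algebraically closed field over `k` -/
structure Vl (p : ℕ) (k : Type) [Field k] where
  K : Type
  [fld : Field K]
  [ac : IsAlgClosed K]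
  [alg : Algebra k K]
  V : ValuationSubring K
  [ch : CharP V p]
  [pf : PerfectRing V p]

attribute [instance] Vl.fld Vl.ac Vl.alg Vl.ch Vl.pf

variable {p : ℕ} [Fact p.Prime] {k : Type} [Field k] [IsAlgClosed k] [CharP k p] {d : ℕ}

/-- `ψ` is compatible with the `k`-structure -/
def Vl.Ok (𝒱 : Vl p k) (ψ : AA p k d →+* 𝒱.V) : Prop :=
  ∀ w, (ψ (MvPowerSeries.C w) : 𝒱.K) = algebraMap k 𝒱.K (w.coeff 0)

/-- the `ξ l` are, modulo `t^j`, algebraic over `n` elements -/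
def Vl.Appr (𝒱 : Vl p k) (ξ : Fin d → 𝒱.V) (t : 𝒱.V) (j n : ℕ) : Prop :=
  ∃ ζ : Fin n → 𝒱.K, ∀ l, ∃ r : 𝒱.V,
    IsAlgebraic (Algebra.adjoin k (Set.range ζ)) (r : 𝒱.K) ∧ t ^ j ∣ ξ l - r

/-- CAYLEY–HAMILTON WITH UNIFORM DEGREE.  `A/(J + (p, z))` is generated over `W` by `δ` elements `ω`
(monomials of degree `< L`; take `δ ≥ 1`).  Then `A = ∑ W[Z] ω + J + (p,z)^M` for every `M` (induction on
`M`), i.e. `A/(J + (p,z)^M)` is generated by `δ` elements over `MvPolynomial (Fin n) W`; take the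
characteristic polynomial of a matrix of multiplication by `y` (`Matrix.Represents`,
`Matrix.aeval_self_charpoly`, `Matrix.charpoly_natDegree_eq_dim`, cf.
`LinearMap.exists_monic_and_coeff_mem_pow_and_aeval_eq_zero_of_range_le_smul`). -/
theorem exists_charpoly (J : Ideal (AA p k d)) {n : ℕ} (z : Fin n → AA p k d)
    (h : Dl (J ⊔ (Ideal.span {(p : AA p k d)} ⊔ Ideal.span (Set.range z))) 1) :
    ∃ δ, 0 < δ ∧ ∀ (M : ℕ) (y : AA p k d), ∃ P : (MvPolynomial (Fin n) (WW p k))[X], P.Monic ∧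
      P.natDegree = δ ∧ P.eval₂ (MvPolynomial.eval₂Hom MvPowerSeries.C z) y ∈
        J ⊔ (Ideal.span {(p : AA p k d)} ⊔ Ideal.span (Set.range z)) ^ M := by
  classical
  obtain ⟨L, hL⟩ := dl_one_iff.1 h
  have hX : XP d (WW p k) ^ L ≤ J ⊔ (Ideal.span {(p : AA p k d)} ⊔ Ideal.span (Set.range z)) :=
    (Ideal.pow_right_mono (le_sup_right.trans PS.max_eq.ge) L).trans hL
  obtain ⟨T, hT⟩ : ∃ T : Finset (Fin d →₀ ℕ), ∀ μ, μ ∈ T ↔ μ.degree ≤ L :=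
    ⟨(Finsupp.finite_of_degree_le L).toFinset, fun μ => by simp⟩
  have e : (Ideal.span {(p : MvPolynomial (Fin n) (WW p k))} ⊔
      Ideal.span (Set.range MvPolynomial.X)).map (MvPolynomial.eval₂Hom MvPowerSeries.C z) =
      Ideal.span {(p : AA p k d)} ⊔ Ideal.span (Set.range z) := by
    rw [Ideal.map_sup, Ideal.map_span, Ideal.map_span, Set.image_singleton, map_natCast,
      ← Set.range_comp]
    congr 3
    funext i
    simp
  refine ⟨Fintype.card T, Fintype.card_pos_iff.2 ⟨⟨0, (hT 0).2 (by simp)⟩⟩, fun M y => ?_⟩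
  rw [← e]
  refine aaa_charpoly _ J _ (fun μ : T => MvPowerSeries.monomial μ.1 1) (fun y => ?_) M y
  refine ⟨fun μ => MvPolynomial.C (MvPowerSeries.coeff μ.1 y), ?_⟩
  rw [e]
  refine hX (mem_XP_pow_iff.2 fun ν hν => ?_)
  simp only [MvPolynomial.eval₂Hom_C, map_sub, map_sum, MvPowerSeries.coeff_C_mul,
    MvPowerSeries.coeff_monomial, mul_ite, mul_one, mul_zero]
  rw [Finset.sum_eq_single (⟨ν, (hT ν).2 hν.le⟩ : T)
    (fun μ _ hμ => if_neg fun h' => hμ (Subtype.ext h'.symm)) (by simp), if_pos rfl, sub_self]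

/-- the algebraic closure of `k(S)` in `K` with the induced valuation ring
(`algebraicClosure`, `IntermediateField.adjoin`, `ValuationSubring.comap`;
`R183.perfect_valuationSubring`, `R183.charP_valuationSubring`) -/
theorem Vl.exists_sub (𝒱 : Vl p k) (S : Set 𝒱.V) : ∃ (𝒱₁ : Vl p k) (θ : 𝒱₁.V →+* 𝒱.V),
    (∀ y, IsAlgebraic (Algebra.adjoin k ((↑) '' S : Set 𝒱.K)) (θ y : 𝒱.K)) ∧
    (∀ s ∈ S, ∃ y, θ y = s) ∧ (∀ y, θ y ∈ maximalIdeal 𝒱.V → y ∈ maximalIdeal 𝒱₁.V) ∧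
    ∀ ι : k →+* 𝒱.V, (∀ c, (ι c : 𝒱.K) = algebraMap k 𝒱.K c) →
      ∃ ι₁ : k →+* 𝒱₁.V, θ.comp ι₁ = ι := by
  let F := IntermediateField.adjoin k ((↑) '' S : Set 𝒱.K)
  let K₁ := algebraicClosure F 𝒱.K
  have hac : IsAlgClosed K₁ := IsAlgClosure.isAlgClosed F
  let V₁ : ValuationSubring K₁ := 𝒱.V.comap (algebraMap K₁ 𝒱.K)
  let θ : V₁ →+* 𝒱.V := (algebraMap K₁ 𝒱.K).restrict V₁ 𝒱.V fun _ hx => hx
  have hθ : Function.Injective θ := fun x y hxy =>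
    Subtype.ext (Subtype.ext (congrArg (fun v : 𝒱.V => (v : 𝒱.K)) hxy))
  have hch : CharP V₁ p := θ.charP hθ p
  have hpf : PerfectRing V₁ p := perfect_valuationSubring V₁
  refine ⟨{ K := K₁, V := V₁ }, θ, fun y => ?_, fun s hs => ?_, fun y hy hu => hy (hu.map θ),
    fun ι hι => ?_⟩
  · exact IntermediateField.isAlgebraic_adjoin_iff.1 (mem_algebraicClosure_iff.1 y.1.2)
  · exact ⟨⟨⟨s, K₁.algebraMap_mem ⟨s, IntermediateField.subset_adjoin _ _ ⟨s, hs, rfl⟩⟩⟩, s.2⟩, rfl⟩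
  · refine ⟨(algebraMap k K₁).codRestrict V₁ fun c => ?_, RingHom.ext fun c => Subtype.ext ?_⟩
    · change algebraMap k 𝒱.K c ∈ 𝒱.V
      rw [← hι]
      exact (ι c).2
    · exact (hι c).symm

/-- CORE APPROXIMATION.  `N` with `j ≤ p^N`, `D = M = δ p^N` (`δ` from `exists_charpoly`).
`Psi_dist` gives `F = p - [t]γ`.  `ζ i` with `[ζ i] - Ψ(z i) ∈ I_D` (`as_root` for `X - C _`).
`𝒱₁ = exists_sub {ϖ, ζ}`; `P₁ = P.map (eval₂Hom (map ι₁) [ζ₁])` over `W(V₁)`; `as_split` in `W(V₁)` with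
`F₁ = p - [ϖ₁] * 1`, `t₁ = ϖ₁` (`t ∣ ϖ` by `II.coeff_zero`/`II.p_pow`) for `P₁.comp (X^(p^N))`;
`map θ` sends `II F₁ ϖ₁ D` into `II F t D`.  With `ξ'^(p^N) = ξ l`: `∏ ([ξ'] - [r]) ∈ I_D`
(`Psi_C`, `Psi_X`, `Ψ((p,z)^M) ⊆ I_1^M`), `II.prime_list`, `II.coeff_zero`: `t ∣ ξ' - r`, raise to the
power `p^N` (`sub_pow_char_pow`). -/
theorem aa_core {f : AA p k d} (hf : Dist f) (J : Ideal (AA p k d)) {n : ℕ} (z : Fin n → AA p k d)
    (hz : ∀ i, z i ∈ maximalIdeal (AA p k d))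
    (h : Dl (J ⊔ (Ideal.span {(p : AA p k d)} ⊔ Ideal.span (Set.range z))) 1) (j : ℕ) :
    ∃ D, 1 ≤ D ∧ ∀ (𝒱 : Vl p k) (ψ : AA p k d →+* 𝒱.V), 𝒱.Ok ψ → ∀ t ∈ maximalIdeal 𝒱.V,
      (∀ l, t ∣ ψ (MvPowerSeries.X l)) → (∀ y ∈ J, Psi ψ y ∈ II (Psi ψ f) t D) →
      ∀ ϖ : 𝒱.V, (p : WittVector p 𝒱.V) - teichmuller p ϖ ∈ II (Psi ψ f) t D →
        ∃ ζ : Fin n → 𝒱.V, ∀ l, ∃ r : 𝒱.V,
          IsAlgebraic (Algebra.adjoin k ((↑) '' (insert ϖ (Set.range ζ)) : Set 𝒱.K)) (r : 𝒱.K) ∧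
            t ^ j ∣ ψ (MvPowerSeries.X l) - r := by
  obtain ⟨δ, hδ, hP⟩ := exists_charpoly J z h
  have hp : p.Prime := Fact.out
  have hq : 0 < p ^ j := pow_pos hp.pos j
  have hD : 1 ≤ δ * p ^ j := Nat.mul_pos hδ hq
  refine ⟨δ * p ^ j, hD, fun 𝒱 ψ hok t ht hX hJ ϖ hϖ => ?_⟩
  obtain ⟨γ, hF⟩ := Psi_dist ψ hf hX
  rw [hF] at hJ hϖ
  have hζ : ∀ i, ∃ a : 𝒱.V, teichmuller p a - Psi ψ (z i) ∈ II (FF t γ) t (δ * p ^ j) := fun i => by
    simpa using as_root 𝒱.V ht γ (X - C (Psi ψ (z i))) (monic_X_sub_C _) (by simp) (δ * p ^ j)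
  choose ζ hζ using hζ
  refine ⟨ζ, fun l => ?_⟩
  have hc0 : ∀ a b : WittVector p 𝒱.V, (a - b).coeff 0 = a.coeff 0 - b.coeff 0 := fun a b =>
    map_sub (WittVector.constantCoeff : WittVector p 𝒱.V →+* 𝒱.V) a b
  have hp0 : (p : 𝒱.V) = 0 := CharP.cast_eq_zero _ p
  have htϖ : t ∣ ϖ := by
    have h1 := II.coeff_zero (II.anti _ _ hD hϖ)
    have h2 : (p : WittVector p 𝒱.V).coeff 0 = 0 :=
      (map_natCast (WittVector.constantCoeff : WittVector p 𝒱.V →+* 𝒱.V) p).trans hp0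
    rwa [hc0, h2, teichmuller_coeff_zero, zero_sub, dvd_neg] at h1
  obtain ⟨ι, hι⟩ := exists_iota ψ hp0
  obtain ⟨𝒱₁, θ, halg, hsur, hmax, hι₁⟩ := 𝒱.exists_sub (insert ϖ (Set.range ζ))
  obtain ⟨ι₁, hι₁⟩ := hι₁ ι fun c => by
    have := hok (teichmuller p c)
    rwa [hι, teichmuller_coeff_zero] at this
  obtain ⟨ϖ₁, hϖ₁⟩ := hsur ϖ (Set.mem_insert _ _)
  choose ζ₁ hζ₁ using fun i => hsur (ζ i) (Set.mem_insert_of_mem _ ⟨i, rfl⟩)
  have hm₁ : ϖ₁ ∈ maximalIdeal 𝒱₁.V := hmax _ (by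
    obtain ⟨c, hc⟩ := htϖ
    rw [hϖ₁, hc]
    exact Ideal.mul_mem_right _ _ ht)
  obtain ⟨P, hPm, hPd, hPe⟩ := hP (δ * p ^ j) (MvPowerSeries.X l)
  set π := Ideal.Quotient.mk (II (FF t γ) t (δ * p ^ j)) with hπ
  set g := π.comp (WittVector.map θ) with hg
  set e₁ : MvPolynomial (Fin n) (WW p k) →+* WittVector p 𝒱₁.V :=
    MvPolynomial.eval₂Hom (WittVector.map ι₁) fun i => teichmuller p (ζ₁ i) with he₁
  obtain ⟨L, hL, hLc⟩ := as_split 𝒱₁.V hm₁ 1 (expand _ (p ^ j) (P.map e₁))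
    ((hPm.map e₁).expand hq) (δ * p ^ j)
  rw [natDegree_expand, hPm.natDegree_map, hPd] at hL
  have hker : II (FF ϖ₁ (1 : WittVector p 𝒱₁.V)) ϖ₁ (δ * p ^ j) ≤ RingHom.ker g := by
    rw [II, Ideal.span_le]
    rintro _ (rfl | rfl)
    · rw [SetLike.mem_coe, RingHom.mem_ker, hg, RingHom.comp_apply, map_sub, mul_one,
        map_natCast, map_teichmuller, hϖ₁, Ideal.Quotient.eq_zero_iff_mem]
      exact hϖ
    · rw [SetLike.mem_coe, RingHom.mem_ker, hg, RingHom.comp_apply, map_pow, map_teichmuller, hϖ₁,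
        ← map_pow, Ideal.Quotient.eq_zero_iff_mem]
      exact II.teich (pow_dvd_pow_of_dvd htϖ _)
  obtain ⟨ξ, hξ⟩ := (iterateFrobeniusEquiv 𝒱.V p j).surjective (ψ (MvPowerSeries.X l))
  rw [iterateFrobeniusEquiv_def] at hξ
  have he : g.comp e₁ = (π.comp (Psi ψ)).comp (MvPolynomial.eval₂Hom MvPowerSeries.C z) := by
    refine MvPolynomial.ringHom_ext (fun w => ?_) fun i => ?_
    · simp only [hg, he₁, RingHom.comp_apply, MvPolynomial.eval₂Hom_C, Psi_C ψ ι hι, ← hι₁]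
      rfl
    · simp only [hg, he₁, RingHom.comp_apply, MvPolynomial.eval₂Hom_X', map_teichmuller, hζ₁]
      exact Ideal.Quotient.eq.2 (hζ i)
  have hI1 : (maximalIdeal (AA p k d)).map (Psi ψ) ≤ II (FF t γ) t 1 := by
    rw [AA_max, Ideal.map_sup, sup_le_iff, Ideal.map_le_iff_le_comap, Ideal.map_le_iff_le_comap,
      Ideal.span_singleton_le_iff_mem, Ideal.mem_comap, map_natCast]
    refine ⟨by simpa using II.p_pow t γ 1, fun y hy => ?_⟩
    obtain ⟨c, hc⟩ := Psi_XP ψ hX hy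
    rw [Ideal.mem_comap, hc]
    exact Ideal.mul_mem_right _ _ (II.teich (by simp))
  have h0 : (π.comp (Psi ψ))
      (P.eval₂ (MvPolynomial.eval₂Hom MvPowerSeries.C z) (MvPowerSeries.X l)) = 0 := by
    refine Ideal.Quotient.eq_zero_iff_mem.2
      ((?_ : _ ≤ II (FF t γ) t (δ * p ^ j)) (Ideal.mem_map_of_mem (Psi ψ) hPe))
    rw [Ideal.map_sup, Ideal.map_pow]
    refine sup_le (Ideal.map_le_iff_le_comap.2 hJ)
      ((Ideal.pow_right_mono ((Ideal.map_mono (sup_le ?_ ?_)).trans hI1) _).trans (II.pow_le _ _ _))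
    · rw [AA_max]
      exact le_sup_left
    · rw [Ideal.span_le]
      rintro _ ⟨i, rfl⟩
      exact hz i
  have h1 : eval₂ g (π (teichmuller p ξ)) (expand _ (p ^ j) (P.map e₁)) = 0 := by
    rw [expand_eq_comp_X_pow, eval₂_comp, eval₂_X_pow, eval₂_map, he, ← map_pow, ← map_pow, hξ,
      ← Psi_X, ← h0, hom_eval₂]
    rfl
  have h2 : eval₂ g (π (teichmuller p ξ))
      (expand _ (p ^ j) (P.map e₁) - (L.map fun r => X - C (teichmuller p r)).prod) = 0 := by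
    rw [eval₂_eq_sum_range]
    exact Finset.sum_eq_zero fun i _ => by rw [hker (hLc i), zero_mul]
  have h3 : (L.map fun r => teichmuller p ξ - teichmuller p (θ r)).prod ∈
      II (FF t γ) t (δ * p ^ j) := by
    rw [eval₂_sub, h1, zero_sub, neg_eq_zero, eval₂_list_prod, List.map_map] at h2
    rw [← Ideal.Quotient.eq_zero_iff_mem, map_list_prod, List.map_map, ← h2]
    congr 2
    funext r
    simp [hg, hπ, map_teichmuller]
  obtain ⟨_, hy, hy'⟩ := II.prime_list ht γ (n := 1)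
    (L.map fun r => teichmuller p ξ - teichmuller p (θ r))
    (List.ne_nil_of_length_pos (by rw [List.length_map, hL]; exact hD))
    (by rw [List.length_map, hL, mul_one]; exact h3)
  obtain ⟨r, -, rfl⟩ := List.mem_map.1 hy
  have h4 := II.coeff_zero hy'
  rw [hc0, teichmuller_coeff_zero, teichmuller_coeff_zero] at h4
  refine ⟨θ (r ^ p ^ j), halg _, ?_⟩
  rw [← hξ, map_pow, ← sub_pow_char_pow]
  exact (pow_dvd_pow t (Nat.lt_pow_self hp.one_lt).le).trans (pow_dvd_pow_of_dvd h4 _)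

/-- prime case.  `p ∈ q`: `exists_params` gives `n` parameters, `ϖ = 0`.  `p ∉ q`: `Dl (q + p) n`
(`Dl.of_prime_lt`), so `n = n' + 1` (`dl_zero_iff`), `n'` parameters, `ϖ` from `as_root`,
`ζ' = Fin.cons ϖ ζ`. -/
theorem aa_prime {f : AA p k d} (hf : Dist f) (q : Ideal (AA p k d)) (hq : q.IsPrime) {n : ℕ}
    (h : Dl q (n + 1)) (j : ℕ) :
    ∃ D, ∀ (𝒱 : Vl p k) (ψ : AA p k d →+* 𝒱.V), 𝒱.Ok ψ → ∀ t ∈ maximalIdeal 𝒱.V,
      (∀ l, t ∣ ψ (MvPowerSeries.X l)) → (∀ y ∈ q, Psi ψ y ∈ II (Psi ψ f) t D) →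
        𝒱.Appr (fun l => ψ (MvPowerSeries.X l)) t j n := by
  have par : ∀ {I : Ideal (AA p k d)} {n : ℕ}, Dl I (n + 1) → ∃ z : Fin n → AA p k d,
      (∀ i, z i ∈ maximalIdeal (AA p k d)) ∧ Dl (I ⊔ Ideal.span (Set.range z)) 1 := fun {I n} h => by
    obtain ⟨y, hy, h'⟩ := exists_avoid_fam (maximalIdeal _) (ι := Unit) n (fun _ => I) (fun _ => 1)
      (fun _ => by rwa [add_comm]) fun _ => dl_one_iff.2 ⟨1, by rw [pow_one]; exact le_sup_right⟩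
    exact ⟨y, hy, h' ()⟩
  by_cases hp : (p : AA p k d) ∈ q
  · obtain ⟨z, hz, h1⟩ := par h
    obtain ⟨D, -, hD⟩ := aa_core hf q z hz (h1.mono (sup_le_sup_left le_sup_right _) le_rfl) j
    refine ⟨D, fun 𝒱 ψ h2 t ht h3 h4 => ?_⟩
    obtain ⟨ζ, hζ⟩ := hD 𝒱 ψ h2 t ht h3 h4 0 (by simpa using h4 _ hp)
    refine ⟨fun i => ζ i, fun l => (hζ l).imp fun r hr => ⟨?_, hr.2⟩⟩
    have e : Algebra.adjoin k ((↑) '' (insert 0 (Set.range ζ)) : Set 𝒱.K) =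
        Algebra.adjoin k (Set.range fun i => (ζ i : 𝒱.K)) := by
      rw [Set.image_insert_eq, ← Set.range_comp]
      exact le_antisymm (Algebra.adjoin_le (Set.insert_subset (zero_mem _) Algebra.subset_adjoin))
        (Algebra.adjoin_mono (Set.subset_insert _ _))
    exact e ▸ hr.1
  · have h0 : Dl (q ⊔ Ideal.span {(p : AA p k d)}) n :=
      Dl.of_prime_lt hq h (lt_of_le_of_ne le_sup_left fun e =>
        hp (e ▸ Ideal.mem_sup_right (Ideal.mem_span_singleton_self _)))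
    obtain _ | n := n
    · refine ((maximalIdeal.isMaximal _).ne_top (top_le_iff.1 ((dl_zero_iff.1 h0).ge.trans
        (sup_le (le_maximalIdeal hq.ne_top) ((Ideal.span_singleton_le_iff_mem _).2 fun hu => ?_))))).elim
      exact (WittVector.irreducible p (k := k)).not_isUnit
        (by simpa using hu.map (MvPowerSeries.constantCoeff (σ := Fin d)))
    obtain ⟨z, hz, h1⟩ := par h0
    obtain ⟨D, -, hD⟩ := aa_core hf q z hz (sup_assoc q _ _ ▸ h1) j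
    refine ⟨D, fun 𝒱 ψ h2 t ht h3 h4 => ?_⟩
    obtain ⟨γ, hγ⟩ := Psi_dist ψ hf h3
    obtain ⟨a, ha⟩ := as_root 𝒱.V ht γ (X - C (p : WittVector p 𝒱.V)) (monic_X_sub_C _)
      (by rw [natDegree_X_sub_C]; exact one_pos) D
    rw [eval_sub, eval_X, eval_C] at ha
    obtain ⟨ζ, hζ⟩ := hD 𝒱 ψ h2 t ht h3 h4 a (by rw [hγ]; exact neg_sub (teichmuller p a) p ▸ neg_mem ha)
    refine ⟨Fin.cons (a : 𝒱.K) fun i => ζ i, fun l => (hζ l).imp fun r hr => ⟨?_, hr.2⟩⟩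
    have e : ((↑) '' (insert a (Set.range ζ)) : Set 𝒱.K) =
        Set.range (Fin.cons (a : 𝒱.K) (fun i => ζ i) : Fin (n + 1) → 𝒱.K) := by
      rw [Set.image_insert_eq, ← Set.range_comp, Fin.range_cons]
      rfl
    exact e ▸ hr.1

theorem aac_list {R : Type} [CommRing R] [IsNoetherianRing R] (I : Ideal R) :
    ∃ l : List (Ideal R), (∀ q ∈ l, q.IsPrime ∧ I ≤ q) ∧ l.prod ≤ I := by
  induction I using IsNoetherian.induction with | hgt I ih =>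
  change Ideal R at I
  by_cases h1 : I.IsPrime
  · exact ⟨[I], by simpa using h1, by simp⟩
  by_cases h2 : I = ⊤
  · exact ⟨[], by simp, h2 ▸ le_top⟩
  obtain ⟨x, hx, y, hy, hxy⟩ := (Ideal.not_isPrime_iff.1 h1).resolve_left h2
  have k : ∀ {x : R}, x ∉ I → I < I ⊔ Ideal.span {x} := fun hx => lt_of_le_of_ne le_sup_left fun e =>
    hx (e ▸ Ideal.mem_sup_right (Ideal.mem_span_singleton_self _))
  obtain ⟨l₁, a₁, b₁⟩ := ih _ (k hx)
  obtain ⟨l₂, a₂, b₂⟩ := ih _ (k hy)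
  refine ⟨l₁ ++ l₂, fun q hq => (List.mem_append.1 hq).elim
    (fun h => ⟨(a₁ q h).1, le_sup_left.trans (a₁ q h).2⟩)
    fun h => ⟨(a₂ q h).1, le_sup_left.trans (a₂ q h).2⟩, ?_⟩
  rw [List.prod_append]
  refine (Ideal.mul_mono b₁ b₂).trans ?_
  rw [Ideal.sup_mul, Ideal.mul_sup (Ideal.span _), Ideal.span_singleton_mul_span_singleton]
  exact sup_le Ideal.mul_le_left (sup_le Ideal.mul_le_right
    ((Ideal.span_singleton_le_iff_mem _).2 hxy))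

/-- AA.  `J = ⊤`: `II.ne_top`.  Otherwise a nonempty list of primes `≥ J` has product `≤ J`
(`Ideal.exists_prod_...`/`PrimeSpectrum.exists_primeSpectrum_prod_le` in `A/J`, or minimal primes and
`Ideal.exists_radical_pow_le_of_fg`); `II.prime_ideals`, `aa_prime`, `II.anti`. -/
theorem aa {f : AA p k d} (hf : Dist f) (J : Ideal (AA p k d)) {n : ℕ} (h : Dl J n) (j : ℕ) :
    ∃ D, ∀ (𝒱 : Vl p k) (ψ : AA p k d →+* 𝒱.V), 𝒱.Ok ψ → ∀ t ∈ maximalIdeal 𝒱.V,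
      (∀ l, t ∣ ψ (MvPowerSeries.X l)) → (∀ y ∈ J, Psi ψ y ∈ II (Psi ψ f) t D) →
        ∃ n', n = n' + 1 ∧ 𝒱.Appr (fun l => ψ (MvPowerSeries.X l)) t j n' := by
  by_cases hJ : J = ⊤
  · refine ⟨1, fun 𝒱 ψ _ t ht h3 h4 => ?_⟩
    obtain ⟨γ, hγ⟩ := Psi_dist ψ hf h3
    have h5 := h4 1 (hJ ▸ Submodule.mem_top)
    rw [map_one, hγ] at h5
    exact (II.ne_top ht γ le_rfl ((Ideal.eq_top_iff_one _).2 h5)).elim
  obtain _ | n := n
  · exact (hJ (dl_zero_iff.1 h)).elim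
  obtain ⟨l, h1, h2⟩ := aac_list J
  have hl : l ≠ [] := by
    rintro rfl
    exact hJ (by simpa using h2)
  choose! D hD using fun q (hq : q ∈ l) => aa_prime hf q (h1 q hq).1 (h.mono (h1 q hq).2 le_rfl) j
  refine ⟨l.length * (l.map D).sum, fun 𝒱 ψ h0 t ht h3 h4 => ⟨n, rfl, ?_⟩⟩
  obtain ⟨γ, hγ⟩ := Psi_dist ψ hf h3
  obtain ⟨q, hq, h5⟩ := II.prime_ideals ht γ (Psi ψ) l hl fun y hy => by
    have := h4 y (h2 hy)
    rwa [hγ] at this
  refine hD q hq 𝒱 ψ h0 t ht h3 fun y hy => ?_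
  rw [hγ]
  exact II.anti _ _ (List.le_sum_of_mem (List.mem_map_of_mem hq)) (h5 y hy)

end Crest.Agent.R188
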