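import Mathlib

/-! # R188 / AAAuxA : Cayley–Hamilton with uniform degree (abstract form) -/

set_option autoImplicit false
open Polynomial

namespace Crest.Agent.R188

theorem aaa_sup_pow {R A : Type} [CommRing R] [AddCommGroup A] [Module R A] (𝔞 : Ideal R)
    (N : Submodule R A) (h : ⊤ ≤ N ⊔ 𝔞 • ⊤) (M : ℕ) : ⊤ ≤ N ⊔ 𝔞 ^ M • ⊤ := by
  induction M with
  | zero => simp
  | succ M ih =>
    refine h.trans (sup_le le_sup_left ((Submodule.smul_mono le_rfl ih).trans ?_))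
    rw [Submodule.smul_sup, pow_succ', Submodule.mul_smul]
    exact sup_le_sup_right Submodule.smul_le_right _

theorem aaa_span {R B ι : Type} [CommRing R] [Nontrivial R] [CommRing B] [Algebra R B] [Fintype ι]
    (b : ι → B) (hb : Submodule.span R (Set.range b) = ⊤) (y : B) :
    ∃ P : R[X], P.Monic ∧ P.natDegree = Fintype.card ι ∧ aeval y P = 0 := by
  classical
  obtain ⟨A, hA⟩ := Matrix.isRepresentation.toEnd_surjective R b hb (Algebra.lmul R B y)
  refine ⟨A.1.charpoly, A.1.charpoly_monic, A.1.charpoly_natDegree_eq_dim, ?_⟩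
  apply Algebra.lmul_injective (R := R)
  rw [← aeval_algHom_apply, ← hA, aeval_algHom_apply, map_zero,
    ← map_zero (Matrix.isRepresentation.toEnd R b hb)]
  congr 1
  ext1
  rw [aeval_subalgebra_coe, Matrix.aeval_self_charpoly, Subalgebra.coe_zero]

theorem aaa_charpoly {R A ι : Type} [CommRing R] [Nontrivial R] [CommRing A] [Fintype ι]
    (σ : R →+* A) (J : Ideal A) (𝔞 : Ideal R) (ω : ι → A)
    (h : ∀ y, ∃ c : ι → R, y - ∑ i, σ (c i) * ω i ∈ J ⊔ 𝔞.map σ) (M : ℕ) (y : A) :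
    ∃ P : R[X], P.Monic ∧ P.natDegree = Fintype.card ι ∧ P.eval₂ σ y ∈ J ⊔ 𝔞.map σ ^ M := by
  let _ := σ.toAlgebra
  have e : algebraMap R A = σ := rfl
  have h1 := aaa_sup_pow 𝔞 (Submodule.span R (Set.range ω) ⊔ J.restrictScalars R) (fun x _ => by
    obtain ⟨c, hc⟩ := h x
    obtain ⟨u, hu, v, hv, huv⟩ := Submodule.mem_sup.1 hc
    rw [Ideal.smul_top_eq_map, show x = ∑ i, c i • ω i + u + v by
      rw [add_assoc, huv]
      exact (add_sub_cancel _ _).symm]
    exact Submodule.add_mem_sup (Submodule.add_mem_sup (Submodule.sum_mem _ fun i _ =>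
      Submodule.smul_mem _ _ (Submodule.subset_span ⟨i, rfl⟩)) hu) hv) M
  obtain ⟨P, h2, h3, h4⟩ := aaa_span (R := R)
    (fun i => Ideal.Quotient.mkₐ R (J ⊔ 𝔞.map σ ^ M) (ω i)) (by
      rw [eq_top_iff]
      rintro x -
      obtain ⟨x, rfl⟩ := Ideal.Quotient.mkₐ_surjective R _ x
      have h5 := h1 (Submodule.mem_top (x := x))
      rw [Ideal.smul_top_eq_map, Ideal.map_pow, sup_assoc] at h5
      obtain ⟨u, hu, v, hv, rfl⟩ := Submodule.mem_sup.1 h5
      have h6 : Ideal.Quotient.mkₐ R (J ⊔ 𝔞.map σ ^ M) v = 0 := by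
        obtain ⟨v₁, h₁, v₂, h₂, rfl⟩ := Submodule.mem_sup.1 hv
        exact Ideal.Quotient.eq_zero_iff_mem.2 (Submodule.add_mem_sup h₁ h₂)
      rw [map_add, h6, add_zero]
      have h7 := Submodule.mem_map_of_mem
        (f := (Ideal.Quotient.mkₐ R (J ⊔ 𝔞.map σ ^ M)).toLinearMap) hu
      rwa [Submodule.map_span, ← Set.range_comp] at h7)
    (Ideal.Quotient.mkₐ R (J ⊔ 𝔞.map σ ^ M) y)
  rw [aeval_algHom_apply] at h4
  exact ⟨P, h2, h3, Ideal.Quotient.eq_zero_iff_mem.1 h4⟩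

end Crest.Agent.R188
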