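import Crest.Agent.R188.Std

/-! # R188 / SidesAuxA : auxiliary rings for `R188/Sides`. -/

set_option autoImplicit false
open IsLocalRing Crest.Agent.R183 Polynomial

namespace Crest.Agent.R188

theorem sda_roots {q : ℕ} (hq : 0 < q) (G : Type) [Finite G] :
    ∀ (A : Type) [CommRing A] [Nontrivial A] (b : G → A),
    ∃ (B : Type) (_ : CommRing B) (_ : Nontrivial B) (j : A →+* B) (σ : G → B),
      j.Finite ∧ j.Flat ∧ (∀ γ, σ γ ^ q = j (b γ)) ∧
      Subring.closure (Set.range j ∪ Set.range σ) = ⊤ ∧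
      ∀ (L : Type) [CommRing L] (ψ : A →+* L) (σ' : G → L), (∀ γ, σ' γ ^ q = ψ (b γ)) →
        ∃ χ : B →+* L, (∀ y, χ (j y) = ψ y) ∧ ∀ γ, χ (σ γ) = σ' γ := by
  induction G using Finite.induction_empty_option with
  | @of_equiv G G' e ih =>
    intro A _ _ b
    obtain ⟨B, _, _, j, σ, h1, h2, h3, h4, h5⟩ := ih A (b ∘ e)
    refine ⟨B, inferInstance, inferInstance, j, σ ∘ e.symm, h1, h2, fun γ => ?_, ?_, ?_⟩
    · simpa using h3 (e.symm γ)
    · rw [e.symm.surjective.range_comp]; exact h4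
    · intro L _ ψ σ' hσ'
      obtain ⟨χ, hχ1, hχ2⟩ := h5 L ψ (σ' ∘ e) (fun γ => hσ' (e γ))
      exact ⟨χ, hχ1, fun γ => by simpa using hχ2 (e.symm γ)⟩
  | h_empty =>
    intro A _ _ b
    refine ⟨A, inferInstance, inferInstance, RingHom.id A, fun γ => γ.elim, RingHom.Finite.id A,
      RingHom.Flat.id A, fun γ => γ.elim, ?_, ?_⟩
    · rw [eq_top_iff]
      intro y _
      exact Subring.subset_closure (Or.inl ⟨y, rfl⟩)
    · intro L _ ψ σ' _
      exact ⟨ψ, fun _ => rfl, fun γ => γ.elim⟩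
  | @h_option G _ ih =>
    intro A _ _ b
    obtain ⟨B, _, _, j, σ, h1, h2, h3, h4, h5⟩ := ih A (fun γ => b (some γ))
    set F : B[X] := X ^ q - C (j (b none)) with hF
    have hm : F.Monic := monic_X_pow_sub_C _ hq.ne'
    have hdeg : F.degree = q := degree_X_pow_sub_C hq _
    have : Module.Free B (AdjoinRoot F) := hm.free_adjoinRoot
    have : Module.Finite B (AdjoinRoot F) := hm.finite_adjoinRoot
    have : Nontrivial (AdjoinRoot F) := by
      refine ⟨⟨AdjoinRoot.mk F 1, 0, AdjoinRoot.mk_ne_zero_of_degree_lt hm one_ne_zero ?_⟩⟩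
      rw [hdeg, degree_one]; exact_mod_cast hq
    have hroot : AdjoinRoot.root F ^ q = AdjoinRoot.of F (j (b none)) := by
      have := AdjoinRoot.eval₂_root F
      rw [hF, eval₂_sub, eval₂_X_pow, eval₂_C, sub_eq_zero] at this
      exact this
    refine ⟨AdjoinRoot F, inferInstance, inferInstance, (AdjoinRoot.of F).comp j,
      fun γ => γ.elim (AdjoinRoot.root F) (fun γ => AdjoinRoot.of F (σ γ)), ?_, ?_, ?_, ?_, ?_⟩
    · exact RingHom.Finite.comp (g := AdjoinRoot.of F)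
        (RingHom.finite_algebraMap.2 inferInstance) h1
    · exact RingHom.Flat.comp h2 (RingHom.flat_algebraMap_iff.2 inferInstance)
    · rintro (_ | γ)
      · exact hroot
      · simp only [Option.elim, RingHom.comp_apply]
        rw [← map_pow, h3]
    · rw [eq_top_iff]
      intro y _
      obtain ⟨P, rfl⟩ := AdjoinRoot.mk_surjective y
      set S := Subring.closure (Set.range ((AdjoinRoot.of F).comp j) ∪ Set.range
        (fun γ : Option G => γ.elim (AdjoinRoot.root F) (fun γ => AdjoinRoot.of F (σ γ)))) with hS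
      have hof : ∀ z : B, AdjoinRoot.of F z ∈ S := by
        intro z
        have : Subring.closure (Set.range j ∪ Set.range σ) ≤ S.comap (AdjoinRoot.of F) := by
          rw [Subring.closure_le]
          rintro _ (⟨y, rfl⟩ | ⟨γ, rfl⟩)
          · exact Subring.subset_closure (Or.inl ⟨y, rfl⟩)
          · exact Subring.subset_closure (Or.inr ⟨some γ, rfl⟩)
        rw [h4] at this
        exact this (Subring.mem_top z)
      have hr : AdjoinRoot.root F ∈ S := Subring.subset_closure (Or.inr ⟨none, rfl⟩)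
      induction P using Polynomial.induction_on' with
      | add P Q hP hQ => rw [map_add]; exact S.add_mem (hP trivial) (hQ trivial)
      | monomial n c =>
        rw [← C_mul_X_pow_eq_monomial, map_mul, map_pow, AdjoinRoot.mk_C, AdjoinRoot.mk_X]
        exact S.mul_mem (hof c) (S.pow_mem hr n)
    · intro L _ ψ σ' hσ'
      obtain ⟨χ, hχ1, hχ2⟩ := h5 L ψ (fun γ => σ' (some γ)) (fun γ => hσ' (some γ))
      have hev : F.eval₂ χ (σ' none) = 0 := by
        rw [hF, eval₂_sub, eval₂_X_pow, eval₂_C, hχ1, hσ', sub_self]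
      refine ⟨AdjoinRoot.lift χ (σ' none) hev, fun y => ?_, ?_⟩
      · rw [RingHom.comp_apply, AdjoinRoot.lift_of, hχ1]
      · rintro (_ | γ)
        · exact AdjoinRoot.lift_root hev
        · simp only [Option.elim]
          rw [AdjoinRoot.lift_of, hχ2]

theorem sda_basis {A B : Type} [CommRing A] [IsLocalRing A] [CommRing B] [Nontrivial B]
    (ψ : A →+* B) (h1 : ψ.Finite) (h2 : ψ.Flat) : ∃ (ρ : ℕ) (v : Fin ρ → B), 0 < ρ ∧
      (∀ (I : Ideal A) (c : Fin ρ → A), ∑ i, ψ (c i) * v i ∈ I.map ψ → ∀ i, c i ∈ I) ∧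
      ∀ y, ∃ c : Fin ρ → A, y = ∑ i, ψ (c i) * v i := by
  let : Algebra A B := ψ.toAlgebra
  have : Module.Finite A B := h1
  have : Module.Flat A B := h2
  have : Module.Free A B := Module.free_of_flat_of_isLocalRing
  let b := Module.finBasis A B
  have hs : ∀ (a : A) (y : B), a • y = ψ a * y := fun a y => Algebra.smul_def a y
  refine ⟨Module.finrank A B, b, Fin.pos_iff_nonempty.2 b.index_nonempty, ?_, ?_⟩
  · intro I c hc i
    have key : ∀ y ∈ I • (⊤ : Submodule A B), b.repr y i ∈ I := by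
      intro y hy
      refine Submodule.smul_induction_on hy ?_ ?_
      · intro r hr m _
        rw [map_smul, Finsupp.smul_apply, smul_eq_mul]
        exact I.mul_mem_right _ hr
      · intro x y hx hy
        rw [map_add, Finsupp.add_apply]
        exact I.add_mem hx hy
    have h3 : ∑ i, c i • b i ∈ I • (⊤ : Submodule A B) := by
      rw [Ideal.smul_top_eq_map]
      simp only [hs]
      exact hc
    have := key _ h3
    rwa [Module.Basis.repr_sum_self] at this
  · intro y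
    refine ⟨fun i => b.repr y i, ?_⟩
    simp only [← hs]
    exact (b.sum_repr y).symm

theorem sda_adjoin {C L G : Type} [CommRing C] [CommRing L] [Finite G] (χ : C →+* L) (ν : G → L)
    (hν : ∀ γ, IsNilpotent (ν γ)) : ∃ (M : Type) (_ : CommRing M) (β : C →+* M) (i : M →+* L)
      (ν' : G → M), Function.Injective i ∧ (∀ y, i (β y) = χ y) ∧ (∀ γ, i (ν' γ) = ν γ) ∧ β.Finite ∧
      Subring.closure (Set.range β ∪ Set.range ν') = ⊤ := by
  let : Algebra C L := χ.toAlgebra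
  let M := Algebra.adjoin C (Set.range ν)
  have : Module.Finite C M := Algebra.finite_adjoin_of_finite_of_isIntegral (Set.finite_range ν)
    (by
      rintro _ ⟨γ, rfl⟩
      obtain ⟨n, hn⟩ := hν γ
      refine ⟨X ^ n, monic_X_pow n, ?_⟩
      rw [eval₂_X_pow, hn])
  refine ⟨M, inferInstance, algebraMap C M, M.val.toRingHom,
    fun γ => ⟨ν γ, Algebra.subset_adjoin ⟨γ, rfl⟩⟩, Subtype.val_injective, fun _ => rfl, fun _ => rfl,
    RingHom.finite_algebraMap.2 inferInstance, ?_⟩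
  rw [eq_top_iff]
  rintro ⟨y, hy⟩ -
  induction hy using Algebra.adjoin_induction with
  | mem x hx =>
    obtain ⟨γ, rfl⟩ := hx
    exact Subring.subset_closure (Or.inr ⟨γ, rfl⟩)
  | algebraMap r => exact Subring.subset_closure (Or.inl ⟨r, rfl⟩)
  | add x y hx hy ihx ihy => exact Subring.add_mem _ ihx ihy
  | mul x y hx hy ihx ihy => exact Subring.mul_mem _ ihx ihy

/-- a point of `M` in a valuation ring with prescribed kernel, local over `A` -/
theorem sda_val {A M : Type} [CommRing A] [IsLocalRing A] [CommRing M] (ψ : A →+* M)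
    (hψ : ψ.IsIntegral) (𝔮 : Ideal M) [𝔮.IsPrime] :
    ∃ (K : Type) (_ : Field K) (V : ValuationSubring K) (θ : M →+* V),
      (∀ y, θ y = 0 → y ∈ 𝔮) ∧ (∀ y ∈ 𝔮, θ y = 0) ∧ ∀ a ∈ maximalIdeal A, ¬ IsUnit (θ (ψ a)) := by
  let K := FractionRing (M ⧸ 𝔮)
  let θ₀ : M →+* K := (algebraMap (M ⧸ 𝔮) K).comp (Ideal.Quotient.mk 𝔮)
  have hker : ∀ y, θ₀ y = 0 ↔ y ∈ 𝔮 := by
    intro y
    rw [← Ideal.Quotient.eq_zero_iff_mem]
    exact map_eq_zero_iff _ (IsFractionRing.injective (M ⧸ 𝔮) K)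
  let θ₁ : M →+* θ₀.range := θ₀.rangeRestrict
  have hint : (θ₁.comp ψ).IsIntegral :=
    hψ.trans _ _ (RingHom.isIntegral_of_surjective _ θ₀.rangeRestrict_surjective)
  have hI : (maximalIdeal A).map (θ₁.comp ψ) ≠ ⊤ := by
    intro h
    have := map_max_le_jacobson _ hint ⊥
    rw [h, top_le_iff, Ideal.jacobson_eq_top_iff] at this
    exact bot_ne_top this
  obtain ⟨V, hV1, hV2⟩ := Ideal.image_subset_nonunits_valuationSubring _ hI
  refine ⟨K, inferInstance, V, θ₀.codRestrict V.toSubring (fun y => hV1 ⟨y, rfl⟩), ?_, ?_, ?_⟩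
  · intro y hy
    exact (hker y).1 (congrArg Subtype.val hy)
  · intro y hy
    exact Subtype.ext ((hker y).2 hy)
  · intro a ha
    have h1 : θ₀ (ψ a) ∈ V.nonunits := hV2 ⟨_, Ideal.mem_map_of_mem _ ha, rfl⟩
    rw [← mem_nonunits_iff, ← IsLocalRing.mem_maximalIdeal]
    exact (ValuationSubring.coe_mem_nonunits_iff).1 h1

theorem sda_min {V : Type} [CommRing V] [IsDomain V] [ValuationRing V] {ι : Type} (s : Finset ι)
    (x : ι → V) : ∃ ξ : V, (∀ l ∈ s, ξ ∣ x l) ∧ (ξ = 0 ∨ ∃ l, ξ = x l) := by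
  classical
  induction s using Finset.induction_on with
  | empty => exact ⟨0, by simp, Or.inl rfl⟩
  | insert a s _ ih =>
    obtain ⟨ξ, h1, h2⟩ := ih
    rcases ValuationRing.dvd_total ξ (x a) with h | h
    · exact ⟨ξ, by
        intro l hl
        rcases Finset.mem_insert.1 hl with rfl | hl
        · exact h
        · exact h1 l hl, h2⟩
    · exact ⟨x a, by
        intro l hl
        rcases Finset.mem_insert.1 hl with rfl | hl
        · exact dvd_rfl
        · exact h.trans (h1 l hl), Or.inr ⟨a, rfl⟩⟩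

variable {p : ℕ} [Fact p.Prime] {k : Type} [Field k] [IsAlgClosed k] [CharP k p] {d : ℕ}

theorem sda_XP {V : Type} [CommRing V] (θ : AA p k d →+* V) {ξ : V}
    (hξ : ∀ l, ξ ∣ θ (MvPowerSeries.X l)) (e : ℕ) {y : AA p k d} (hy : y ∈ XP d (WW p k)) :
    ξ ^ p ^ e ∣ θ (ph p k d e y) := by
  have h1 := ph_XP e hy
  have h2 : Ideal.span (Set.range fun i : Fin d => (MvPowerSeries.X i : AA p k d) ^ p ^ e) ≤
      (Ideal.span {ξ ^ p ^ e}).comap θ := by
    rw [Ideal.span_le]
    rintro _ ⟨l, rfl⟩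
    simp only [SetLike.mem_coe, Ideal.mem_comap, map_pow, Ideal.mem_span_singleton]
    exact pow_dvd_pow_of_dvd (hξ l) _
  exact Ideal.mem_span_singleton.1 (h2 h1)

theorem sda_nv {f : AA p k d} (hf : Dist f) {M : Type} [CommRing M] (ψ : AA p k d →+* M)
    (hψ : ψ.Finite) {e i : ℕ} (hi : i ≤ e) (h0 : ψ (ph p k d e f) = 0) {𝔭 : Ideal (AA p k d)}
    (h𝔭 : 𝔭.IsPrime) {g : AA p k d} (hg : g ∉ 𝔭) {r : ℕ}
    (hr : maximalIdeal (AA p k d) ^ r ≤ Ideal.span {g} ⊔ 𝔭)
    (hk : ∀ y, ψ (ph p k d e y) = 0 → y ∈ 𝔭) {σ : M} (hσ : σ ^ p ^ e = ψ (ph p k d e g)) {c : ℕ}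
    (hc : c * r < p ^ i) : σ ^ c ∉ (maximalIdeal (AA p k d)).map (ψ.comp (ph p k d i)) := by
  intro hmem
  have hp0 : p ≠ 0 := (Fact.out : p.Prime).ne_zero
  -- a prime over `𝔭`
  obtain ⟨𝔮, hq, hqc⟩ : ∃ 𝔮 : Ideal M, 𝔮.IsPrime ∧ 𝔮.comap (ψ.comp (ph p k d e)) = 𝔭 := by
    let : Algebra (AA p k d) M := (ψ.comp (ph p k d e)).toAlgebra
    have : Algebra.IsIntegral (AA p k d) M :=
      ⟨(RingHom.Finite.comp hψ (ph_finite e)).to_isIntegral⟩
    obtain ⟨Q, -, h1, h2⟩ := Ideal.exists_ideal_over_prime_of_isIntegral 𝔭 (⊥ : Ideal M)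
      (fun y hy => hk y hy)
    exact ⟨Q, h1, h2⟩
  obtain ⟨K, _, V, θ, hθ1, hθ2, hθ3⟩ := sda_val ψ hψ.to_isIntegral 𝔮
  obtain ⟨ξ, hξ1, hξ2⟩ := sda_min (Finset.univ : Finset (Fin d))
    (fun l => θ (ψ (MvPowerSeries.X l)))
  have hξ1' : ∀ l, ξ ∣ (θ.comp ψ) (MvPowerSeries.X l) := fun l => hξ1 l (Finset.mem_univ l)
  have hXm : ∀ l : Fin d, (MvPowerSeries.X l : AA p k d) ∈ maximalIdeal (AA p k d) := by
    intro l
    rw [AA_max]
    exact Ideal.mem_sup_right (Ideal.subset_span ⟨l, rfl⟩)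
  have hpd : ξ ^ p ^ e ∣ (p : V) := by
    have := sda_XP (θ.comp ψ) hξ1' e hf
    simp only [map_sub, map_natCast, RingHom.comp_apply, h0, map_zero, zero_sub] at this
    exact (dvd_neg.1 this)
  have h1 : ξ ^ p ^ i ∣ θ σ ^ c := by
    have : (maximalIdeal (AA p k d)).map (ψ.comp (ph p k d i)) ≤
        (Ideal.span {ξ ^ p ^ i}).comap θ := by
      rw [Ideal.map_le_iff_le_comap, AA_max, sup_le_iff]
      constructor
      · rw [Ideal.span_le, Set.singleton_subset_iff]
        simp only [SetLike.mem_coe, Ideal.mem_comap, map_natCast, Ideal.mem_span_singleton]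
        exact (pow_dvd_pow _ (Nat.pow_le_pow_right (Nat.pos_of_ne_zero hp0) hi)).trans hpd
      · intro y hy
        simp only [Ideal.mem_comap, Ideal.mem_span_singleton]
        exact sda_XP (θ.comp ψ) hξ1' i hy
    have := this hmem
    rwa [Ideal.mem_comap, Ideal.mem_span_singleton, map_pow] at this
  have hσ0 : θ σ ≠ 0 := by
    intro h
    apply hg
    rw [← hqc, Ideal.mem_comap]
    apply hθ1
    rw [RingHom.comp_apply, ← hσ, map_pow, h, zero_pow (pow_ne_zero _ hp0)]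
  rcases hξ2 with h | ⟨l, h⟩
  · rw [h, zero_pow (pow_ne_zero _ hp0), zero_dvd_iff] at h1
    exact pow_ne_zero _ hσ0 h1
  · have hξ0 : ξ ≠ 0 := by
      intro h
      rw [h, zero_pow (pow_ne_zero _ hp0), zero_dvd_iff] at h1
      exact pow_ne_zero _ hσ0 h1
    have h2 : θ σ ∣ ξ ^ r := by
      rw [← IsIntegrallyClosed.pow_dvd_pow_iff (n := p ^ e) (pow_ne_zero _ hp0)]
      obtain ⟨u, hu, v, hv, huv⟩ := Submodule.mem_sup.1 (hr (Ideal.pow_mem_pow (hXm l) r))
      obtain ⟨w, rfl⟩ := Ideal.mem_span_singleton.1 hu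
      have hv0 : θ (ψ (ph p k d e v)) = 0 := by
        apply hθ2
        rw [← hqc] at hv
        exact hv
      have := congrArg (fun y => θ (ψ (ph p k d e y))) huv
      simp only [map_add, map_mul, map_pow, hv0, add_zero, ph_X, ← hσ] at this
      refine ⟨θ (ψ (ph p k d e w)), ?_⟩
      rw [this, h, ← pow_mul, ← pow_mul, mul_comm]
    have h3 : ξ ^ p ^ i ∣ ξ ^ (c * r) := by
      rw [mul_comm, pow_mul]
      exact h1.trans (pow_dvd_pow_of_dvd h2 c)
    have h4 : ξ ^ (c * r) * ξ ∣ ξ ^ (c * r) * 1 := by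
      rw [← pow_succ, mul_one]
      exact (pow_dvd_pow ξ hc).trans h3
    have h5 := isUnit_of_dvd_one ((mul_dvd_mul_iff_left (pow_ne_zero _ hξ0)).1 h4)
    rw [h] at h5
    exact hθ3 _ (hXm l) h5

end Crest.Agent.R188
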