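import Crest.Agent.R188.Env
import Crest.Agent.R188.SidesAuxA

/-! # R188 / Sides : the modules `C → M` attached to one of the two primes at a level `e`. -/

set_option autoImplicit false
open IsLocalRing RingTheory.Sequence Crest.Agent.R183 MvPowerSeries

namespace Crest.Agent.R188

variable {p : ℕ} [Fact p.Prime] {k : Type} [Field k] [IsAlgClosed k] [CharP k p] {d : ℕ}

/-- after inverting `p`, `M` is free of positive rank over `A/𝔞` -/
def CmpI {M : Type} [CommRing M] (ψ : AA p k d →+* M) (𝔞 : Ideal (AA p k d)) : Prop :=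
  ∃ (ρ : ℕ) (v : Fin ρ → M) (κ : ℕ), 0 < ρ ∧
    (∀ c : Fin ρ → AA p k d, ∑ i, ψ (c i) * v i = 0 → ∀ i, c i ∈ 𝔞) ∧
    ∀ y : M, ∃ c : Fin ρ → AA p k d, (p : M) ^ κ * y = ∑ i, ψ (c i) * v i

/-- the data at level `e`, seen from level `e₁` -/
structure Lvl (pos van : Prop) (J 𝔞 P : Ideal (AA p k d)) (zs : List (AA p k d)) {G E : Type}
    [CommRing E] (αE : AA p k d →+* E) (σ : G → E) (e₁ N e : ℕ) {C M : Type} [CommRing C]
    [CommRing M] (α : AA p k d →+* C) (β : C →+* M) (ε : E →+* C) (K : ℕ) : Prop where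
  comm : ∀ y, ε (αE y) = α y
  fin : α.Finite
  fin' : β.Finite
  kill : ∀ y ∈ J, α (ph p k d e y) = 0
  reg : IsWeaklyRegular C (zs.map (α.comp (ph p k d e)))
  killa : ∀ y ∈ 𝔞, β (α (ph p k d e y)) = 0
  hK : K ≤ p ^ (e - e₁)
  t1 : (p : AA p k d) ∉ P → (∀ y : C, (p : C) * y = 0 → y = 0) ∧ (∀ y : M, (p : M) * y = 0 → y = 0) ∧
    CmpI ((β.comp α).comp (ph p k d (e - e₁))) (𝔞.map (ph p k d e₁))
  t2 : (p : AA p k d) ∈ P →
    (p : C) = 0 ∧ RingHom.ker ((β.comp α).comp (ph p k d (e - e₁))) ≤ P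
  hpos : pos → (∀ γ, Fac ((p : C) ^ N) β (ε (σ γ) ^ K)) ∧ ∃ γ, β (ε (σ γ) ^ K) ^ d ∉
    (maximalIdeal (AA p k d)).map ((β.comp α).comp (ph p k d (e - e₁)))
  hvan : van → ∀ γ, β ((p : C) ^ N) ∣ β (ε (σ γ) ^ K)

/-- what the assembly needs from one side -/
def SideOK (pos van : Prop) (f : AA p k d) (J 𝔞 P : Ideal (AA p k d)) (zs : List (AA p k d))
    {G : Type} (a : G → AA p k d) : Prop :=
  ∀ n, ∃ (E : Type) (_ : CommRing E) (αE : AA p k d →+* E) (σ : G → E), Deep αE f n J ∧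
    (∀ γ, Root αE f n (σ γ) (a γ)) ∧ ∀ e₁ N, ∃ e₂, ∀ e, e₂ ≤ e →
      ∃ (C M : Type) (_ : CommRing C) (_ : CommRing M) (α : AA p k d →+* C) (β : C →+* M)
        (ε : E →+* C) (K : ℕ), Lvl pos van J 𝔞 P zs αE σ e₁ N e α β ε K

/-- forget the roots (`Root.one`) -/
theorem SideOK.neutral {pos van : Prop} {f : AA p k d} {J 𝔞 P : Ideal (AA p k d)}
    {zs : List (AA p k d)} {G : Type} {a : G → AA p k d} (h : SideOK pos van f J 𝔞 P zs a) :
    SideOK False False f J 𝔞 P zs (fun _ : Unit => (1 : AA p k d)) := by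
  intro n
  obtain ⟨E, _, αE, σ, h1, -, h3⟩ := h n
  refine ⟨E, inferInstance, αE, fun _ => 1, h1, fun _ => Root.one, fun e₁ N => ?_⟩
  obtain ⟨e₂, h4⟩ := h3 e₁ N
  refine ⟨e₂, fun e he => ?_⟩
  obtain ⟨C, M, _, _, α, β, ε, K, L⟩ := h4 e he
  exact ⟨C, M, inferInstance, inferInstance, α, β, ε, K, L.comm, L.fin, L.fin', L.kill, L.reg, L.killa,
    L.hK, L.t1, L.t2, False.elim, False.elim⟩

/-! ### auxiliary rings -/

/-- adjoining `q`-th roots.  Induct on a `Fintype` enumeration of `G` with `AdjoinRoot (X^q - C b)`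
(`AdjoinRoot.powerBasis'`, monic of degree `q > 0`), or take
`MvPolynomial G A ⧸ (X γ ^ q - C (b γ))`. -/
theorem exists_roots {A : Type} [CommRing A] [Nontrivial A] {G : Type} [Finite G] (b : G → A) {q : ℕ}
    (hq : 0 < q) : ∃ (B : Type) (_ : CommRing B) (_ : Nontrivial B) (j : A →+* B) (σ : G → B),
      j.Finite ∧ j.Flat ∧ (∀ γ, σ γ ^ q = j (b γ)) ∧
      Subring.closure (Set.range j ∪ Set.range σ) = ⊤ ∧
      ∀ (L : Type) [CommRing L] (ψ : A →+* L) (σ' : G → L), (∀ γ, σ' γ ^ q = ψ (b γ)) →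
        ∃ χ : B →+* L, (∀ y, χ (j y) = ψ y) ∧ ∀ γ, χ (σ γ) = σ' γ := by
  exact sda_roots hq G A b

/-- a finite flat algebra over a local ring is free (`Module.free_of_flat_of_isLocalRing`) -/
theorem exists_basis {A B : Type} [CommRing A] [IsLocalRing A] [CommRing B] [Nontrivial B]
    (ψ : A →+* B) (h1 : ψ.Finite) (h2 : ψ.Flat) : ∃ (ρ : ℕ) (v : Fin ρ → B), 0 < ρ ∧
      (∀ (I : Ideal A) (c : Fin ρ → A), ∑ i, ψ (c i) * v i ∈ I.map ψ → ∀ i, c i ∈ I) ∧
      ∀ y, ∃ c : Fin ρ → A, y = ∑ i, ψ (c i) * v i := by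
  exact sda_basis ψ h1 h2

/-- adjoining nilpotent elements inside `L` (`M = Subring.closure (range χ ∪ range ν)`) -/
theorem exists_adjoin {C L G : Type} [CommRing C] [CommRing L] [Finite G] (χ : C →+* L) (ν : G → L)
    (hν : ∀ γ, IsNilpotent (ν γ)) : ∃ (M : Type) (_ : CommRing M) (β : C →+* M) (i : M →+* L)
      (ν' : G → M), Function.Injective i ∧ (∀ y, i (β y) = χ y) ∧ (∀ γ, i (ν' γ) = ν γ) ∧ β.Finite ∧
      Subring.closure (Set.range β ∪ Set.range ν') = ⊤ := by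
  exact sda_adjoin χ ν hν

/-- NON-VANISHING.  `ψ ∘ φ^e` is finite, so a prime `𝔮` of `M` lies over `𝔭`
(`Ideal.exists_ideal_over_prime_of_isIntegral`); embed `M/𝔮` in a valuation ring `V` with a maximal
ideal of `M/𝔮` going to non-units (`Ideal.image_subset_nonunits_valuationSubring`,
`map_max_le_jacobson`).  Let `ξ` be `0` if all `x_l` vanish in `V`, else an `x_l` dividing all others.
`p ∈ (ξ^(p^e))` (`Dist.ph`, `ph_XP`), so `ξ^(p^i) ∣ σ^c`; `σ ≠ 0`; `σ^(p^e) ∣ (ξ^r)^(p^e)`, so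
`σ ∣ ξ^r` and `ξ^(p^i) ∣ ξ^(c r)`, absurd. -/
theorem nv {f : AA p k d} (hf : Dist f) {M : Type} [CommRing M] (ψ : AA p k d →+* M)
    (hψ : ψ.Finite) {e i : ℕ} (hi : i ≤ e) (h0 : ψ (ph p k d e f) = 0) {𝔭 : Ideal (AA p k d)}
    (h𝔭 : 𝔭.IsPrime) {g : AA p k d} (hg : g ∉ 𝔭) {r : ℕ}
    (hr : maximalIdeal (AA p k d) ^ r ≤ Ideal.span {g} ⊔ 𝔭)
    (hk : ∀ y, ψ (ph p k d e y) = 0 → y ∈ 𝔭) {σ : M} (hσ : σ ^ p ^ e = ψ (ph p k d e g)) {c : ℕ}
    (hc : c * r < p ^ i) : σ ^ c ∉ (maximalIdeal (AA p k d)).map (ψ.comp (ph p k d i)) := by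
  exact sda_nv hf ψ hψ hi h0 h𝔭 hg hr hk hσ hc

/-! ### type I : `p ∉ P` -/

section TypeI
variable {f : AA p k d} {t : ℕ} {h : Fin t → AA p k d} {G : Type} {a : G → AA p k d}

theorem sdsb_unif {A M : Type} [CommRing A] [CommRing M] (ψ : A →+* M) (hψ : ψ.Finite)
    (S : Subring M) (hS : ∀ y, ψ y ∈ S) {P : M} (hP : P ∈ S) (H : ∀ y, ∃ κ : ℕ, P ^ κ * y ∈ S) :
    ∃ κ : ℕ, ∀ y, P ^ κ * y ∈ S := by
  letI := ψ.toAlgebra
  have : Module.Finite A M := hψ
  obtain ⟨n, g, hg⟩ := Module.Finite.exists_fin (R := A) (M := M)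
  choose κ hκ using H
  refine ⟨∑ i, κ (g i), fun y => ?_⟩
  have hy : y ∈ Submodule.span A (Set.range g) := hg ▸ Submodule.mem_top
  induction hy using Submodule.span_induction with
  | mem x hx =>
    obtain ⟨i, rfl⟩ := hx
    obtain ⟨c, hc⟩ := Nat.exists_eq_add_of_le
      (Finset.single_le_sum (f := fun i => κ (g i)) (fun _ _ => Nat.zero_le _) (Finset.mem_univ i))
    rw [hc, add_comm, pow_add, mul_assoc]
    exact S.mul_mem (S.pow_mem hP _) (hκ _)
  | zero => rw [mul_zero]; exact S.zero_mem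
  | add x y _ _ hx hy => rw [mul_add]; exact S.add_mem hx hy
  | smul c x _ hx =>
    rw [Algebra.smul_def, mul_left_comm]
    exact S.mul_mem (hS c) hx

/-- the localisation at `p` of `B / 𝔞 B` -/
theorem sdsb_loc {A B : Type} [CommRing A] [CommRing B] (ψ : A →+* B) (hψ : ψ.Flat) (q : ℕ)
    {𝔞 : Ideal A} (hq : ∀ y, (q : A) * y ∈ 𝔞 → y ∈ 𝔞) :
    ∃ (L : Type) (_ : CommRing L) (lam : B →+* L), IsUnit (q : L) ∧
      (∀ x, lam x = 0 ↔ x ∈ 𝔞.map ψ) ∧ ∀ z : L, ∃ (n : ℕ) (x : B), (q : L) ^ n * z = lam x := by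
  have hreg : ∀ x : B, (q : B) * x ∈ 𝔞.map ψ → x ∈ 𝔞.map ψ := by
    intro x hx
    have h1 : x ∈ (𝔞.map ψ).colon {ψ (q : A)} := by
      rw [Submodule.mem_colon_singleton, map_natCast, smul_eq_mul, mul_comm]
      exact hx
    refine Ideal.map_mono (fun y hy => ?_) (colon_map_le ψ hψ 𝔞 _ h1)
    rw [Submodule.mem_colon_singleton, smul_eq_mul, mul_comm] at hy
    exact hq y hy
  have hreg' : ∀ (n : ℕ) (x : B), (q : B) ^ n * x ∈ 𝔞.map ψ → x ∈ 𝔞.map ψ := by
    intro n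
    induction n with
    | zero => intro x hx; simpa using hx
    | succ n ih =>
      intro x hx
      rw [pow_succ, mul_assoc] at hx
      exact hreg x (ih _ hx)
  let Q := B ⧸ 𝔞.map ψ
  let L := Localization.Away (q : Q)
  refine ⟨L, inferInstance, (algebraMap Q L).comp (Ideal.Quotient.mk _), ?_, fun x => ?_,
    fun z => ?_⟩
  · have := IsLocalization.Away.algebraMap_isUnit (S := L) (q : Q)
    rwa [map_natCast] at this
  · rw [RingHom.comp_apply]
    constructor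
    · intro hx
      obtain ⟨⟨_, n, rfl⟩, hn⟩ := (IsLocalization.map_eq_zero_iff (Submonoid.powers (q : Q)) L _).1 hx
      refine hreg' n x ?_
      rw [← Ideal.Quotient.eq_zero_iff_mem, map_mul, map_pow, map_natCast]
      exact hn
    · intro hx
      rw [Ideal.Quotient.eq_zero_iff_mem.2 hx, map_zero]
  · obtain ⟨n, w, hw⟩ := IsLocalization.Away.surj (S := L) (q : Q) z
    obtain ⟨x, rfl⟩ := Ideal.Quotient.mk_surjective w
    refine ⟨n, x, ?_⟩
    rw [RingHom.comp_apply, ← hw, map_natCast, mul_comm]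

/-- THE GENERIC FIBRE.  `B` from `exists_roots` (`b γ = φ^e (a γ)`, `q = p^e`),
`L = Localization.Away p` of `B ⧸ (𝔞.map φ^e).map j`, `χ` from `T.pt`, `η : B → C e` from the universal
property, `χ ∘ η = lam`.  `p` is regular modulo `𝔞 B` (`colon_map_le` for the flat map `j ∘ φ^e`), so
`ker lam = 𝔞 B`.  `exists_basis` for `j ∘ φ^e` (third clause) and `j ∘ φ^(e-e₁)` (last clause, `v = lam ∘ b`
lies in the range of `χ`; a uniform `κ` exists as `M` is finite over `A`); `T.sat` for the fourth. -/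
theorem Tow.exists_loc [Finite G] (T : Tow f h a) {𝔞 : Ideal (AA p k d)}
    (hJ : Ideal.span {f} ⊔ Ideal.span (Set.range h) ≤ 𝔞)
    (hp : ∀ y, (p : AA p k d) * y ∈ 𝔞 → y ∈ 𝔞) (e : ℕ) :
    ∃ (L : Type) (_ : CommRing L) (χ : T.C e →+* L), IsUnit (p : L) ∧
      (∀ y ∈ 𝔞, χ (T.α e (ph p k d e y)) = 0) ∧ (∀ y, χ (T.α e (ph p k d e y)) = 0 → y ∈ 𝔞) ∧
      (∀ y, χ y = 0 → ∃ κ, (p : T.C e) ^ κ * y ∈ 𝔞.map ((T.α e).comp (ph p k d e))) ∧
      ∀ (M : Type) [CommRing M] (β : T.C e →+* M) (i : M →+* L), Function.Injective i →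
        (∀ y, i (β y) = χ y) → β.Finite → ∀ e₁ ≤ e,
          CmpI ((β.comp (T.α e)).comp (ph p k d (e - e₁))) (𝔞.map (ph p k d e₁)) := by
  classical
  have hp0 : 0 < p ^ e := pow_pos (Fact.out : p.Prime).pos e
  obtain ⟨B, _, _, j, σ, hjf, hjl, hσ, hgen, huniv⟩ :=
    exists_roots (fun γ => ph p k d e (a γ)) hp0
  obtain ⟨L, _, lam, hu, hker, hsurj⟩ :=
    sdsb_loc (j.comp (ph p k d e)) (RingHom.Flat.comp (ph_flat e) hjl) p hp
  obtain ⟨χ, hχ1, hχ2⟩ := T.pt e L (lam.comp j) (fun γ => lam (σ γ)) hu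
    (fun y hy => (hker _).2 (Ideal.mem_map_of_mem (j.comp (ph p k d e)) (hJ hy)))
    (fun γ => by rw [← map_pow, hσ]; rfl)
  obtain ⟨η, hη1, hη2⟩ := huniv (T.C e) (T.α e) (T.s e) (T.sp e)
  have hχη : χ.comp η = lam := by
    refine RingHom.eq_of_eqOn_set_dense hgen ?_
    rintro _ (⟨y, rfl⟩ | ⟨γ, rfl⟩)
    · show χ (η (j y)) = lam (j y)
      rw [hη1, hχ1]; rfl
    · show χ (η (σ γ)) = lam (σ γ)
      rw [hη2, hχ2]
  have hχη' : ∀ x, χ (η x) = lam x := fun x => by rw [← hχη]; rfl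
  refine ⟨L, inferInstance, χ, hu, fun y hy => ?_, fun y hy => ?_, fun y hy => ?_, ?_⟩
  · rw [hχ1]
    exact (hker _).2 (Ideal.mem_map_of_mem (j.comp (ph p k d e)) hy)
  · rw [hχ1] at hy
    have h1 : (j.comp (ph p k d e)) y ∈ 𝔞.map (j.comp (ph p k d e)) := (hker _).1 hy
    obtain ⟨ρ, v, hρ, hv, -⟩ := exists_basis (j.comp (ph p k d e))
      (RingHom.Finite.comp hjf (ph_finite e)) (RingHom.Flat.comp (ph_flat e) hjl)
    have h2 := hv 𝔞 (Pi.single ⟨0, hρ⟩ y) (by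
      rw [Finset.sum_eq_single ⟨0, hρ⟩]
      · rw [Pi.single_eq_same]
        exact Ideal.mul_mem_right _ _ h1
      · intro i _ hi
        rw [Pi.single_eq_of_ne hi, map_zero, zero_mul]
      · intro h; exact absurd (Finset.mem_univ _) h) ⟨0, hρ⟩
    rwa [Pi.single_eq_same] at h2
  · obtain ⟨κ, hκ⟩ := T.sat e y
    have hle : Subring.closure (Set.range (T.α e) ∪ Set.range (T.s e)) ≤ η.range := by
      rw [Subring.closure_le]
      rintro _ (⟨y, rfl⟩ | ⟨γ, rfl⟩)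
      · exact ⟨j y, hη1 y⟩
      · exact ⟨σ γ, hη2 γ⟩
    obtain ⟨x, hx⟩ := hle hκ
    refine ⟨κ, ?_⟩
    have h1 : x ∈ 𝔞.map (j.comp (ph p k d e)) := by
      rw [← hker, ← hχη', hx, map_mul, hy, mul_zero]
    have h2 : (T.α e).comp (ph p k d e) = η.comp (j.comp (ph p k d e)) := by
      refine RingHom.ext fun y => ?_
      simp only [RingHom.comp_apply, hη1]
    rw [← hx, h2, ← Ideal.map_map]
    exact Ideal.mem_map_of_mem η h1
  · intro M _ β i hi hiβ hβ e₁ he₁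
    obtain ⟨ρ, v, hρ, hv, hsp⟩ := exists_basis (j.comp (ph p k d (e - e₁)))
      (RingHom.Finite.comp hjf (ph_finite _)) (RingHom.Flat.comp (ph_flat _) hjl)
    have hsum : ∀ c : Fin ρ → AA p k d,
        ∑ l, ((β.comp (T.α e)).comp (ph p k d (e - e₁))) (c l) * β (η (v l)) =
          β (η (∑ l, (j.comp (ph p k d (e - e₁))) (c l) * v l)) := by
      intro c
      simp only [map_sum, map_mul, RingHom.comp_apply, hη1]
    have hid : (𝔞.map (ph p k d e₁)).map (j.comp (ph p k d (e - e₁))) =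
        𝔞.map (j.comp (ph p k d e)) := by
      rw [Ideal.map_map]
      congr 1
      refine RingHom.ext fun y => ?_
      simp only [RingHom.comp_apply]
      rw [← ph_add, Nat.sub_add_cancel he₁]
    obtain ⟨κ, hκ⟩ := sdsb_unif ((β.comp (T.α e)).comp (ph p k d (e - e₁)))
      (RingHom.Finite.comp (RingHom.Finite.comp hβ (T.fin e)) (ph_finite _)) (β.comp η).range
      (fun y => ⟨j (ph p k d (e - e₁) y), by simp only [RingHom.comp_apply, hη1]⟩)
      (natCast_mem (β.comp η).range p) (fun y => by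
        obtain ⟨n, x, hx⟩ := hsurj (i y)
        refine ⟨n, x, hi ?_⟩
        rw [RingHom.comp_apply, hiβ, hχη', ← hx, map_mul, map_pow, map_natCast])
    refine ⟨ρ, fun l => β (η (v l)), κ, hρ, fun c hc => ?_, fun y => ?_⟩
    · refine hv _ c ?_
      rw [hid, ← hker, ← hχη', ← hiβ, ← hsum, hc, map_zero]
    · obtain ⟨x, hx⟩ := hκ y
      obtain ⟨c, hc⟩ := hsp x
      refine ⟨c, ?_⟩
      rw [hsum, ← hc, ← hx]
      rfl

/-- TYPE I, vanishing.  `exists_tow`, `T.env`, `e₂ = max n e₁`, `K = 1`; `ν γ = χ (s γ) / p^N` is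
nilpotent; `exists_adjoin`. -/
theorem side1_van [Fintype G] (hf : Dist f) {zs : List (AA p k d)}
    (hz : ∀ z ∈ zs, z ∈ maximalIdeal (AA p k d)) (hl : t + (zs.length + 1) = d)
    (hpr : Prim (Ideal.span {f} ⊔ Ideal.span (Set.range h)) (Ideal.ofList ((p : AA p k d) :: zs)))
    {𝔞 P : Ideal (AA p k d)} (hJ : Ideal.span {f} ⊔ Ideal.span (Set.range h) ≤ 𝔞)
    (hp : ∀ y, (p : AA p k d) * y ∈ 𝔞 → y ∈ 𝔞) (ha : ∀ γ, a γ ∈ 𝔞) (hP : (p : AA p k d) ∉ P) :
    SideOK False True f (Ideal.span {f} ⊔ Ideal.span (Set.range h)) 𝔞 P ((p : AA p k d) :: zs) a := by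
  intro n
  obtain ⟨T⟩ := exists_tow hf h a
  obtain ⟨E, _, αE, σ, hD, hR, henv⟩ := T.env n
  refine ⟨E, inferInstance, αE, σ, hD, hR, fun e₁ N => ⟨max n e₁, fun e he => ?_⟩⟩
  obtain ⟨ε, hε1, hε2⟩ := henv e (le_trans (le_max_left _ _) he)
  obtain ⟨L, _, χ, hu, h1, -, -, h4⟩ := T.exists_loc hJ hp e
  obtain ⟨u, hu'⟩ := hu.exists_right_inv
  obtain ⟨M, _, β, i, ν', hi, hiβ, hν', hβ, -⟩ :=
    exists_adjoin χ (fun γ => u ^ N * χ (T.s e γ)) (fun γ => ⟨p ^ e, by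
      rw [mul_pow, ← map_pow, T.sp, h1 _ (ha γ), mul_zero]⟩)
  have hreg := T.cm e ((p : AA p k d) :: zs) (by
    intro z hz'
    rcases List.mem_cons.1 hz' with rfl | hz'
    · exact stc_p_mem
    · exact hz z hz') hl hpr
  refine ⟨T.C e, M, inferInstance, inferInstance, T.α e, β, ε, 1,
    { comm := hε1
      fin := T.fin e
      fin' := hβ
      kill := T.kill e
      reg := hreg
      killa := fun y hy => hi (by rw [hiβ, h1 y hy, map_zero])
      hK := Nat.one_le_pow _ _ (Fact.out : p.Prime).pos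
      t1 := fun _ => ⟨fun y hy => ?_, fun y hy => ?_,
        h4 M β i hi hiβ hβ e₁ (le_trans (le_max_right _ _) he)⟩
      t2 := fun h' => absurd h' hP
      hpos := fun h' => h'.elim
      hvan := fun _ γ => ⟨ν' γ, hi ?_⟩ }⟩
  · rw [List.map_cons, isWeaklyRegular_cons_iff, map_natCast] at hreg
    exact hreg.1 (show (p : T.C e) • y = (p : T.C e) • (0 : T.C e) by
      rw [smul_eq_mul, hy, smul_zero])
  · apply hi
    have h2 := congrArg i hy
    rw [map_mul, map_natCast, map_zero] at h2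
    rw [map_zero]
    exact (hu.mul_right_eq_zero).1 h2
  · rw [pow_one, hε2, hiβ, map_mul, hiβ, hν', map_pow, map_natCast, ← mul_assoc, ← mul_pow, hu',
      one_pow, one_mul]

theorem sdc_cancel {C : Type} [CommRing C] {x : C} (hC : ∀ y : C, x * y = 0 → y = 0) (n : ℕ) (y : C)
    (h : x ^ n * y = 0) : y = 0 := by
  induction n with
  | zero => simpa using h
  | succ n ih => exact ih (hC _ (by rw [← h]; ring))

/-- the almost-factorisation for `s_g`.  `Fac.of_ker`.  First condition: `w ν^i ∈ range β` for all `i`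
(`i = 0`; `i ≥ T₀`: `ν^i = 0`; otherwise cancel `p^(N i)` using `hd`), and the `m` with
`∀ i, β w * m * ν^i ∈ range β` ... (closure induction: every `m` is a `C`-combination of powers of `ν`).
Second condition: `β y = 0` gives `g y = 0`; `p^k₀ κ w y = c₂ τ w y ∈ p^(N+k₀)`; cancel; `reg_mod_pow`. -/
theorem fac_g {C M : Type} [CommRing C] [CommRing M] (β : C →+* M) {N T₀ k₀ : ℕ} {w w' g τ κ : C}
    {ν : M} (hC : ∀ y : C, (p : C) * y = 0 → y = 0) (hM : ∀ y : M, (p : M) * y = 0 → y = 0)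
    (hν : (p : M) ^ N * ν = β w') (hT : ν ^ T₀ = 0)
    (hgen : Subring.closure (Set.range β ∪ {ν}) = ⊤) (hd : (p : C) ^ (N * T₀ + N + k₀) ∣ w * w')
    (hτ : w' ∣ τ) (hker : ∀ y, β y = 0 → g * y = 0)
    (hκ : (p : C) ^ k₀ * κ ∈ Ideal.span {g, τ}) (hreg : ∀ z, (p : C) ∣ κ * z → (p : C) ∣ z) :
    Fac ((p : C) ^ N) β (w ^ 2) := by
  refine Fac.of_ker (fun m => ?_) fun y hy => ?_
  · have h1 : ∀ i, ∃ y, β y = β w * 1 * ν ^ i := by
      intro i
      rcases i with _ | i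
      · exact ⟨w, by simp⟩
      rcases le_or_gt T₀ (i + 1) with hi | hi
      · exact ⟨0, by rw [pow_eq_zero_of_le hi hT, map_zero, mul_zero]⟩
      have hd' : (p : C) ^ (N * (i + 1)) ∣ w * w' :=
        (pow_dvd_pow _ ((Nat.mul_le_mul_left N hi.le).trans (by omega))).trans hd
      obtain ⟨c, hc⟩ := hd'
      refine ⟨c * w' ^ i, sub_eq_zero.1 (sdc_cancel hM (N * (i + 1)) _ ?_)⟩
      have e1 : β (w * w' * w' ^ i) = (p : M) ^ (N * (i + 1)) * β (c * w' ^ i) := by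
        rw [hc]
        simp only [map_mul, map_pow, map_natCast]
        ring
      have e2 : β (w * w' * w' ^ i) = (p : M) ^ (N * (i + 1)) * (β w * 1 * ν ^ (i + 1)) := by
        simp only [map_mul, map_pow, ← hν]
        ring
      rw [mul_sub, ← e1, ← e2, sub_self]
    have h2 : ∀ m ∈ Subring.closure (Set.range β ∪ {ν}), ∀ x : M,
        (∀ i, ∃ y, β y = β w * x * ν ^ i) → ∀ i, ∃ y, β y = β w * (m * x) * ν ^ i := by
      intro m hm
      induction hm using Subring.closure_induction with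
      | mem m hm =>
        intro x hx i
        rcases hm with ⟨c, rfl⟩ | rfl
        · obtain ⟨y, hy⟩ := hx i
          exact ⟨c * y, by rw [map_mul, hy]; ring⟩
        · obtain ⟨y, hy⟩ := hx (i + 1)
          exact ⟨y, by rw [hy]; ring⟩
      | zero => exact fun x _ i => ⟨0, by simp⟩
      | one => exact fun x hx i => by simpa using hx i
      | add a b _ _ ha hb =>
        intro x hx i
        obtain ⟨y, hy⟩ := ha x hx i
        obtain ⟨y', hy'⟩ := hb x hx i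
        exact ⟨y + y', by rw [map_add, hy, hy']; ring⟩
      | neg a _ ha =>
        intro x hx i
        obtain ⟨y, hy⟩ := ha x hx i
        exact ⟨-y, by rw [map_neg, hy]; ring⟩
      | mul a b _ _ ha hb =>
        intro x hx i
        obtain ⟨y, hy⟩ := ha (b * x) (hb x hx) i
        exact ⟨y, by rw [hy]; ring⟩
    obtain ⟨y, hy⟩ := h2 m (hgen ▸ Subring.mem_top m) 1 h1 0
    exact ⟨y, by simpa using hy⟩
  · obtain ⟨c₁, c₂, hc⟩ := Ideal.mem_span_pair.1 hκ
    obtain ⟨c₃, rfl⟩ := hτ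
    obtain ⟨c₄, hc₄⟩ := (pow_dvd_pow (p : C) (by omega : k₀ + N ≤ N * T₀ + N + k₀)).trans hd
    refine reg_mod_pow hC hreg N _ ⟨c₂ * c₃ * c₄ * y, sub_eq_zero.1 (sdc_cancel hC k₀ _ ?_)⟩
    have := hker y hy
    linear_combination (-(w * y)) * hc + (c₁ * w) * this + (c₂ * c₃ * y) * hc₄

/-- TYPE I, positivity.  `J = (f, h)`, `𝔞 = (J : g)`.  `exists_curve` gives `𝔭, r`.  Given `e₁, N` put
`e₀ = e₁ + (2 d r + 1)`, `K₀ = p^(e - e₀)`, `K = 2 K₀`, `T₀ = p^e₀`; `root_closure` for `y e = s_g s_τ`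
(`(s_g s_τ)^(p^e₀) = φ^e₀ (g τ) = 0`); `p` is regular on `C e` by `T.cm`, and regular modulo `𝔞`
(`RegLoc.regular_of_params`, or: `p y g ∈ J` ...); `exists_loc`, `exists_adjoin` with
`ν = χ (s_τ^K₀) / p^N`; `fac_g`, `Fac.of_dvd`, `nv` (`c = K d`, `i = e - e₁`). -/
theorem side1_pos (hf : Dist f) {zs : List (AA p k d)}
    (hz : ∀ z ∈ zs, z ∈ maximalIdeal (AA p k d)) (hl : t + (zs.length + 1) = d)
    (hpr : Prim (Ideal.span {f} ⊔ Ideal.span (Set.range h)) (Ideal.ofList ((p : AA p k d) :: zs)))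
    {P : Ideal (AA p k d)} (hP : P.IsPrime) (hJ : Ideal.span {f} ⊔ Ideal.span (Set.range h) ≤ P)
    (hpP : (p : AA p k d) ∉ P) {g τ κ : AA p k d} (hg : g ∉ P)
    (hτ : τ * g ∈ Ideal.span {f} ⊔ Ideal.span (Set.range h)) {k₀ : ℕ}
    (hκ : (p : AA p k d) ^ k₀ * κ ∈
      Ideal.span {f} ⊔ Ideal.span (Set.range h) ⊔ Ideal.span {g, τ})
    (hκ' : IsUnit κ ∨ ∃ zs' : List (AA p k d), (∀ z ∈ κ :: zs', z ∈ maximalIdeal (AA p k d)) ∧
      t + (zs'.length + 2) = d ∧ Prim (Ideal.span {f} ⊔ Ideal.span (Set.range h))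
        (Ideal.ofList ((p : AA p k d) :: κ :: zs'))) :
    SideOK True False f (Ideal.span {f} ⊔ Ideal.span (Set.range h))
      ((Ideal.span {f} ⊔ Ideal.span (Set.range h)).colon {g}) P ((p : AA p k d) :: zs) ![g, τ] := by
  obtain ⟨T⟩ := exists_tow hf h ![g, τ]
  obtain ⟨𝔭, h𝔭, hP𝔭, hg𝔭, r, hr⟩ := exists_curve hP hg
  have hpp : p.Prime := Fact.out
  have hz' : ∀ z ∈ (p : AA p k d) :: zs, z ∈ maximalIdeal (AA p k d) :=
    List.forall_mem_cons.2 ⟨stc_p_mem, hz⟩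
  have hcm := fun e => T.cm e _ hz' hl hpr
  have hC : ∀ e (z : T.C e), (p : T.C e) * z = 0 → z = 0 := fun e z hz0 => by
    have := Dd_mem_of_append (as := []) (y := z) (hcm e) (by simpa using hz0)
    simpa using this
  have hPm : P ≤ maximalIdeal (AA p k d) := le_maximalIdeal hP.ne_top
  have hJl : Ideal.ofList (f :: List.ofFn h) = Ideal.span {f} ⊔ Ideal.span (Set.range h) := by
    rw [Ideal.ofList_cons, dimb_ofList_ofFn]
  have hpJ : ∀ y, (p : AA p k d) * y ∈ Ideal.span {f} ⊔ Ideal.span (Set.range h) →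
      y ∈ Ideal.span {f} ⊔ Ideal.span (Set.range h) := by
    intro y hy
    rw [← hJl] at hy ⊢
    refine Dd_mem_of_append (bs := zs) ((AA_regLoc p k d).regular_of_params _ ?_ ?_ ?_) hy
    · simp only [List.length_append, List.length_cons, List.length_ofFn]
      omega
    · intro z hz1
      rcases List.mem_append.1 hz1 with h1 | h1
      · exact hPm (hJ (hJl ▸ Ideal.subset_span h1))
      · exact hz' z h1
    · rw [Ideal.ofList_append, hJl]
      exact prim_iff.1 hpr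
  have hJa : Ideal.span {f} ⊔ Ideal.span (Set.range h) ≤
      (Ideal.span {f} ⊔ Ideal.span (Set.range h)).colon {g} := fun y hy =>
    Submodule.mem_colon_singleton.2 (Ideal.mul_mem_right _ _ hy)
  have hpa : ∀ y, (p : AA p k d) * y ∈ (Ideal.span {f} ⊔ Ideal.span (Set.range h)).colon {g} →
      y ∈ (Ideal.span {f} ⊔ Ideal.span (Set.range h)).colon {g} := fun y hy =>
    Submodule.mem_colon_singleton.2 (hpJ _ (by
      have := Submodule.mem_colon_singleton.1 hy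
      rwa [smul_eq_mul, mul_assoc] at this))
  have hτa : τ ∈ (Ideal.span {f} ⊔ Ideal.span (Set.range h)).colon {g} :=
    Submodule.mem_colon_singleton.2 hτ
  intro n
  obtain ⟨E, _, αE, σ, hD, hR, hε⟩ := T.env n
  refine ⟨E, inferInstance, αE, σ, hD, hR, fun e₁ N => ?_⟩
  obtain ⟨e₂, he₂, hroot⟩ := root_closure p T.C T.ι hC T.pr (fun e => T.s e 0 * T.s e 1)
    (fun e => by rw [map_mul, T.ιs, T.ιs, mul_pow]) (e₁ + (2 * d * r + 1))
    ⟨p ^ (e₁ + (2 * d * r + 1)), by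
      rw [mul_pow, T.sp, T.sp, ← map_mul, ← map_mul]
      exact T.kill _ _ (by simpa [mul_comm] using hτ)⟩
    (N * p ^ (e₁ + (2 * d * r + 1)) + N + k₀)
  refine ⟨max n e₂, fun e he => ?_⟩
  obtain ⟨ε, hε1, hε2⟩ := hε e ((le_max_left _ _).trans he)
  have hdv := hroot e ((le_max_right _ _).trans he)
  have he₀ : e₁ + (2 * d * r + 1) ≤ e := he₂.trans ((le_max_right _ _).trans he)
  set K₀ := p ^ (e - (e₁ + (2 * d * r + 1))) with hK₀
  set T₀ := p ^ (e₁ + (2 * d * r + 1)) with hT₀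
  have hKT : K₀ * T₀ = p ^ e := by rw [hK₀, hT₀, ← pow_add, Nat.sub_add_cancel he₀]
  have hKe : p ^ (e - e₁) = K₀ * p ^ (2 * d * r + 1) := by
    rw [hK₀, ← pow_add]
    congr 1
    omega
  have hK0 : 0 < K₀ := pow_pos hpp.pos _
  have hlt : 2 * d * r + 1 < p ^ (2 * d * r + 1) := Nat.lt_pow_self hpp.one_lt
  have hsg : T.s e 0 ^ p ^ e = T.α e (ph p k d e g) := T.sp e 0
  have hsτ : T.s e 1 ^ p ^ e = T.α e (ph p k d e τ) := T.sp e 1
  obtain ⟨L, _, χ, hu, h2, h3, h4, h5⟩ := T.exists_loc hJa hpa e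
  obtain ⟨u, hu'⟩ := (hu.pow N).exists_right_inv
  have hνT : (u * χ (T.s e 1 ^ K₀)) ^ T₀ = 0 := by
    rw [mul_pow, ← map_pow, ← pow_mul, hKT, hsτ, h2 τ hτa, mul_zero]
  obtain ⟨M, _, β, i, ν', hi, hβ, hν', hfin, hgen⟩ :=
    exists_adjoin χ (fun _ : Unit => u * χ (T.s e 1 ^ K₀)) fun _ => ⟨T₀, hνT⟩
  have hM : ∀ y : M, (p : M) * y = 0 → y = 0 := fun y hy => by
    apply hi
    have := congrArg i hy
    rw [map_mul, map_natCast, map_zero] at this
    rw [map_zero]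
    exact (hu.mul_right_eq_zero).1 this
  have hν : (p : M) ^ N * ν' () = β (T.s e 1 ^ K₀) := hi (by
    rw [map_mul, map_pow, map_natCast, hν', hβ, ← mul_assoc, hu', one_mul])
  have hβ0 : ∀ y, β y = 0 ↔ χ y = 0 := fun y => by
    rw [← hβ, map_eq_zero_iff i hi]
  refine ⟨T.C e, M, inferInstance, inferInstance, T.α e, β, ε, K₀ * 2,
    ⟨hε1, T.fin e, hfin, T.kill e, hcm e, fun y hy => (hβ0 _).2 (h2 y hy), ?_,
      fun _ => ⟨hC e, hM, h5 M β i hi hβ hfin e₁ (by omega)⟩, fun h => absurd h hpP,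
      fun _ => ⟨?_, 0, ?_⟩, False.elim⟩⟩
  · rw [hKe]
    exact Nat.mul_le_mul_left _ (by omega)
  · refine Fin.forall_fin_two.2 ⟨?_, ?_⟩
    · rw [hε2, pow_mul]
      refine fac_g β (T₀ := T₀) (k₀ := k₀) (w' := T.s e 1 ^ K₀) (g := T.α e (ph p k d e g))
        (τ := T.α e (ph p k d e τ)) (κ := T.α e (ph p k d e κ)) (ν := ν' ()) (hC e) hM hν
        (hi (by rw [map_pow, hν', hνT, map_zero])) ?_ (by rwa [← mul_pow]) ?_ ?_ ?_ ?_
      · rw [← hgen, Set.range_unique (f := ν')]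
      · rw [← hsτ, ← hKT, pow_mul]
        exact dvd_pow_self _ (pow_pos hpp.pos _).ne'
      · intro y hy
        obtain ⟨κ', hκ''⟩ := h4 y ((hβ0 y).1 hy)
        have hk : ∀ z ∈ ((Ideal.span {f} ⊔ Ideal.span (Set.range h)).colon {g}).map
            ((T.α e).comp (ph p k d e)), T.α e (ph p k d e g) * z = 0 := by
          intro z hz0
          induction hz0 using Submodule.span_induction with
          | mem z hz0 =>
            obtain ⟨a, ha, rfl⟩ := hz0
            rw [RingHom.comp_apply, ← map_mul, ← map_mul]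
            exact T.kill e _ (by simpa [mul_comm] using Submodule.mem_colon_singleton.1 ha)
          | zero => simp
          | add a b _ _ ha hb => rw [mul_add, ha, hb, add_zero]
          | smul a b _ hb => rw [smul_eq_mul, mul_left_comm, hb, mul_zero]
        refine sdc_cancel (hC e) κ' _ ?_
        rw [mul_left_comm]
        exact hk _ hκ''
      · obtain ⟨a, ha, b, hb, hab⟩ := Submodule.mem_sup.1 hκ
        obtain ⟨c₁, c₂, rfl⟩ := Ideal.mem_span_pair.1 hb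
        have := congrArg (fun z => T.α e (ph p k d e z)) hab
        simp only [map_add, map_mul, map_pow, map_natCast, T.kill e a ha, zero_add] at this
        exact Ideal.mem_span_pair.2 ⟨_, _, this⟩
      · intro z hz0
        rcases hκ' with hκ' | ⟨zs', h1, h2', h3'⟩
        · exact ((hκ'.map (ph p k d e)).map (T.α e)).dvd_mul_left.1 hz0
        · have hw := T.cm e _ (List.forall_mem_cons.2 ⟨stc_p_mem, h1⟩) h2' h3'
          have := Dd_mem_of_append (as := [(T.α e).comp (ph p k d e) p]) (y := z) hw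
            (by simpa [Ideal.mem_span_singleton] using hz0)
          simpa [Ideal.mem_span_singleton] using this
    · rw [hε2, pow_mul]
      refine Fac.of_dvd ?_
      rw [map_pow β (T.s e 1 ^ K₀), ← hν, map_pow, map_natCast]
      exact (dvd_mul_right _ _).trans (dvd_pow_self _ two_ne_zero)
  · rw [hε2, map_pow, ← pow_mul]
    refine nv hf (β.comp (T.α e)) (hfin.comp (T.fin e)) (e := e) (Nat.sub_le _ _) ?_ h𝔭 hg𝔭 hr
      (fun y hy => ?_) ?_ ?_
    · rw [RingHom.comp_apply, T.kill e f (Ideal.mem_sup_left (Ideal.mem_span_singleton_self f)),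
        map_zero]
    · have := hJ (Submodule.mem_colon_singleton.1 (h3 y ((hβ0 _).1 hy)))
      exact hP𝔭 ((hP.mem_or_mem this).resolve_right hg)
    · rw [← map_pow, hsg, RingHom.comp_apply]
    · rw [hKe]
      calc K₀ * 2 * d * r = K₀ * (2 * d * r) := by ring
        _ < K₀ * p ^ (2 * d * r + 1) := Nat.mul_lt_mul_of_pos_left (by omega) hK0

end TypeI

/-! ### type II : `p ∈ J` -/

section TypeII
variable {f : AA p k d} {t : ℕ} {h : Fin t → AA p k d} {G : Type} {a : G → AA p k d}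

theorem sdd_map_le {J : Ideal (AA p k d)} (hp : (p : AA p k d) ∈ J) (e : ℕ) :
    J.map (ph p k d e) ≤ J := by
  refine Ideal.map_le_iff_le_comap.2 fun y hy => ?_
  have h1 := J.mem_of_dvd (ph_sub_pow e y) hp
  have h2 := J.pow_mem_of_mem hy _ (pow_pos (Fact.out : p.Prime).pos e)
  simpa using J.add_mem h1 h2

/-- `f :: List.ofFn h ++ zs.map φ^e` is a system of parameters of `A` (`φ^e z ≡ z^(p^e) mod p`);
`RegLoc.regular_of_params`, `isWeaklyRegular_of_ker`.  (If `J = ⊤` the quotient is trivial.) -/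
theorem quot_regular {J : Ideal (AA p k d)} (hJ : J = Ideal.span {f} ⊔ Ideal.span (Set.range h))
    (hp : (p : AA p k d) ∈ J) {zs : List (AA p k d)} (hz : ∀ z ∈ zs, z ∈ maximalIdeal (AA p k d))
    (hl : t + zs.length = d) (hpr : Prim J (Ideal.ofList zs)) (e : ℕ) :
    IsWeaklyRegular (AA p k d ⧸ J) (zs.map ((Ideal.Quotient.mk J).comp (ph p k d e))) := by
  by_cases hT : J = ⊤
  · have : Subsingleton (AA p k d ⧸ J) := Ideal.Quotient.subsingleton_iff.2 hT
    refine (isWeaklyRegular_iff_ideal _).2 fun i y _ => ?_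
    rw [Subsingleton.elim y 0]
    exact zero_mem _
  have hm : J ≤ maximalIdeal (AA p k d) := le_maximalIdeal hT
  have e1 : Ideal.ofList (f :: List.ofFn h) = J := by
    rw [Ideal.ofList_cons, dimb_ofList_ofFn, hJ]
  have h1 := (hpr.ph e).mono (sdd_map_le hp e) (Ideal.map_ofList _ _).le
  have h2 := (AA_regLoc p k d).regular_of_params ((f :: List.ofFn h) ++ zs.map (ph p k d e))
    (by simp; omega) (fun y hy => by
      rcases List.mem_append.1 hy with hy | hy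
      · exact hm (e1 ▸ Ideal.subset_span hy)
      · obtain ⟨z, hz', rfl⟩ := List.mem_map.1 hy
        exact ph_max e (hz z hz'))
    (by rw [Ideal.ofList_append, e1]; exact prim_iff.1 h1)
  have h3 := isWeaklyRegular_of_ker (Ideal.Quotient.mk J) Ideal.Quotient.mk_surjective _ _
    (Ideal.mk_ker.trans e1.symm) h2
  rwa [List.map_map] at h3

theorem sdd_lvl {pos van : Prop} {J : Ideal (AA p k d)}
    (hJ : J = Ideal.span {f} ⊔ Ideal.span (Set.range h)) (hp : (p : AA p k d) ∈ J)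
    {zs : List (AA p k d)} (hz : ∀ z ∈ zs, z ∈ maximalIdeal (AA p k d)) (hl : t + zs.length = d)
    (hpr : Prim J (Ideal.ofList zs)) {𝔞 P : Ideal (AA p k d)} (hP : P.IsPrime) (h1 : J ≤ 𝔞)
    (h2 : 𝔞 ≤ P) {e₁ N e K : ℕ} (hK : K ≤ p ^ (e - e₁))
    (hpos : pos → (∀ γ, Fac ((p : AA p k d ⧸ J) ^ N) (Ideal.Quotient.factor h1)
      (Ideal.Quotient.mk J (a γ) ^ K)) ∧ ∃ γ, (a γ ^ K) ^ d ∉
        (maximalIdeal (AA p k d)).map (ph p k d (e - e₁)) ⊔ 𝔞)
    (hvan : van → ∀ γ, a γ ^ K ∈ 𝔞) :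
    Lvl pos van J 𝔞 P zs (Ideal.Quotient.mk J) (fun γ => Ideal.Quotient.mk J (a γ)) e₁ N e
      (Ideal.Quotient.mk J) (Ideal.Quotient.factor h1) (RingHom.id _) K where
  comm _ := rfl
  fin := RingHom.Finite.of_surjective _ Ideal.Quotient.mk_surjective
  fin' := RingHom.Finite.of_surjective _ (Ideal.Quotient.factor_surjective h1)
  kill y hy := Ideal.Quotient.eq_zero_iff_mem.2 (sdd_map_le hp e (Ideal.mem_map_of_mem _ hy))
  reg := quot_regular hJ hp hz hl hpr e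
  killa y hy := Ideal.Quotient.eq_zero_iff_mem.2 (sdd_map_le (h1 hp) e (Ideal.mem_map_of_mem _ hy))
  hK := hK
  t1 h := (h (h2 (h1 hp))).elim
  t2 h := by
    refine ⟨by rw [← map_natCast (Ideal.Quotient.mk J)]; exact Ideal.Quotient.eq_zero_iff_mem.2 hp,
      fun y hy => ?_⟩
    have h3 : ph p k d (e - e₁) y ∈ P := h2 (Ideal.Quotient.eq_zero_iff_mem.1 hy)
    have h4 := P.sub_mem h3 (P.mem_of_dvd (ph_sub_pow (e - e₁) y) h)
    rw [sub_sub_cancel] at h4
    exact hP.mem_of_pow_mem _ h4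
  hpos h := by
    obtain ⟨h3, γ, h4⟩ := hpos h
    refine ⟨h3, γ, fun h5 => h4 ?_⟩
    rw [Ideal.Quotient.factor_comp_mk, ← Ideal.map_map] at h5
    have h6 : Ideal.Quotient.mk 𝔞 ((a γ ^ K) ^ d) ∈
        ((maximalIdeal (AA p k d)).map (ph p k d (e - e₁))).map (Ideal.Quotient.mk 𝔞) := by
      simpa using h5
    rwa [← Ideal.mem_comap, Ideal.comap_map_of_surjective _ Ideal.Quotient.mk_surjective,
      ← RingHom.ker_eq_comap_bot, Ideal.mk_ker] at h6
  hvan h γ := by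
    have h3 : Ideal.Quotient.mk 𝔞 (a γ ^ K) = 0 := Ideal.Quotient.eq_zero_iff_mem.2 (hvan h γ)
    have h4 : Ideal.Quotient.factor h1 (RingHom.id _ (Ideal.Quotient.mk J (a γ)) ^ K) = 0 := by
      simpa using h3
    rw [h4]
    exact dvd_zero _

/-- TYPE II, vanishing.  `E = C = A/J`, `M = A/𝔞` (`Ideal.Quotient.factor`), `σ γ = mk (a γ)`, `ε = id`,
`K = 1`; `Deep.of_ker`, `Root.self`, `map_ph`. -/
theorem side2_van (hf : Dist f) {J : Ideal (AA p k d)}
    (hJ : J = Ideal.span {f} ⊔ Ideal.span (Set.range h)) (hp : (p : AA p k d) ∈ J)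
    {zs : List (AA p k d)} (hz : ∀ z ∈ zs, z ∈ maximalIdeal (AA p k d)) (hl : t + zs.length = d)
    (hpr : Prim J (Ideal.ofList zs)) {𝔞 P : Ideal (AA p k d)} (hP : P.IsPrime) (h1 : J ≤ 𝔞)
    (h2 : 𝔞 ≤ P) (ha : ∀ γ, a γ ∈ 𝔞) : SideOK False True f J 𝔞 P zs a := by
  have h0 : Ideal.Quotient.mk J f = 0 :=
    Ideal.Quotient.eq_zero_iff_mem.2 (hJ ▸ Ideal.mem_sup_left (Ideal.mem_span_singleton_self f))
  refine fun n => ⟨_, _, Ideal.Quotient.mk J, fun γ => Ideal.Quotient.mk J (a γ),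
    Deep.of_ker hf h0 fun y hy => Ideal.Quotient.eq_zero_iff_mem.2 hy, fun γ => Root.self hf h0 _,
    fun e₁ N => ⟨0, fun e _ => ⟨_, _, _, _, _, _, _, 1, sdd_lvl hJ hp hz hl hpr hP h1 h2
      (pow_pos (Fact.out : p.Prime).pos _) False.elim fun _ γ => ?_⟩⟩⟩
  rw [pow_one]
  exact ha γ

/-- TYPE II, positivity.  As above with `𝔞 = (J : g)`, `K = 2`; `Fac.of_ker`, `Fac.of_dvd`.
`g^(2d) ∉ P`, so `g^(2d) ∉ P + 𝔪^Q` for some `Q` (`R183.fb_krull`); `φ^i 𝔪 ≤ (p) + 𝔪^(p^i)`;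
`e₂ = e₁ + Q + 1`. -/
theorem side2_pos (hf : Dist f) {J : Ideal (AA p k d)}
    (hJ : J = Ideal.span {f} ⊔ Ideal.span (Set.range h)) (hp : (p : AA p k d) ∈ J)
    {zs : List (AA p k d)} (hz : ∀ z ∈ zs, z ∈ maximalIdeal (AA p k d)) (hl : t + zs.length = d)
    (hpr : Prim J (Ideal.ofList zs)) {P : Ideal (AA p k d)} (hP : P.IsPrime) (h1 : J ≤ P)
    {g τ : AA p k d} (hg : g ∉ P) (hτ : τ * g ∈ J) :
    SideOK True False f J (J.colon {g}) P zs ![g, τ] := by
  have h0 : Ideal.Quotient.mk J f = 0 :=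
    Ideal.Quotient.eq_zero_iff_mem.2 (hJ ▸ Ideal.mem_sup_left (Ideal.mem_span_singleton_self f))
  have hc : ∀ y, y ∈ J.colon {g} ↔ y * g ∈ J := fun y => Submodule.mem_colon_singleton
  have h2 : J ≤ J.colon {g} := fun y hy => (hc y).2 (J.mul_mem_right _ hy)
  have h3 : J.colon {g} ≤ P := fun y hy => (hP.mem_or_mem (h1 ((hc y).1 hy))).resolve_right hg
  obtain ⟨Q, hQ⟩ : ∃ Q, (g ^ 2) ^ d ∉ P ⊔ maximalIdeal (AA p k d) ^ Q := by
    by_contra h4
    push Not at h4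
    have h5 := fb_krull (maximalIdeal (AA p k d)) (maximalIdeal_le_jacobson _) P ((g ^ 2) ^ d)
      (by simpa using h4)
    exact hg (hP.mem_of_pow_mem _ (hP.mem_of_pow_mem _ h5))
  refine fun n => ⟨_, _, Ideal.Quotient.mk J, fun γ => Ideal.Quotient.mk J (![g, τ] γ),
    Deep.of_ker hf h0 fun y hy => Ideal.Quotient.eq_zero_iff_mem.2 hy, fun γ => Root.self hf h0 _,
    fun e₁ N => ⟨e₁ + Q + 1, fun e he => ?_⟩⟩
  have h4 : e - e₁ < p ^ (e - e₁) := Nat.lt_pow_self (Fact.out : p.Prime).one_lt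
  refine ⟨_, _, _, _, _, _, _, 2, sdd_lvl hJ hp hz hl hpr hP h2 h3 (by omega)
    (fun _ => ⟨fun γ => ?_, 0, fun h5 => hQ ?_⟩) False.elim⟩
  · fin_cases γ
    · refine Fac.of_ker (fun m => Ideal.Quotient.factor_surjective h2 _) fun y hy => ?_
      obtain ⟨y, rfl⟩ := Ideal.Quotient.mk_surjective y
      have h5 : Ideal.Quotient.mk J (g * y) = 0 := Ideal.Quotient.eq_zero_iff_mem.2
        (mul_comm y g ▸ (hc y).1 (Ideal.Quotient.eq_zero_iff_mem.1 hy))
      exact (dvd_zero _).trans (dvd_of_eq h5.symm)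
    · refine Fac.of_dvd ?_
      have h5 : Ideal.Quotient.factor h2 (Ideal.Quotient.mk J τ) = 0 :=
        Ideal.Quotient.eq_zero_iff_mem.2 ((hc τ).2 hτ)
      change _ ∣ Ideal.Quotient.factor h2 (Ideal.Quotient.mk J τ ^ 2)
      rw [map_pow _ _ 2, h5, zero_pow two_ne_zero]
      exact dvd_zero _
  · refine sup_le (Ideal.map_le_iff_le_comap.2 fun y hy => ?_) (h3.trans le_sup_left) h5
    have h6 := P.mem_of_dvd (ph_sub_pow (e - e₁) y) (h1 hp)
    have h7 := Ideal.pow_le_pow_right (show Q ≤ p ^ (e - e₁) by omega) (Ideal.pow_mem_pow hy _)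
    simpa using add_mem (Ideal.mem_sup_left h6) (Ideal.mem_sup_right h7)

end TypeII

end Crest.Agent.R188
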