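import Crest.Agent.R188.Core
import Crest.Agent.R188.Sides

/-! # R188 / Asm : selection of the complete intersections, assembly, comparison. -/

set_option autoImplicit false
open IsLocalRing RingTheory.Sequence Crest.Agent.R183 MvPowerSeries

namespace Crest.Agent.R188

variable {p : ℕ} [Fact p.Prime] {k : Type} [Field k] [IsAlgClosed k] [CharP k p] {d : ℕ}

/-! ### selection -/

/-- `(f, h)` is a complete intersection inside `P` with parameters `zs` -/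
structure CI (f : AA p k d) (P : Ideal (AA p k d)) {t : ℕ} (h : Fin t → AA p k d)
    (zs : List (AA p k d)) : Prop where
  le : Ideal.span {f} ⊔ Ideal.span (Set.range h) ≤ P
  max : ∀ z ∈ zs, z ∈ maximalIdeal (AA p k d)
  len : t + zs.length = d
  prim : Prim (Ideal.span {f} ⊔ Ideal.span (Set.range h)) (Ideal.ofList zs)
  t1 : (p : AA p k d) ∉ P → ∃ zs', zs = (p : AA p k d) :: zs'
  t2 : (p : AA p k d) ∈ P → (p : AA p k d) ∈ Ideal.span {f} ⊔ Ideal.span (Set.range h)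

/-- `h₁ ⊆ P` by `exists_avoid_fam` (`t = b`) for the ideals `Q` (`n = 1`) and `(f, p)` (`n = t`; `Std.dl`,
`Dl (P + p) a` by `Dl.of_prime_lt`); so `Dl J₁ (t + 1)` (`Dl.of_sup_list`).  If `p ∉ Q`: `h₂ ⊆ Q` for
`J₁` (`n = 1`) and `(f, p)` (`n = b`).  If `p ∈ Q`: `t = t' + 1`, `h₂ = Fin.cons p h₂'` with `h₂' ⊆ Q` for
`J₁ + p` (`n = 1`) and `(f, p)` (`n = b + 1`).  `exists_params` for the `zs`. -/
theorem exists_ci {f : AA p k d} (hf : Std f) {P Q : Ideal (AA p k d)} (hP : P.IsPrime)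
    (hQ : Q.IsPrime) (hfP : f ∈ P) (hfQ : f ∈ Q) (hPQ : Prim P Q) {a b t : ℕ} (ha : Dl P (a + 1))
    (hb : Dl Q (b + 1)) (hp : (p : AA p k d) ∉ P) (h1 : 1 ≤ a) (h2 : 1 ≤ b) (ht : b + t = d)
    (hat : a ≤ t) : ∃ (h₁ : Fin b → AA p k d) (h₂ : Fin t → AA p k d) (zs₁ zs₂ : List (AA p k d)),
      CI f P h₁ zs₁ ∧ CI f Q h₂ zs₂ ∧ Prim (Ideal.span {f} ⊔ Ideal.span (Set.range h₁))
        (Ideal.span {f} ⊔ Ideal.span (Set.range h₂)) := by
  have hlt : ∀ {N : Ideal (AA p k d)}, (p : AA p k d) ∉ N →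
      N < Ideal.span {f} ⊔ Ideal.span {(p : AA p k d)} ⊔ N := fun {N} hN =>
    lt_of_le_of_ne le_sup_right fun he => hN (he ▸
      Ideal.mem_sup_left (Ideal.mem_sup_right (Ideal.mem_span_singleton_self _)))
  have hle : ∀ {N : Ideal (AA p k d)} {m : ℕ} {y : Fin m → AA p k d}, f ∈ N → (∀ j, y j ∈ N) →
      Ideal.span {f} ⊔ Ideal.span (Set.range y) ≤ N := fun {N m y} h1 h2 =>
    sup_le ((Ideal.span_singleton_le_iff_mem _).2 h1) (Ideal.span_le.2 (Set.range_subset_iff.2 h2))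
  -- type I selection
  have sel : ∀ {N : Ideal (AA p k d)} {m n : ℕ} {y : Fin m → AA p k d}, f ∈ N → (∀ j, y j ∈ N) →
      (p : AA p k d) ∉ N → m + (n + 1) = d →
      Dl (Ideal.span {f} ⊔ Ideal.span {(p : AA p k d)} ⊔ Ideal.span (Set.range y)) (n + 1) →
      ∃ zs, CI f N y zs := fun {N m n y} hfN hy hpN hl hd => by
    obtain ⟨zs, z1, z2, z3⟩ := exists_params hd
    refine ⟨(p : AA p k d) :: zs, hle hfN hy, ?_, by rw [List.length_cons, z1, hl], ?_,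
      fun _ => ⟨zs, rfl⟩, fun h => absurd h hpN⟩
    · intro z hz
      rcases List.mem_cons.1 hz with rfl | hz
      exacts [stc_p_mem, z2 z hz]
    · refine prim_iff.2 (z3.mono (le_of_eq ?_) le_rfl)
      rw [Ideal.ofList_cons]
      ac_rfl
  obtain ⟨t, rfl⟩ : ∃ t', t = t' + 1 := ⟨t - 1, by omega⟩
  obtain ⟨h₁, m₁, d₁⟩ := exists_avoid_fam P b
    (fun i : Bool => cond i Q (Ideal.span {f} ⊔ Ideal.span {(p : AA p k d)})) (fun i => cond i 1 (t + 1))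
    (by
      rintro (_ | _)
      · exact hf.dl.mono le_rfl (by simp only [cond_false]; omega)
      · exact hb.mono le_rfl (by simp only [cond_true]; omega))
    (by
      rintro (_ | _)
      · exact (ha.of_prime_lt hP (hlt hp)).mono le_rfl hat
      · exact prim_iff.1 hPQ.symm)
  have dQ : Dl (Q ⊔ Ideal.span (Set.range h₁)) 1 := d₁ true
  have dp : Dl (Ideal.span {f} ⊔ Ideal.span {(p : AA p k d)} ⊔ Ideal.span (Set.range h₁)) (t + 1) := d₁ false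
  obtain ⟨zs₁, c₁⟩ := sel hfP m₁ hp ht dp
  have dp' : Dl (Ideal.span {f} ⊔ Ideal.span (Set.range h₁) ⊔ Ideal.span {(p : AA p k d)}) (t + 1) :=
    dp.mono (le_of_eq (sup_right_comm _ _ _)) le_rfl
  by_cases hq : (p : AA p k d) ∈ Q
  · obtain ⟨h₂, m₂, d₂⟩ := exists_avoid_fam Q t
      (fun i : Bool => cond i (Ideal.span {f} ⊔ Ideal.span (Set.range h₁) ⊔ Ideal.span {(p : AA p k d)})
        (Ideal.span {f} ⊔ Ideal.span {(p : AA p k d)})) (fun i => cond i 1 (b + 1))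
      (by
        rintro (_ | _)
        · exact hf.dl.mono le_rfl (by simp only [cond_false]; omega)
        · exact dp'.mono le_rfl (by simp only [cond_true]; omega))
      (by
        rintro (_ | _)
        · exact hb.mono le_sup_right le_rfl
        · exact dQ.mono (sup_le le_sup_right (le_sup_of_le_left (le_sup_of_le_left le_sup_right))) le_rfl)
    have e₂ : Ideal.span (Set.range (Fin.cons (p : AA p k d) h₂ : Fin (t + 1) → AA p k d)) =
        Ideal.span {(p : AA p k d)} ⊔ Ideal.span (Set.range h₂) := by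
      rw [Fin.range_cons, Ideal.span_insert]
    have d1 : Dl (Ideal.span {f} ⊔ Ideal.span (Set.range h₁) ⊔ Ideal.span {(p : AA p k d)} ⊔
      Ideal.span (Set.range h₂)) 1 := d₂ true
    have d2 : Dl (Ideal.span {f} ⊔ Ideal.span {(p : AA p k d)} ⊔ Ideal.span (Set.range h₂)) (b + 1) := d₂ false
    obtain ⟨zs₂, z1, z2, z3⟩ := exists_params d2
    refine ⟨h₁, Fin.cons (p : AA p k d) h₂, zs₁, zs₂, c₁,
      ⟨hle hfQ (Fin.cases hq m₂), z2, by omega, ?_, fun h => absurd hq h, fun _ => ?_⟩, ?_⟩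
    · rw [e₂, ← sup_assoc]
      exact prim_iff.2 z3
    · rw [e₂]
      exact Ideal.mem_sup_right (Ideal.mem_sup_left (Ideal.mem_span_singleton_self _))
    · rw [e₂]
      refine prim_iff.2 (d1.mono ?_ le_rfl)
      rw [sup_assoc]
      exact sup_le_sup_left le_sup_right _
  · have dJ : Dl (Ideal.span {f} ⊔ Ideal.span (Set.range h₁)) (t + 1 + 1) :=
      Dl.of_sup_list [(p : AA p k d)] (fun z hz => by rw [List.mem_singleton.1 hz]; exact stc_p_mem)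
        (by rw [Ideal.ofList_singleton]; exact dp')
    obtain ⟨h₂, m₂, d₂⟩ := exists_avoid_fam Q (t + 1)
      (fun i : Bool => cond i (Ideal.span {f} ⊔ Ideal.span (Set.range h₁))
        (Ideal.span {f} ⊔ Ideal.span {(p : AA p k d)})) (fun i => cond i 1 b)
      (by
        rintro (_ | _)
        · exact hf.dl.mono le_rfl (by simp only [cond_false]; omega)
        · exact dJ.mono le_rfl (by simp only [cond_true]; omega))
      (by
        rintro (_ | _)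
        · exact hb.of_prime_lt hQ (hlt hq)
        · exact dQ.mono (sup_le le_sup_right (le_sup_of_le_left le_sup_right)) le_rfl)
    obtain ⟨b, rfl⟩ : ∃ b', b = b' + 1 := ⟨b - 1, by omega⟩
    have d1 : Dl (Ideal.span {f} ⊔ Ideal.span (Set.range h₁) ⊔ Ideal.span (Set.range h₂)) 1 := d₂ true
    obtain ⟨zs₂, c₂⟩ := sel (n := b) hfQ m₂ hq (by omega) (d₂ false)
    exact ⟨h₁, h₂, zs₁, zs₂, c₁, c₂, prim_iff.2 (d1.mono (sup_le_sup_left le_sup_right _) le_rfl)⟩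

/-- one side, ready for the assembly -/
structure SD (pos van : Prop) (f : AA p k d) (P J 𝔞 : Ideal (AA p k d)) (zs : List (AA p k d))
    {G : Type} (a : G → AA p k d) : Prop where
  fJ : f ∈ J
  Ja : J ≤ 𝔞
  aP : 𝔞 ≤ P
  Pa : ∃ κ, P ^ κ ≤ 𝔞
  max : ∀ z ∈ zs, z ∈ maximalIdeal (AA p k d)
  prim : Prim J (Ideal.ofList zs)
  pz : (p : AA p k d) ∈ J ⊔ Ideal.ofList zs
  ok : SideOK pos van f J 𝔞 P zs a

section
variable {f : AA p k d} {P : Ideal (AA p k d)} {t : ℕ} {h : Fin t → AA p k d} {zs : List (AA p k d)}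

theorem CI.dl (H : CI f P h zs) :
    Dl (Ideal.span {f} ⊔ Ideal.span (Set.range h)) (zs.length + 1) := by
  rw [add_comm]
  exact Dl.of_sup_list zs H.max (prim_iff.1 H.prim)

theorem CI.asa_pz (H : CI f P h zs) :
    (p : AA p k d) ∈ Ideal.span {f} ⊔ Ideal.span (Set.range h) ⊔ Ideal.ofList zs := by
  by_cases hp : (p : AA p k d) ∈ P
  · exact Ideal.mem_sup_left (H.t2 hp)
  · obtain ⟨zs', rfl⟩ := H.t1 hp
    exact Ideal.mem_sup_right (Ideal.subset_span List.mem_cons_self)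

/-- `side1_van`, `side2_van` with `𝔞 = P` -/
theorem CI.van (H : CI f P h zs) (hf : Dist f) (hP : P.IsPrime) {G : Type} [Fintype G]
    {a : G → AA p k d} (ha : ∀ γ, a γ ∈ P) :
    SD False True f P (Ideal.span {f} ⊔ Ideal.span (Set.range h)) P zs a := by
  refine ⟨Ideal.mem_sup_left (Ideal.mem_span_singleton_self _), H.le, le_rfl, ⟨1, (pow_one P).le⟩, H.max,
    H.prim, H.asa_pz, ?_⟩
  by_cases hp : (p : AA p k d) ∈ P
  · exact side2_van hf rfl (H.t2 hp) H.max H.len H.prim hP H.le le_rfl ha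
  · obtain ⟨zs', rfl⟩ := H.t1 hp
    exact side1_van hf (fun z hz => H.max z (List.mem_cons_of_mem _ hz)) H.len H.prim H.le
      (fun y hy => (hP.mem_or_mem hy).resolve_left hp) ha hp

/-- `n = zs.length`.  `exists_conductor` gives `g`; `𝔞 = (J : g)`; `τ ∈ 𝔞` with `Dl (J + g + τ) n` by
`exists_avoid` (`(P + g)^κ' ≤ 𝔞 + g`, `Dl.of_prime_lt`).  If `p ∉ P` (`n = n' + 1`): `exists_sat` for
`J + (g, τ)` and `p` gives `𝔟`, `k₀`; `Dl (𝔟 + p) n'` (`Dl.sup_regular`); `κ ∈ 𝔟` with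
`Dl (J + p + κ) n'` (`exists_avoid`); if `κ` is not a unit then `n' ≥ 1` (`dl_zero_iff`) and
`exists_params`; `side1_pos`.  If `p ∈ P`: `side2_pos`. -/
theorem CI.pos (H : CI f P h zs) (hf : Dist f) (hP : P.IsPrime) (hd : ¬ Dl P zs.length) :
    ∃ (𝔞 : Ideal (AA p k d)) (a : Fin 2 → AA p k d),
      SD True False f P (Ideal.span {f} ⊔ Ideal.span (Set.range h)) 𝔞 zs a ∧
      Dl (Ideal.span {f} ⊔ Ideal.span (Set.range h) ⊔ Ideal.span (Set.range a)) zs.length := by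
  obtain ⟨g, hg, κ₀, hκ₀⟩ := exists_conductor hP H.le H.dl hd
  have hPa : P ^ κ₀ ≤ (Ideal.span {f} ⊔ Ideal.span (Set.range h)).colon {g} := fun y hy => by
    rw [Submodule.mem_colon_singleton, smul_eq_mul, mul_comm]
    exact hκ₀ y hy
  have hPg : Dl (P ⊔ Ideal.span {g}) zs.length :=
    (H.dl.mono H.le le_rfl).of_prime_lt hP (lt_of_le_of_ne le_sup_left fun he => hg (he ▸
      Ideal.mem_sup_right (Ideal.mem_span_singleton_self _)))
  obtain ⟨τ, hτ, dτ⟩ := exists_avoid ((Ideal.span {f} ⊔ Ideal.span (Set.range h)).colon {g}) (ι := Unit)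
    (fun _ => Ideal.span {f} ⊔ Ideal.span (Set.range h) ⊔ Ideal.span {g}) (fun _ => zs.length)
    (fun _ => H.dl.mono le_sup_left le_rfl)
    (fun _ => hPg.of_pow_le (κ := κ₀ + 1) (Ideal.sup_pow_add_le_pow_sup_pow.trans (sup_le
      (le_sup_of_le_right hPa) (le_sup_of_le_left (le_sup_of_le_right (pow_one _).le)))))
  rw [Submodule.mem_colon_singleton, smul_eq_mul] at hτ
  have dτ' : Dl (Ideal.span {f} ⊔ Ideal.span (Set.range h) ⊔ Ideal.span {g, τ}) zs.length := by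
    rw [Ideal.span_insert, ← sup_assoc]
    exact dτ ()
  refine ⟨(Ideal.span {f} ⊔ Ideal.span (Set.range h)).colon {g}, ![g, τ],
    ⟨Ideal.mem_sup_left (Ideal.mem_span_singleton_self _), fun y hy => ?_, fun y hy => ?_, ⟨κ₀, hPa⟩, H.max,
      H.prim, H.asa_pz, ?_⟩, ?_⟩
  · rw [Submodule.mem_colon_singleton, smul_eq_mul]
    exact Ideal.mul_mem_right _ _ hy
  · rw [Submodule.mem_colon_singleton, smul_eq_mul] at hy
    exact (hP.mem_or_mem (H.le hy)).resolve_right hg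
  · by_cases hp : (p : AA p k d) ∈ P
    · exact side2_pos hf rfl (H.t2 hp) H.max H.len H.prim hP H.le hg hτ
    · obtain ⟨zs', rfl⟩ := H.t1 hp
      have hz : ∀ z ∈ zs', z ∈ maximalIdeal (AA p k d) := fun z hz => H.max z (List.mem_cons_of_mem _ hz)
      have hl : t + (zs'.length + 1) = d := H.len
      obtain ⟨k₀, 𝔟, b1, b2, b3⟩ :=
        exists_sat (Ideal.span {f} ⊔ Ideal.span (Set.range h) ⊔ Ideal.span {g, τ}) (p : AA p k d)
      have d1 : Dl (𝔟 ⊔ Ideal.span {(p : AA p k d)}) zs'.length := Dl.sup_regular (dτ'.mono b1 le_rfl) b3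
      have d2 : Dl (Ideal.span {f} ⊔ Ideal.span (Set.range h) ⊔ Ideal.span {(p : AA p k d)})
          (zs'.length + 1) := by
        rw [add_comm]
        refine Dl.of_sup_list zs' hz ?_
        rw [sup_assoc, ← Ideal.ofList_cons]
        exact prim_iff.1 H.prim
      obtain ⟨κ, hκ, dκ⟩ := exists_avoid 𝔟 (ι := Unit)
        (fun _ => Ideal.span {f} ⊔ Ideal.span (Set.range h) ⊔ Ideal.span {(p : AA p k d)}) (fun _ => zs'.length)
        (fun _ => d2) (fun _ => d1.mono (sup_le le_sup_right (le_sup_of_le_left le_sup_right)) le_rfl)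
      refine side1_pos hf hz hl H.prim hP H.le hp hg hτ (b2 κ hκ) ?_
      by_cases hu : IsUnit κ
      · exact .inl hu
      · have hκm : κ ∈ maximalIdeal (AA p k d) := hu
        have d3 : Dl (Ideal.span {f} ⊔ Ideal.span (Set.range h) ⊔ Ideal.span {(p : AA p k d)} ⊔
          Ideal.span {κ}) zs'.length := dκ ()
        obtain ⟨n, hn⟩ : ∃ n, zs'.length = n + 1 := by
          refine Nat.exists_eq_succ_of_ne_zero fun h0 => ?_
          rw [h0, dl_zero_iff] at d3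
          refine (maximalIdeal.isMaximal (AA p k d)).ne_top (top_le_iff.1 (d3.ge.trans ?_))
          exact sup_le (sup_le (H.le.trans (le_maximalIdeal hP.ne_top))
            ((Ideal.span_singleton_le_iff_mem _).2 stc_p_mem)) ((Ideal.span_singleton_le_iff_mem _).2 hκm)
        rw [hn] at d3
        obtain ⟨ys, y1, y2, y3⟩ := exists_params d3
        refine .inr ⟨ys, fun z hz => ?_, by omega, prim_iff.2 ?_⟩
        · rcases List.mem_cons.1 hz with rfl | hz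
          exacts [hκm, y2 z hz]
        · rw [Ideal.ofList_cons, Ideal.ofList_cons, ← sup_assoc, ← sup_assoc]
          exact y3
  · rw [Matrix.range_cons_cons_empty]
    exact dτ'

end

/-! ### assembly -/

/-- comparison data -/
structure Cm {R M : Type} [CommRing R] [CommRing M] (π : AA p k d →+* R) (𝔞 P : Ideal (AA p k d))
    (μ : R →+* M) : Prop where
  fin : μ.Finite
  kill : ∀ y ∈ 𝔞, μ (π y) = 0
  t1 : (p : AA p k d) ∉ P → CmpI (μ.comp π) 𝔞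
  t2 : (p : AA p k d) ∈ P → RingHom.ker (μ.comp π) ≤ P

/-- general position at level `e₁`: `box_dl` (`P = p`, `WW_max`), `box_prim`, `Prim.ph`, `ph_max`,
`exists_gamma`, `exists_c`, `dl_one_iff` -/
theorem exists_gp {d' : ℕ} {J₁ J₂ : Ideal (AA p k (d' + 1))} {zs₁ zs₂ : List (AA p k (d' + 1))}
    (h1 : ∀ z ∈ zs₁, z ∈ maximalIdeal (AA p k (d' + 1)))
    (h2 : ∀ z ∈ zs₂, z ∈ maximalIdeal (AA p k (d' + 1)))
    (p1 : Prim J₁ (Ideal.ofList ((p : AA p k (d' + 1)) :: zs₁))) (p2 : Prim J₂ (Ideal.ofList zs₂))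
    (hl : zs₁.length + zs₂.length = d') (hJ : Prim J₁ J₂) (e₁ : ℕ) :
    ∃ Γ : Matrix (Fin (d' + 1)) (Fin (d' + 1)) (WW p k), IsUnit Γ.det ∧
      ∀ Θ : MvPolynomial (Fin d') k, Θ ≠ 0 → ∃ (c : Fin d' → WW p k) (Lp : ℕ),
        MvPolynomial.eval (fun i => (c i).coeff 0) Θ ≠ 0 ∧ 1 ≤ Lp ∧
        maximalIdeal (PS (d' + 1) (AA p k (d' + 1))) ^ Lp ≤
          box (J₁.map (ph p k (d' + 1) e₁)) (J₂.map (ph p k (d' + 1) e₁)) ⊔ uI Γ c := by
  have h3 := box_dl (J₁ := J₁.map (ph p k (d' + 1) e₁)) (J₂ := J₂.map (ph p k (d' + 1) e₁))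
    (WW_max p k) (zs₁ := zs₁.map (ph p k (d' + 1) e₁)) (zs₂ := zs₂.map (ph p k (d' + 1) e₁))
    (fun z hz => by
      obtain ⟨z, hz', rfl⟩ := List.mem_map.1 hz
      exact ph_max e₁ (h1 z hz'))
    (fun z hz => by
      obtain ⟨z, hz', rfl⟩ := List.mem_map.1 hz
      exact ph_max e₁ (h2 z hz'))
    (by simpa only [Ideal.map_ofList, List.map_cons, map_natCast] using p1.ph e₁)
    (by simpa only [Ideal.map_ofList] using p2.ph e₁)
  obtain ⟨Γ, hΓ, h4⟩ := exists_gamma ((C : AA p k (d' + 1) →+* PS (d' + 1) (AA p k (d' + 1))).comp C)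
    (fun l => C (X l)) X _ (h3.mono le_rfl (by simp; omega)) (box_prim (hJ.ph e₁))
  refine ⟨Γ, hΓ, fun Θ hΘ => ?_⟩
  obtain ⟨c, hc, h5⟩ := exists_c _ _ _ _ h4 hΘ
  obtain ⟨L, hL⟩ := dl_one_iff.1 h5
  exact ⟨c, L + 1, hc, by omega, (Ideal.pow_le_pow_right L.le_succ).trans hL⟩

section Lvl
variable {pos van : Prop} {J 𝔞 P : Ideal (AA p k d)} {zs : List (AA p k d)} {G E : Type}
  [CommRing E] {αE : AA p k d →+* E} {σ : G → E} {e₁ N e : ℕ} {C M : Type} [CommRing C]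
  [CommRing M] {α : AA p k d →+* C} {β : C →+* M} {ε : E →+* C} {K : ℕ}

/-- `ph_add`, `ph_finite`, `Prim.ph` -/
theorem Lvl.cov (H : Lvl pos van J 𝔞 P zs αE σ e₁ N e α β ε K) (he : e₁ ≤ e)
    (hz : ∀ z ∈ zs, z ∈ maximalIdeal (AA p k d)) (hp : Prim J (Ideal.ofList zs)) :
    Cov (J.map (ph p k d e₁)) (zs.map (ph p k d e₁)) (α.comp (ph p k d (e - e₁))) β := by
  have e1 : ∀ y, ph p k d (e - e₁) (ph p k d e₁ y) = ph p k d e y := fun y => by
    rw [← ph_add, Nat.sub_add_cancel he]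
  refine ⟨H.fin.comp (ph_finite _), H.fin', fun y hy => ?_, fun z hz' => ?_, ?_, ?_⟩
  · refine (Ideal.map_le_iff_le_comap.2 fun y hy => ?_ : _ ≤ RingHom.ker _) hy
    change α (ph p k d (e - e₁) (ph p k d e₁ y)) = 0
    rw [e1]
    exact H.kill y hy
  · obtain ⟨z, h1, rfl⟩ := List.mem_map.1 hz'
    exact ph_max e₁ (hz z h1)
  · have e2 : ⇑(α.comp (ph p k d (e - e₁))) ∘ ph p k d e₁ = α.comp (ph p k d e) :=
      funext fun y => congrArg α (e1 y)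
    rw [List.map_map, e2]
    exact H.reg
  · simpa only [Ideal.map_ofList] using hp.ph e₁

/-- `Pres.lift` -/
theorem Lvl.cm (H : Lvl pos van J 𝔞 P zs αE σ e₁ N e α β ε K) (he : e₁ ≤ e) {f : AA p k d}
    (hf : f ∈ J) {R : Type} [CommRing R] {π : AA p k d →+* R} (hπ : Pres (ph p k d e₁ f) π) :
    ∃ μ : R →+* M, (∀ y, μ (π y) = β (α (ph p k d (e - e₁) y))) ∧
      Cm π (𝔞.map (ph p k d e₁)) P μ := by
  have e1 : ∀ y, ph p k d (e - e₁) (ph p k d e₁ y) = ph p k d e y := fun y => by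
    rw [← ph_add, Nat.sub_add_cancel he]
  obtain ⟨μ, hμ⟩ := hπ.lift ((β.comp α).comp (ph p k d (e - e₁))) (by
    change β (α (ph p k d (e - e₁) (ph p k d e₁ f))) = 0
    rw [e1, H.kill f hf, map_zero])
  have e2 : μ.comp π = (β.comp α).comp (ph p k d (e - e₁)) := RingHom.ext hμ
  refine ⟨μ, hμ, RingHom.Finite.of_comp_finite (f := π) ?_, fun y hy => ?_, fun h => ?_, fun h => ?_⟩
  · rw [e2]
    exact (H.fin'.comp H.fin).comp (ph_finite _)
  · refine (Ideal.map_le_iff_le_comap.2 fun y hy => ?_ : _ ≤ RingHom.ker (μ.comp π)) hy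
    rw [e2]
    change β (α (ph p k d (e - e₁) (ph p k d e₁ y))) = 0
    rw [e1]
    exact H.killa y hy
  · rw [e2]
    exact (H.t1 h).2.2
  · rw [e2]
    exact (H.t2 h).2

end Lvl

/-- ASSEMBLY.  Order of choices: `N₀` (`hJ`); `m, n₀` (`uB`); `n = max n₀ (N₀ + 1)`; `E₁, E₂` (`ok`);
`j' = jj p N₀ * (3 d + 1)`; `μ₁` (`m1B` with `J = j' + 1`); `e₁ = (j' + 1) (2 (m d) + m + 2)`
(`Nat.lt_pow_self`); `Γ` (`exists_gp`); `Θ, μ₀` (`uB` with `B = j' (m + 1)`); `c, Lp`; `N = 2 Lp`; `e` larger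
than both `e₂` and `e₁ + μ₀ + μ₁`; `Q = p^(e - e₁)`.  Build `D : CD p k d'` with `α_i ∘ φ^(e-e₁)`,
`w_i γ = ε_i (σ_i γ)^K_i` (`Lvl.cov`, `Lvl.cm`, `exists_po`, `Bx.exists_map`, `Std.ph`, `Std.exists_pres`);
`hm1`, `hU` from `M1.frob`, `UU.frob` applied with `lam_i ∘ ε_i` (`map_ph`, `ph_X`, `ph_C_surj`); `D.main`. -/
theorem assemble {d' : ℕ} {pos : Prop} {f : AA p k (d' + 1)} (hf : Std f)
    {P Q J₁ J₂ 𝔞₁ 𝔞₂ : Ideal (AA p k (d' + 1))} {zs₁ zs₂ : List (AA p k (d' + 1))} {G₁ G₂ : Type}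
    [Fintype G₁] [Fintype G₂] {a₁ : G₁ → AA p k (d' + 1)} {a₂ : G₂ → AA p k (d' + 1)}
    (h1 : SD pos (¬ pos) f P J₁ 𝔞₁ ((p : AA p k (d' + 1)) :: zs₁) a₁)
    (h2 : SD pos False f Q J₂ 𝔞₂ zs₂ a₂) (hp : (p : AA p k (d' + 1)) ∉ P)
    (hl : zs₁.length + zs₂.length = d') (hJ : Prim J₁ J₂)
    (hU1 : ∃ n₁ n₂, Dl (J₁ ⊔ Ideal.span (Set.range a₁)) n₁ ∧ Dl J₂ n₂ ∧ n₁ + n₂ ≤ d' + 2)
    (hU2 : ∃ n₁ n₂, Dl J₁ n₁ ∧ Dl (J₂ ⊔ Ideal.span (Set.range a₂)) n₂ ∧ n₁ + n₂ ≤ d' + 2) :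
    ∃ (e₁ : ℕ) (R : Type) (_ : CommRing R) (_ : IsLocalRing R) (_ : IsNoetherianRing R)
      (π : AA p k (d' + 1) →+* R) (M₁ M₂ : Type) (_ : CommRing M₁) (_ : CommRing M₂)
      (μ₁ : R →+* M₁) (μ₂ : R →+* M₂), Pres (ph p k (d' + 1) e₁ f) π ∧
      Cm π (𝔞₁.map (ph p k (d' + 1) e₁)) P μ₁ ∧ Cm π (𝔞₂.map (ph p k (d' + 1) e₁)) Q μ₂ ∧
      (pos → 0 < chi μ₁ μ₂ (d' + 1)) ∧ (¬ pos → chi μ₁ μ₂ (d' + 1) = 0) := by
  have hp1 : 1 < p := (Fact.out : p.Prime).one_lt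
  obtain ⟨N₀, hN⟩ := id hJ
  obtain ⟨m, n₀, huB⟩ := uB hf.dist hN a₁ a₂ hU1 hU2
  obtain ⟨E₁, _, αE₁, σ₁, hD₁, hR₁, hlv₁⟩ := h1.ok (max n₀ (N₀ + 1))
  obtain ⟨E₂, _, αE₂, σ₂, hD₂, hR₂, hlv₂⟩ := h2.ok (max n₀ (N₀ + 1))
  obtain ⟨j', hj'⟩ : ∃ j', j' = jj p N₀ * (3 * (d' + 1) + 1) := ⟨_, rfl⟩
  have hj0 : 0 < j' := by
    rw [hj']
    unfold jj
    positivity
  obtain ⟨μm, hm1⟩ := m1B hf.dist hN (le_max_right n₀ (N₀ + 1)) αE₁ αE₂ hD₁ hD₂ (J := j' + 1)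
    (by omega)
  rw [← hj'] at hm1
  obtain ⟨e₁, he₁⟩ : ∃ e₁, e₁ = (j' + 1) * (2 * (m * (d' + 1)) + m + 2) := ⟨_, rfl⟩
  have hq : (j' + 1) * (2 * (m * (d' + 1)) + m + 2) ≤ p ^ e₁ := by
    rw [← he₁]
    exact (Nat.lt_pow_self hp1).le
  obtain ⟨Γ, hΓ, hgp⟩ := exists_gp (fun z hz => h1.max z (List.mem_cons_of_mem _ hz)) h2.max
    h1.prim h2.prim hl hJ e₁
  obtain ⟨Θ, μ₀, hΘ, hUU⟩ := huB _ (le_max_left n₀ (N₀ + 1)) E₁ E₂ αE₁ αE₂ σ₁ σ₂ hD₁ hD₂ hR₁ hR₂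
    (j' * (m + 1)) (Nat.mul_pos hj0 (Nat.succ_pos m)) Γ hΓ
  obtain ⟨c, Lp, hc, hLp, hGP⟩ := hgp Θ hΘ
  obtain ⟨e₂, he₂⟩ := hlv₁ e₁ (2 * Lp)
  obtain ⟨e₃, he₃⟩ := hlv₂ e₁ (2 * Lp)
  obtain ⟨e, hE⟩ : ∃ e, e = e₁ + (e₂ + e₃ + μ₀ + μm) := ⟨_, rfl⟩
  have he : e₁ ≤ e := by omega
  have hi : e - e₁ < p ^ (e - e₁) := Nat.lt_pow_self hp1
  obtain ⟨C₁, M₁, _, _, α₁, β₁, ε₁, K₁, L₁⟩ := he₂ e (by omega)
  obtain ⟨C₂, M₂, _, _, α₂, β₂, ε₂, K₂, L₂⟩ := he₃ e (by omega)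
  obtain ⟨R, _, _, _, π, hπ⟩ := (hf.ph e₁).exists_pres
  obtain ⟨μ₁, hμ₁, cm₁⟩ := L₁.cm he h1.fJ hπ
  obtain ⟨μ₂, hμ₂, cm₂⟩ := L₂.cm he h2.fJ hπ
  have cov₁ := L₁.cov he h1.max h1.prim
  rw [List.map_cons, map_natCast] at cov₁
  have cov₂ := L₂.cov he h2.max h2.prim
  obtain ⟨L, _, l₁, l₂, bL⟩ := exists_po (MvPowerSeries.map (σ := Fin (d' + 1))
    ((α₁.comp (ph p k (d' + 1) (e - e₁))).comp C)) (α₂.comp (ph p k (d' + 1) (e - e₁)))
  obtain ⟨N, _, r₁, r₂, bN⟩ := exists_po (MvPowerSeries.map (σ := Fin (d' + 1))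
    ((β₁.comp (α₁.comp (ph p k (d' + 1) (e - e₁)))).comp C))
    (β₂.comp (α₂.comp (ph p k (d' + 1) (e - e₁))))
  obtain ⟨θ, θ₁, θ₂⟩ := Bx.exists_map bL bN
  have compat : ∀ (L' : Type) [CommRing L'] (lam₁ : C₁ →+* L') (lam₂ : C₂ →+* L'),
      (∀ w, lam₁ ((α₁.comp (ph p k (d' + 1) (e - e₁))) (C w)) =
        lam₂ ((α₂.comp (ph p k (d' + 1) (e - e₁))) (C w))) →
      ∀ w, (lam₁.comp ε₁) (αE₁ (C w)) = (lam₂.comp ε₂) (αE₂ (C w)) := by
    intro L' _ lam₁ lam₂ h w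
    obtain ⟨w', hw'⟩ := ph_C_surj (d := d' + 1) (e - e₁) w
    have := h w'
    simp only [RingHom.comp_apply, hw'] at this
    simp only [RingHom.comp_apply, L₁.comm, L₂.comm, this]
  have hX₁ : ∀ (L' : Type) [CommRing L'] (lam₁ : C₁ →+* L'),
      (fun l => lam₁ ((α₁.comp (ph p k (d' + 1) (e - e₁))) (X l))) =
        fun l => (lam₁.comp ε₁) (αE₁ (X l)) ^ p ^ (e - e₁) := by
    intro L' _ lam₁
    funext l
    simp only [RingHom.comp_apply, L₁.comm, ph_X, map_pow]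
  have hX₂ : ∀ (L' : Type) [CommRing L'] (lam₂ : C₂ →+* L'),
      (fun l => lam₂ ((α₂.comp (ph p k (d' + 1) (e - e₁))) (X l))) =
        fun l => (lam₂.comp ε₂) (αE₂ (X l)) ^ p ^ (e - e₁) := by
    intro L' _ lam₂
    funext l
    simp only [RingHom.comp_apply, L₂.comm, ph_X, map_pow]
  let D : CD p k d' :=
    { R := R, C₁ := C₁, M₁ := M₁, C₂ := C₂, M₂ := M₂, L := L, N := N, G₁ := G₁, G₂ := G₂
      f := f, e₁ := e₁, Lp := Lp, j' := j', m := m, π := π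
      α₁ := α₁.comp (ph p k (d' + 1) (e - e₁))
      α₂ := α₂.comp (ph p k (d' + 1) (e - e₁))
      β₁ := β₁, β₂ := β₂, μ₁ := μ₁, μ₂ := μ₂
      J₁ := J₁.map (ph p k (d' + 1) e₁)
      J₂ := J₂.map (ph p k (d' + 1) e₁)
      zs₁ := zs₁.map (ph p k (d' + 1) e₁)
      zs₂ := zs₂.map (ph p k (d' + 1) e₁)
      Γ := Γ, c := c
      w₁ := fun γ => ε₁ (σ₁ γ) ^ K₁
      w₂ := fun γ => ε₂ (σ₂ γ) ^ K₂
      l₁ := l₁, l₂ := l₂, r₁ := r₁, r₂ := r₂, θ := θ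
      hπ := hπ, hμ₁ := hμ₁, hμ₂ := hμ₂, cov₁ := cov₁, cov₂ := cov₂
      f₁ := Ideal.mem_map_of_mem _ h1.fJ
      f₂ := Ideal.mem_map_of_mem _ h2.fJ
      len := by rw [List.length_map, List.length_map, hl]
      prim := hJ.ph e₁
      p₁ := (L₁.t1 hp).2.1
      p₂ := by
        have := Ideal.mem_map_of_mem (ph p k (d' + 1) e₁) h2.pz
        rwa [map_natCast, Ideal.map_sup, Ideal.map_ofList] at this
      p₂' := by
        by_cases hQ : (p : AA p k (d' + 1)) ∈ Q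
        · exact Or.inr (L₂.t2 hQ).1
        · exact Or.inl ⟨(L₂.t1 hQ).1, (L₂.t1 hQ).2.1⟩
      hΓ := hΓ, hL := hLp, hGP := hGP, hq := hq
      hm1 := by
        intro L' _ hp0 lam₁ lam₂ h
        rw [hX₁, hX₂]
        exact (hm1 (p ^ (e - e₁)) (by omega) L' hp0 _ _ (compat L' lam₁ lam₂ h)).frob hp0
      hU := by
        intro L' _ hp0 lam₁ lam₂ h
        rw [hX₁, hX₂]
        refine (hUU c hc (p ^ (e - e₁)) (by omega) L' hp0 _ _ (compat L' lam₁ lam₂ h)).frob hp0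
          (fun a => ?_) (fun γ => ?_)
        · have := map_ph hp0 (lam₁.comp α₁) (e - e₁) (C a)
          simp only [RingHom.comp_apply, L₁.comm] at this ⊢
          exact this
        · simp only [RingHom.comp_apply, map_pow, mul_pow]
          exact mul_dvd_mul (pow_dvd_pow _ L₁.hK) (pow_dvd_pow _ L₂.hK)
      hF := by
        intro γ₁ γ₂
        by_cases h : pos
        · exact Or.inr ⟨(L₁.hpos h).1 γ₁, (L₂.hpos h).1 γ₂⟩
        · exact Or.inl (L₁.hvan h γ₁)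
      bL := bL, bN := bN, θ₁ := θ₁, θ₂ := θ₂ }
  refine ⟨e₁, R, _, inferInstance, inferInstance, π, M₁, M₂, _, _, μ₁, μ₂, hπ, cm₁, cm₂,
    fun h => ?_, fun h => D.main.1 (L₁.hvan h)⟩
  obtain ⟨γ₁, hγ₁⟩ := (L₁.hpos h).2
  obtain ⟨γ₂, hγ₂⟩ := (L₂.hpos h).2
  exact D.main.2 γ₁ γ₂ hγ₁ hγ₂

/-! ### comparison -/

/-- `pf_mul`, `RegLoc.bdAll`, `Dl.of_prime_lt` -/
theorem pr_prime {R : Type} [CommRing R] [IsLocalRing R] [IsNoetherianRing R] {n s a b : ℕ}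
    (hR : RegLoc R n) (IH : VanM R n s) {P : Ideal R} (hP : P.IsPrime) (ha : Dl P (a + 1))
    {X Y : Type} [AddCommGroup X] [Module R X] [Module.Finite R X] [AddCommGroup Y] [Module R Y]
    [Module.Finite R Y] {κ : ℕ} (h1 : P ^ κ ≤ Module.annihilator R X)
    (h2 : Module.annihilator R X ≤ P) (hpr : Prim P (Module.annihilator R Y))
    (hb : Dl (Module.annihilator R Y) (b + 1)) (hs : a + b ≤ s) :
    Pr (chim R X Y n) (chim R (R ⧸ P) Y n) := by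
  obtain ⟨m, hm, e⟩ := pf_mul (hR.bdAll Y) (hpr.of_pow_le h1 (pow_one _).le) hP h1 h2
    fun q _ hlt => IH (R ⧸ q) Y
      (by rw [Ideal.annihilator_quotient]; exact hpr.mono hlt.le le_rfl) a (b + 1)
      (by rw [Ideal.annihilator_quotient]; exact ha.of_prime_lt hP hlt) hb (by omega)
  exact Pr.of_eq_mul hm e

/-- `φ^e y ≡ y^(p^e) mod p`; `Ideal.exists_pow_le_of_le_radical_of_fg` -/
theorem ph_rad {𝔞 P : Ideal (AA p k d)} (hP : P.IsPrime) (h1 : 𝔞 ≤ P) {κ : ℕ} (h2 : P ^ κ ≤ 𝔞)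
    (e : ℕ) : (∃ κ', P ^ κ' ≤ 𝔞.map (ph p k d e) ⊔ Ideal.span {(p : AA p k d)}) ∧
      ((p : AA p k d) ∈ P → 𝔞.map (ph p k d e) ≤ P ∧ ∃ κ', P ^ κ' ≤ 𝔞.map (ph p k d e)) := by
  have _ := hP
  have hq : p ^ e ≠ 0 := pow_ne_zero _ (Fact.out : p.Prime).ne_zero
  have r1 : P ≤ (𝔞.map (ph p k d e) ⊔ Ideal.span {(p : AA p k d)}).radical := by
    intro y hy
    refine ⟨κ * p ^ e, ?_⟩
    have a1 : ph p k d e (y ^ κ) ∈ 𝔞.map (ph p k d e) :=
      Ideal.mem_map_of_mem _ (h2 (Ideal.pow_mem_pow hy κ))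
    have a2 : ph p k d e (y ^ κ) - (y ^ κ) ^ p ^ e ∈ Ideal.span {(p : AA p k d)} :=
      Ideal.mem_span_singleton.2 (ph_sub_pow e _)
    have := Ideal.sub_mem _ (Ideal.mem_sup_left a1) (Ideal.mem_sup_right a2)
    rwa [sub_sub_cancel, ← pow_mul] at this
  refine ⟨Ideal.exists_pow_le_of_le_radical_of_fg r1 (IsNoetherian.noetherian P), fun hp => ⟨?_, ?_⟩⟩
  · refine Ideal.map_le_iff_le_comap.2 fun y hy => ?_
    obtain ⟨z, hz⟩ := ph_sub_pow e y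
    rw [Ideal.mem_comap, eq_add_of_sub_eq hz]
    exact P.add_mem (P.mul_mem_right _ hp) (P.pow_mem_of_mem (h1 hy) _ (Nat.pos_of_ne_zero hq))
  · refine Ideal.exists_pow_le_of_le_radical_of_fg (r1.trans ?_) (IsNoetherian.noetherian P)
    refine (Ideal.radical_le_radical_iff).2 (sup_le Ideal.le_radical ?_)
    rw [Ideal.span_singleton_le_iff_mem]
    refine ⟨κ, ?_⟩
    have := Ideal.mem_map_of_mem (ph p k d e) (h2 (Ideal.pow_mem_pow hp κ))
    rwa [map_pow, map_natCast] at this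

theorem asc_prime {f : AA p k d} {R : Type} [CommRing R] {π : AA p k d →+* R} (hπ : Pres f π)
    {P : Ideal (AA p k d)} (hP : P.IsPrime) (hf : f ∈ P) : (P.map π).IsPrime :=
  Ideal.map_isPrime_of_surjective hπ.surj
    (by rw [hπ.ker]; exact (Ideal.span_singleton_le_iff_mem _).2 hf)

theorem asc_dl {f : AA p k d} {R : Type} [CommRing R] {π : AA p k d →+* R} (hπ : Pres f π)
    {I : Ideal (AA p k d)} {n : ℕ} (h : Dl I n) : Dl (I.map π) n :=
  h.map_integral π (π.isIntegral_of_surjective hπ.surj)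

theorem asc_pow {A R : Type} [CommRing A] [CommRing R] (π : A →+* R) {I J : Ideal A} {κ : ℕ}
    (h : I ^ κ ≤ J) : I.map π ^ κ ≤ J.map π := by
  rw [← Ideal.map_pow]; exact Ideal.map_mono h

theorem Cm.asc_le {R M : Type} [CommRing R] [CommRing M] {π : AA p k d →+* R}
    {𝔞 P : Ideal (AA p k d)} {μ : R →+* M} (h : Cm π 𝔞 P μ) : 𝔞.map π ≤ RingHom.ker μ :=
  Ideal.map_le_iff_le_comap.2 fun y hy => h.kill y hy

/-- `p ∉ P`: `0 → (R/𝔞)^ρ → M → coker → 0`, the cokernel is killed by `𝔞 + p^κ`, of dimension `< a`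
(`Dl.of_prime_lt`, `Dl.of_pow_le`, `Dl.map_integral`); `chim_add`, `tlm_pi`, `alt_mul`, `IH`.
`p ∈ P`: `pr_prime` for `M` and for `R/𝔞` with the prime `P.map π`. -/
theorem cmp_side {f : AA p k d} {R : Type} [CommRing R] [IsLocalRing R] [IsNoetherianRing R]
    {π : AA p k d →+* R} (hπ : Pres f π) {s a b : ℕ} (IH : VanM R d s) {𝔞 P : Ideal (AA p k d)}
    (hP : P.IsPrime) (hf : f ∈ 𝔞) (ha : Dl P (a + 1))
    (h1 : ∃ κ, P ^ κ ≤ 𝔞 ⊔ Ideal.span {(p : AA p k d)})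
    (h2 : (p : AA p k d) ∈ P → 𝔞 ≤ P ∧ ∃ κ, P ^ κ ≤ 𝔞) {M Y : Type} [CommRing M] [CommRing Y]
    {μ : R →+* M} (hM : Cm π 𝔞 P μ) {ν : R →+* Y} (hν : ν.Finite)
    (hpr : Prim (𝔞.map π) (RingHom.ker ν)) (hb : Dl (RingHom.ker ν) (b + 1)) (hs : a + b ≤ s) :
    Pr (chi μ ν d) (chi (Ideal.Quotient.mk (𝔞.map π)) ν d) := by
  letI := μ.toAlgebra
  letI := ν.toAlgebra
  haveI : Module.Finite R M := hM.fin
  haveI : Module.Finite R Y := hν
  have e1 : chi μ ν d = chim R M Y d := chi_algebraMap (O := R) (X := M) (Y := Y) d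
  have e2 : chi (Ideal.Quotient.mk (𝔞.map π)) ν d = chim R (R ⧸ 𝔞.map π) Y d :=
    chi_algebraMap (O := R) (X := R ⧸ 𝔞.map π) (Y := Y) d
  have aM : Module.annihilator R M = RingHom.ker μ := rtb_ann
  have aY : Module.annihilator R Y = RingHom.ker ν := rtb_ann
  have hR := hπ.regLoc
  have hI := hM.asc_le
  rw [e1, e2]
  rw [← aY] at hpr hb
  rw [← aM] at hI
  by_cases hp : (p : AA p k d) ∈ P
  · obtain ⟨l1, κ, l2⟩ := h2 hp
    have hP' := asc_prime hπ hP (l1 hf)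
    have hpr' : Prim (P.map π) (Module.annihilator R Y) := hpr.mono (Ideal.map_mono l1) le_rfl
    refine (pr_prime hR IH hP' (asc_dl hπ ha) ((asc_pow π l2).trans hI) ?_ hpr' hb hs).trans
      (pr_prime (κ := κ) hR IH hP' (asc_dl hπ ha) ?_ ?_ hpr' hb hs).symm
    · rw [aM]
      intro r hr
      obtain ⟨y, rfl⟩ := hπ.surj r
      exact Ideal.mem_map_of_mem _ (hM.t2 hp hr)
    · rw [Ideal.annihilator_quotient]; exact asc_pow π l2
    · rw [Ideal.annihilator_quotient]; exact Ideal.map_mono l1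
  · obtain ⟨ρ, v, κ, hρ, hv1, hv2⟩ := hM.t1 hp
    let l : (R ⧸ 𝔞.map π) →ₗ[R] M :=
      Submodule.liftQ (𝔞.map π) (Algebra.linearMap R M) fun r hr => hM.asc_le hr
    have hl : ∀ r : R, l (Ideal.Quotient.mk _ r) = μ r := fun r => rfl
    let u : (Fin ρ → R ⧸ 𝔞.map π) →ₗ[R] M :=
      ∑ i, LinearMap.mulRight R (v i) ∘ₗ l ∘ₗ LinearMap.proj i
    have hu : ∀ c : Fin ρ → AA p k d,
        u (fun i => Ideal.Quotient.mk _ (π (c i))) = ∑ i, (μ.comp π) (c i) * v i := by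
      intro c
      simp only [u, LinearMap.sum_apply, LinearMap.comp_apply, LinearMap.proj_apply,
        LinearMap.mulRight_apply, hl, RingHom.comp_apply]
    have inj : Function.Injective u := by
      rw [injective_iff_map_eq_zero]
      intro c hc
      choose c' hc' using fun i => (Ideal.Quotient.mk_surjective.comp hπ.surj) (c i)
      have e : c = fun i => Ideal.Quotient.mk _ (π (c' i)) := funext fun i => (hc' i).symm
      rw [e, hu] at hc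
      rw [e]
      funext i
      exact Ideal.Quotient.eq_zero_iff_mem.2 (Ideal.mem_map_of_mem _ (hv1 c' hc i))
    have hN : (𝔞 ⊔ Ideal.span {(p : AA p k d) ^ κ}).map π ≤
        Module.annihilator R (M ⧸ LinearMap.range u) := by
      rw [Ideal.map_sup, Ideal.map_span, Set.image_singleton]
      refine sup_le (hI.trans ((LinearMap.range u).mkQ.annihilator_le_of_surjective
        (Submodule.mkQ_surjective _))) ?_
      rw [Ideal.span_singleton_le_iff_mem, Module.mem_annihilator]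
      intro y
      obtain ⟨y, rfl⟩ := Submodule.mkQ_surjective _ y
      obtain ⟨c, hc⟩ := hv2 y
      rw [← map_smul, Submodule.mkQ_apply, Submodule.Quotient.mk_eq_zero]
      refine ⟨fun i => Ideal.Quotient.mk _ (π (c i)), ?_⟩
      rw [hu, ← hc, Algebra.smul_def, map_pow, map_pow, map_natCast, map_natCast]
    have hd : Dl (𝔞 ⊔ Ideal.span {(p : AA p k d) ^ κ}) a := by
      have b1 : Dl (P ⊔ Ideal.span {(p : AA p k d)}) a :=
        ha.of_prime_lt hP (lt_of_le_of_ne le_sup_left fun e =>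
          hp (e ▸ Ideal.mem_sup_right (Ideal.mem_span_singleton_self _)))
      have b2 : Ideal.span {(p : AA p k d)} ≤ (𝔞 ⊔ Ideal.span {(p : AA p k d) ^ κ}).radical :=
        (Ideal.span_singleton_le_iff_mem _).2
          ⟨κ, Ideal.mem_sup_right (Ideal.mem_span_singleton_self _)⟩
      obtain ⟨κ₁, h1⟩ := h1
      obtain ⟨κ₂, b3⟩ := Ideal.exists_pow_le_of_le_radical_of_fg
        (I := P ⊔ Ideal.span {(p : AA p k d)}) (J := 𝔞 ⊔ Ideal.span {(p : AA p k d) ^ κ})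
        (sup_le (fun y hy => Ideal.mem_radical_of_pow_mem (m := κ₁)
          ((sup_le (le_sup_left.trans Ideal.le_radical) b2 :) (h1 (Ideal.pow_mem_pow hy κ₁)))) b2)
        (IsNoetherian.noetherian _)
      exact b1.of_pow_le b3
    have z : chim R (M ⧸ LinearMap.range u) Y d = 0 :=
      IH _ Y (hpr.mono ((Ideal.map_mono le_sup_left).trans hN) le_rfl) a (b + 1)
        ((asc_dl hπ hd).mono hN le_rfl) hb (by omega)
    have add := chim_add u (LinearMap.range u).mkQ inj (LinearMap.exact_map_mkQ_range u)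
      (Submodule.mkQ_surjective _) (hR.bdAll Y _) (hpr.mono hI le_rfl)
    have mul : chim R (Fin ρ → R ⧸ 𝔞.map π) Y d =
        chim R (R ⧸ 𝔞.map π) Y d * (((ρ : ℕ∞).toNat : ℕ) : ℤ) :=
      alt_mul ρ fun i _ => tlm_pi ρ i
    refine Pr.of_eq_mul hρ ?_
    rw [add, z, mul, add_zero, ENat.toNat_natCast, mul_comm]

/-- `cmp_side` twice (`chi_symm`, `ph_rad`, `Prim.of_pow_le`, `Prim.ph`, `Pres.prim`, `Dl.ph`), `chi_mk`,
`Pres.bc`, `chim_flat`, `pr_prime` twice. -/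
theorem cmp_all {f : AA p k d} {R R' : Type} [CommRing R] [IsLocalRing R] [IsNoetherianRing R]
    [CommRing R'] [IsLocalRing R'] [IsNoetherianRing R'] {π : AA p k d →+* R}
    {π' : AA p k d →+* R'} (hπ : Pres f π) {e₁ : ℕ} (hπ' : Pres (ph p k d e₁ f) π') {a b : ℕ}
    (IH : VanM R d (a + b)) (IH' : VanM R' d (a + b)) {P Q 𝔞₁ 𝔞₂ : Ideal (AA p k d)}
    (hP : P.IsPrime) (hQ : Q.IsPrime) (f1 : f ∈ 𝔞₁) (f2 : f ∈ 𝔞₂) (l1 : 𝔞₁ ≤ P) (l2 : 𝔞₂ ≤ Q)
    (k1 : ∃ κ, P ^ κ ≤ 𝔞₁) (k2 : ∃ κ, Q ^ κ ≤ 𝔞₂) (hPQ : Prim P Q) (ha : Dl P (a + 1))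
    (hb : Dl Q (b + 1)) {M₁ M₂ : Type} [CommRing M₁] [CommRing M₂] {μ₁ : R' →+* M₁}
    {μ₂ : R' →+* M₂} (c1 : Cm π' (𝔞₁.map (ph p k d e₁)) P μ₁)
    (c2 : Cm π' (𝔞₂.map (ph p k d e₁)) Q μ₂) :
    Pr (chi μ₁ μ₂ d) (chim R (R ⧸ P.map π) (R ⧸ Q.map π) d) := by
  obtain ⟨κ₁, k1⟩ := k1
  obtain ⟨κ₂, k2⟩ := k2
  have r1 := ph_rad hP l1 k1 e₁
  have r2 := ph_rad hQ l2 k2 e₁
  have p0 : Prim 𝔞₁ 𝔞₂ := hPQ.of_pow_le k1 k2
  have p1 := hπ'.prim (p0.ph e₁)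
  have d1 := ha.of_pow_le k1
  have d2 := hb.of_pow_le k2
  have s1 := cmp_side hπ' IH' hP (Ideal.mem_map_of_mem _ f1) ha r1.1 r1.2 c1 c2.fin
    (p1.mono le_rfl c2.asc_le) ((asc_dl hπ' (d2.ph e₁)).mono c2.asc_le le_rfl) le_rfl
  have s2 := cmp_side hπ' IH' hQ (Ideal.mem_map_of_mem _ f2) hb r2.1 r2.2 c2
    (ν := Ideal.Quotient.mk ((𝔞₁.map (ph p k d e₁)).map π'))
    (RingHom.Finite.of_surjective _ Ideal.Quotient.mk_surjective)
    (by rw [Ideal.mk_ker]; exact p1.symm) (b := a)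
    (by rw [Ideal.mk_ker]; exact asc_dl hπ' (d1.ph e₁)) (by omega)
  rw [chi_symm μ₂, chi_mk, chim_symm] at s2
  obtain ⟨σ, hσ, hfl, hm, hlen⟩ := hπ.bc e₁ hπ'
  have e : ∀ 𝔞 : Ideal (AA p k d), (𝔞.map (ph p k d e₁)).map π' = (𝔞.map π).map σ := fun 𝔞 => by
    rw [Ideal.map_map, Ideal.map_map]
    congr 1
    exact RingHom.ext fun y => (hσ y).symm
  have s3 : Pr (chim R' (R' ⧸ (𝔞₁.map (ph p k d e₁)).map π') (R' ⧸ (𝔞₂.map (ph p k d e₁)).map π') d)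
      (chim R (R ⧸ 𝔞₁.map π) (R ⧸ 𝔞₂.map π) d) := by
    rw [e, e, chim_flat σ hfl hm]
    exact Pr.of_eq_mul hlen (mul_comm _ _)
  have hR := hπ.regLoc
  have s4 := pr_prime (X := R ⧸ 𝔞₁.map π) (Y := R ⧸ 𝔞₂.map π) (κ := κ₁) hR IH
    (asc_prime hπ hP (l1 f1)) (asc_dl hπ ha)
    (by rw [Ideal.annihilator_quotient]; exact asc_pow π k1)
    (by rw [Ideal.annihilator_quotient]; exact Ideal.map_mono l1)
    (by rw [Ideal.annihilator_quotient]; exact hπ.prim (p0.mono l1 le_rfl))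
    (by rw [Ideal.annihilator_quotient]; exact asc_dl hπ d2) le_rfl
  have s5 := pr_prime (X := R ⧸ 𝔞₂.map π) (Y := R ⧸ P.map π) (κ := κ₂) (b := a) hR IH
    (asc_prime hπ hQ (l2 f2)) (asc_dl hπ hb)
    (by rw [Ideal.annihilator_quotient]; exact asc_pow π k2)
    (by rw [Ideal.annihilator_quotient]; exact Ideal.map_mono l2)
    (by rw [Ideal.annihilator_quotient]; exact hπ.prim hPQ.symm)
    (by rw [Ideal.annihilator_quotient]; exact asc_dl hπ ha) (by omega)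
  rw [chim_symm, chim_symm (M := R ⧸ Q.map π)] at s5
  exact (((s1.trans s2).trans s3).trans s4).trans s5

end Crest.Agent.R188
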