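/-! # R188 / Blueprint : Serre's positivity of intersection multiplicities (S0288)

No Lean content; overview of the files (in import order).

* `PSB`, `Dim` : power series, dimension bookkeeping (`Dl I n` = `dim R/I < n`, `Prim`, `RegLoc`).
* `Cx`, `Tor`, `Reg`, `Hty`, `KL`, `RingT` : complexes, `Tor`, Euler characteristics, Hochster's `θ`, the KEY
  LEMMA (`KL_ring`): if `O = Λ/J` is Artinian, `ker s = (s^(n-1) B)` and `s^m` kills the higher
  `Tor(O, M)` with `2 m r < n`, then `χ(O/s, M) = len (G/s^(μ+1)) - len (G/s^μ)`, `G = O ⊗ M`, `μ = m r`.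
* `Std` : `A = W(k)⟦x⟧`, Frobenius lift `φ`, standard rings `R = A/(f)`, `f ≡ p mod (x)`, Dwork map.
* `Wv`, `AA`, `MU` : valuative estimates.  `(m1)`: `x^j' ∈ (x - y, p, …)`; `(U)`: for generic linear forms
  `u''`, `s` in `x - y`, `s^m ∈ (u'', σ₁σ₂, …)`, with `j'`, `m` independent of the level.
* `GP`, `Diag`, `Core` : general position, reduction to the diagonal over `R ⊗^_W R`, equal characteristic,
  and the key lemma applied to `C₁ ⊗^ C₂ → M₁ ⊗^ M₂` over `R' = A/(φ^e₁ f)`, where `p ∈ (x^(p^e₁))`.
* `Env`, `Sides` : the complete intersections `C_e` (envelopes with roots `s^(p^e) = φ^e a`), the modules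
  `M` over `C_e` with almost-factorisations.
* `Asm`, `Main` : selection of data, order of the choices, comparison with `χ(R/P, R/Q)`, induction on
  `dim R/P + dim R/Q`, reduction to the standard models, the theorem.
-/
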