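import Crest.Agent.R188.RingT

/-! # R188 / Diag : completed tensor products over `W`, reduction to the diagonal, the
equicharacteristic case. -/

set_option autoImplicit false
open IsLocalRing RingTheory.Sequence Crest.Agent.R183 MvPowerSeries

namespace Crest.Agent.R188

variable {W : Type} [CommRing W] {d : ℕ}

/-- `IsPO.finite` for `(isPO_ps _ μ hμ).symm` -/
theorem map_finite {R X : Type} [CommRing R] [IsNoetherianRing R] [CommRing X] (μ : R →+* X)
    (hμ : μ.Finite) : (MvPowerSeries.map (σ := Fin d) μ).Finite := by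
  exact (isPO_ps d μ hμ).symm.finite hμ

/-- a finite algebra over a Noetherian local ring modulo an ideal containing `𝔪^L` is Artinian -/
theorem artinian_of_finite {Λ L : Type} [CommRing Λ] [IsLocalRing Λ] [IsNoetherianRing Λ]
    [CommRing L] (σ : Λ →+* L) (hσ : σ.Finite) {J : Ideal L} {n : ℕ}
    (h : (maximalIdeal Λ ^ n).map σ ≤ J) : IsArtinianRing (L ⧸ J) := by
  have h1 : Dl J 1 :=
    ((dl_one_iff.2 ⟨n, le_rfl⟩).map_integral σ (RingHom.IsIntegral.of_finite hσ)).mono h le_rfl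
  let _ := σ.toAlgebra
  have _ : Module.Finite Λ L := hσ
  have _ : IsNoetherianRing L := IsNoetherianRing.of_finite Λ L
  have _ : Ring.KrullDimLE 0 (L ⧸ J) := by
    rw [Ring.krullDimLE_iff]
    exact ENat.WithBot.lt_add_one_iff.1 (by simpa [Dl] using h1)
  exact IsNoetherianRing.isArtinianRing_of_krullDimLE_zero

/-! ### the completed tensor product `L = C₁ ⊗^_W C₂ = C₁⟦y⟧ ⊗_A C₂` -/

/-- `L = C₁⟦y⟧ ⊗_{W⟦y⟧} C₂` -/
abbrev Bx {C₁ C₂ L : Type} [CommRing C₁] [CommRing C₂] [CommRing L] (α₁ : PS d W →+* C₁)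
    (α₂ : PS d W →+* C₂) (l₁ : PS d C₁ →+* L) (l₂ : C₂ →+* L) : Prop :=
  IsPO (MvPowerSeries.map (σ := Fin d) (α₁.comp C)) α₂ l₁ l₂

/-- the ideal `J₁(x) + J₂(y)` of `W⟦x⟧⟦y⟧` -/
noncomputable def box (J₁ J₂ : Ideal (PS d W)) : Ideal (PS d (PS d W)) :=
  J₁.map (C : PS d W →+* PS d (PS d W)) ⊔
    J₂.map (MvPowerSeries.map (σ := Fin d) (C : W →+* PS d W))

/-- the ideal `(x - y)` of `W⟦x⟧⟦y⟧` -/
noncomputable def dI (d : ℕ) (W : Type) [CommRing W] : Ideal (PS d (PS d W)) :=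
  Ideal.span (Set.range fun l : Fin d => (C (X l) : PS d (PS d W)) - X l)

section Box
variable {C₁ C₂ L M₁ M₂ N : Type} [CommRing C₁] [CommRing C₂] [CommRing L] [CommRing M₁]
  [CommRing M₂] [CommRing N] {α₁ : PS d W →+* C₁} {α₂ : PS d W →+* C₂} {l₁ : PS d C₁ →+* L}
  {l₂ : C₂ →+* L} {β₁ : C₁ →+* M₁} {β₂ : C₂ →+* M₂} {r₁ : PS d M₁ →+* N} {r₂ : M₂ →+* N}
  {θ : L →+* N}

theorem Bx.comm_C (h : Bx α₁ α₂ l₁ l₂) (w : W) : l₁ (C (α₁ (C w))) = l₂ (α₂ (C w)) := by
  have := h.comm (C w)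
  rwa [map_C] at this

theorem Bx.comm_X (h : Bx α₁ α₂ l₁ l₂) (i : Fin d) : l₁ (X i) = l₂ (α₂ (X i)) := by
  have := h.comm (X i)
  rwa [map_X] at this

theorem Bx.finite [IsNoetherianRing W] (h : Bx α₁ α₂ l₁ l₂) (h1 : α₁.Finite) (h2 : α₂.Finite) :
    (l₁.comp (MvPowerSeries.map α₁)).Finite := by
  exact (IsPO.finite h.symm h2).comp (map_finite α₁ h1)

/-- `PS.flat_map`, `IsPO.flat` -/
theorem Bx.flat [IsNoetherianRing W] (h : Bx α₁ α₂ l₁ l₂) (h1 : α₁.Finite)
    (hf : (α₁.comp C).Flat) : l₂.Flat := by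
  have : IsNoetherianRing C₁ := by
    let _ := α₁.toAlgebra
    have : Module.Finite (PS d W) C₁ := h1
    exact IsNoetherianRing.of_finite (PS d W) C₁
  exact IsPO.flat h (PS.flat_map _ hf)

theorem Bx.box_le (h : Bx α₁ α₂ l₁ l₂) {J₁ J₂ : Ideal (PS d W)} (h1 : ∀ y ∈ J₁, α₁ y = 0)
    (h2 : ∀ y ∈ J₂, α₂ y = 0) : box J₁ J₂ ≤ RingHom.ker (l₁.comp (MvPowerSeries.map α₁)) := by
  refine sup_le (Ideal.map_le_iff_le_comap.2 fun y hy => ?_)
    (Ideal.map_le_iff_le_comap.2 fun y hy => ?_)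
  · rw [Ideal.mem_comap, RingHom.mem_ker, RingHom.comp_apply, map_C, h1 y hy, map_zero, map_zero]
  · rw [Ideal.mem_comap, RingHom.mem_ker, RingHom.comp_apply, MvPowerSeries.map_map, h.comm,
      h2 y hy, map_zero]

/-- for surjective `α₁`, `α₂` (`IsPO.surj`, `ker_map_eq`, `map_surjective`) -/
theorem Bx.surj [IsNoetherianRing W] (h : Bx α₁ α₂ l₁ l₂) (h1 : Function.Surjective α₁)
    (h2 : Function.Surjective α₂) : Function.Surjective (l₁.comp (MvPowerSeries.map α₁)) ∧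
      RingHom.ker (l₁.comp (MvPowerSeries.map α₁)) = box (RingHom.ker α₁) (RingHom.ker α₂) := by
  obtain ⟨h3, h4⟩ := IsPO.surj h.symm h2
  have h5 := map_surjective (n := d) α₁ h1
  refine ⟨h3.comp h5, ?_⟩
  rw [← RingHom.comap_ker, h4, MvPowerSeries.map_comp, ← Ideal.map_map,
    Ideal.comap_map_of_surjective _ h5, ← RingHom.ker_eq_comap_bot,
    ker_map_eq α₁ (IsNoetherian.noetherian _), sup_comm, box]

theorem Bx.exists_map (h : Bx α₁ α₂ l₁ l₂) (h' : Bx (β₁.comp α₁) (β₂.comp α₂) r₁ r₂) :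
    ∃ θ : L →+* N, (∀ z, θ (l₁ z) = r₁ (MvPowerSeries.map β₁ z)) ∧ ∀ z, θ (l₂ z) = r₂ (β₂ z) := by
  exact h.lift (r₁.comp (MvPowerSeries.map β₁)) (r₂.comp β₂) fun a => h'.comm a

/-- Let `L' = M₁⟦y⟧ ⊗ C₂` (`exists_po`), `θ = θ₂ ∘ θ₁` (`exists_map`, `IsPO.ext`).  `Fac.push` along
`(isPO_ps _ β₁ _).symm`, then along `IsPO (map β₁) l₁ l₁' θ₁` (`IsPO.cancel`, `symm`); `Fac.push` along
`IsPO β₂ l₂' r₂ θ₂` (`IsPO.cancel`); `Fac.comp`. -/
theorem Bx.fac [IsNoetherianRing C₁] (h : Bx α₁ α₂ l₁ l₂)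
    (h' : Bx (β₁.comp α₁) (β₂.comp α₂) r₁ r₂) (hβ : β₁.Finite)
    (h1 : ∀ z, θ (l₁ z) = r₁ (MvPowerSeries.map β₁ z)) (h2 : ∀ z, θ (l₂ z) = r₂ (β₂ z)) {b : ℕ}
    {w₁ : C₁} {w₂ : C₂} (f1 : Fac (b : C₁) β₁ w₁) (f2 : Fac (b : C₂) β₂ w₂) :
    Fac (b : L) θ (l₁ (C w₁) * l₂ w₂) := by
  obtain ⟨L', _, l₁', l₂', hL⟩ :=
    exists_po (MvPowerSeries.map (σ := Fin d) ((β₁.comp α₁).comp C)) α₂
  obtain ⟨θ₁, a1, a2⟩ := h.lift (l₁'.comp (MvPowerSeries.map β₁)) l₂' fun a => hL.comm a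
  obtain ⟨θ₂, b1, b2⟩ := hL.lift r₁ (r₂.comp β₂) fun a => h'.comm a
  have e : θ = θ₂.comp θ₁ := h.ext
    (fun z => by rw [h1, RingHom.comp_apply, a1, RingHom.comp_apply, b1])
    (fun z => by rw [h2, RingHom.comp_apply, a2, b2, RingHom.comp_apply])
  have e1 : θ₁.comp l₂ = l₂' := RingHom.ext a2
  have e2 : θ₂.comp l₁' = r₁ := RingHom.ext b1
  have p1 : IsPO l₁ (MvPowerSeries.map β₁) θ₁ l₁' :=
    IsPO.cancel h.symm (by rw [e1]; exact hL.symm) a1
  have p2 : IsPO l₂' β₂ θ₂ r₂ := IsPO.cancel hL (by rw [e2]; exact h') b2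
  have g1 := (f1.push (isPO_ps d β₁ hβ).symm).push p1.symm
  have g2 := f2.push p2.symm
  rw [map_natCast, map_natCast] at g1
  rw [map_natCast, ← a2, ← map_natCast θ₁] at g2
  rw [e]
  exact g1.comp g2

theorem dgb_compl {T : Type} [CommRing T] (x : Fin d → T) (hx : ∀ i, IsNilpotent (x i)) :
    IsAdicComplete (Ideal.span (Set.range x)) T := by
  obtain ⟨n, hn⟩ := (Ideal.FG.isNilpotent_iff_le_nilradical
    (Submodule.fg_span (Set.finite_range x))).2 (Ideal.span_le.2 (by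
      rintro _ ⟨i, rfl⟩
      exact hx i))
  refine { haus' := fun y hy => ?_, prec' := fun f hf => ⟨f n, fun m => ?_⟩ }
  · simpa [hn, SModEq.zero] using hy n
  · rcases le_total m n with h | h
    · exact hf h
    · have h1 : f n = f m := by simpa [hn] using hf h
      rw [h1]

/-- if the variables are nilpotent in `C₂` the completed tensor product is the ordinary one
(universal property: `exists_eval`, `PS.hom_ext` for the nilpotent ideal generated by the images of the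
variables, which is adically complete) -/
theorem Bx.isPO_nil (h : Bx α₁ α₂ l₁ l₂) (hn : ∀ i, IsNilpotent (α₂ (X i))) :
    IsPO (α₁.comp C) (α₂.comp C) (l₁.comp C) l₂ := by
  refine CategoryTheory.IsPushout.mk' (CommRingCat.hom_ext (RingHom.ext h.comm_C)) ?_ ?_
  · intro T φ φ' h1 h2
    have e1 : ∀ c, φ.hom (l₁ (C c)) = φ'.hom (l₁ (C c)) := fun c => congrArg (fun ψ => ψ.hom c) h1
    have e2 : ∀ c, φ.hom (l₂ c) = φ'.hom (l₂ c) := fun c => congrArg (fun ψ => ψ.hom c) h2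
    have := dgb_compl (fun i => φ.hom (l₁ (X i))) fun i => by
      rw [h.comm_X]
      exact ((hn i).map l₂).map φ.hom
    have e3 : φ.hom.comp l₁ = φ'.hom.comp l₁ :=
      PS.hom_ext (Ideal.span (Set.range fun i => φ.hom (l₁ (X i)))) e1
        (fun i => by simp only [RingHom.comp_apply, h.comm_X, e2])
        fun i => Ideal.subset_span ⟨i, rfl⟩
    exact CommRingCat.hom_ext (IsPO.ext h (RingHom.congr_fun e3) e2)
  · intro T a b hab
    have hab' : ∀ w, a.hom (α₁ (C w)) = b.hom (α₂ (C w)) := fun w => congrArg (fun ψ => ψ.hom w) hab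
    have := dgb_compl (fun i => b.hom (α₂ (X i))) fun i => (hn i).map b.hom
    obtain ⟨ev, h1, h2⟩ := exists_eval a.hom (Ideal.span (Set.range fun i => b.hom (α₂ (X i))))
      (fun i => b.hom (α₂ (X i))) fun i => Ideal.subset_span ⟨i, rfl⟩
    have e : ev.comp (MvPowerSeries.map (α₁.comp C)) = b.hom.comp α₂ :=
      PS.hom_ext (Ideal.span (Set.range fun i => b.hom (α₂ (X i))))
        (fun w => by simp only [RingHom.comp_apply, map_C, h1, hab'])
        (fun i => by simp only [RingHom.comp_apply, map_X, h2])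
        fun i => by
          rw [RingHom.comp_apply, map_X, h2]
          exact Ideal.subset_span ⟨i, rfl⟩
    obtain ⟨w, h3, h4⟩ := IsPO.lift h ev b.hom (RingHom.congr_fun e)
    exact ⟨CommRingCat.ofHom w, CommRingCat.hom_ext (RingHom.ext fun c => (h3 _).trans (h1 c)),
      CommRingCat.hom_ext (RingHom.ext h4)⟩

/-- REGULAR SEQUENCE on `L`.  `zs₂` is regular as `l₂` is flat.  `L/zs₂` is the box of `C₁` and
`K = C₂/zs₂` (`IsPO.of_surj`, `paste`); `isPO_nil`; `W → K` factors through the field `W/𝔪`, so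
`C₁/P → L/zs₂` is flat (`IsPO.of_surj`, `cancel`, `IsPO.flat`); `isWeaklyRegular_append_iff_quot`,
`isWeaklyRegular_of_ker`, `flat_regular`. -/
theorem Bx.regular [IsNoetherianRing W] [IsLocalRing W] (h : Bx α₁ α₂ l₁ l₂) (h1 : α₁.Finite)
    (hf : (α₁.comp C).Flat) {P : W} (hP : maximalIdeal W = Ideal.span {P}) {zs₁ : List C₁}
    {zs₂ : List C₂} (hz₁ : IsWeaklyRegular C₁ (α₁ (C P) :: zs₁)) (hz₂ : IsWeaklyRegular C₂ zs₂)
    (hp : α₂ (C P) ∈ Ideal.ofList zs₂) (hn : ∀ i, ∃ t, α₂ (X i) ^ t ∈ Ideal.ofList zs₂) :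
    IsWeaklyRegular L (zs₂.map l₂ ++ zs₁.map (l₁.comp C)) := by
  have hfl := h.flat h1 hf
  rw [isWeaklyRegular_append_iff_quot]
  refine ⟨flat_regular hfl hz₂, ?_⟩
  set J₂ := Ideal.ofList zs₂
  set J := Ideal.ofList (zs₂.map l₂)
  have hJ : J = J₂.map l₂ := (Ideal.map_ofList _ _).symm
  let l₂' : C₂ ⧸ J₂ →+* L ⧸ J := Ideal.quotientMap J l₂ (hJ ▸ Ideal.le_comap_map)
  have p1 : IsPO (Ideal.Quotient.mk J₂) l₂ l₂' (Ideal.Quotient.mk J) :=
    IsPO.of_surj Ideal.Quotient.mk_surjective Ideal.Quotient.mk_surjective (fun _ => rfl)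
      (by rw [Ideal.mk_ker, Ideal.mk_ker, hJ])
  have p2 : Bx α₁ ((Ideal.Quotient.mk J₂).comp α₂) ((Ideal.Quotient.mk J).comp l₁) l₂' :=
    IsPO.paste h p1.symm
  have p3 := p2.isPO_nil fun i => (hn i).imp fun t ht => by
    rw [RingHom.comp_apply, ← map_pow, Ideal.Quotient.eq_zero_iff_mem]
    exact ht
  have hP2 : Ideal.Quotient.mk J₂ (α₂ (C P)) = 0 := Ideal.Quotient.eq_zero_iff_mem.2 hp
  set J₁ := Ideal.span {α₁ (C P)}
  have hJ₁ : J₁ = (maximalIdeal W).map (α₁.comp C) := by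
    rw [hP, Ideal.map_span, Set.image_singleton]
    rfl
  let τ : W ⧸ maximalIdeal W →+* C₂ ⧸ J₂ :=
    Ideal.Quotient.lift _ (((Ideal.Quotient.mk J₂).comp α₂).comp C) fun a ha => by
      rw [hP] at ha
      obtain ⟨c, rfl⟩ := Ideal.mem_span_singleton'.1 ha
      rw [map_mul]
      exact mul_eq_zero_of_right _ hP2
  let ρ : W ⧸ maximalIdeal W →+* C₁ ⧸ J₁ :=
    Ideal.quotientMap J₁ (α₁.comp C) (hJ₁ ▸ Ideal.le_comap_map)
  let η : C₁ ⧸ J₁ →+* L ⧸ J :=
    Ideal.Quotient.lift _ (((Ideal.Quotient.mk J).comp l₁).comp C) fun a ha => by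
      obtain ⟨c, rfl⟩ := Ideal.mem_span_singleton'.1 ha
      rw [map_mul]
      exact mul_eq_zero_of_right _ ((p3.comm P).trans (by
        rw [RingHom.comp_apply, RingHom.comp_apply, hP2, map_zero]))
  have p4 : IsPO (Ideal.Quotient.mk (maximalIdeal W)) (α₁.comp C) ρ (Ideal.Quotient.mk J₁) :=
    IsPO.of_surj Ideal.Quotient.mk_surjective Ideal.Quotient.mk_surjective (fun _ => rfl)
      (by rw [Ideal.mk_ker, Ideal.mk_ker, hJ₁])
  have p5 : IsPO ρ τ η l₂' := p4.symm.cancel p3 fun c => by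
    obtain ⟨w, rfl⟩ := Ideal.Quotient.mk_surjective c
    exact p3.comm w
  have hη : η.Flat := p5.symm.flat (RingHom.Flat.of_isField (Field.toIsField (ResidueField W)) τ)
  have := flat_regular hη (isWeaklyRegular_of_ker (Ideal.Quotient.mk J₁)
    Ideal.Quotient.mk_surjective [α₁ (C P)] zs₁ (by rw [Ideal.mk_ker, Ideal.ofList_singleton]) hz₁)
  rw [List.map_map] at this ⊢
  exact this

/-- NON-VANISHING.  With `K = A/𝔪`, `T = (C₁/𝔪) ⊗_K (C₂/𝔪)` (`exists_po`) there is a map `L → T`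
(`IsPO.lift`, `constantCoeff` on `C₁⟦y⟧`; `a - C (constantCoeff a) ∈ XP ≤ 𝔪`) killing `x` and `y`;
`IsPO.mul_ne_zero`. -/
theorem Bx.not_mem [IsLocalRing W] (h : Bx α₁ α₂ l₁ l₂) {b₁ : C₁} {b₂ : C₂}
    (h1 : b₁ ∉ (maximalIdeal (PS d W)).map α₁) (h2 : b₂ ∉ (maximalIdeal (PS d W)).map α₂) :
    l₁ (C b₁) * l₂ b₂ ∉ Ideal.span (Set.range fun i => l₁ (C (α₁ (X i))) - l₁ (X i)) := by
  obtain ⟨T, _, i, j, hT⟩ := exists_po
    (Ideal.quotientMap ((maximalIdeal (PS d W)).map α₁) α₁ Ideal.le_comap_map)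
    (Ideal.quotientMap ((maximalIdeal (PS d W)).map α₂) α₂ Ideal.le_comap_map)
  have hX : XP d W ≤ maximalIdeal (PS d W) := by
    rw [PS.max_eq]
    exact le_sup_right
  obtain ⟨w, w1, w2⟩ := h.lift ((i.comp (Ideal.Quotient.mk _)).comp constantCoeff)
    (j.comp (Ideal.Quotient.mk _)) fun a => by
      have e1 : Ideal.Quotient.mk (maximalIdeal (PS d W)) (C (constantCoeff a)) =
          Ideal.Quotient.mk _ a :=
        Ideal.Quotient.eq.2 (hX (mem_XP_iff.2 (by rw [map_sub, constantCoeff_C, sub_self])))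
      have e2 := hT.comm (Ideal.Quotient.mk _ a)
      conv_lhs at e2 => rw [← e1]
      rw [Ideal.quotientMap_mk, Ideal.quotientMap_mk] at e2
      exact e2
  intro hmem
  have h3 : Ideal.span (Set.range fun i => l₁ (C (α₁ (X i))) - l₁ (X i)) ≤ RingHom.ker w := by
    rw [Ideal.span_le]
    rintro _ ⟨k, rfl⟩
    have e1 : Ideal.Quotient.mk ((maximalIdeal (PS d W)).map α₁) (α₁ (X k)) = 0 :=
      Ideal.Quotient.eq_zero_iff_mem.2
        (Ideal.mem_map_of_mem _ (hX (Ideal.subset_span ⟨k, rfl⟩)))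
    simp only [SetLike.mem_coe, RingHom.mem_ker, map_sub, w1, RingHom.comp_apply, constantCoeff_C,
      constantCoeff_X, e1, map_zero, sub_self]
  have h4 := h3 hmem
  rw [RingHom.mem_ker, map_mul, w1, w2] at h4
  exact hT.mul_ne_zero
    ((Ideal.Quotient.maximal_ideal_iff_isField_quotient _).1 inferInstance)
    (mt Ideal.Quotient.eq_zero_iff_mem.1 h1) (mt Ideal.Quotient.eq_zero_iff_mem.1 h2) h4

end Box

section BoxDim
variable [IsLocalRing W] [IsNoetherianRing W] {J₁ J₂ : Ideal (PS d W)}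

theorem dgb_dl {K : Ideal (PS d (PS d W))}
    (h1 : ∀ a ∈ maximalIdeal (PS d W), (C a : PS d (PS d W)) ∈ K.radical)
    (h2 : ∀ i, (X i : PS d (PS d W)) ∈ K.radical) : Dl K 1 := by
  refine dl_one_iff.2 (Ideal.exists_pow_le_of_le_radical_of_fg ?_ (IsNoetherian.noetherian _))
  rw [PS.max_eq]
  refine sup_le (Ideal.map_le_iff_le_comap.2 h1) (Ideal.span_le.2 ?_)
  rintro _ ⟨i, rfl⟩
  exact h2 i

omit [IsNoetherianRing W] in
theorem dgb_X (i : Fin d) : (X i : PS d W) ∈ maximalIdeal (PS d W) := by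
  rw [PS.max_eq]
  exact Ideal.mem_sup_right (Ideal.subset_span (Set.mem_range_self i))

omit [IsNoetherianRing W] in
theorem dgb_C {w : W} (h : w ∈ maximalIdeal W) : (C w : PS d W) ∈ maximalIdeal (PS d W) := by
  rw [PS.max_eq]
  exact Ideal.mem_sup_left (Ideal.mem_map_of_mem _ h)

omit [IsNoetherianRing W] in
theorem dgb_map {z : PS d W} (h : z ∈ maximalIdeal (PS d W)) :
    MvPowerSeries.map (σ := Fin d) (C : W →+* PS d W) z ∈ maximalIdeal (PS d (PS d W)) := by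
  rw [PS.max_eq] at h
  refine (?_ : _ ≤ (maximalIdeal (PS d (PS d W))).comap
    (MvPowerSeries.map (σ := Fin d) (C : W →+* PS d W))) h
  refine sup_le (Ideal.map_le_iff_le_comap.2 fun w hw => ?_) (Ideal.span_le.2 ?_)
  · rw [Ideal.mem_comap, Ideal.mem_comap, map_C]
    exact dgb_C (dgb_C hw)
  · rintro _ ⟨i, rfl⟩
    rw [SetLike.mem_coe, Ideal.mem_comap, map_X]
    exact dgb_X i

omit [IsNoetherianRing W] in
theorem dgb_rad {L : Type} [CommRing L] (α : PS d W →+* L) {I J : Ideal (PS d W)} (h : Prim I J)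
    {K : Ideal L} (h1 : I.map α ≤ K.radical) (h2 : J.map α ≤ K.radical) {a : PS d W}
    (ha : a ∈ maximalIdeal (PS d W)) : α a ∈ K.radical := by
  obtain ⟨n, hn⟩ := h
  refine Ideal.mem_radical_of_pow_mem (m := n) ?_
  rw [← map_pow]
  exact (sup_le (Ideal.map_le_iff_le_comap.1 h1) (Ideal.map_le_iff_le_comap.1 h2) : _ ≤ _)
    (hn (Ideal.pow_mem_pow ha n))

/-- modulo `x - y`, `a(y) ≡ a(x)` (`PS.sub_mem_local`); `𝔪 = 𝔪_A.map C + (y)` -/
theorem box_prim (h : Prim J₁ J₂) : Dl (box J₁ J₂ ⊔ dI d W) 1 := by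
  have h0 : ∀ a ∈ maximalIdeal (PS d W),
      (C a : PS d (PS d W)) ∈ (box J₁ J₂ ⊔ dI d W).radical := by
    intro a ha
    refine dgb_rad C h (le_trans (le_sup_of_le_left le_sup_left) Ideal.le_radical)
      (le_trans (Ideal.map_le_iff_le_comap.2 fun b hb => ?_) Ideal.le_radical) ha
    have h1 := PS.sub_mem_local (C : PS d W →+* PS d (PS d W))
      (MvPowerSeries.map (σ := Fin d) (C : W →+* PS d W)) (fun w => (map_C _ w).symm)
      (fun i => dgb_C (dgb_X i)) (fun i => dgb_map (dgb_X i)) b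
    simp only [map_X] at h1
    have h2 := add_mem (Ideal.mem_sup_right (S := box J₁ J₂) (T := dI d W) h1)
      (Ideal.mem_sup_left (Ideal.mem_sup_right (Ideal.mem_map_of_mem _ hb)))
    rwa [sub_add_cancel] at h2
  refine dgb_dl h0 fun i => ?_
  have h1 : (C (X i) : PS d (PS d W)) - X i ∈ box J₁ J₂ ⊔ dI d W :=
    Ideal.mem_sup_right (Ideal.subset_span (Set.mem_range_self i))
  have h2 := sub_mem (h0 _ (dgb_X i)) (Ideal.le_radical h1)
  rwa [sub_sub_cancel] at h2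

/-- `box + zs₁(x) + zs₂(y)` contains a power of `P`, of each `y_i`, and of each `x_i`; `Dl.of_sup_list` -/
theorem box_dl {P : W} (hP : maximalIdeal W = Ideal.span {P}) {zs₁ zs₂ : List (PS d W)}
    (h1 : ∀ z ∈ zs₁, z ∈ maximalIdeal (PS d W)) (h2 : ∀ z ∈ zs₂, z ∈ maximalIdeal (PS d W))
    (p1 : Prim J₁ (Ideal.ofList (C P :: zs₁))) (p2 : Prim J₂ (Ideal.ofList zs₂)) :
    Dl (box J₁ J₂) (1 + zs₁.length + zs₂.length) := by
  have key := Dl.of_sup_list (I := box J₁ J₂) (n := 1)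
    (zs₁.map (C : PS d W →+* PS d (PS d W)) ++
      zs₂.map (MvPowerSeries.map (σ := Fin d) (C : W →+* PS d W))) ?_ ?_
  · rwa [List.length_append, List.length_map, List.length_map, ← add_assoc] at key
  · intro z hz
    rcases List.mem_append.1 hz with hz | hz <;> obtain ⟨a, ha, rfl⟩ := List.mem_map.1 hz
    exacts [dgb_C (h1 a ha), dgb_map (h2 a ha)]
  · rw [Ideal.ofList_append, ← Ideal.map_ofList, ← Ideal.map_ofList]
    have h0 : ∀ a ∈ maximalIdeal (PS d W), MvPowerSeries.map (σ := Fin d) (C : W →+* PS d W) a ∈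
        (box J₁ J₂ ⊔ ((Ideal.ofList zs₁).map (C : PS d W →+* PS d (PS d W)) ⊔
          (Ideal.ofList zs₂).map (MvPowerSeries.map (σ := Fin d) (C : W →+* PS d W)))).radical :=
      fun a ha => dgb_rad _ p2 (le_trans (le_sup_of_le_left le_sup_right) Ideal.le_radical)
        (le_trans (le_sup_of_le_right le_sup_right) Ideal.le_radical) ha
    refine dgb_dl (fun a ha => dgb_rad C p1
      (le_trans (le_sup_of_le_left le_sup_left) Ideal.le_radical) ?_ ha) fun i => ?_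
    · rw [Ideal.ofList_cons, Ideal.map_sup, Ideal.map_span, Set.image_singleton]
      refine sup_le ?_ (le_trans (le_sup_of_le_right le_sup_left) Ideal.le_radical)
      rw [Ideal.span_singleton_le_iff_mem]
      have h3 := h0 _ (dgb_C (hP ▸ Ideal.mem_span_singleton_self P))
      rwa [map_C] at h3
    · have h3 := h0 _ (dgb_X i)
      rwa [map_X] at h3

end BoxDim

/-! ### the diagonal -/

/-- `R = W⟦x⟧/(f)`, `S = R⟦y⟧/(f(y))`, `Δ : S → R` the multiplication -/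
structure Dg {R S : Type} [CommRing R] [CommRing S] (π : PS d W →+* R) (f : PS d W)
    (κ : PS d R →+* S) (Δ : S →+* R) : Prop where
  surj : Function.Surjective π
  ker : RingHom.ker π = Ideal.span {f}
  ksurj : Function.Surjective κ
  kker : RingHom.ker κ = Ideal.span {MvPowerSeries.map (π.comp C) f}
  flat : (κ.comp C).Flat
  ΔC : ∀ r, Δ (κ (C r)) = r
  Δmap : ∀ a, Δ (κ (MvPowerSeries.map (π.comp C) a)) = π a
  Δker : RingHom.ker (Δ.comp κ) = Ideal.span (Set.range fun i => (C (π (X i)) : PS d R) - X i)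

section Dg
variable {R S : Type} [CommRing R] [IsLocalRing R] [CommRing S] {π : PS d W →+* R} {f : PS d W}
  {κ : PS d R →+* S} {Δ : S →+* R}

/-- `cln_of_surj`, `exists_eval`, `PS.hom_ext`, `PS.sub_mem_local` (with `id` and `C ∘ Δ₀`) -/
theorem exists_delta [CLN W] (hπ : Function.Surjective π) : ∃ Δ₀ : PS d R →+* R,
    (∀ r, Δ₀ (C r) = r) ∧ (∀ a, Δ₀ (MvPowerSeries.map (π.comp C) a) = π a) ∧
      RingHom.ker Δ₀ = Ideal.span (Set.range fun i => (C (π (X i)) : PS d R) - X i) := by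
  have := cln_of_surj π hπ
  have := IsLocalHom.of_surjective π hπ
  have hX : ∀ {T : Type} [CommRing T] [IsLocalRing T] (i : Fin d),
      (X i : PS d T) ∈ maximalIdeal (PS d T) := fun i => by
    rw [PS.max_eq]
    exact Ideal.mem_sup_right (Ideal.subset_span ⟨i, rfl⟩)
  have hx : ∀ i, π (X i) ∈ maximalIdeal R := fun i => map_nonunit π _ (hX i)
  obtain ⟨Δ₀, h1, h2⟩ := exists_eval (RingHom.id R) (maximalIdeal R) (fun i => π (X i)) hx
  refine ⟨Δ₀, h1, RingHom.congr_fun (PS.hom_ext (maximalIdeal R)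
    (f := Δ₀.comp (MvPowerSeries.map (π.comp C))) (g := π) (fun c => by simp [h1])
    (fun i => by simp [h2]) fun i => by simpa [h2] using hx i), le_antisymm (fun y hy => ?_)
      (Ideal.span_le.2 ?_)⟩
  · have := PS.sub_mem_local ((C : R →+* PS d R).comp Δ₀) (RingHom.id _) (fun w => by simp [h1])
      (fun i => by
        rw [RingHom.comp_apply, h2, PS.max_eq]
        exact Ideal.mem_sup_left (Ideal.mem_map_of_mem _ (hx i))) hX y
    simpa only [RingHom.comp_apply, RingHom.id_apply, h2, RingHom.mem_ker.1 hy, map_zero, zero_sub,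
      neg_mem_iff] using this
  · rintro _ ⟨i, rfl⟩
    simp [h1, h2]

/-- `R183.flat_quot_of_inf` with `PS.flat_C`: `𝔪.map C` is prime (kernel of `map residue`,
`ker_map_eq`), so `c ξ ∈ 𝔪.map C` forces `c ∈ 𝔪.map C`. -/
theorem exists_dg [CLN W] (hπ : Function.Surjective π) (hk : RingHom.ker π = Ideal.span {f})
    (hξ : MvPowerSeries.map (π.comp C) f ∉ (maximalIdeal R).map (C : R →+* PS d R)) :
    ∃ (S : Type) (_ : CommRing S) (κ : PS d R →+* S) (Δ : S →+* R), Dg π f κ Δ := by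
  have := cln_of_surj π hπ
  obtain ⟨Δ₀, h1, h2, h3⟩ := exists_delta hπ
  set ξ := MvPowerSeries.map (π.comp C) f
  have h0 : ∀ a ∈ Ideal.span {ξ}, Δ₀ a = 0 := fun a ha => by
    obtain ⟨c, rfl⟩ := Ideal.mem_span_singleton'.1 ha
    have hf : π f = 0 := RingHom.mem_ker.1 (hk ▸ Ideal.mem_span_singleton_self f)
    rw [map_mul, h2, hf, mul_zero]
  have hp : ((maximalIdeal R).map (C : R →+* PS d R)).IsPrime := by
    rw [← ker_residue, ← ker_map_eq _ (IsNoetherian.noetherian _)]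
    have := NoZeroDivisors.to_isDomain (PS d (ResidueField R))
    exact RingHom.ker_isPrime _
  refine ⟨PS d R ⧸ Ideal.span {ξ}, inferInstance, Ideal.Quotient.mk _,
    Ideal.Quotient.lift _ Δ₀ h0, hπ, hk, Ideal.Quotient.mk_surjective, Ideal.mk_ker,
    flat_quot_of_inf _ PS.flat_C ?_ _ ?_, h1, h2, h3⟩
  · rw [jacobson_eq_maximalIdeal ⊥ bot_ne_top, PS.max_eq]
    exact le_sup_left
  · rintro y ⟨hy, hy'⟩
    obtain ⟨c, rfl⟩ := Ideal.mem_span_singleton'.1 hy
    exact Ideal.mul_mem_mul ((hp.mem_or_mem hy').resolve_right hξ)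
      (Ideal.mem_span_singleton_self _)

theorem exists_dg_zero [CLN W] : ∃ Δ : PS d (PS d W) →+* PS d W,
    Dg (RingHom.id (PS d W)) 0 (RingHom.id _) Δ := by
  obtain ⟨Δ₀, h1, h2, h3⟩ := exists_delta (π := RingHom.id (PS d W)) Function.surjective_id
  have e : ∀ {T : Type} [CommRing T], RingHom.ker (RingHom.id T) = Ideal.span {0} := fun {T} _ => by
    rw [Ideal.span_singleton_zero]
    exact (RingHom.injective_iff_ker_eq_bot _).1 Function.injective_id
  exact ⟨Δ₀, Function.surjective_id, e, Function.surjective_id, by rw [map_zero]; exact e,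
    PS.flat_C, h1, h2, h3⟩

omit [IsLocalRing R] in
theorem Dg.exists_s (h : Dg π f κ Δ) {X Y D : Type} [CommRing X] [CommRing Y] [CommRing D]
    {μ : R →+* X} {ν : R →+* Y} {l₁ : PS d X →+* D} {l₂ : Y →+* D}
    (hD : Bx (μ.comp π) (ν.comp π) l₁ l₂) :
    ∃ s : S →+* D, ∀ z, s (κ z) = l₁ (MvPowerSeries.map μ z) := by
  have hle : RingHom.ker κ ≤ RingHom.ker (l₁.comp (MvPowerSeries.map μ)) := by
    rw [h.kker, Ideal.span_singleton_le_iff_mem, RingHom.mem_ker]
    have h0 : π f = 0 := RingHom.mem_ker.1 (h.ker ▸ Ideal.mem_span_singleton_self f)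
    refine (IsPO.comm hD f).trans ?_
    rw [RingHom.comp_apply, h0, map_zero, map_zero]
  exact ⟨κ.liftOfSurjective h.ksurj ⟨_, hle⟩, fun z =>
    RingHom.liftOfSurjective_comp_apply κ h.ksurj _ z⟩

omit [IsLocalRing R] in
theorem dgc_lift {A B E : Type} [CommRing A] [CommRing B] [CommRing E] {u : A →+* B}
    (hu : Function.Surjective u) {a : A} (hk : RingHom.ker u = Ideal.span {a}) (v : A →+* E)
    (hv : v a = 0) : ∃ w : B →+* E, ∀ z, w (u z) = v z := by
  have hle : RingHom.ker u ≤ RingHom.ker v := by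
    rw [hk, Ideal.span_singleton_le_iff_mem]
    exact hv
  exact ⟨u.liftOfSurjective hu ⟨v, hle⟩, RingHom.liftOfSurjective_comp_apply u hu ⟨v, hle⟩⟩

theorem dgc_res [IsLocalRing W] (hπ : Function.Surjective π) (y : PS d R) :
    ∃ w : W, y - ((C : R →+* PS d R).comp (π.comp C)) w ∈ maximalIdeal (PS d R) := by
  obtain ⟨a, ha⟩ := hπ (constantCoeff y)
  refine ⟨constantCoeff a, ?_⟩
  have := IsLocalHom.of_surjective π hπ
  rw [mem_maximalIdeal, mem_nonunits_iff, isUnit_iff_constantCoeff, map_sub, RingHom.comp_apply,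
    RingHom.comp_apply, constantCoeff_C, ← ha, ← map_sub, isUnit_map_iff, isUnit_iff_constantCoeff,
    map_sub, constantCoeff_C, sub_self]
  exact not_isUnit_zero

/-- REDUCTION TO THE DIAGONAL.  `𝓜 = X⟦y⟧/(f(y))`, `q` the quotient map, `σ : R → 𝓜` with
`σ ∘ π = q ∘ map (μ π C)`, `σ' : S → 𝓜` with `σ' ∘ κ = q ∘ map μ`, `g : 𝓜 → D`, `ε : 𝓜 → X` with
`ε ∘ q` the evaluation `C x ↦ x`, `y_i ↦ μ π X_i` (get it from `IsPO.lift` for `isPO_ps _ μ`).
Pushouts: `IsPO (map ..) π q σ` (`of_surj`, so `σ` is flat by `PS.flat_map`), `IsPO σ ν g l₂` (`cancel`),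
`IsPO (κ ∘ C) μ σ' (q ∘ C)` (`isPO_ps`, `of_surj`, `paste`), `IsPO σ' Δ ε μ` (`cancel`).
`tl_push` three times: `tl μ ν = tl ε g`; `tl id μ = tl Δ σ'` (vanishes by `tl_flat`);
`tl (g ∘ σ') Δ = tl g ε`.  The `RS` hypotheses: `AC.rs` over `Λ = PS d R` (`map_finite`), `RS.of_comp`. -/
theorem Dg.tl_eq [CLN W] (hW : AC W) (h : Dg π f κ Δ) {X Y D : Type} [CommRing X] [CommRing Y]
    [CommRing D] {μ : R →+* X} {ν : R →+* Y} (hμ : μ.Finite) (hfl : ((μ.comp π).comp C).Flat)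
    {l₁ : PS d X →+* D} {l₂ : Y →+* D} (hD : Bx (μ.comp π) (ν.comp π) l₁ l₂) {s : S →+* D}
    (hs : ∀ z, s (κ z) = l₁ (MvPowerSeries.map μ z)) : tl μ ν = tl Δ s := by
  have : IsNoetherianRing R := isNoetherianRing_of_surjective _ _ π h.surj
  have : IsNoetherianRing X := by
    let _ := μ.toAlgebra
    have : Module.Finite R X := hμ
    exact IsNoetherianRing.of_finite R X
  obtain ⟨m, hm⟩ : ∃ m : PS d W →+* PS d X,
      m = MvPowerSeries.map (σ := Fin d) ((μ.comp π).comp C) := ⟨_, rfl⟩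
  have hm' : ∀ a, m a = MvPowerSeries.map μ (MvPowerSeries.map (π.comp C) a) := fun a => by
    rw [hm, RingHom.comp_assoc, MvPowerSeries.map_comp, RingHom.comp_apply]
  have hD' : IsPO m (ν.comp π) l₁ l₂ := hm ▸ hD
  obtain ⟨M, _, q, hq, hk⟩ : ∃ (M : Type) (_ : CommRing M) (q : PS d X →+* M),
      Function.Surjective q ∧ RingHom.ker q = Ideal.span {m f} :=
    ⟨_, _, Ideal.Quotient.mk _, Ideal.Quotient.mk_surjective, Ideal.mk_ker⟩
  have hq0 : q (m f) = 0 := by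
    rw [← RingHom.mem_ker, hk]
    exact Ideal.mem_span_singleton_self _
  have hπ0 : π f = 0 := by
    rw [← RingHom.mem_ker, h.ker]
    exact Ideal.mem_span_singleton_self _
  obtain ⟨σ, hσ⟩ := dgc_lift h.surj h.ker (q.comp m) hq0
  obtain ⟨σ', hσ'⟩ := dgc_lift h.ksurj h.kker (q.comp (MvPowerSeries.map μ))
    (by rw [RingHom.comp_apply, ← hm', hq0])
  obtain ⟨g, hg⟩ := dgc_lift hq hk l₁ (by rw [hD'.comm, RingHom.comp_apply, hπ0, map_zero, map_zero])
  have P1 : IsPO π m σ q := IsPO.of_surj h.surj hq hσ (by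
    rw [hk, h.ker, Ideal.map_span, Set.image_singleton])
  have hfσ : σ.Flat := P1.symm.flat (hm ▸ PS.flat_map _ hfl)
  have P2 : IsPO σ ν g l₂ := P1.symm.cancel (by rwa [show g.comp q = l₁ from RingHom.ext hg])
    fun c => by
      obtain ⟨a, rfl⟩ := h.surj c
      rw [hσ, RingHom.comp_apply, hg, hD'.comm, RingHom.comp_apply]
  have P3 : IsPO μ (κ.comp C) (q.comp C) σ' := (isPO_ps d μ hμ).symm.paste
    (IsPO.of_surj h.ksurj hq hσ' (by
      rw [hk, h.kker, Ideal.map_span, Set.image_singleton, hm'])).symm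
  obtain ⟨ε, hε, hε'⟩ := P3.lift (RingHom.id X) (μ.comp Δ) fun r => by
    rw [RingHom.id_apply, RingHom.comp_apply, RingHom.comp_apply, h.ΔC]
  have hΔ : Δ.comp (κ.comp C) = RingHom.id R := RingHom.ext h.ΔC
  have P4 : IsPO σ' Δ ε μ := P3.cancel (by
    rw [hΔ, show ε.comp (q.comp C) = RingHom.id X from RingHom.ext hε]
    refine (IsPO.of_surj (f := RingHom.id R) (j := RingHom.id X) Function.surjective_id
      Function.surjective_id (fun _ => rfl) ?_).symm
    rw [(RingHom.injective_iff_ker_eq_bot _).1 Function.injective_id,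
      (RingHom.injective_iff_ker_eq_bot _).1 Function.injective_id, Ideal.map_bot]) hε'
  have hεσ : ε.comp σ = μ := RingHom.ext fun r => by
    obtain ⟨a, rfl⟩ := h.surj r
    have e := hσ' (MvPowerSeries.map (π.comp C) a)
    rw [RingHom.comp_apply, ← hm'] at e
    rw [RingHom.comp_apply, hσ, RingHom.comp_apply, ← e, hε', RingHom.comp_apply, h.Δmap]
  have hsg : g.comp σ' = s := RingHom.ext fun z => by
    obtain ⟨z, rfl⟩ := h.ksurj z
    rw [RingHom.comp_apply, hσ', RingHom.comp_apply, hg, hs]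
  have R1 := hW.rs _ (dgc_res h.surj) κ (RingHom.isIntegral_of_surjective κ h.ksurj)
  have R2 := hW.rs _ (dgc_res h.surj) (q.comp (MvPowerSeries.map μ))
    ((map_finite μ hμ).to_isIntegral.trans _ _ (RingHom.isIntegral_of_surjective q hq))
  have r1 : RS (κ.comp C) := RS.of_comp (σ := π.comp C) R1
  have r2 : RS σ' := RS.of_comp (σ := κ.comp (C.comp (π.comp C))) (by
    rwa [← RingHom.comp_assoc, show σ'.comp κ = _ from RingHom.ext hσ'])
  have r3 : RS σ := RS.of_comp (σ := π.comp C) (by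
    have e : σ.comp (π.comp C) = (q.comp (MvPowerSeries.map μ)).comp (C.comp (π.comp C)) :=
      RingHom.ext fun w => by
        simp only [RingHom.comp_apply, hσ, hm', MvPowerSeries.map_C]
    rwa [e])
  have e1 := tl_push P2 (tl_flat hfσ ν) r3 ε
  have e2 := tl_push P3.symm (tl_flat h.flat μ) r1 Δ
  have e3 := tl_push P4 (fun i => by
    rw [tl_symm, ← e2, hΔ]
    exact tl_flat (RingHom.Flat.id R) μ i) r2 g
  rw [← hεσ, e1, tl_symm, ← e3, hsg, tl_symm]

end Dg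

/-! ### equal characteristic -/

section EqChar
variable {K : Type} [Field K]

theorem regLoc_ps_field (d : ℕ) (K : Type) [Field K] : RegLoc (PS d K) d := by
  have h : RegLoc K 0 := ⟨[], rfl, IsWeaklyRegular.nil K K, by
    rw [Ideal.ofList_nil, IsLocalRing.maximalIdeal_eq_bot]⟩
  exact h.ps

theorem dgd_max (d : ℕ) (K : Type) [Field K] : maximalIdeal (PS d K) = XP d K := by
  rw [PS.max_eq, IsLocalRing.maximalIdeal_eq_bot, Ideal.map_bot, bot_sup_eq]

theorem dgd_flat {B : Type} [CommRing B] (f : K →+* B) : f.Flat := by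
  let := f.toAlgebra
  exact (inferInstance : Module.Flat K B)

theorem dgd_cln (K : Type) [Field K] : CLN K where
  noeth := inferInstance
  compl := by
    rw [IsLocalRing.maximalIdeal_eq_bot]
    infer_instance

theorem dgd_sup {P Q : Ideal (PS d K)} (hQ : Q ≠ ⊤) :
    XP d (PS d K) ⊔ box P Q = P.comap (constantCoeff : PS d (PS d K) →+* PS d K) := by
  have h1 : XP d (PS d K) ≤ P.comap (constantCoeff : PS d (PS d K) →+* PS d K) := fun y hy => by
    rw [Ideal.mem_comap, mem_XP_iff.1 hy]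
    exact P.zero_mem
  refine le_antisymm (sup_le h1 (sup_le ?_ (le_trans ?_ h1))) fun y hy => ?_
  · rw [Ideal.map_le_iff_le_comap]
    intro a ha
    simpa using ha
  · rw [← psc_map_XP (C : K →+* PS d K), ← dgd_max]
    exact Ideal.map_mono (le_maximalIdeal hQ)
  · rw [← sub_add_cancel y (C (constantCoeff y))]
    exact Submodule.add_mem_sup (mem_XP_iff.2 (by simp))
      (Ideal.mem_sup_left (Ideal.mem_map_of_mem _ hy))

/-- `dim_flat_add` for `l₂ : A/Q → D` (`Bx.flat`, `Bx.surj`); the fibre is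
`Λ/(box P 𝔪) ≃ A/P` (`constantCoeff`, `dim_comap_surj`). -/
theorem dim_box_field {P Q : Ideal (PS d K)} (hP : P ≠ ⊤) (hQ : Q ≠ ⊤) :
    ringKrullDim (PS d (PS d K) ⧸ box P Q) =
      ringKrullDim (PS d K ⧸ P) + ringKrullDim (PS d K ⧸ Q) := by
  obtain ⟨D, _, l₁, l₂, h⟩ := exists_po
    (MvPowerSeries.map (σ := Fin d) ((Ideal.Quotient.mk P).comp (C : K →+* PS d K)))
    (Ideal.Quotient.mk Q)
  obtain ⟨hs, hk⟩ := Bx.surj h Ideal.Quotient.mk_surjective Ideal.Quotient.mk_surjective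
  rw [Ideal.mk_ker, Ideal.mk_ker] at hk
  have hfl : l₂.Flat := Bx.flat h (RingHom.Finite.of_surjective _ Ideal.Quotient.mk_surjective)
    (dgd_flat _)
  set ℓ := l₁.comp (MvPowerSeries.map (σ := Fin d) (Ideal.Quotient.mk P)) with hℓ
  have hne : box P Q ≠ ⊤ := fun ht => by
    have h1 := dgd_sup (P := P) hQ
    rw [ht, sup_top_eq] at h1
    exact hP (Ideal.comap_eq_top_iff.1 h1.symm)
  have : Nontrivial D := ⟨0, 1, fun h01 => hne (by
    rw [← hk, Ideal.eq_top_iff_one, RingHom.mem_ker, map_one, h01])⟩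
  have : IsLocalRing D := IsLocalRing.of_surjective' ℓ hs
  have : IsNoetherianRing D := isNoetherianRing_of_surjective _ _ ℓ hs
  have : Nontrivial (PS d K ⧸ Q) := Ideal.Quotient.nontrivial_iff.2 hQ
  have : IsLocalRing (PS d K ⧸ Q) := IsLocalRing.of_surjective' _ Ideal.Quotient.mk_surjective
  have hc : l₂.comp (Ideal.Quotient.mk Q) =
      ℓ.comp (MvPowerSeries.map (σ := Fin d) (C : K →+* PS d K)) := by
    refine RingHom.ext fun a => ?_
    rw [RingHom.comp_apply, ← h.comm a, MvPowerSeries.map_comp]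
    rfl
  have hJ : (maximalIdeal (PS d K ⧸ Q)).map l₂ = (XP d (PS d K)).map ℓ := by
    rw [← IsLocalRing.map_maximalIdeal_of_surjective _ Ideal.Quotient.mk_surjective, Ideal.map_map,
      hc, ← Ideal.map_map, dgd_max, psc_map_XP]
  have h1 := dim_flat_add l₂ hfl (by
    rw [hJ, ← IsLocalRing.map_maximalIdeal_of_surjective ℓ hs, PS.max_eq]
    exact Ideal.map_mono le_sup_right)
  rw [hJ, ← dim_comap_surj ℓ hs, Ideal.comap_map_of_surjective ℓ hs, ← RingHom.ker_eq_comap_bot, hk,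
    dgd_sup hQ, dim_comap_surj _ fun a => ⟨C a, by simp⟩] at h1
  rw [add_comm, ← h1, ← hk]
  exact ringKrullDim_eq_of_ringEquiv (RingHom.quotientKerEquivOfSurjective hs)

theorem dgd_mem (d : ℕ) (K : Type) [Field K] (i : Fin d) :
    (C (X i) : PS d (PS d K)) - X i ∈ maximalIdeal (PS d (PS d K)) := by
  rw [PS.max_eq, dgd_max]
  exact sub_mem (Ideal.mem_sup_left (Ideal.mem_map_of_mem _ (Ideal.subset_span ⟨i, rfl⟩)))
    (Ideal.mem_sup_right (Ideal.subset_span ⟨i, rfl⟩))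

theorem dgd_reg (d : ℕ) (K : Type) [Field K] : IsWeaklyRegular (PS d (PS d K))
    (List.ofFn fun i : Fin d => (C (X i) : PS d (PS d K)) - X i) := by
  refine ((isWeaklyRegular_append_iff_quot _ (List.ofFn X)).1
    ((regLoc_ps_field d K).ps.regular_of_params _ (by simp) ?_ (dl_one_iff.2 ⟨1, ?_⟩))).1
  · intro y hy
    rcases List.mem_append.1 hy with hy | hy
    · obtain ⟨i, rfl⟩ := List.mem_ofFn.1 hy
      exact dgd_mem d K i
    · obtain ⟨i, rfl⟩ := List.mem_ofFn.1 hy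
      rw [PS.max_eq]
      exact Ideal.mem_sup_right (Ideal.subset_span ⟨i, rfl⟩)
  · rw [pow_one, PS.max_eq, dgd_max, Ideal.ofList_append, dime_ofList_X, dimb_ofList_ofFn]
    refine sup_le ?_ le_sup_right
    rw [XP, Ideal.map_span, Ideal.span_le]
    rintro _ ⟨_, ⟨i, rfl⟩, rfl⟩
    rw [← sub_add_cancel (C (X i) : PS d (PS d K)) (X i)]
    exact Submodule.add_mem_sup (Ideal.subset_span ⟨i, rfl⟩) (Ideal.subset_span ⟨i, rfl⟩)

theorem dgd_chim [IsAlgClosed K] (P Q : Ideal (PS d K)) :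
    chim (PS d K) (PS d K ⧸ P) (PS d K ⧸ Q) d =
      chim (PS d (PS d K)) (PS d (PS d K) ⧸
        Ideal.ofList (List.ofFn fun i : Fin d => (C (X i) : PS d (PS d K)) - X i))
        (PS d (PS d K) ⧸ box P Q) d := by
  have := dgd_cln K
  obtain ⟨Δ, hΔ⟩ := exists_dg_zero (d := d) (W := K)
  obtain ⟨D, _, l₁, l₂, h⟩ := exists_po
    (MvPowerSeries.map (σ := Fin d) ((Ideal.Quotient.mk P).comp (C : K →+* PS d K)))
    (Ideal.Quotient.mk Q)
  obtain ⟨hs, hk⟩ := Bx.surj h Ideal.Quotient.mk_surjective Ideal.Quotient.mk_surjective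
  rw [Ideal.mk_ker, Ideal.mk_ker] at hk
  have h1 := hΔ.tl_eq (AC.of_isAlgClosed K) (μ := Ideal.Quotient.mk P) (ν := Ideal.Quotient.mk Q)
    (RingHom.Finite.of_surjective _ Ideal.Quotient.mk_surjective) (dgd_flat _) (l₁ := l₁) (l₂ := l₂) h
    (s := l₁.comp (MvPowerSeries.map (σ := Fin d) (Ideal.Quotient.mk P))) fun _ => rfl
  rw [← chi_mk, ← chi_mk, chi, chi, h1,
    tl_ker (f' := Ideal.Quotient.mk
      (Ideal.ofList (List.ofFn fun i : Fin d => (C (X i) : PS d (PS d K)) - X i)))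
      (fun r => ⟨C r, hΔ.ΔC r⟩) Ideal.Quotient.mk_surjective
      (by rw [Ideal.mk_ker, dimb_ofList_ofFn]; exact hΔ.Δker),
    tl_symm, tl_ker (f' := Ideal.Quotient.mk (box P Q)) hs Ideal.Quotient.mk_surjective
      (by rw [Ideal.mk_ker, hk]), tl_symm]

theorem dgd_main [IsAlgClosed K] {P Q : Ideal (PS d K)} (hP : P.IsPrime) (hQ : Q.IsPrime)
    (h : Prim P Q) {a b : ℕ} (ha : ringKrullDim (PS d K ⧸ P) = a)
    (hb : ringKrullDim (PS d K ⧸ Q) = b) :
    (a + b < d → chim (PS d K) (PS d K ⧸ P) (PS d K ⧸ Q) d = 0) ∧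
      (¬ a + b < d → 0 < chim (PS d K) (PS d K ⧸ P) (PS d K ⧸ Q) d) := by
  have h1 := koszul d (PS d (PS d K)) (List.ofFn fun i : Fin d => (C (X i) : PS d (PS d K)) - X i)
    (by simp) (fun u hu => by
      obtain ⟨i, rfl⟩ := List.mem_ofFn.1 hu
      exact dgd_mem d K i) (dgd_reg d K) (PS d (PS d K) ⧸ box P Q) (by
      rw [Ideal.annihilator_quotient, dimb_ofList_ofFn]
      exact (prim_iff.2 (box_prim h)).symm)
  have h2 : ringKrullDim (PS d (PS d K) ⧸ box P Q) = (a + b : ℕ) := by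
    rw [dim_box_field hP.ne_top hQ.ne_top, ha, hb, Nat.cast_add]
  rwa [Ideal.annihilator_quotient, dl_iff_of_eq h2, ← dgd_chim] at h1

/-- `exists_dg_zero`, `Dg.tl_eq` for `μ = mk P`, `ν = mk Q`; `Bx.surj`, `tl_ker`, `tl_symm`, `chi_mk`
turn it into `chim Λ (Λ/us) (Λ/box P Q)` with `us = List.ofFn (C (X i) - X i)`, which is regular
(`RegLoc.ps`, `RegLoc.regular_of_params` for `us ++ X`); `koszul`, `box_prim`, `dim_box_field`. -/
theorem eqChar (d : ℕ) (K : Type) [Field K] [IsAlgClosed K] :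
    VanP (PS d K) d d ∧ PosP (PS d K) d := by
  exact ⟨fun P Q hP hQ h a b ha hb hab => (dgd_main hP hQ h ha hb).1 hab,
    fun P Q hP hQ h a b ha hb hab => (dgd_main hP hQ h ha hb).2 (by omega)⟩

end EqChar

end Crest.Agent.R188
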