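import Crest.Agent.R188.GP
import Crest.Agent.R188.Diag

/-! # R188 / Core : the key lemma applied to `𝓛 = C₁ ⊗^ C₂ → 𝓡 = M₁ ⊗^ M₂`. -/

set_option autoImplicit false
open IsLocalRing RingTheory.Sequence Crest.Agent.R183 MvPowerSeries

namespace Crest.Agent.R188

variable {p : ℕ} [Fact p.Prime] {k : Type} [Field k] [IsAlgClosed k] [CharP k p]

/-- `C` is a Cohen–Macaulay finite `A/J`-algebra with parameters `zs`, `M` is finite over `C` -/
structure Cov {d : ℕ} (J : Ideal (AA p k d)) (zs : List (AA p k d)) {C M : Type} [CommRing C]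
    [CommRing M] (α : AA p k d →+* C) (β : C →+* M) : Prop where
  fin : α.Finite
  fin' : β.Finite
  kill : ∀ y ∈ J, α y = 0
  max : ∀ z ∈ zs, z ∈ maximalIdeal (AA p k d)
  reg : IsWeaklyRegular C (zs.map α)
  prim : Prim J (Ideal.ofList zs)

/-- the ideal `(u'')` of `W⟦x⟧⟦y⟧` -/
noncomputable def uI {d' : ℕ} (Γ : Matrix (Fin (d' + 1)) (Fin (d' + 1)) (WW p k))
    (c : Fin d' → WW p k) : Ideal (PS (d' + 1) (AA p k (d' + 1))) :=
  Ideal.span (Set.range (uu ((C : AA p k (d' + 1) →+* _).comp C) Γ c (fun l => C (X l)) X))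

/-- all the data and hypotheses of the core argument -/
structure CD (p : ℕ) [Fact p.Prime] (k : Type) [Field k] [IsAlgClosed k] [CharP k p] (d' : ℕ) where
  (R C₁ M₁ C₂ M₂ L N G₁ G₂ : Type)
  [cR : CommRing R] [lR : IsLocalRing R] [nR : IsNoetherianRing R] [cC₁ : CommRing C₁]
  [cM₁ : CommRing M₁] [cC₂ : CommRing C₂] [cM₂ : CommRing M₂] [cL : CommRing L] [cN : CommRing N]
  f : AA p k (d' + 1)
  (e₁ Lp j' m : ℕ)
  π : AA p k (d' + 1) →+* R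
  α₁ : AA p k (d' + 1) →+* C₁
  α₂ : AA p k (d' + 1) →+* C₂
  β₁ : C₁ →+* M₁
  β₂ : C₂ →+* M₂
  μ₁ : R →+* M₁
  μ₂ : R →+* M₂
  (J₁ J₂ : Ideal (AA p k (d' + 1)))
  (zs₁ zs₂ : List (AA p k (d' + 1)))
  Γ : Matrix (Fin (d' + 1)) (Fin (d' + 1)) (WW p k)
  c : Fin d' → WW p k
  w₁ : G₁ → C₁
  w₂ : G₂ → C₂
  l₁ : PS (d' + 1) C₁ →+* L
  l₂ : C₂ →+* L
  r₁ : PS (d' + 1) M₁ →+* N
  r₂ : M₂ →+* N
  θ : L →+* N
  hπ : Pres (ph p k (d' + 1) e₁ f) π
  hμ₁ : ∀ a, μ₁ (π a) = β₁ (α₁ a)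
  hμ₂ : ∀ a, μ₂ (π a) = β₂ (α₂ a)
  cov₁ : Cov J₁ ((p : AA p k (d' + 1)) :: zs₁) α₁ β₁
  cov₂ : Cov J₂ zs₂ α₂ β₂
  f₁ : ph p k (d' + 1) e₁ f ∈ J₁
  f₂ : ph p k (d' + 1) e₁ f ∈ J₂
  len : zs₁.length + zs₂.length = d'
  prim : Prim J₁ J₂
  p₁ : ∀ y : M₁, (p : M₁) * y = 0 → y = 0
  p₂ : (p : AA p k (d' + 1)) ∈ J₂ ⊔ Ideal.ofList zs₂
  p₂' : ((∀ y : C₂, (p : C₂) * y = 0 → y = 0) ∧ ∀ y : M₂, (p : M₂) * y = 0 → y = 0) ∨ (p : C₂) = 0
  hΓ : IsUnit Γ.det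
  hL : 1 ≤ Lp
  hGP : maximalIdeal (PS (d' + 1) (AA p k (d' + 1))) ^ Lp ≤ box J₁ J₂ ⊔ uI Γ c
  hq : (j' + 1) * (2 * (m * (d' + 1)) + m + 2) ≤ p ^ e₁
  hm1 : ∀ (L' : Type) [CommRing L'], (p : L') = 0 → ∀ (lam₁ : C₁ →+* L') (lam₂ : C₂ →+* L'),
    (∀ w, lam₁ (α₁ (C w)) = lam₂ (α₂ (C w))) →
      M1 (fun l => lam₁ (α₁ (X l))) (fun l => lam₂ (α₂ (X l))) j' (j' + 1) 1
  hU : ∀ (L' : Type) [CommRing L'], (p : L') = 0 → ∀ (lam₁ : C₁ →+* L') (lam₂ : C₂ →+* L'),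
    (∀ w, lam₁ (α₁ (C w)) = lam₂ (α₂ (C w))) →
      UU ((lam₁.comp α₁).comp C) Γ c (fun l => lam₁ (α₁ (X l))) (fun l => lam₂ (α₂ (X l)))
        (fun γ : G₁ × G₂ => lam₁ (w₁ γ.1) * lam₂ (w₂ γ.2)) m (j' * (m + 1)) 1
  hF : ∀ γ₁ γ₂, β₁ ((p : C₁) ^ (2 * Lp)) ∣ β₁ (w₁ γ₁) ∨
    (Fac ((p : C₁) ^ (2 * Lp)) β₁ (w₁ γ₁) ∧ Fac ((p : C₂) ^ (2 * Lp)) β₂ (w₂ γ₂))
  bL : Bx α₁ α₂ l₁ l₂
  bN : Bx (β₁.comp α₁) (β₂.comp α₂) r₁ r₂
  θ₁ : ∀ z, θ (l₁ z) = r₁ (MvPowerSeries.map β₁ z)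
  θ₂ : ∀ z, θ (l₂ z) = r₂ (β₂ z)

attribute [instance] CD.cR CD.lR CD.nR CD.cC₁ CD.cM₁ CD.cC₂ CD.cM₂ CD.cL CD.cN

namespace CD
variable {d' : ℕ} (D : CD p k d')

/-- `W⟦x⟧⟦y⟧ → 𝓛` -/
noncomputable def ℓ : PS (d' + 1) (AA p k (d' + 1)) →+* D.L := D.l₁.comp (MvPowerSeries.map D.α₁)

noncomputable def x (l : Fin (d' + 1)) : D.L := D.l₁ (C (D.α₁ (X l)))

noncomputable def y (l : Fin (d' + 1)) : D.L := D.l₁ (X l)

noncomputable def ω : WW p k →+* D.L := ((D.l₁.comp C).comp D.α₁).comp C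

/-- `u''` -/
noncomputable def u : Fin d' → D.L := uu D.ω D.Γ D.c D.x D.y

noncomputable def J : Ideal D.L := Ideal.span (Set.range D.u)

noncomputable def s : D.L := vv D.ω D.Γ D.x D.y 0

noncomputable def w (γ : D.G₁ × D.G₂) : D.L := D.l₁ (C (D.w₁ γ.1)) * D.l₂ (D.w₂ γ.2)

/-- the exponent `n` of the key lemma -/
def n : ℕ := 2 * (D.m * (d' + 1)) + D.m + 2

theorem ℓ_finite : D.ℓ.Finite := D.bL.finite D.cov₁.fin D.cov₂.fin

theorem J_sup : D.J ⊔ Ideal.span {D.s} = Ideal.span (Set.range fun l => D.x l - D.y l) :=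
  span_uu D.ω D.Γ D.c D.x D.y D.hΓ

theorem noeth : IsNoetherianRing D.L := by
  have h := D.ℓ_finite
  let _ := D.ℓ.toAlgebra
  have : Module.Finite (PS (d' + 1) (AA p k (d' + 1))) D.L := h
  exact IsNoetherianRing.of_finite (PS (d' + 1) (AA p k (d' + 1))) D.L

theorem θ_finite : D.θ.Finite := by
  have h := D.bN.finite (D.cov₁.fin'.comp D.cov₁.fin) (D.cov₂.fin'.comp D.cov₂.fin)
  refine RingHom.Finite.of_comp_finite (f := D.ℓ) ?_
  convert h using 1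
  refine RingHom.ext fun z => ?_
  rw [MvPowerSeries.map_comp]
  exact D.θ₁ _

theorem ca_x (l : Fin (d' + 1)) : D.ℓ (C (X l)) = D.x l := by
  simp only [ℓ, x, RingHom.comp_apply, map_C]

theorem ca_y (l : Fin (d' + 1)) : D.ℓ (X l) = D.y l := by
  simp only [ℓ, y, RingHom.comp_apply, map_X]

theorem ca_ω : D.ℓ.comp ((C : AA p k (d' + 1) →+* _).comp C) = D.ω := by
  refine RingHom.ext fun z => ?_
  simp only [ℓ, ω, RingHom.comp_apply, map_C]

theorem ca_X_max (l : Fin (d' + 1)) :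
    (X l : PS (d' + 1) (AA p k (d' + 1))) ∈ maximalIdeal (PS (d' + 1) (AA p k (d' + 1))) := by
  rw [PS.max_eq]
  exact Ideal.mem_sup_right (Ideal.subset_span ⟨l, rfl⟩)

theorem ca_C_max {z : AA p k (d' + 1)} (hz : z ∈ maximalIdeal (AA p k (d' + 1))) :
    (C z : PS (d' + 1) (AA p k (d' + 1))) ∈ maximalIdeal (PS (d' + 1) (AA p k (d' + 1))) := by
  rw [PS.max_eq]
  exact Ideal.mem_sup_left (Ideal.mem_map_of_mem _ hz)

theorem ca_CX_max (l : Fin (d' + 1)) :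
    (C (X l) : PS (d' + 1) (AA p k (d' + 1))) ∈ maximalIdeal (PS (d' + 1) (AA p k (d' + 1))) := by
  refine ca_C_max ?_
  rw [AA_max]
  exact Ideal.mem_sup_right (Ideal.subset_span ⟨l, rfl⟩)

/-- `map_uu` -/
theorem uI_map : (uI D.Γ D.c).map D.ℓ = D.J := by
  rw [uI, Ideal.map_span, ← Set.range_comp, J]
  congr 2
  funext i
  simp only [Function.comp, map_uu, D.ca_ω, D.ca_x, D.ca_y, u]

/-- `hGP`, `Bx.box_le` -/
theorem pow_le : (maximalIdeal (PS (d' + 1) (AA p k (d' + 1))) ^ D.Lp).map D.ℓ ≤ D.J := by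
  refine (Ideal.map_mono D.hGP).trans ?_
  rw [Ideal.map_sup, D.uI_map]
  refine sup_le (Ideal.map_le_iff_le_comap.2 fun z hz => ?_) le_rfl
  have h : D.ℓ z = 0 := D.bL.box_le D.cov₁.kill D.cov₂.kill hz
  rw [Ideal.mem_comap, h]
  exact zero_mem _

theorem art : IsArtinianRing (D.L ⧸ D.J) := artinian_of_finite D.ℓ D.ℓ_finite D.pow_le

theorem p_pow_mem : (p : D.L) ^ D.Lp ∈ D.J := by
  have h := D.pow_le (Ideal.mem_map_of_mem D.ℓ (Ideal.pow_mem_pow (ca_C_max stc_p_mem) D.Lp))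
  simpa only [map_pow, map_natCast] using h

theorem s_pow_mem : D.s ^ D.Lp ∈ D.J := by
  have h1 : vv ((C : AA p k (d' + 1) →+* PS (d' + 1) (AA p k (d' + 1))).comp C) D.Γ
      (fun l => C (X l)) X 0 ∈ maximalIdeal (PS (d' + 1) (AA p k (d' + 1))) :=
    Ideal.sum_mem _ fun l _ => Ideal.mul_mem_left _ _ (sub_mem (ca_CX_max l) (ca_X_max l))
  have h := D.pow_le (Ideal.mem_map_of_mem D.ℓ (Ideal.pow_mem_pow h1 D.Lp))
  simp only [map_pow, map_vv, D.ca_ω, D.ca_x, D.ca_y] at h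
  exact h

/-- `map_max_le_jacobson` -/
theorem x_jac (l : Fin (d' + 1)) : D.x l ∈ Ideal.jacobson (⊥ : Ideal D.L) := by
  rw [← D.ca_x]
  exact map_max_le_jacobson D.ℓ D.ℓ_finite.to_isIntegral _ (Ideal.mem_map_of_mem _ (ca_CX_max l))

theorem y_jac (l : Fin (d' + 1)) : D.y l ∈ Ideal.jacobson (⊥ : Ideal D.L) := by
  rw [← D.ca_y]
  exact map_max_le_jacobson D.ℓ D.ℓ_finite.to_isIntegral _ (Ideal.mem_map_of_mem _ (ca_X_max l))

theorem ca_p : (p : D.L) ∈ Ideal.span (Set.range fun l => D.x l ^ p ^ D.e₁) := by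
  have h1 : D.f - C (constantCoeff D.f) ∈ XP (d' + 1) (WW p k) := mem_XP_iff.2 (by simp)
  have h2 := ph_XP D.e₁ h1
  obtain ⟨w', hw⟩ := ph_C (d := d' + 1) D.e₁ (constantCoeff D.f)
  rw [map_sub, hw] at h2
  have h3 : ph p k (d' + 1) D.e₁ D.f - C w' ∈ XP (d' + 1) (WW p k) := by
    refine Ideal.span_le.2 ?_ h2
    rintro _ ⟨i, rfl⟩
    exact Ideal.pow_mem_of_mem _ (Ideal.subset_span (Set.mem_range_self i)) _
      (pow_pos (Fact.out : p.Prime).pos _)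
  have h4 : w' = p := by
    have h5 := mem_XP_iff.1 (sub_mem (show _ ∈ XP (d' + 1) (WW p k) from D.hπ.std.dist) h3)
    simpa [sub_eq_zero] using h5
  rw [h4, map_natCast] at h2
  have h6 := Ideal.mem_map_of_mem ((D.l₁.comp C).comp D.α₁) h2
  rw [Ideal.map_span, ← Set.range_comp, map_sub, map_natCast, RingHom.comp_apply,
    D.cov₁.kill _ D.f₁, map_zero, zero_sub, neg_mem_iff] at h6
  simp only [Function.comp_def, map_pow] at h6
  exact h6

theorem ca_p0 : (p : D.L ⧸ Ideal.span {(p : D.L)}) = 0 := by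
  rw [← map_natCast (Ideal.Quotient.mk _), Ideal.Quotient.eq_zero_iff_mem]
  exact Ideal.mem_span_singleton_self _

/-- `nak_p` with `P = p`: `Dist`, `ph_XP` give `p ∈ (x^q)`; `hm1` in `𝓛/p` (`Bx.comm_C`,
`Bx.comm_X`). -/
theorem nakp : (∀ l, D.x l ^ D.j' ∈ D.J ⊔ Ideal.span {D.s}) ∧
    (∀ l, D.y l ^ D.j' ∈ D.J ⊔ Ideal.span {D.s}) ∧
      (p : D.L) ∈ D.J ⊔ Ideal.span {D.s ^ D.n} := by
  refine nak_p D.J_sup D.x_jac D.y_jac D.ca_p D.hq (by unfold n; omega) fun l => ?_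
  have h := D.hm1 (D.L ⧸ Ideal.span {(p : D.L)}) D.ca_p0
    ((Ideal.Quotient.mk _).comp (D.l₁.comp C)) ((Ideal.Quotient.mk _).comp D.l₂)
    (fun w => congrArg (Ideal.Quotient.mk _) (D.bL.comm_C w)) l
  rw [← Ideal.mem_quotient_iff_mem_sup]
  simp only [Ideal.map_sup, Ideal.map_span, ← Set.range_comp, Function.comp_def, map_pow, map_sub]
  simp only [RingHom.comp_apply, ← D.bL.comm_X, mul_one, pow_one] at h
  exact h

/-- `nak_s`; `hU` in `𝓛/p` (`map_vv`, `map_uu`) -/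
theorem naks : D.s ^ D.m ∈ D.J ⊔ Ideal.span (Set.range D.w) := by
  have hs : D.s ∈ Ideal.jacobson (⊥ : Ideal D.L) := by
    unfold s vv
    exact Ideal.sum_mem _ fun l _ => Ideal.mul_mem_left _ _ (sub_mem (D.x_jac l) (D.y_jac l))
  refine nak_s hs D.nakp.1 D.nakp.2.1 D.nakp.2.2 (by unfold n; omega) ?_
  have h := D.hU (D.L ⧸ Ideal.span {(p : D.L)}) D.ca_p0
    ((Ideal.Quotient.mk _).comp (D.l₁.comp C)) ((Ideal.Quotient.mk _).comp D.l₂)
    (fun w => congrArg (Ideal.Quotient.mk _) (D.bL.comm_C w))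
  rw [← Ideal.mem_quotient_iff_mem_sup]
  simp only [Ideal.map_sup, J, Ideal.map_span, ← Set.range_comp, Function.comp_def, map_pow, s, u,
    map_vv, map_uu, w, map_mul]
  simp only [UU, RingHom.comp_apply, ← D.bL.comm_X, mul_one, pow_one] at h
  exact h

theorem cb_p_reg₁ (y : D.C₁) (h : (p : D.C₁) * y = 0) : y = 0 := by
  have h1 := D.cov₁.reg
  rw [List.map_cons, map_natCast] at h1
  simpa using Dd_mem_of_append (as := []) h1 (y := y) (by simpa using h)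

theorem cb_flat₁ : (D.α₁.comp C).Flat := flat_of_p_reg p k _ D.cb_p_reg₁

theorem cb_map_C {z : AA p k (d' + 1)} (hz : z ∈ maximalIdeal (AA p k (d' + 1))) :
    (C z : PS (d' + 1) (AA p k (d' + 1))) ∈ maximalIdeal (PS (d' + 1) (AA p k (d' + 1))) := by
  rw [PS.max_eq]
  exact Ideal.mem_sup_left (Ideal.mem_map_of_mem _ hz)

theorem cb_X_mem {n : ℕ} {W : Type} [CommRing W] [IsLocalRing W] (l : Fin n) :
    (X l : PS n W) ∈ maximalIdeal (PS n W) := by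
  rw [PS.max_eq]
  exact Ideal.mem_sup_right (Ideal.subset_span ⟨l, rfl⟩)

theorem cb_map_map {z : AA p k (d' + 1)} (hz : z ∈ maximalIdeal (AA p k (d' + 1))) :
    MvPowerSeries.map (σ := Fin (d' + 1)) (C : WW p k →+* AA p k (d' + 1)) z ∈
      maximalIdeal (PS (d' + 1) (AA p k (d' + 1))) := by
  have : maximalIdeal (AA p k (d' + 1)) ≤ (maximalIdeal (PS (d' + 1) (AA p k (d' + 1)))).comap
      (MvPowerSeries.map (σ := Fin (d' + 1)) (C : WW p k →+* AA p k (d' + 1))) := by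
    rw [AA_max, sup_le_iff, XP, Ideal.span_le, Ideal.span_le]
    refine ⟨?_, ?_⟩
    · rintro _ rfl
      have := cb_map_C (d' := d') (stc_p_mem (p := p) (k := k))
      rw [map_natCast] at this
      simpa using this
    · rintro _ ⟨l, rfl⟩
      simpa using cb_X_mem l
  exact this hz

theorem cb_J : D.J = Ideal.ofList (List.ofFn D.u) := (dimb_ofList_ofFn _).symm

theorem cb_θ_w (γ : D.G₁ × D.G₂) :
    D.θ (D.w γ) = D.r₁ (C (D.β₁ (D.w₁ γ.1))) * D.r₂ (D.β₂ (D.w₂ γ.2)) := by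
  rw [w, map_mul, D.θ₁, D.θ₂, map_C]

theorem cb_dvd {γ : D.G₁ × D.G₂} (h : D.β₁ ((p : D.C₁) ^ (2 * D.Lp)) ∣ D.β₁ (D.w₁ γ.1)) :
    D.θ ((p : D.L) ^ (2 * D.Lp)) ∣ D.θ (D.w γ) := by
  rw [D.cb_θ_w]
  refine Dvd.dvd.mul_right ?_ _
  have := map_dvd (D.r₁.comp C) h
  simpa using this

theorem cb_p_pow : (p : D.L) ^ (2 * D.Lp) ∈ D.J := by
  rw [mul_comm, pow_mul, sq]
  exact Ideal.mul_mem_left _ _ D.p_pow_mem

/-- `W → C₁` is flat (`flat_of_p_reg`); `Bx.regular` gives a regular sequence of length `d'` in the image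
of `𝔪`; `regular_of_params` for the finite `W⟦x⟧⟦y⟧`-module `𝓛` (`isWeaklyRegular_algebra_iff`, `hGP`). -/
theorem u_regular : IsWeaklyRegular D.L (List.ofFn D.u) := by
  let := D.ℓ.toAlgebra
  have : Module.Finite (PS (d' + 1) (AA p k (d' + 1))) D.L := D.ℓ_finite
  have hk₂ : D.J₂ ⊔ Ideal.ofList D.zs₂ ≤ (Ideal.ofList (D.zs₂.map D.α₂)).comap D.α₂ := by
    refine sup_le (fun y hy => ?_) ?_
    · rw [Ideal.mem_comap, D.cov₂.kill y hy]
      exact zero_mem _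
    · rw [← Ideal.map_le_iff_le_comap, Ideal.map_ofList]
  have hreg := D.bL.regular D.cov₁.fin D.cb_flat₁ (WW_max p k) (zs₁ := D.zs₁.map D.α₁)
    (zs₂ := D.zs₂.map D.α₂) (by simpa using D.cov₁.reg) D.cov₂.reg
    (by simpa using hk₂ D.p₂) (fun i => by
      obtain ⟨t, ht⟩ := D.cov₂.prim
      exact ⟨t, by simpa using hk₂ (ht (Ideal.pow_mem_pow (cb_X_mem i) t))⟩)
  have h := regular_of_params (M := D.L)
    (D.zs₂.map (MvPowerSeries.map (σ := Fin (d' + 1)) (C : WW p k →+* AA p k (d' + 1))) ++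
      D.zs₁.map (C : AA p k (d' + 1) →+* PS (d' + 1) (AA p k (d' + 1))))
    (List.ofFn (uu ((C : AA p k (d' + 1) →+* PS (d' + 1) (AA p k (d' + 1))).comp C) D.Γ D.c
      (fun l => C (X l)) X)) (by simpa [add_comm] using D.len) (fun r hr => ?_) ?_ (fun r hr => ?_) ?_
  · rw [isWeaklyRegular_algebra_iff, List.map_ofFn] at h
    convert h using 2
    funext i
    show _ = D.ℓ _
    rw [map_uu]
    simp only [u, ℓ, ω, RingHom.comp_apply, map_C, map_X]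
    congr 1
    ext1 w
    simp
  · rcases List.mem_append.1 hr with hr | hr
    · obtain ⟨z, hz, rfl⟩ := List.mem_map.1 hr
      exact cb_map_map (D.cov₂.max z hz)
    · obtain ⟨z, hz, rfl⟩ := List.mem_map.1 hr
      exact cb_map_C (D.cov₁.max z (List.mem_cons_of_mem _ hz))
  · rw [isWeaklyRegular_algebra_iff, List.map_append]
    convert hreg using 2
    · rw [List.map_map, List.map_map]
      refine List.map_congr_left fun z _ => ?_
      exact (congrArg D.l₁ (MvPowerSeries.map_map _ _ z)).trans (D.bL.comm z)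
    · rw [List.map_map, List.map_map]
      refine List.map_congr_left fun z _ => ?_
      exact congrArg D.l₁ (map_C _ _)
  · obtain ⟨i, rfl⟩ := List.mem_ofFn.1 hr
    have hv : ∀ i, vv ((C : AA p k (d' + 1) →+* PS (d' + 1) (AA p k (d' + 1))).comp C) D.Γ
        (fun l => C (X l)) X i ∈ maximalIdeal (PS (d' + 1) (AA p k (d' + 1))) := fun i =>
      Ideal.sum_mem _ fun l _ =>
        Ideal.mul_mem_left _ _ (sub_mem (cb_map_C (cb_X_mem l)) (cb_X_mem l))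
    exact sub_mem (hv _) (Ideal.mul_mem_left _ _ (hv _))
  · refine ⟨D.Lp, D.hGP.trans (sup_le_sup ?_ ?_)⟩
    · rw [rtb_ann]
      exact D.bL.box_le (fun y hy => D.cov₁.kill y hy) (fun y hy => D.cov₂.kill y hy)
    · rw [dimb_ofList_ofFn]
      exact le_rfl

/-- case `β₁ p^N ∣ β₁ w₁`: `tk_of_dvd` (after `tk_symm`) with `b = p^(2 Lp) ∈ J`.  Otherwise `Bx.fac`,
`tk_of_fac` with `b = p^Lp`; `l₂`, `r₂` are flat (`Bx.flat`, `flat_of_p_reg`, `flat_reg`). -/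
theorem tk_w (γ : D.G₁ × D.G₂) (i : ℕ) : tk D.θ (Ideal.Quotient.mk D.J) (i + 1) (D.w γ) := by
  rcases D.hF γ.1 γ.2 with h | ⟨h1, h2⟩
  · exact tk_of_dvd _ (Ideal.Quotient.eq_zero_iff_mem.2 D.cb_p_pow) (D.cb_dvd h)
  have : IsNoetherianRing D.C₁ := by
    let := D.α₁.toAlgebra
    have : Module.Finite (AA p k (d' + 1)) D.C₁ := D.cov₁.fin
    exact isNoetherian_of_tower (AA p k (d' + 1)) inferInstance
  have hf := D.bL.fac D.bN D.cov₁.fin' D.θ₁ D.θ₂ (b := p ^ (2 * D.Lp)) (w₁ := D.w₁ γ.1)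
    (w₂ := D.w₂ γ.2) (by rwa [Nat.cast_pow]) (by rwa [Nat.cast_pow])
  rw [Nat.cast_pow, mul_comm 2, pow_mul] at hf
  refine tk_of_fac (Ideal.Quotient.eq_zero_iff_mem.2 D.p_pow_mem) hf ?_ i
  have hpow : ∀ {S : Type} [CommRing S], (∀ y : S, (p : S) * y = 0 → y = 0) →
      ∀ (n : ℕ) (y : S), (p : S) ^ n * y = 0 → y = 0 := by
    intro S _ hS n
    induction n with
    | zero => simp
    | succ n ih => exact fun y hy => hS y (ih _ (by rw [← hy]; ring))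
  rcases D.p₂' with ⟨hC, hM⟩ | h0
  · left
    refine ⟨hpow (fun y hy => flat_reg (D.bL.flat D.cov₁.fin D.cb_flat₁) hC y
      (by rwa [map_natCast])) _, fun z hz => hpow (fun y hy => flat_reg
        (D.bN.flat (D.cov₁.fin'.comp D.cov₁.fin) (flat_of_p_reg p k _ D.p₁)) hM y
          (by rwa [map_natCast])) D.Lp z (by simpa using hz)⟩
  · right
    have : (p : D.L) = 0 := by rw [← map_natCast D.l₂, h0, map_zero]
    rw [this, zero_pow (by have := D.hL; omega)]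

/-- the diagonal data for `R`, with the structure map `sL : 𝒮 → 𝓛` and `Tor^𝒮_{>0}(R, 𝓛) = 0`.
`exists_dg` (`ξ ∉ 𝔪.map C`: otherwise all coefficients of `φ^e₁ f` map into `𝔪_R`, hence are divisible
by `p`; `mem_map_C_iff`, `Std.ndvd`); `Pres.lift` gives `γ_i : R → C_i`; `Dg.exists_s`, `Dg.tl_eq`,
`tl_cm` (`Pres.regLoc`, `Pres.prim`). -/
theorem exists_diag : ∃ (S : Type) (_ : CommRing S) (κ : PS (d' + 1) D.R →+* S) (Δ : S →+* D.R)
    (sL : S →+* D.L), Dg D.π (ph p k (d' + 1) D.e₁ D.f) κ Δ ∧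
      (∀ z, sL (κ (MvPowerSeries.map D.π z)) = D.ℓ z) ∧ ∀ i, tl Δ sL (i + 1) = 0 := by
  have hξ : MvPowerSeries.map (D.π.comp C) (ph p k (d' + 1) D.e₁ D.f) ∉
      (maximalIdeal D.R).map (C : D.R →+* PS (d' + 1) D.R) := by
    intro h
    rw [mem_map_C_iff (IsNoetherian.noetherian _)] at h
    refine D.hπ.std.ndvd (Ideal.mem_span_singleton.1 ?_)
    rw [← sdb_map_span, mem_map_C_iff (IsNoetherian.noetherian _), ← WW_max]
    exact fun μ => (mem_maximalIdeal _).2 fun hu =>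
      (mem_maximalIdeal _).1 (h μ) (hu.map (D.π.comp C))
  obtain ⟨S, _, κ, Δ, hDg⟩ := exists_dg D.hπ.surj D.hπ.ker hξ
  obtain ⟨γ₁, h₁⟩ := D.hπ.lift D.α₁ (D.cov₁.kill _ D.f₁)
  obtain ⟨γ₂, h₂⟩ := D.hπ.lift D.α₂ (D.cov₂.kill _ D.f₂)
  have e₁ : γ₁.comp D.π = D.α₁ := RingHom.ext h₁
  have e₂ : γ₂.comp D.π = D.α₂ := RingHom.ext h₂
  have hD : Bx (γ₁.comp D.π) (γ₂.comp D.π) D.l₁ D.l₂ := by
    rw [e₁, e₂]
    exact D.bL
  obtain ⟨sL, hs⟩ := hDg.exists_s hD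
  have f₁ : γ₁.Finite := RingHom.Finite.of_comp_finite (f := D.π) (e₁ ▸ D.cov₁.fin)
  have f₂ : γ₂.Finite := RingHom.Finite.of_comp_finite (f := D.π) (e₂ ▸ D.cov₂.fin)
  have hp : ∀ y : D.C₁, (p : D.C₁) * y = 0 → y = 0 := by
    intro y hy
    have h := D.cov₁.reg
    rw [List.map_cons, map_natCast] at h
    have := Dd_mem_of_append (as := []) h (y := y) (by rw [hy]; exact zero_mem _)
    rwa [Ideal.ofList_nil, Ideal.mem_bot] at this
  refine ⟨S, _, κ, Δ, sL, hDg, fun z => ?_, fun i => ?_⟩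
  · rw [hs, ℓ, ← e₁]
    rfl
  · rw [← hDg.tl_eq (AC.witt p k) f₁ (flat_of_p_reg p k _ hp) hD hs]
    have hm : ∀ zs : List (AA p k (d' + 1)), (∀ z ∈ zs, z ∈ maximalIdeal (AA p k (d' + 1))) →
        ∀ z ∈ zs.map D.π, z ∈ maximalIdeal D.R := by
      intro zs h z hz
      obtain ⟨a, ha, rfl⟩ := List.mem_map.1 hz
      exact D.hπ.map_max ▸ Ideal.mem_map_of_mem _ (h a ha)
    refine tl_cm D.hπ.regLoc f₁ f₂ (((p : AA p k (d' + 1)) :: D.zs₁).map D.π) (D.zs₂.map D.π)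
      (hm _ D.cov₁.max) (hm _ D.cov₂.max) ?_ ?_ ?_ ((D.hπ.prim D.prim).mono ?_ ?_) i
    · rw [List.map_map, ← RingHom.coe_comp, e₁]
      exact D.cov₁.reg
    · rw [List.map_map, ← RingHom.coe_comp, e₂]
      exact D.cov₂.reg
    · rw [List.length_map, List.length_map, List.length_cons, add_right_comm, D.len]
    · exact Ideal.map_le_iff_le_comap.2 fun y hy => (h₁ y).trans (D.cov₁.kill y hy)
    · exact Ideal.map_le_iff_le_comap.2 fun y hy => (h₂ y).trans (D.cov₂.kill y hy)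

section cdc
variable {D} {Φ : PS (d' + 1) D.R →+* D.L} (hΦ : ∀ z, Φ (MvPowerSeries.map D.π z) = D.ℓ z)
include hΦ

theorem cdc_C (a : AA p k (d' + 1)) : Φ (C (D.π a)) = D.l₁ (C (D.α₁ a)) := by
  rw [← MvPowerSeries.map_C, hΦ, ℓ, RingHom.comp_apply, MvPowerSeries.map_C]

theorem cdc_y (l : Fin (d' + 1)) : Φ (X l) = D.y l := by
  rw [← MvPowerSeries.map_X D.π, hΦ, ℓ, RingHom.comp_apply, MvPowerSeries.map_X, y]

theorem cdc_ω : Φ.comp (((C : D.R →+* PS (d' + 1) D.R).comp D.π).comp C) = D.ω :=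
  RingHom.ext fun w => cdc_C hΦ (C w)

theorem cdc_diag : (Ideal.span (Set.range fun i =>
    (C (D.π (X i)) : PS (d' + 1) D.R) - X i)).map Φ = D.J ⊔ Ideal.span {D.s} := by
  rw [D.J_sup, Ideal.map_span, ← Set.range_comp]
  congr 2
  funext l
  rw [Function.comp_apply, map_sub, cdc_C hΦ, cdc_y hΦ, x]

end cdc

theorem cdc_ker {A B E : Type} [CommRing A] [CommRing B] [CommRing E] {κ : A →+* B}
    (hκ : Function.Surjective κ) (Δ : B →+* E) :
    RingHom.ker Δ = (RingHom.ker (Δ.comp κ)).map κ := by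
  rw [← RingHom.comap_ker, Ideal.map_comap_of_surjective κ hκ]

/-- `Dg.tl_eq` for `μ₁, μ₂` with `s = θ ∘ sL`; `IsPO sL Δ (mk U) _` for `U = J + (s) = (ker Δ) 𝓛`
(`IsPO.of_surj`, `symm`); `tl_push`, `tl_symm`; `RS sL` by `AC.rs`, `RS.of_comp`. -/
theorem tl_eq : tl D.μ₁ D.μ₂ = tl (Ideal.Quotient.mk (D.J ⊔ Ideal.span {D.s})) D.θ := by
  obtain ⟨S, _, κ, Δ, sL, hDg, hs, h0⟩ := D.exists_diag
  have e₁ : D.μ₁.comp D.π = D.β₁.comp D.α₁ := RingHom.ext D.hμ₁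
  have e₂ : D.μ₂.comp D.π = D.β₂.comp D.α₂ := RingHom.ext D.hμ₂
  have hD : Bx (D.μ₁.comp D.π) (D.μ₂.comp D.π) D.r₁ D.r₂ := by
    rw [e₁, e₂]
    exact D.bN
  have f₁ : D.μ₁.Finite :=
    RingHom.Finite.of_comp_finite (f := D.π) (e₁ ▸ D.cov₁.fin'.comp D.cov₁.fin)
  have hs' : ∀ z, (D.θ.comp sL) (κ z) = D.r₁ (MvPowerSeries.map D.μ₁ z) := by
    intro z
    obtain ⟨z, rfl⟩ := map_surjective D.π D.hπ.surj z
    rw [RingHom.comp_apply, hs, ℓ, RingHom.comp_apply, D.θ₁,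
      ← RingHom.comp_apply (MvPowerSeries.map D.μ₁), ← MvPowerSeries.map_comp, e₁]
    rfl
  have hΔ : Function.Surjective Δ := fun r => ⟨_, hDg.ΔC r⟩
  have hk : D.J ⊔ Ideal.span {D.s} = (RingHom.ker Δ).map sL := by
    rw [cdc_ker hDg.ksurj, hDg.Δker, Ideal.map_map, cdc_diag (Φ := sL.comp κ) hs]
  have hle : RingHom.ker Δ ≤
      RingHom.ker ((Ideal.Quotient.mk (D.J ⊔ Ideal.span {D.s})).comp sL) := fun a ha =>
    Ideal.Quotient.eq_zero_iff_mem.2 (hk ▸ Ideal.mem_map_of_mem sL ha)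
  have hPO : IsPO Δ sL (Δ.liftOfSurjective hΔ ⟨_, hle⟩)
      (Ideal.Quotient.mk (D.J ⊔ Ideal.span {D.s})) :=
    IsPO.of_surj hΔ Ideal.Quotient.mk_surjective
      (fun a => RingHom.liftOfSurjective_comp_apply Δ hΔ _ a) (by rw [Ideal.mk_ker, hk])
  have hRS : RS sL := by
    have h1 := (AC.witt p k).rs ((C : AA p k (d' + 1) →+* PS (d' + 1) (AA p k (d' + 1))).comp C)
      (fun y => by
        obtain ⟨a, ha⟩ := PS.res y
        obtain ⟨w, hw⟩ := AA_res p k (d' + 1) a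
        refine ⟨w, ?_⟩
        rw [PS.max_eq, ← sub_add_sub_cancel _ (C a), RingHom.comp_apply, ← map_sub]
        exact add_mem (Ideal.mem_sup_right ha) (Ideal.mem_sup_left (Ideal.mem_map_of_mem _ hw)))
      D.ℓ D.ℓ_finite.to_isIntegral
    have h2 : D.ℓ = sL.comp (κ.comp (MvPowerSeries.map D.π)) := RingHom.ext fun z => (hs z).symm
    rw [h2, RingHom.comp_assoc] at h1
    exact h1.of_comp
  rw [hDg.tl_eq (AC.witt p k) f₁ (flat_of_p_reg p k _ D.p₁) hD hs', tl_symm,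
    tl_push hPO.symm (fun i => by rw [tl_symm, h0]) hRS, tl_symm]

/-- In `Λ = R⟦y⟧` let `J₀ = (u'')`, `s₀ = v_0`.  `s₀` is regular modulo `J₀` (`RegLoc.ps`,
`regular_of_params` for `u'' ++ [s₀] ++ y`, `span_uu`, `isWeaklyRegular_iff_ideal`); `xi_form` with
`PS.sub_mem_local` (note the signs); `colon_diag`; `tl_ker`, `colon_of_tl` for `sL`. -/
theorem colon : ∃ c c' : D.L, D.s * (c * D.s ^ (p ^ D.e₁ - 1) + p * c') ∈ D.J ∧
    ∀ y, D.s * y ∈ D.J → y ∈ D.J ⊔ Ideal.span {c * D.s ^ (p ^ D.e₁ - 1) + p * c'} := by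
  obtain ⟨S, _, κ, Δ, sL, hDg, hs, h0⟩ := D.exists_diag
  have hΦ : ∀ z, (sL.comp κ) (MvPowerSeries.map D.π z) = D.ℓ z := hs
  set ω₀ : WW p k →+* PS (d' + 1) D.R := ((C : D.R →+* PS (d' + 1) D.R).comp D.π).comp C with hω₀
  set x₀ : Fin (d' + 1) → PS (d' + 1) D.R := fun l => C (D.π (X l)) with hx₀
  set u₀ := uu ω₀ D.Γ D.c x₀ X with hu₀
  set s₀ := vv ω₀ D.Γ x₀ X 0 with hs₀
  have hsup : Ideal.span (Set.range u₀) ⊔ Ideal.span {s₀} =
      Ideal.span (Set.range fun l => x₀ l - X l) := span_uu ω₀ D.Γ D.c x₀ X D.hΓ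
  have hxm : ∀ l, x₀ l ∈ maximalIdeal (PS (d' + 1) D.R) := fun l => by
    rw [PS.max_eq, D.hπ.max]
    exact Ideal.mem_sup_left (Ideal.mem_map_of_mem _ (Ideal.subset_span ⟨l, rfl⟩))
  have hym : ∀ l, X l ∈ maximalIdeal (PS (d' + 1) D.R) := fun l => by
    rw [PS.max_eq]
    exact Ideal.mem_sup_right (Ideal.subset_span ⟨l, rfl⟩)
  have hle : Ideal.span (Set.range u₀) ⊔ Ideal.span {s₀} ≤ maximalIdeal (PS (d' + 1) D.R) := by
    rw [hsup, Ideal.span_le]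
    rintro _ ⟨l, rfl⟩
    exact sub_mem (hxm l) (hym l)
  have hreg : IsWeaklyRegular (PS (d' + 1) D.R) (List.ofFn u₀ ++ s₀ :: List.ofFn X) := by
    refine (RegLoc.ps (n := d' + 1) D.hπ.regLoc).regular_of_params _ (by simp; omega) ?_
      (dl_one_iff.2 ⟨1, ?_⟩)
    · intro y hy
      rcases List.mem_append.1 hy with hy | hy
      · obtain ⟨l, rfl⟩ := List.mem_ofFn.1 hy
        exact hle (Ideal.mem_sup_left (Ideal.subset_span ⟨l, rfl⟩))
      · rcases List.mem_cons.1 hy with rfl | hy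
        · exact hle (Ideal.mem_sup_right (Ideal.mem_span_singleton_self _))
        · obtain ⟨l, rfl⟩ := List.mem_ofFn.1 hy
          exact hym l
    · rw [pow_one, Ideal.ofList_append, Ideal.ofList_cons, dimb_ofList_ofFn, dime_ofList_X,
        ← sup_assoc, hsup, PS.max_eq, D.hπ.max, Ideal.map_span]
      refine sup_le (Ideal.span_le.2 ?_) le_sup_right
      rintro _ ⟨_, ⟨l, rfl⟩, rfl⟩
      have : x₀ l - X l + X l ∈ Ideal.span (Set.range fun l => x₀ l - X l) ⊔ XP (d' + 1) D.R :=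
        add_mem (Ideal.mem_sup_left (Ideal.subset_span ⟨l, rfl⟩))
          (Ideal.mem_sup_right (Ideal.subset_span ⟨l, rfl⟩))
      rwa [sub_add_cancel] at this
  have hsr : ∀ z, s₀ * z ∈ Ideal.span (Set.range u₀) → z ∈ Ideal.span (Set.range u₀) := by
    intro z hz
    rw [← dimb_ofList_ofFn] at hz ⊢
    exact Dd_mem_of_append hreg hz
  obtain ⟨c, c', hc⟩ := xi_form (J := Ideal.span (Set.range u₀)) (s := s₀)
    ((C : D.R →+* PS (d' + 1) D.R).comp D.π) (MvPowerSeries.map (D.π.comp C)) (fun a => by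
      have := PS.sub_mem_local ((C : D.R →+* PS (d' + 1) D.R).comp D.π)
        (MvPowerSeries.map (D.π.comp C))
        (fun w => (MvPowerSeries.map_C (D.π.comp C) w).symm) hxm
        (fun i => by rw [MvPowerSeries.map_X]; exact hym i) a
      simp only [MvPowerSeries.map_X] at this
      rw [hsup]
      exact this) D.e₁ D.f
  rw [RingHom.comp_apply, stc_zero D.hπ, map_zero, zero_sub] at hc
  have hxy : (fun l => (sL.comp κ) (x₀ l)) = D.x := funext fun l => cdc_C hΦ _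
  have hy : (fun l => (sL.comp κ) (X l)) = D.y := funext fun l => cdc_y hΦ l
  have es : sL (κ s₀) = D.s := by
    rw [← RingHom.comp_apply, hs₀, map_vv, cdc_ω hΦ, hxy, hy, s]
  have eJ : ((Ideal.span (Set.range u₀)).map κ).map sL = D.J := by
    rw [Ideal.map_map, Ideal.map_span, ← Set.range_comp, J]
    congr 2
    funext i
    rw [Function.comp_apply, hu₀, map_uu, cdc_ω hΦ, hxy, hy, u]
  have eh : sL (κ (c * s₀ ^ (p ^ D.e₁ - 1) + p * c')) =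
      sL (κ c) * D.s ^ (p ^ D.e₁ - 1) + p * sL (κ c') := by
    simp only [map_add, map_mul, map_pow, map_natCast, es]
  refine ⟨sL (κ c), sL (κ c'), ?_, fun y hy => ?_⟩
  · have h1 := Ideal.mem_map_of_mem sL (Ideal.mem_map_of_mem κ hc)
    have h2 : κ (MvPowerSeries.map (D.π.comp C) (ph p k (d' + 1) D.e₁ D.f)) = 0 := by
      rw [← RingHom.mem_ker, hDg.kker]
      exact Ideal.mem_span_singleton_self _
    rw [eJ, map_sub, map_neg, h2, neg_zero, zero_sub, map_neg, map_mul, map_mul, es, eh] at h1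
    exact neg_mem_iff.1 h1
  · have hΔ : Function.Surjective Δ := fun r => ⟨_, hDg.ΔC r⟩
    have h1 : tl (Ideal.Quotient.mk ((Ideal.span (Set.range u₀)).map κ ⊔ Ideal.span {κ s₀})) sL
        1 = 0 := by
      rw [tl_ker Ideal.Quotient.mk_surjective hΔ]
      · exact h0 0
      · rw [Ideal.mk_ker, cdc_ker hDg.ksurj, hDg.Δker, ← hsup, Ideal.map_sup, Ideal.map_span κ {s₀},
          Set.image_singleton]
    have h2 := colon_of_tl sL _ _ h1 (y := y) (by rwa [es, eJ])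
    have h3 := Ideal.map_mono (f := sL) (colon_diag κ hDg.ksurj
      (hDg.kker.trans (Ideal.span_singleton_neg _).symm) hsr hc) h2
    rwa [Ideal.map_sup, Ideal.map_sup, eJ, Ideal.map_span κ, Set.image_singleton, Ideal.map_span,
      Set.image_singleton, eh] at h3

/-- `colon`, `nakp`: `h ≡ s^(n-1) B mod J` since `n ≤ p^e₁` -/
theorem exists_B : ∃ B, D.s * (D.s ^ (D.n - 1) * B) ∈ D.J ∧
    ∀ y, D.s * y ∈ D.J → y ∈ D.J ⊔ Ideal.span {D.s ^ (D.n - 1) * B} := by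
  obtain ⟨c, c', h1, h2⟩ := D.colon
  obtain ⟨j, hj, t, ht, e⟩ := Submodule.mem_sup.1 D.nakp.2.2
  obtain ⟨a, rfl⟩ := Ideal.mem_span_singleton'.1 ht
  have hn : D.n ≤ p ^ D.e₁ := le_trans (Nat.le_mul_of_pos_left _ (Nat.succ_pos _)) D.hq
  obtain ⟨r, hr⟩ := Nat.exists_eq_add_of_le hn
  obtain ⟨n', hn'⟩ : ∃ n', D.n = n' + 1 := ⟨_, rfl⟩
  have key : c * D.s ^ (p ^ D.e₁ - 1) + p * c' =
      D.s ^ (D.n - 1) * (c * D.s ^ r + a * D.s * c') + j * c' := by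
    rw [← e, hr, hn', show n' + 1 + r - 1 = n' + r by omega, Nat.add_sub_cancel]
    ring
  refine ⟨c * D.s ^ r + a * D.s * c', ?_, fun y hy => ?_⟩
  · rw [key, mul_add] at h1
    exact (add_mem_cancel_right (D.J.mul_mem_left _ (D.J.mul_mem_right _ hj))).1 h1
  · refine SetLike.le_def.1 (sup_le le_sup_left ?_) (h2 y hy)
    rw [Ideal.span_singleton_le_iff_mem, key]
    exact add_mem (Ideal.mem_sup_right (Ideal.mem_span_singleton_self _))
      (Ideal.mem_sup_left (D.J.mul_mem_right _ hj))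

/-- `KL_ring` with `r = ν = d' + 1`: `hr` by `tl_quot_list`, `hm` by `tk_of_mem_sup`, `tk_symm`, `hν` by
`tl_eq`, `tl_bd`.  Vanishing: `θ (w γ) ∈ p^(2 Lp) 𝓡 ≤ J 𝓡`.  Positivity: `Bx.not_mem` for `bN`. -/
theorem main : ((∀ γ, D.β₁ ((p : D.C₁) ^ (2 * D.Lp)) ∣ D.β₁ (D.w₁ γ)) →
      chi D.μ₁ D.μ₂ (d' + 1) = 0) ∧
    ∀ γ₁ γ₂, D.β₁ (D.w₁ γ₁) ^ (d' + 1) ∉ (maximalIdeal (AA p k (d' + 1))).map (D.β₁.comp D.α₁) →
      D.β₂ (D.w₂ γ₂) ^ (d' + 1) ∉ (maximalIdeal (AA p k (d' + 1))).map (D.β₂.comp D.α₂) →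
        0 < chi D.μ₁ D.μ₂ (d' + 1) := by
  have := D.noeth
  have := D.art
  obtain ⟨B, h0, h1⟩ := D.exists_B
  have hμ₁ : D.μ₁.Finite := by
    refine RingHom.Finite.of_comp_finite (f := D.π) ?_
    rw [show D.μ₁.comp D.π = D.β₁.comp D.α₁ from RingHom.ext D.hμ₁]
    exact D.cov₁.fin'.comp D.cov₁.fin
  have hμ₂ : D.μ₂.Finite := by
    refine RingHom.Finite.of_comp_finite (f := D.π) ?_
    rw [show D.μ₂.comp D.π = D.β₂.comp D.α₂ from RingHom.ext D.hμ₂]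
    exact D.cov₂.fin'.comp D.cov₂.fin
  have hKL := KL_ring D.θ D.θ_finite D.J (m := D.m) (r := d' + 1) (ν := d' + 1)
    ⟨D.Lp, D.s_pow_mem⟩ h0 h1 (by unfold n; omega)
    (fun i hi => by
      rw [D.cb_J]
      exact tl_quot_list _ D.u_regular _ (by rw [List.length_ofFn]; omega))
    (fun i => tk_symm (tk_of_mem_sup (S := Set.range D.w)
      (by rintro _ ⟨γ, rfl⟩; exact D.tk_w γ i) (by rw [Ideal.mk_ker]; exact D.naks)))
    (fun i hi => by rw [← D.tl_eq]; exact tl_bd D.hπ.regLoc hμ₁ hμ₂ hi)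
  have hchi : chi D.μ₁ D.μ₂ (d' + 1) =
      chi (Ideal.Quotient.mk (D.J ⊔ Ideal.span {D.s})) D.θ (d' + 1) := by
    rw [chi, chi, D.tl_eq]
  rw [hchi]
  refine ⟨fun h => hKL.1 ?_, fun γ₁ γ₂ h₁ h₂ => hKL.2 (D.w (γ₁, γ₂))
    (fun i => tk_symm (D.tk_w _ i)) ?_⟩
  · have hle : D.J ⊔ Ideal.span (Set.range D.w) ≤ (D.J.map D.θ).comap D.θ := by
      refine sup_le Ideal.le_comap_map (Ideal.span_le.2 ?_)
      rintro _ ⟨γ, rfl⟩
      exact Ideal.mem_of_dvd (D.J.map D.θ) (D.cb_dvd (h γ.1)) (Ideal.mem_map_of_mem _ D.cb_p_pow)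
    rw [pow_mul, map_pow]
    exact Ideal.pow_mem_of_mem (D.J.map D.θ) (hle D.naks) _ (Nat.succ_pos _)
  · have := D.bN.not_mem h₁ h₂
    rw [D.J_sup, Ideal.map_span, ← Set.range_comp, map_pow, D.cb_θ_w, mul_pow]
    convert this using 3
    · congr 1
      funext l
      simp [x, y, D.θ₁]
    · simp
    · simp

end CD

end Crest.Agent.R188
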