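import Mathlib

/-! # R188 / Cx : unbundled `ℕ`-indexed chain complexes of modules, homology, long exact sequences,
semilinear transfer of lengths.  (Row 188, Serre positivity; blueprint in `R188/Blueprint.lean`.) -/

set_option autoImplicit false
open TensorProduct

namespace Crest.Agent.R188

/-! ### semilinear bijections and lengths -/

/-- `X` (over `A`) and `Y` (over `B`) are "the same module" along `σ`. -/
def SEq {A B : Type} [CommRing A] [CommRing B] (σ : A →+* B) (X Y : Type) [AddCommGroup X]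
    [Module A X] [AddCommGroup Y] [Module B Y] : Prop :=
  ∃ g : X →+ Y, Function.Bijective g ∧ ∀ (a : A) (x : X), g (a • x) = σ a • g x

/-- residually surjective ring map: `A → B/𝔫` is onto for every maximal `𝔫`. -/
def RS {A B : Type} [CommRing A] [CommRing B] (σ : A →+* B) : Prop :=
  ∀ 𝔫 : Ideal B, 𝔫.IsMaximal → Function.Surjective ((Ideal.Quotient.mk 𝔫).comp σ)

section SEq
variable {A B D : Type} [CommRing A] [CommRing B] [CommRing D] {X X' Y Z : Type} [AddCommGroup X]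
  [Module A X] [AddCommGroup X'] [Module A X'] [AddCommGroup Y] [Module B Y] [AddCommGroup Z]
  [Module D Z]

theorem RS.of_surjective {σ : A →+* B} (h : Function.Surjective σ) : RS σ :=
  fun _ _ => Ideal.Quotient.mk_surjective.comp h

theorem RS.of_comp {σ : A →+* B} {τ : B →+* D} (h : RS (τ.comp σ)) : RS τ := by
  intro 𝔫 h𝔫 x
  obtain ⟨a, ha⟩ := h 𝔫 h𝔫 x
  exact ⟨σ a, ha⟩

theorem SEq.trans {σ : A →+* B} {τ : B →+* D} (h : SEq σ X Y) (h' : SEq τ Y Z) :
    SEq (τ.comp σ) X Z := by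
  obtain ⟨g, hg, hs⟩ := h
  obtain ⟨g', hg', hs'⟩ := h'
  exact ⟨g'.comp g, hg'.comp hg, fun a x => by
    rw [AddMonoidHom.comp_apply, hs, hs', AddMonoidHom.comp_apply, RingHom.comp_apply]⟩

theorem SEq.of_equiv (e : X ≃ₗ[A] X') : SEq (RingHom.id A) X X' := by
  exact ⟨e.toLinearMap.toAddMonoidHom, e.bijective, fun a x => e.map_smul a x⟩

theorem SEq.equiv (h : SEq (RingHom.id A) X X') : Nonempty (X ≃ₗ[A] X') := by
  obtain ⟨g, hg, hs⟩ := h
  exact ⟨LinearEquiv.ofBijective ⟨g.toAddHom, hs⟩ hg⟩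

theorem SEq.equiv_left {σ : A →+* B} (e : X' ≃ₗ[A] X) (h : SEq σ X Y) : SEq σ X' Y := by
  exact (SEq.of_equiv e).trans h

theorem SEq.equiv_right {σ : A →+* B} {Y' : Type} [AddCommGroup Y'] [Module B Y'] (h : SEq σ X Y)
    (e : Y ≃ₗ[B] Y') : SEq σ X Y' := by
  exact h.trans (SEq.of_equiv e)

theorem SEq.subsingleton_iff {σ : A →+* B} (h : SEq σ X Y) : Subsingleton X ↔ Subsingleton Y := by
  obtain ⟨g, hg, -⟩ := h
  exact (Equiv.ofBijective g hg).subsingleton_congr

theorem SEq.kill_iff {σ : A →+* B} (h : SEq σ X Y) (a : A) :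
    (∀ x : X, a • x = 0) ↔ ∀ y : Y, σ a • y = 0 := by
  obtain ⟨g, hg, hs⟩ := h
  constructor
  · intro h y
    obtain ⟨x, rfl⟩ := hg.2 y
    rw [← hs, h, map_zero]
  · intro h x
    apply hg.1
    rw [hs, h, map_zero]

theorem cxa_simple [Algebra A B] (hσ : RS (algebraMap A B)) {M : Type} [AddCommGroup M]
    [Module B M] [Module A M] [IsScalarTower A B M] [hM : IsSimpleModule B M] :
    IsSimpleModule A M := by
  refine isSimpleModule_iff_toSpanSingleton_surjective.2 ⟨hM.nontrivial, fun x hx y => ?_⟩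
  obtain ⟨b, rfl⟩ := IsSimpleModule.toSpanSingleton_surjective B hx y
  obtain ⟨a, ha⟩ := hσ _ (IsSimpleModule.ker_toSpanSingleton_isMaximal B hx)
    (Ideal.Quotient.mk _ b)
  refine ⟨a, ?_⟩
  have h1 : algebraMap A B a - b ∈ LinearMap.ker (LinearMap.toSpanSingleton B M x) :=
    Ideal.Quotient.eq.1 ha
  rw [LinearMap.mem_ker, map_sub, sub_eq_zero] at h1
  rw [← h1, LinearMap.toSpanSingleton_apply, LinearMap.toSpanSingleton_apply, algebraMap_smul]

theorem cxa_length_fin [Algebra A B] (hσ : RS (algebraMap A B)) {M : Type} [AddCommGroup M]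
    [Module B M] (hM : IsFiniteLength B M) :
    ∀ [Module A M] [IsScalarTower A B M], Module.length A M = Module.length B M := by
  induction hM with
  | of_subsingleton => intro _ _; rw [Module.length_eq_zero, Module.length_eq_zero]
  | @of_simple_quotient M _ _ N hs _ ih =>
    intro _ _
    have h1 : IsSimpleModule A (M ⧸ N) := cxa_simple hσ
    rw [Module.length_eq_add_of_exact N.subtype N.mkQ N.subtype_injective N.mkQ_surjective
        (LinearMap.exact_subtype_mkQ N),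
      Module.length_eq_add_of_exact (N.subtype.restrictScalars A) (N.mkQ.restrictScalars A)
        N.subtype_injective N.mkQ_surjective (LinearMap.exact_subtype_mkQ N), ih,
      Module.length_eq_one (R := A) (M := M ⧸ N), Module.length_eq_one (R := B) (M := M ⧸ N)]

/-- View `Y` as an `A`-module by `Module.compHom`.  If `Y` has infinite `B`-length it has infinite
`A`-length (`restrictScalars` is strictly monotone).  Otherwise induct along a composition series
(`IsFiniteLength` induction, `Module.length_eq_add_of_exact`): a simple `B`-module is `B/𝔫`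
(`isSimpleModule_iff_quot_maximal`), and `A → B/𝔫` is onto a field, so it is `A`-simple. -/
theorem SEq.length_eq {σ : A →+* B} (h : SEq σ X Y) (hσ : RS σ) :
    Module.length A X = Module.length B Y := by
  obtain ⟨g, hg, hs⟩ := h
  let _ : Algebra A B := σ.toAlgebra
  let _ : Module A Y := Module.compHom Y σ
  have : IsScalarTower A B Y := ⟨fun a b y => mul_smul (σ a) b y⟩
  have e : X ≃ₗ[A] Y := LinearEquiv.ofBijective (⟨g.toAddHom, hs⟩ : X →ₗ[A] Y) hg
  rw [e.length_eq]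
  by_cases hY : IsFiniteLength B Y
  · exact cxa_length_fin hσ hY
  · have h1 : Module.length B Y = ⊤ := by
      by_contra h
      exact hY (Module.length_ne_top_iff.1 h)
    have h2 := Submodule.length_le_length_restrictScalars A (⊤ : Submodule B Y)
    rw [Submodule.restrictScalars_top, Module.length_top, Module.length_top, h1] at h2
    rw [h1]
    exact top_le_iff.1 h2

end SEq

/-! ### alternating sums and abstract long exact sequences -/

/-- `∑_{i ≤ N} (-1)^i l i` -/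
noncomputable def alt (l : ℕ → ℕ∞) (N : ℕ) : ℤ :=
  ∑ i ∈ Finset.range (N + 1), (-1 : ℤ) ^ i * ((l i).toNat : ℤ)

theorem alt_congr {l l' : ℕ → ℕ∞} {N : ℕ} (h : ∀ i ≤ N, l i = l' i) : alt l N = alt l' N := by
  unfold alt
  exact Finset.sum_congr rfl fun i hi => by rw [h i (Nat.lt_succ_iff.1 (Finset.mem_range.1 hi))]

theorem alt_of_le {l : ℕ → ℕ∞} {N N' : ℕ} (hN : N ≤ N') (h : ∀ i, N < i → l i = 0) :
    alt l N' = alt l N := by
  unfold alt
  symm
  refine Finset.sum_subset (Finset.range_mono (Nat.succ_le_succ hN)) fun i _ hi => ?_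
  rw [h i (by simpa using hi)]
  simp

theorem alt_mul {l l' : ℕ → ℕ∞} {N : ℕ} (c : ℕ∞) (h : ∀ i ≤ N, l' i = l i * c) :
    alt l' N = alt l N * (c.toNat : ℤ) := by
  unfold alt
  rw [Finset.sum_mul]
  refine Finset.sum_congr rfl fun i hi => ?_
  rw [h i (Nat.lt_succ_iff.1 (Finset.mem_range.1 hi)), ENat.toNat_mul, Nat.cast_mul, mul_assoc]

section LES
variable {O : Type} [CommRing O] {A B C : ℕ → Type} [∀ i, AddCommGroup (A i)]
  [∀ i, Module O (A i)] [∀ i, AddCommGroup (B i)] [∀ i, Module O (B i)] [∀ i, AddCommGroup (C i)]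
  [∀ i, Module O (C i)]

/-- `… → A 1 → B 1 → C 1 → A 0 → B 0 → C 0 → 0` is exact. -/
structure LES (f : ∀ i, A i →ₗ[O] B i) (g : ∀ i, B i →ₗ[O] C i) (δ : ∀ i, C (i + 1) →ₗ[O] A i) :
    Prop where
  fg : ∀ i, Function.Exact (f i) (g i)
  gδ : ∀ i, Function.Exact (g (i + 1)) (δ i)
  δf : ∀ i, Function.Exact (δ i) (f i)
  surj : Function.Surjective (g 0)

variable {f : ∀ i, A i →ₗ[O] B i} {g : ∀ i, B i →ₗ[O] C i} {δ : ∀ i, C (i + 1) →ₗ[O] A i}

theorem les_rn {X Y : Type} [AddCommGroup X] [Module O X] [AddCommGroup Y] [Module O Y]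
    (φ : X →ₗ[O] Y) : Module.length O X =
      Module.length O (LinearMap.ker φ) + Module.length O (LinearMap.range φ) := by
  refine Module.length_eq_add_of_exact (LinearMap.ker φ).subtype φ.rangeRestrict
    (Submodule.subtype_injective _) φ.surjective_rangeRestrict ?_
  rw [LinearMap.exact_iff, LinearMap.ker_rangeRestrict, Submodule.range_subtype]

theorem LES.les_A (h : LES f g δ) (i : ℕ) : Module.length O (A i) =
    Module.length O (LinearMap.ker (f i)) + Module.length O (LinearMap.ker (g i)) := by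
  rw [les_rn (f i), LinearMap.exact_iff.1 (h.fg i)]

theorem LES.les_C0 (h : LES f g δ) :
    Module.length O (C 0) = Module.length O (LinearMap.range (g 0)) := by
  rw [LinearMap.range_eq_top.2 h.surj, Module.length_top]

theorem LES.les_C (h : LES f g δ) (i : ℕ) : Module.length O (C (i + 1)) =
    Module.length O (LinearMap.range (g (i + 1))) + Module.length O (LinearMap.ker (f i)) := by
  rw [les_rn (δ i), LinearMap.exact_iff.1 (h.gδ i), LinearMap.exact_iff.1 (h.δf i)]

theorem les_sub {X Y Z : Type} [AddCommGroup X] [Module O X] [AddCommGroup Y] [Module O Y]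
    [AddCommGroup Z] [Module O Z] {u : X →ₗ[O] Y} {v : Y →ₗ[O] Z} (h : Function.Exact u v)
    [Subsingleton X] [Subsingleton Z] : Subsingleton Y := by
  refine subsingleton_of_forall_eq 0 fun y => ?_
  obtain ⟨x, rfl⟩ := (h y).1 (Subsingleton.elim _ _)
  rw [Subsingleton.elim x 0, map_zero]

theorem les_inj {X Y Z : Type} [AddCommGroup X] [Module O X] [AddCommGroup Y] [Module O Y]
    [AddCommGroup Z] [Module O Z] {u : X →ₗ[O] Y} {v : Y →ₗ[O] Z} (h : Function.Exact u v)
    [Subsingleton X] : Function.Injective v := by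
  refine (injective_iff_map_eq_zero v).2 fun y hy => ?_
  obtain ⟨x, rfl⟩ := (h y).1 hy
  rw [Subsingleton.elim x 0, map_zero]

theorem les_surj {X Y Z : Type} [AddCommGroup X] [Module O X] [AddCommGroup Y] [Module O Y]
    [AddCommGroup Z] [Module O Z] {u : X →ₗ[O] Y} {v : Y →ₗ[O] Z} (h : Function.Exact u v)
    [Subsingleton Z] : Function.Surjective u :=
  fun y => (h y).1 (Subsingleton.elim _ _)

/-- `len B i = len (range f i) + len (range g i)` etc.; induct on `N` proving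
`alt A N - alt B N + alt C N = (-1)^N len (ker (f N))`. -/
theorem LES.euler (h : LES f g δ) (N : ℕ) (hA : ∀ i ≤ N, Module.length O (A i) ≠ ⊤)
    (hB : ∀ i ≤ N, Module.length O (B i) ≠ ⊤) (hC : ∀ i ≤ N, Module.length O (C i) ≠ ⊤)
    (hN : Function.Injective (f N)) :
    alt (fun i => Module.length O (B i)) N =
      alt (fun i => Module.length O (A i)) N + alt (fun i => Module.length O (C i)) N := by
  have fin : ∀ {x y : ℕ∞}, x + y ≠ ⊤ → (((x + y).toNat : ℕ) : ℤ) = x.toNat + y.toNat := by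
    intro x y hxy
    rw [ENat.toNat_add (ne_top_of_le_ne_top hxy le_self_add) (ne_top_of_le_ne_top hxy le_add_self)]
    push_cast
    rfl
  have eA := fun i (hi : i ≤ N) => fin (h.les_A i ▸ hA i hi)
  have eB := fun i (hi : i ≤ N) => fin (les_rn (g i) ▸ hB i hi)
  have key : ∀ n ≤ N, alt (fun i => Module.length O (A i)) n -
      alt (fun i => Module.length O (B i)) n + alt (fun i => Module.length O (C i)) n =
      (-1) ^ n * ((Module.length O (LinearMap.ker (f n))).toNat : ℤ) := by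
    intro n
    induction n with
    | zero =>
      intro hn
      simp only [alt, zero_add, Finset.sum_range_one, pow_zero, one_mul]
      rw [h.les_A, les_rn (g 0), h.les_C0, eA 0 hn, eB 0 hn]
      ring
    | succ n ih =>
      intro hn
      have ih := ih (Nat.le_of_succ_le hn)
      simp only [alt] at ih ⊢
      rw [Finset.sum_range_succ _ (n + 1), Finset.sum_range_succ _ (n + 1),
        Finset.sum_range_succ _ (n + 1), h.les_A (n + 1), les_rn (g (n + 1)), h.les_C n,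
        eA _ hn, eB _ hn, fin (h.les_C n ▸ hC _ hn)]
      linear_combination ih
  have h0 := key N le_rfl
  rw [LinearMap.ker_eq_bot.2 hN, Module.length_bot] at h0
  simp only [ENat.toNat_zero, Nat.cast_zero, mul_zero] at h0
  linarith

theorem LES.sub_B (h : LES f g δ) (i : ℕ) [Subsingleton (A i)] [Subsingleton (C i)] :
    Subsingleton (B i) := by
  exact les_sub (h.fg i)

theorem LES.sub_A (h : LES f g δ) (i : ℕ) [Subsingleton (B i)] [Subsingleton (C (i + 1))] :
    Subsingleton (A i) := by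
  exact les_sub (h.δf i)

theorem LES.sub_C (h : LES f g δ) (i : ℕ) [Subsingleton (B (i + 1))] [Subsingleton (A i)] :
    Subsingleton (C (i + 1)) := by
  exact les_sub (h.gδ i)

theorem LES.inj_f (h : LES f g δ) (i : ℕ) [Subsingleton (C (i + 1))] :
    Function.Injective (f i) := by
  exact les_inj (h.δf i)

theorem LES.surj_f (h : LES f g δ) (i : ℕ) [Subsingleton (C i)] : Function.Surjective (f i) := by
  exact les_surj (h.fg i)

theorem LES.inj_g (h : LES f g δ) (i : ℕ) [Subsingleton (A i)] : Function.Injective (g i) := by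
  exact les_inj (h.fg i)

theorem LES.bij_δ (h : LES f g δ) (i : ℕ) [Subsingleton (B (i + 1))] [Subsingleton (B i)] :
    Function.Bijective (δ i) := by
  exact ⟨les_inj (h.gδ i), les_surj (h.δf i)⟩

theorem LES.fin_B (h : LES f g δ) (i : ℕ) (hA : Module.length O (A i) ≠ ⊤)
    (hC : Module.length O (C i) ≠ ⊤) : Module.length O (B i) ≠ ⊤ := by
  have h1 : Module.length O (LinearMap.ker (g i)) ≤ Module.length O (A i) := by
    rw [h.les_A i]
    exact le_add_self
  have h2 : Module.length O (LinearMap.range (g i)) ≤ Module.length O (C i) :=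
    Module.length_le_of_injective _ (Submodule.subtype_injective _)
  rw [les_rn (g i)]
  exact WithTop.add_ne_top.2 ⟨ne_top_of_le_ne_top hA h1, ne_top_of_le_ne_top hC h2⟩

/-- the two length recursions used in the key lemma -/
theorem LES.len_zero (h : LES f g δ) :
    Module.length O (C 0) + Module.length O (LinearMap.ker (g 0)) = Module.length O (B 0) := by
  rw [h.les_C0, les_rn (g 0), add_comm]

theorem LES.len_succ (h : LES f g δ) (i : ℕ) :
    Module.length O (C (i + 1)) + Module.length O (LinearMap.ker (g (i + 1))) +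
        Module.length O (LinearMap.ker (g i)) =
      Module.length O (B (i + 1)) + Module.length O (A i) := by
  rw [h.les_C, les_rn (g (i + 1)), h.les_A]
  ac_rfl

end LES

/-! ### complexes -/

structure Cx (O : Type) [CommRing O] where
  X : ℕ → Type
  [ag : ∀ i, AddCommGroup (X i)]
  [md : ∀ i, Module O (X i)]
  d : ∀ i, X (i + 1) →ₗ[O] X i
  dd : ∀ i x, d i (d (i + 1) x) = 0

attribute [instance] Cx.ag Cx.md

namespace Cx
variable {O : Type} [CommRing O]

/-- cycles -/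
def Z (C : Cx O) : ∀ i, Submodule O (C.X i)
  | 0 => ⊤
  | i + 1 => LinearMap.ker (C.d i)

/-- boundaries -/
def B (C : Cx O) (i : ℕ) : Submodule O (C.X i) := LinearMap.range (C.d i)

/-- homology -/
def H (C : Cx O) (i : ℕ) : Type := C.Z i ⧸ (C.B i).submoduleOf (C.Z i)

instance (C : Cx O) (i : ℕ) : AddCommGroup (C.H i) :=
  inferInstanceAs (AddCommGroup (C.Z i ⧸ (C.B i).submoduleOf (C.Z i)))

instance (C : Cx O) (i : ℕ) : Module O (C.H i) :=
  inferInstanceAs (Module O (C.Z i ⧸ (C.B i).submoduleOf (C.Z i)))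

/-- class of a cycle -/
def cls (C : Cx O) (i : ℕ) : C.Z i →ₗ[O] C.H i := ((C.B i).submoduleOf (C.Z i)).mkQ

def Ex (C : Cx O) (i : ℕ) : Prop := C.Z i ≤ C.B i

def Kill (C : Cx O) (w : O) (i : ℕ) : Prop := ∀ x ∈ C.Z i, w • x ∈ C.B i

noncomputable def hl (C : Cx O) (i : ℕ) : ℕ∞ := Module.length O (C.H i)

def Proj (C : Cx O) : Prop := ∀ i, Module.Projective O (C.X i)

def Flat (C : Cx O) : Prop := ∀ i, Module.Flat O (C.X i)

def Fin (C : Cx O) : Prop := ∀ i, Module.Finite O (C.X i)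

theorem mem_Z_zero (C : Cx O) (x : C.X 0) : x ∈ C.Z 0 := trivial

theorem mem_Z_succ (C : Cx O) {i : ℕ} {x : C.X (i + 1)} : x ∈ C.Z (i + 1) ↔ C.d i x = 0 := Iff.rfl

theorem mem_B (C : Cx O) {i : ℕ} {x : C.X i} : x ∈ C.B i ↔ ∃ y, C.d i y = x := Iff.rfl

theorem B_le_Z (C : Cx O) (i : ℕ) : C.B i ≤ C.Z i := by
  rintro _ ⟨y, rfl⟩
  cases i with
  | zero => trivial
  | succ i => exact C.dd i y

theorem cls_surj (C : Cx O) (i : ℕ) : Function.Surjective (C.cls i) :=
  Submodule.mkQ_surjective _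

theorem cls_eq_zero (C : Cx O) {i : ℕ} {x : C.Z i} : C.cls i x = 0 ↔ (x : C.X i) ∈ C.B i :=
  Submodule.Quotient.mk_eq_zero _

theorem ex_iff (C : Cx O) (i : ℕ) : C.Ex i ↔ Subsingleton (C.H i) := by
  constructor
  · intro h
    refine subsingleton_of_forall_eq 0 fun y => ?_
    obtain ⟨x, rfl⟩ := C.cls_surj i y
    exact C.cls_eq_zero.2 (h x.2)
  · intro h x hx
    exact (C.cls_eq_zero (x := ⟨x, hx⟩)).1 (Subsingleton.elim _ _)

theorem ex_iff_hl (C : Cx O) (i : ℕ) : C.Ex i ↔ C.hl i = 0 := by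
  rw [ex_iff, hl, Module.length_eq_zero_iff]

theorem kill_iff (C : Cx O) (w : O) (i : ℕ) : C.Kill w i ↔ ∀ x : C.H i, w • x = 0 := by
  constructor
  · intro h y
    obtain ⟨x, rfl⟩ := C.cls_surj i y
    rw [← map_smul]
    exact C.cls_eq_zero.2 (h x x.2)
  · intro h x hx
    have := h (C.cls i ⟨x, hx⟩)
    rw [← map_smul] at this
    exact C.cls_eq_zero.1 this

theorem Proj.flat {C : Cx O} (h : C.Proj) : C.Flat := fun i => by
  have := h i
  infer_instance

theorem finite_H [IsNoetherianRing O] {C : Cx O} (i : ℕ) [Module.Finite O (C.X i)] :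
    Module.Finite O (C.H i) := by
  exact Module.Finite.of_surjective (C.cls i) (C.cls_surj i)

/-- chain maps -/
structure Hom (C D : Cx O) where
  f : ∀ i, C.X i →ₗ[O] D.X i
  comm : ∀ i x, f i (C.d i x) = D.d i (f (i + 1) x)

theorem Hom.map_Z {C D : Cx O} (φ : Hom C D) (i : ℕ) : ∀ x ∈ C.Z i, φ.f i x ∈ D.Z i := by
  intro x hx
  cases i with
  | zero => trivial
  | succ i =>
    rw [mem_Z_succ] at hx ⊢
    rw [← φ.comm, hx, map_zero]

theorem Hom.map_B {C D : Cx O} (φ : Hom C D) (i : ℕ) : ∀ x ∈ C.B i, φ.f i x ∈ D.B i := by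
  rintro _ ⟨y, rfl⟩
  exact ⟨φ.f (i + 1) y, (φ.comm i y).symm⟩

/-- induced map on homology -/
def Hom.hmap {C D : Cx O} (φ : Hom C D) (i : ℕ) : C.H i →ₗ[O] D.H i :=
  Submodule.mapQ _ _ ((φ.f i).restrict (φ.map_Z i)) fun x hx => φ.map_B i x hx

theorem Hom.hmap_cls {C D : Cx O} (φ : Hom C D) (i : ℕ) (x : C.Z i) :
    φ.hmap i (C.cls i x) = D.cls i ⟨φ.f i x, φ.map_Z i x x.2⟩ := rfl

/-- termwise short exact sequence -/
structure SES {C D E : Cx O} (φ : Hom C D) (ψ : Hom D E) : Prop where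
  inj : ∀ i, Function.Injective (φ.f i)
  ex : ∀ i, Function.Exact (φ.f i) (ψ.f i)
  surj : ∀ i, Function.Surjective (ψ.f i)

theorem cxc_cls_eq (C : Cx O) {i : ℕ} {x y : C.Z i} (h : (x : C.X i) - y ∈ C.B i) :
    C.cls i x = C.cls i y := by
  rw [← sub_eq_zero, ← map_sub]
  exact C.cls_eq_zero.2 h

theorem SES.cxc_Z {C D E : Cx O} {φ : Hom C D} {ψ : Hom D E} (h : SES φ ψ) {i : ℕ} {x : C.X i}
    (hx : φ.f i x ∈ D.Z i) : x ∈ C.Z i := by
  cases i with
  | zero => trivial
  | succ i =>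
    rw [mem_Z_succ] at hx ⊢
    apply h.inj i
    rw [φ.comm, hx, map_zero]

/-- the graph of the connecting map -/
def cxcR {C D E : Cx O} (φ : Hom C D) (ψ : Hom D E) (i : ℕ) (e : E.H (i + 1)) (c : C.H i) :
    Prop :=
  ∃ (y : D.X (i + 1)) (z : E.Z (i + 1)) (x : C.Z i), ψ.f (i + 1) y = z ∧
    φ.f i x = D.d i y ∧ E.cls (i + 1) z = e ∧ C.cls i x = c

theorem cxcR.add {C D E : Cx O} {φ : Hom C D} {ψ : Hom D E} {i : ℕ} {e e' : E.H (i + 1)}
    {c c' : C.H i} (h : cxcR φ ψ i e c) (h' : cxcR φ ψ i e' c') :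
    cxcR φ ψ i (e + e') (c + c') := by
  obtain ⟨y, z, x, h1, h2, rfl, rfl⟩ := h
  obtain ⟨y', z', x', h1', h2', rfl, rfl⟩ := h'
  refine ⟨y + y', z + z', x + x', ?_, ?_, map_add _ _ _, map_add _ _ _⟩
  · rw [map_add, h1, h1', Submodule.coe_add]
  · rw [Submodule.coe_add, map_add, map_add, h2, h2']

theorem cxcR.smul {C D E : Cx O} {φ : Hom C D} {ψ : Hom D E} {i : ℕ} {e : E.H (i + 1)}
    {c : C.H i} (h : cxcR φ ψ i e c) (a : O) : cxcR φ ψ i (a • e) (a • c) := by
  obtain ⟨y, z, x, h1, h2, rfl, rfl⟩ := h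
  refine ⟨a • y, a • z, a • x, ?_, ?_, map_smul _ _ _, map_smul _ _ _⟩
  · rw [map_smul, h1, Submodule.coe_smul]
  · rw [Submodule.coe_smul, map_smul, map_smul, h2]

theorem SES.cxc_ex {C D E : Cx O} {φ : Hom C D} {ψ : Hom D E} (h : SES φ ψ) (i : ℕ)
    (e : E.H (i + 1)) : ∃ c, cxcR φ ψ i e c := by
  obtain ⟨z, rfl⟩ := E.cls_surj (i + 1) e
  obtain ⟨y, hy⟩ := h.surj (i + 1) z
  have h1 : ψ.f i (D.d i y) = 0 := by
    rw [ψ.comm, hy]
    exact z.2
  obtain ⟨x, hx⟩ := (h.ex i _).1 h1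
  have hxZ : x ∈ C.Z i := h.cxc_Z (hx ▸ D.B_le_Z i ⟨y, rfl⟩)
  exact ⟨C.cls i ⟨x, hxZ⟩, y, z, ⟨x, hxZ⟩, hy, hx, rfl, rfl⟩

theorem SES.cxc_zero {C D E : Cx O} {φ : Hom C D} {ψ : Hom D E} (h : SES φ ψ) {i : ℕ}
    {c : C.H i} (hc : cxcR φ ψ i 0 c) : c = 0 := by
  obtain ⟨y, z, x, h1, h2, h3, rfl⟩ := hc
  obtain ⟨w, hw⟩ := E.cls_eq_zero.1 h3
  obtain ⟨y', rfl⟩ := h.surj (i + 2) w
  have h4 : ψ.f (i + 1) (y - D.d (i + 1) y') = 0 := by
    rw [map_sub, ψ.comm, h1, hw, sub_self]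
  obtain ⟨x', hx'⟩ := (h.ex (i + 1) _).1 h4
  refine C.cls_eq_zero.2 ⟨x', h.inj i ?_⟩
  rw [φ.comm, hx', h2, map_sub, D.dd, sub_zero]

theorem SES.cxc_uniq {C D E : Cx O} {φ : Hom C D} {ψ : Hom D E} (h : SES φ ψ) {i : ℕ}
    {e : E.H (i + 1)} {c c' : C.H i} (hc : cxcR φ ψ i e c) (hc' : cxcR φ ψ i e c') : c = c' := by
  have h1 := hc.add (hc'.smul (-1))
  rw [neg_one_smul, neg_one_smul, add_neg_cancel, ← sub_eq_add_neg] at h1
  exact sub_eq_zero.1 (h.cxc_zero h1)

/-- THE LONG EXACT SEQUENCE (diagram chase).  Construct `δ i`: on the submodule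
`P = {y : D.X (i+1) | ψ y ∈ E.Z (i+1)}` there is a linear `u : P → C.Z i` with `φ (u y) = d y`
(`LinearMap.codRestrict`, `LinearEquiv.ofInjective`); `P → E.H (i+1)` is onto and its kernel is killed
by `cls ∘ u`; lift (`LinearMap.quotKerEquivOfSurjective`, `Submodule.liftQ`). -/
theorem SES.les {C D E : Cx O} {φ : Hom C D} {ψ : Hom D E} (h : SES φ ψ) :
    ∃ δ : ∀ i, E.H (i + 1) →ₗ[O] C.H i, LES φ.hmap ψ.hmap δ := by
  choose δ hδ using h.cxc_ex
  have hψφ : ∀ i x, ψ.f i (φ.f i x) = 0 := fun i x => (h.ex i).apply_apply_eq_zero x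
  refine ⟨fun i =>
    { toFun := δ i
      map_add' := fun e e' => h.cxc_uniq (hδ i _) ((hδ i e).add (hδ i e'))
      map_smul' := fun a e => h.cxc_uniq (hδ i _) ((hδ i e).smul a) }, ?_, ?_, ?_, ?_⟩
  · intro i y
    constructor
    · intro hy
      obtain ⟨z, rfl⟩ := D.cls_surj i y
      rw [Hom.hmap_cls] at hy
      obtain ⟨w, hw⟩ := E.cls_eq_zero.1 hy
      obtain ⟨y', rfl⟩ := h.surj (i + 1) w
      have h4 : ψ.f i (z - D.d i y') = 0 := by
        rw [map_sub, ψ.comm, hw, sub_self]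
      obtain ⟨x, hx⟩ := (h.ex i _).1 h4
      have hxZ : x ∈ C.Z i :=
        h.cxc_Z (hx ▸ (D.Z i).sub_mem z.2 (D.B_le_Z i ⟨y', rfl⟩))
      refine ⟨C.cls i ⟨x, hxZ⟩, ?_⟩
      rw [Hom.hmap_cls]
      refine D.cxc_cls_eq ⟨-y', ?_⟩
      change D.d i (-y') = φ.f i x - z
      rw [hx, map_neg]
      abel
    · rintro ⟨c, rfl⟩
      obtain ⟨x, rfl⟩ := C.cls_surj i c
      rw [Hom.hmap_cls, Hom.hmap_cls]
      refine E.cls_eq_zero.2 ?_
      change ψ.f i (φ.f i x) ∈ E.B i
      rw [hψφ]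
      exact zero_mem _
  · intro i e
    change δ i e = 0 ↔ _
    constructor
    · intro he
      obtain ⟨y, z, x, h1, h2, rfl, h4⟩ := hδ i e
      rw [he] at h4
      obtain ⟨x', hx'⟩ := C.cls_eq_zero.1 h4
      have hy : y - φ.f (i + 1) x' ∈ D.Z (i + 1) := by
        rw [mem_Z_succ, map_sub, ← φ.comm, hx', h2, sub_self]
      refine ⟨D.cls (i + 1) ⟨_, hy⟩, ?_⟩
      rw [Hom.hmap_cls]
      congr 1
      apply Subtype.ext
      change ψ.f (i + 1) (y - φ.f (i + 1) x') = z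
      rw [map_sub, hψφ, h1, sub_zero]
    · rintro ⟨y, rfl⟩
      obtain ⟨z, rfl⟩ := D.cls_surj (i + 1) y
      refine h.cxc_uniq (hδ i _) ⟨z, ⟨ψ.f (i + 1) z, ψ.map_Z _ _ z.2⟩, 0, rfl, ?_, rfl, map_zero _⟩
      rw [Submodule.coe_zero, map_zero]
      exact (D.mem_Z_succ.1 z.2).symm
  · intro i c
    constructor
    · intro hc
      obtain ⟨x, rfl⟩ := C.cls_surj i c
      rw [Hom.hmap_cls] at hc
      obtain ⟨y, hy⟩ := D.cls_eq_zero.1 hc
      have hy' : D.d i y = φ.f i x := hy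
      have hz : ψ.f (i + 1) y ∈ E.Z (i + 1) := by
        rw [mem_Z_succ, ← ψ.comm, hy', hψφ]
      exact ⟨E.cls (i + 1) ⟨_, hz⟩,
        h.cxc_uniq (hδ i _) ⟨y, ⟨_, hz⟩, x, rfl, hy'.symm, rfl, rfl⟩⟩
    · rintro ⟨e, rfl⟩
      change φ.hmap i (δ i e) = 0
      obtain ⟨y, z, x, -, h2, -, h4⟩ := hδ i e
      rw [← h4, Hom.hmap_cls]
      exact D.cls_eq_zero.2 ⟨y, h2.symm⟩
  · intro e
    obtain ⟨z, rfl⟩ := E.cls_surj 0 e
    obtain ⟨y, hy⟩ := h.surj 0 z
    refine ⟨D.cls 0 ⟨y, trivial⟩, ?_⟩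
    rw [Hom.hmap_cls]
    congr 1
    exact Subtype.ext hy

/-- transfer of homology along a termwise semilinear bijection -/
theorem seq_H {O' : Type} [CommRing O'] (σ : O →+* O') (C : Cx O) (D : Cx O')
    (e : ∀ i, C.X i →+ D.X i) (he : ∀ i, Function.Bijective (e i))
    (hs : ∀ i (a : O) x, e i (a • x) = σ a • e i x)
    (hc : ∀ i x, e i (C.d i x) = D.d i (e (i + 1) x)) (i : ℕ) : SEq σ (C.H i) (D.H i) := by
  have hZ : ∀ x, e i x ∈ D.Z i ↔ x ∈ C.Z i := by
    intro x
    cases i with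
    | zero => exact ⟨fun _ => trivial, fun _ => trivial⟩
    | succ i =>
      rw [mem_Z_succ, mem_Z_succ, ← hc]
      exact map_eq_zero_iff _ (he i).1
  have hB : ∀ x, e i x ∈ D.B i ↔ x ∈ C.B i := by
    intro x
    constructor
    · rintro ⟨y, hy⟩
      obtain ⟨y', rfl⟩ := (he (i + 1)).2 y
      exact ⟨y', (he i).1 (by rw [hc, hy])⟩
    · rintro ⟨y, rfl⟩
      exact ⟨e (i + 1) y, (hc i y).symm⟩
  let u : C.Z i →ₛₗ[σ] D.Z i :=
    { toFun := fun x => ⟨e i x, (hZ x).2 x.2⟩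
      map_add' := fun x y => Subtype.ext (map_add (e i) _ _)
      map_smul' := fun a x => Subtype.ext (hs i a x) }
  let g : C.H i →ₛₗ[σ] D.H i :=
    Submodule.mapQ ((C.B i).submoduleOf (C.Z i)) ((D.B i).submoduleOf (D.Z i)) u
      fun x hx => (hB x).2 hx
  have hg : ∀ x, g (C.cls i x) = D.cls i (u x) := fun x => rfl
  refine ⟨g.toAddMonoidHom, ⟨?_, ?_⟩, fun a x => g.map_smulₛₗ a x⟩
  · rw [injective_iff_map_eq_zero]
    intro y hy
    obtain ⟨x, rfl⟩ := C.cls_surj i y
    have : D.cls i (u x) = 0 := hy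
    exact C.cls_eq_zero.2 ((hB x).1 (D.cls_eq_zero.1 this))
  · intro y
    obtain ⟨z, rfl⟩ := D.cls_surj i y
    obtain ⟨x, hx⟩ := (he i).2 z
    have hxZ : x ∈ C.Z i := (hZ x).1 (hx ▸ z.2)
    refine ⟨C.cls i ⟨x, hxZ⟩, (hg _).trans ?_⟩
    congr 1
    exact Subtype.ext hx

/-- `C` resolves `N` through `ε` -/
structure IsRes (C : Cx O) {N : Type} [AddCommGroup N] [Module O N] (ε : C.X 0 →ₗ[O] N) :
    Prop where
  surj : Function.Surjective ε
  ex0 : Function.Exact (C.d 0) ε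
  ex : ∀ i, C.Ex (i + 1)

/-- `H 0` is the cokernel of `d 0` -/
theorem H0_equiv (C : Cx O) {N : Type} [AddCommGroup N] [Module O N] (ε : C.X 0 →ₗ[O] N)
    (hs : Function.Surjective ε) (he : Function.Exact (C.d 0) ε) :
    ∃ e : C.H 0 ≃ₗ[O] N, ∀ x : C.Z 0, e (C.cls 0 x) = ε x := by
  let g : C.H 0 →ₗ[O] N :=
    Submodule.liftQ ((C.B 0).submoduleOf (C.Z 0)) (ε ∘ₗ (C.Z 0).subtype)
      fun x hx => (he x).2 hx
  have hg : ∀ x : C.Z 0, g (C.cls 0 x) = ε x := fun x => rfl
  refine ⟨LinearEquiv.ofBijective g ⟨?_, ?_⟩, hg⟩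
  · rw [injective_iff_map_eq_zero]
    intro y hy
    obtain ⟨x, rfl⟩ := C.cls_surj 0 y
    exact C.cls_eq_zero.2 ((he x).1 hy)
  · intro n
    obtain ⟨x, rfl⟩ := hs n
    exact ⟨C.cls 0 ⟨x, trivial⟩, rfl⟩

/-- `M ⊗ C` -/
noncomputable def tens (C : Cx O) (M : Type) [AddCommGroup M] [Module O M] : Cx O where
  X i := M ⊗[O] C.X i
  d i := (C.d i).lTensor M
  dd i x := by
    rw [← LinearMap.comp_apply, ← LinearMap.lTensor_comp,
      show C.d i ∘ₗ C.d (i + 1) = 0 from LinearMap.ext (C.dd i), LinearMap.lTensor_zero,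
      LinearMap.zero_apply]

section tens
variable {M M' M'' : Type} [AddCommGroup M] [Module O M] [AddCommGroup M'] [Module O M']
  [AddCommGroup M''] [Module O M'']

/-- functoriality of `M ⊗ C` in `M` -/
noncomputable def tHom (C : Cx O) (u : M →ₗ[O] M') : Hom (C.tens M) (C.tens M') where
  f i := u.rTensor (C.X i)
  comm i x := by
    change u.rTensor _ ((C.d i).lTensor M x) = (C.d i).lTensor M' (u.rTensor _ x)
    rw [← LinearMap.comp_apply, ← LinearMap.comp_apply, LinearMap.rTensor_comp_lTensor,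
      LinearMap.lTensor_comp_rTensor]

/-- functoriality of `M ⊗ C` in `C` -/
noncomputable def Hom.tens {C D : Cx O} (φ : Hom C D) (M : Type) [AddCommGroup M] [Module O M] :
    Hom (C.tens M) (D.tens M) where
  f i := (φ.f i).lTensor M
  comm i x := by
    change (φ.f i).lTensor M ((C.d i).lTensor M x) = (D.d i).lTensor M ((φ.f (i + 1)).lTensor M x)
    rw [← LinearMap.comp_apply, ← LinearMap.comp_apply, ← LinearMap.lTensor_comp,
      ← LinearMap.lTensor_comp, show φ.f i ∘ₗ C.d i = D.d i ∘ₗ φ.f (i + 1) from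
        LinearMap.ext (φ.comm i)]

/-- the map `H_i(M ⊗ C) → H_i(M' ⊗ C)` -/
noncomputable def tH (C : Cx O) (u : M →ₗ[O] M') (i : ℕ) : (C.tens M).H i →ₗ[O] (C.tens M').H i :=
  (C.tHom u).hmap i

theorem tH_comp (C : Cx O) (u : M →ₗ[O] M') (v : M' →ₗ[O] M'') (i : ℕ) (x : (C.tens M).H i) :
    C.tH (v ∘ₗ u) i x = C.tH v i (C.tH u i x) := by
  obtain ⟨z, rfl⟩ := (C.tens M).cls_surj i x
  simp only [tH, Hom.hmap_cls]
  congr 1
  exact Subtype.ext (LinearMap.rTensor_comp_apply _ _ _ _)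

theorem tH_smul (C : Cx O) (a : O) (u : M →ₗ[O] M') (i : ℕ) (x : (C.tens M).H i) :
    C.tH (a • u) i x = a • C.tH u i x := by
  obtain ⟨z, rfl⟩ := (C.tens M).cls_surj i x
  simp only [tH, Hom.hmap_cls]
  rw [← map_smul]
  congr 1
  refine Subtype.ext ?_
  change (a • u).rTensor _ z.1 = a • u.rTensor _ z.1
  rw [LinearMap.rTensor_smul, LinearMap.smul_apply]

theorem tH_id (C : Cx O) (i : ℕ) (x : (C.tens M).H i) : C.tH LinearMap.id i x = x := by
  obtain ⟨z, rfl⟩ := (C.tens M).cls_surj i x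
  simp only [tH, Hom.hmap_cls]
  congr 1
  exact Subtype.ext (LinearMap.rTensor_id_apply _ _ _)

theorem tH_zero (C : Cx O) (i : ℕ) (x : (C.tens M).H i) : C.tH (0 : M →ₗ[O] M') i x = 0 := by
  rw [← zero_smul O (0 : M →ₗ[O] M'), tH_smul, zero_smul]

theorem tens_equiv (C : Cx O) (e : M ≃ₗ[O] M') (i : ℕ) :
    Nonempty ((C.tens M).H i ≃ₗ[O] (C.tens M').H i) := by
  refine ⟨LinearEquiv.ofLinearMap (C.tH e.toLinearMap i) (C.tH e.symm.toLinearMap i) ?_ ?_⟩
  · refine LinearMap.ext fun x => ?_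
    rw [LinearMap.comp_apply, ← tH_comp, LinearEquiv.comp_symm, tH_id, LinearMap.id_apply]
  · refine LinearMap.ext fun x => ?_
    rw [LinearMap.comp_apply, ← tH_comp, LinearEquiv.symm_comp, tH_id, LinearMap.id_apply]

/-- long exact sequence of `- ⊗ C` for a flat complex `C` -/
theorem les_tens {C : Cx O} (hC : C.Flat) (u : M →ₗ[O] M') (v : M' →ₗ[O] M'')
    (hu : Function.Injective u) (hex : Function.Exact u v) (hv : Function.Surjective v) :
    ∃ δ : ∀ i, (C.tens M'').H (i + 1) →ₗ[O] (C.tens M).H i, LES (C.tH u) (C.tH v) δ := by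
  refine SES.les (φ := C.tHom u) (ψ := C.tHom v) ⟨fun i => ?_, fun i => ?_, fun i => ?_⟩
  · have := hC i
    exact Module.Flat.rTensor_preserves_injective_linearMap u hu
  · exact rTensor_exact (C.X i) hex hv
  · exact LinearMap.rTensor_surjective (C.X i) hv

/-- `O ⊗ C = C` -/
theorem tens_self (C : Cx O) (i : ℕ) : Nonempty ((C.tens O).H i ≃ₗ[O] C.H i) := by
  refine SEq.equiv (seq_H (RingHom.id O) (C.tens O) C
    (fun i => (TensorProduct.lid O (C.X i)).toLinearMap.toAddMonoidHom)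
    (fun i => (TensorProduct.lid O (C.X i)).bijective)
    (fun i a x => (TensorProduct.lid O (C.X i)).map_smul a x) (fun i x => ?_) i)
  change O ⊗[O] C.X (i + 1) at x
  change TensorProduct.lid O _ ((C.d i).lTensor O x) = C.d i (TensorProduct.lid O _ x)
  induction x with
  | zero => simp
  | tmul a y => simp
  | add x y hx hy => simp only [map_add, hx, hy]

/-- a flat module preserves exactness -/
theorem Ex.tens {C : Cx O} {i : ℕ} (h : C.Ex i) (M : Type) [AddCommGroup M] [Module O M]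
    [Module.Flat O M] : (C.tens M).Ex i := by
  cases i with
  | zero =>
    intro x _
    exact LinearMap.lTensor_surjective M (g := C.d 0) (fun y => h (C.mem_Z_zero y)) x
  | succ i =>
    intro x hx
    have he : Function.Exact (C.d (i + 1)) (C.d i) := fun y =>
      ⟨fun hy => h hy, fun ⟨z, hz⟩ => hz ▸ C.dd i z⟩
    exact (Module.Flat.lTensor_exact M he x).1 hx

/-- right exactness: `H_0(M ⊗ C) = M ⊗ N` -/
theorem tens_H0 (C : Cx O) {N : Type} [AddCommGroup N] [Module O N] (ε : C.X 0 →ₗ[O] N)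
    (hs : Function.Surjective ε) (he : Function.Exact (C.d 0) ε) (M : Type) [AddCommGroup M]
    [Module O M] : ∃ e : (C.tens M).H 0 ≃ₗ[O] M ⊗[O] N,
      ∀ x : (C.tens M).Z 0, e ((C.tens M).cls 0 x) = ε.lTensor M x.1 := by
  exact H0_equiv (C.tens M) (ε.lTensor M) (LinearMap.lTensor_surjective M hs)
    (lTensor_exact M he hs)

/-- elementwise description of `(O/I) ⊗ P` -/
theorem quot_tmul_surj (I : Ideal O) {P : Type} [AddCommGroup P] [Module O P]
    (x : (O ⧸ I) ⊗[O] P) : ∃ z : P, x = (1 : O ⧸ I) ⊗ₜ z := by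
  induction x with
  | zero => exact ⟨0, by simp⟩
  | tmul a y =>
    obtain ⟨r, rfl⟩ := Ideal.Quotient.mk_surjective a
    refine ⟨r • y, ?_⟩
    rw [← TensorProduct.smul_tmul, ← Ideal.Quotient.algebraMap_eq, Algebra.algebraMap_eq_smul_one]
  | add x y hx hy =>
    obtain ⟨z, rfl⟩ := hx
    obtain ⟨z', rfl⟩ := hy
    exact ⟨z + z', (TensorProduct.tmul_add _ _ _).symm⟩

theorem quot_tmul_eq_zero (I : Ideal O) {P : Type} [AddCommGroup P] [Module O P] (z : P) :
    ((1 : O ⧸ I) ⊗ₜ[O] z : (O ⧸ I) ⊗[O] P) = 0 ↔ z ∈ I • (⊤ : Submodule O P) := by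
  rw [← (TensorProduct.quotTensorEquivQuotSMul P I).map_eq_zero_iff,
    TensorProduct.quotTensorEquivQuotSMul_mk_one_tmul, Submodule.Quotient.mk_eq_zero]

end tens

/-- base change of a complex -/
noncomputable def bc (C : Cx O) (S : Type) [CommRing S] [Algebra O S] : Cx S where
  X i := S ⊗[O] C.X i
  d i := (C.d i).baseChange S
  dd i x := (C.tens S).dd i x

theorem bc_seq (C : Cx O) (S : Type) [CommRing S] [Algebra O S] (i : ℕ) :
    SEq (algebraMap O S) ((C.tens S).H i) ((C.bc S).H i) := by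
  refine seq_H (algebraMap O S) (C.tens S) (C.bc S) (fun i => AddMonoidHom.id (S ⊗[O] C.X i))
    (fun _ => Function.bijective_id) (fun i a x => ?_) (fun _ _ => rfl) i
  exact (algebraMap_smul S a (show S ⊗[O] C.X i from x)).symm

/-- `X ⊗_S (S ⊗_O C) = X ⊗_O C` (`AlgebraTensorModule.cancelBaseChange`) -/
theorem bc_tens_seq (C : Cx O) (S : Type) [CommRing S] [Algebra O S] (X : Type) [AddCommGroup X]
    [Module S X] [Module O X] [IsScalarTower O S X] (i : ℕ) :
    SEq (algebraMap O S) ((C.tens X).H i) (((C.bc S).tens X).H i) := by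
  refine seq_H (algebraMap O S) (C.tens X) ((C.bc S).tens X)
    (fun i => (AlgebraTensorModule.cancelBaseChange O S S X (C.X i)).symm.toLinearMap.toAddMonoidHom)
    (fun i => (AlgebraTensorModule.cancelBaseChange O S S X (C.X i)).symm.bijective)
    (fun i a x => ?_) (fun i x => ?_) i
  · change (AlgebraTensorModule.cancelBaseChange O S S X (C.X i)).symm
        (a • (show X ⊗[O] C.X i from x)) =
      algebraMap O S a • (AlgebraTensorModule.cancelBaseChange O S S X (C.X i)).symm x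
    rw [← map_smul, algebraMap_smul]
  · change X ⊗[O] C.X (i + 1) at x
    change (AlgebraTensorModule.cancelBaseChange O S S X (C.X i)).symm ((C.d i).lTensor X x) =
      ((C.d i).baseChange S).lTensor X
        ((AlgebraTensorModule.cancelBaseChange O S S X (C.X (i + 1))).symm x)
    induction x with
    | zero => simp
    | tmul a y => simp
    | add x y hx hy => simp only [map_add, hx, hy]

/-- flat base change commutes with homology -/
theorem bc_H_flat (C : Cx O) (S : Type) [CommRing S] [Algebra O S] [Module.Flat O S] (i : ℕ) :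
    Nonempty ((C.bc S).H i ≃ₗ[S] S ⊗[O] C.H i) := by
  let ψ : S ⊗[O] C.Z i →ₗ[S] S ⊗[O] C.X i := (C.Z i).subtype.baseChange S
  have hinj : Function.Injective ψ :=
    Module.Flat.lTensor_preserves_injective_linearMap (C.Z i).subtype (C.Z i).subtype_injective
  have hr : ∀ y, y ∈ (C.bc S).Z i ↔ ∃ x, ψ x = y := by
    intro y
    cases i with
    | zero =>
      exact ⟨fun _ => LinearMap.lTensor_surjective S (g := (C.Z 0).subtype)
        (fun z => ⟨⟨z, trivial⟩, rfl⟩) y, fun _ => trivial⟩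
    | succ i => exact Module.Flat.lTensor_exact S (LinearMap.exact_subtype_ker_map (C.d i)) y
  let φ : S ⊗[O] C.Z i →ₗ[S] (C.bc S).H i :=
    (C.bc S).cls i ∘ₗ LinearMap.codRestrict ((C.bc S).Z i) ψ fun x => (hr _).2 ⟨x, rfl⟩
  have hφ : Function.Surjective φ := by
    intro y
    obtain ⟨z, rfl⟩ := (C.bc S).cls_surj i y
    obtain ⟨x, hx⟩ := (hr z.1).1 z.2
    exact ⟨x, congrArg ((C.bc S).cls i) (Subtype.ext hx)⟩
  let χ : S ⊗[O] C.Z i →ₗ[S] S ⊗[O] C.H i := (C.cls i).baseChange S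
  have hχ : Function.Surjective χ := LinearMap.lTensor_surjective S (C.cls_surj i)
  let d' : C.X (i + 1) →ₗ[O] C.Z i :=
    LinearMap.codRestrict (C.Z i) (C.d i) fun x => C.B_le_Z i ⟨x, rfl⟩
  have hex : Function.Exact d' (C.cls i) := fun z => by
    rw [cls_eq_zero]
    exact ⟨fun ⟨y, hy⟩ => ⟨y, Subtype.ext hy⟩, fun ⟨y, hy⟩ => ⟨y, congrArg Subtype.val hy⟩⟩
  have hcomp : ∀ y, ψ (d'.lTensor S y) = (C.d i).lTensor S y := fun y =>
    (LinearMap.lTensor_comp_apply S (C.Z i).subtype d' y).symm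
  have hker : LinearMap.ker φ = LinearMap.ker χ := by
    ext x
    rw [LinearMap.mem_ker, LinearMap.mem_ker]
    refine Iff.trans (C.bc S).cls_eq_zero
      (Iff.trans ?_ (lTensor_exact S hex (C.cls_surj i) x).symm)
    exact ⟨fun ⟨y, hy⟩ => ⟨y, hinj ((hcomp y).trans hy)⟩,
      fun ⟨y, hy⟩ => ⟨y, (hcomp y).symm.trans (congrArg ψ hy)⟩⟩
  exact ⟨(φ.quotKerEquivOfSurjective hφ).symm.trans
    ((Submodule.quotEquivOfEq _ _ hker).trans (χ.quotKerEquivOfSurjective hχ))⟩

theorem Proj.bc {C : Cx O} (h : C.Proj) (S : Type) [CommRing S] [Algebra O S] : (C.bc S).Proj := by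
  intro i
  have := h i
  exact inferInstanceAs (Module.Projective S (S ⊗[O] C.X i))

theorem Fin.bc {C : Cx O} (h : C.Fin) (S : Type) [CommRing S] [Algebra O S] : (C.bc S).Fin := by
  intro i
  have := h i
  exact inferInstanceAs (Module.Finite S (S ⊗[O] C.X i))

end Cx

end Crest.Agent.R188
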