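import Crest.Agent.R169.CM
import Crest.Agent.R183.Flat

/-! # R188 / DimAuxC : flat local maps, regular local rings (auxiliary file for `Dim.lean`). -/

set_option autoImplicit false
set_option linter.unusedSectionVars false
open IsLocalRing RingTheory.Sequence Pointwise

namespace Crest.Agent.R188.DimC

section
variable {R S : Type} [CommRing R] [CommRing S]

theorem cons_iff_quot (x : R) (xs : List R) : IsWeaklyRegular R (x :: xs) ↔
    IsSMulRegular R x ∧ IsWeaklyRegular (R ⧸ Ideal.span {x})
      (xs.map (Ideal.Quotient.mk (Ideal.span {x}))) := by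
  have h : (x • (⊤ : Submodule R R)) = Ideal.span {x} := by
    simp [← Submodule.ideal_span_singleton_smul]
  rw [isWeaklyRegular_cons_iff, (Submodule.quotEquivOfEq _ _ h).isWeaklyRegular_congr xs,
    ← isWeaklyRegular_map_algebraMap_iff (R ⧸ Ideal.span {x}) (R ⧸ Ideal.span {x}) xs]
  rfl

theorem local_quot [IsLocalRing R] {I : Ideal R} (hI : I ≤ maximalIdeal R) : IsLocalRing (R ⧸ I) := by
  have : Nontrivial (R ⧸ I) := Ideal.Quotient.nontrivial_iff.2 fun h =>
    (maximalIdeal.isMaximal R).ne_top (top_le_iff.1 (h ▸ hI))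
  exact IsLocalRing.of_surjective' _ Ideal.Quotient.mk_surjective

theorem max_quot [IsLocalRing R] (I : Ideal R) [IsLocalRing (R ⧸ I)] :
    (maximalIdeal R).map (Ideal.Quotient.mk I) = maximalIdeal (R ⧸ I) :=
  map_maximalIdeal_of_surjective _ Ideal.Quotient.mk_surjective

variable [IsLocalRing R] [IsNoetherianRing R]

theorem dim_flat_add [IsLocalRing S] [IsNoetherianRing S] (σ : R →+* S) (hσ : σ.Flat)
    (hl : (maximalIdeal R).map σ ≤ maximalIdeal S) :
    ringKrullDim S = ringKrullDim R + ringKrullDim (S ⧸ (maximalIdeal R).map σ) := by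
  let _ := σ.toAlgebra
  have : Module.Flat R S := hσ
  have hlo : (maximalIdeal S).LiesOver (maximalIdeal R) := ⟨by
    refine (maximalIdeal.isMaximal R).eq_of_le ?_ (Ideal.map_le_iff_le_comap.1 hl)
    exact Ideal.comap_ne_top _ (maximalIdeal.isMaximal S).ne_top⟩
  have h := Ideal.height_eq_height_add_of_liesOver_of_hasGoingDown (maximalIdeal R) (maximalIdeal S)
  have hq : IsLocalRing (S ⧸ (maximalIdeal R).map σ) := local_quot hl
  have h2 := max_quot (R := S) ((maximalIdeal R).map σ)
  rw [← maximalIdeal_height_eq_ringKrullDim, ← maximalIdeal_height_eq_ringKrullDim,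
    ← maximalIdeal_height_eq_ringKrullDim, h, ← h2, WithBot.coe_add]
  rfl

theorem dim_quot_max : ringKrullDim (R ⧸ maximalIdeal R) = 0 := by
  let _ := Ideal.Quotient.field (maximalIdeal R)
  exact ringKrullDim_eq_zero_of_field _

theorem dim_map_flat [IsLocalRing S] [IsNoetherianRing S] (σ : R →+* S) (hσ : σ.Flat)
    (hl : (maximalIdeal R).map σ = maximalIdeal S) (I : Ideal R) :
    ringKrullDim (S ⧸ I.map σ) = ringKrullDim (R ⧸ I) := by
  by_cases hI : I = ⊤
  · subst hI
    rw [Ideal.map_top, ringKrullDim_eq_bot_of_subsingleton, ringKrullDim_eq_bot_of_subsingleton]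
  have h1 : I ≤ maximalIdeal R := le_maximalIdeal hI
  have h2 : I.map σ ≤ maximalIdeal S := hl ▸ Ideal.map_mono h1
  have := local_quot h1
  have := local_quot h2
  have h3 : (maximalIdeal (R ⧸ I)).map (Ideal.quotientMap (I.map σ) σ Ideal.le_comap_map) =
      maximalIdeal (S ⧸ I.map σ) := by
    rw [← max_quot, ← max_quot, ← hl, Ideal.map_map, Ideal.map_map, Ideal.quotientMap_comp_mk]
  rw [dim_flat_add _ (R183.flat_quotientMap σ hσ I) h3.le, h3, dim_quot_max, add_zero]

theorem dim_of_regular (xs : List R) (h : IsWeaklyRegular R xs)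
    (hm : Ideal.ofList xs = maximalIdeal R) : ringKrullDim R = xs.length := by
  have h1 : IsRegular R xs := IsRegular.of_isWeaklyRegular_of_mem_maximalIdeal R
    (fun r hr => hm ▸ Ideal.subset_span hr) h
  rw [← ringKrullDim_add_length_eq_ringKrullDim_of_isRegular xs h1, hm, dim_quot_max, zero_add]

theorem isDomain_of_quot {x : R} (hx : x ∈ maximalIdeal R) (hr : IsSMulRegular R x)
    (hq : IsDomain (R ⧸ Ideal.span {x})) : IsDomain R := by
  have hp : (Ideal.span {x}).IsPrime := (Ideal.Quotient.isDomain_iff_prime _).1 hq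
  have hne : Ideal.span {x} ≠ ⊤ := hp.ne_top
  have fin : ∀ a : R, a ≠ 0 → FiniteMultiplicity x a := by
    intro a ha
    by_contra hf
    have h0 := Ideal.iInf_pow_eq_bot_of_isLocalRing (Ideal.span {x}) hne
    refine ha ?_
    have : a ∈ (⨅ i : ℕ, Ideal.span {x} ^ i) := by
      refine Ideal.mem_iInf.2 fun i => ?_
      rw [Ideal.span_singleton_pow, Ideal.mem_span_singleton]
      exact FiniteMultiplicity.not_iff_forall.1 hf i
    rwa [h0] at this
  have : NoZeroDivisors R := ⟨fun {a b} hab => by
    by_contra hc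
    push Not at hc
    obtain ⟨a', ha, ha'⟩ := (fin a hc.1).exists_eq_pow_mul_and_not_dvd
    obtain ⟨b', hb, hb'⟩ := (fin b hc.2).exists_eq_pow_mul_and_not_dvd
    have h1 : x ^ (multiplicity x a + multiplicity x b) • (a' * b') =
        x ^ (multiplicity x a + multiplicity x b) • (0 : R) := by
      rw [smul_zero, ← hab, smul_eq_mul, pow_add]
      conv_rhs => rw [ha, hb]
      ring
    have h2 : a' * b' = 0 := (hr.pow _) h1
    rcases hp.mem_or_mem (show a' * b' ∈ Ideal.span {x} from h2 ▸ zero_mem _) with h | h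
    · exact ha' (Ideal.mem_span_singleton.1 h)
    · exact hb' (Ideal.mem_span_singleton.1 h)⟩
  exact NoZeroDivisors.to_isDomain R

end

theorem isDomain_of_regular : ∀ (n : ℕ) (R : Type) [CommRing R] [IsLocalRing R] [IsNoetherianRing R]
    (xs : List R), xs.length = n → IsWeaklyRegular R xs → Ideal.ofList xs = maximalIdeal R →
    IsDomain R := by
  intro n
  induction n with
  | zero =>
    intro R _ _ _ xs hl _ hm
    obtain rfl := List.length_eq_zero_iff.1 hl
    rw [Ideal.ofList_nil] at hm
    have : (⊥ : Ideal R).IsPrime := hm ▸ (maximalIdeal.isMaximal R).isPrime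
    exact IsDomain.of_bot_isPrime R
  | succ n ih =>
    intro R _ _ _ xs hl hr hm
    obtain _ | ⟨x, xs⟩ := xs
    · simp at hl
    have hx : x ∈ maximalIdeal R := hm ▸ Ideal.subset_span (by simp)
    have := local_quot ((Ideal.span_singleton_le_iff_mem _).2 hx)
    obtain ⟨h1, h2⟩ := (cons_iff_quot x xs).1 hr
    refine isDomain_of_quot hx h1 (ih _ _ (by simpa using hl) h2 ?_)
    rw [← max_quot, ← hm, Ideal.ofList_cons, Ideal.map_sup, Ideal.map_quotient_self, bot_sup_eq,
      Ideal.map_ofList]

theorem regular_of_params {R : Type} [CommRing R] [IsLocalRing R] [IsNoetherianRing R]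
    {M : Type} [AddCommGroup M] [Module R M] [Module.Finite R M]
    (rs ys : List R) (hl : rs.length = ys.length) (hr : ∀ r ∈ rs, r ∈ maximalIdeal R)
    (hreg : IsWeaklyRegular M rs) (hm : ∀ y ∈ ys, y ∈ maximalIdeal R)
    (hp : ∃ L, maximalIdeal R ^ L ≤ Module.annihilator R M ⊔ Ideal.ofList ys) :
    IsWeaklyRegular M ys := by
  rcases subsingleton_or_nontrivial M with hM | hM
  · rw [isWeaklyRegular_iff_Fin]
    intro i a b _
    exact Subsingleton.elim _ _
  refine R169.isWeaklyRegular_of_params ys M rs hl hr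
    (IsRegular.of_isWeaklyRegular_of_mem_maximalIdeal M hr hreg) hm fun p hp' h1 h2 => ?_
  obtain ⟨L, hL⟩ := hp
  have h3 : maximalIdeal R ^ L ≤ p :=
    hL.trans (sup_le h1 (Ideal.span_le.2 fun y hy => h2 y hy))
  exact ((maximalIdeal.isMaximal R).eq_of_le hp'.ne_top (Ideal.IsPrime.le_of_pow_le h3)).symm

/-- an element of `𝔪 ∖ 𝔪²` is part of a minimal generating set -/
theorem spanFinrank_quot {R : Type} [CommRing R] [IsLocalRing R] [IsNoetherianRing R] {x : R}
    (hx : x ∈ maximalIdeal R) (hx2 : x ∉ maximalIdeal R ^ 2) [IsLocalRing (R ⧸ Ideal.span {x})] :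
    (maximalIdeal (R ⧸ Ideal.span {x})).spanFinrank + 1 ≤ (maximalIdeal R).spanFinrank := by
  classical
  obtain ⟨s, hs, hsp⟩ := Submodule.FG.exists_span_finset_card_eq_spanFinrank
    (IsNoetherian.noetherian (maximalIdeal R))
  have hx' : x ∈ Submodule.span R (s : Set R) := hsp ▸ hx
  obtain ⟨f, -, hf⟩ := Submodule.mem_span_finset.1 hx'
  have hsm : ∀ i ∈ s, i ∈ maximalIdeal R := fun i hi => hsp ▸ Submodule.subset_span hi
  obtain ⟨i, hi, hu⟩ : ∃ i ∈ s, IsUnit (f i) := by
    by_contra hc
    push Not at hc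
    refine hx2 ?_
    rw [← hf, pow_two]
    exact Ideal.sum_mem _ fun j hj => Ideal.mul_mem_mul (hc j hj) (hsm j hj)
  set π := Ideal.Quotient.mk (Ideal.span {x}) with hπ
  have key : maximalIdeal (R ⧸ Ideal.span {x}) =
      Ideal.span (((s.erase i).image π : Finset _) : Set _) := by
    rw [← max_quot, ← hsp]
    refine le_antisymm ?_ ?_
    · rw [Ideal.map_le_iff_le_comap]
      refine Submodule.span_le.2 fun j hj => ?_
      have hmem : ∀ k ∈ s.erase i, π k ∈ Ideal.span (((s.erase i).image π : Finset _) : Set _) :=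
        fun k hk => Ideal.subset_span (Finset.mem_coe.2 (Finset.mem_image_of_mem _ hk))
      by_cases hji : j = i
      · subst hji
        have h0 : π (∑ a ∈ s, f a • a) = 0 := by
          rw [hf]; exact Ideal.Quotient.eq_zero_iff_mem.2 (Ideal.mem_span_singleton_self x)
        rw [← Finset.add_sum_erase s _ hi, map_add, map_sum] at h0
        have h1 : π (f j • j) ∈ Ideal.span (((s.erase j).image π : Finset _) : Set _) := by
          rw [eq_neg_of_add_eq_zero_left h0]
          refine neg_mem (Ideal.sum_mem _ fun k hk => ?_)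
          rw [smul_eq_mul, map_mul]
          exact Ideal.mul_mem_left _ _ (hmem k hk)
        rw [smul_eq_mul, map_mul] at h1
        exact (Ideal.unit_mul_mem_iff_mem _ (hu.map π)).1 h1
      · exact hmem j (Finset.mem_erase.2 ⟨hji, hj⟩)
    · refine Ideal.span_le.2 fun y hy => ?_
      obtain ⟨k, hk, rfl⟩ := Finset.mem_image.1 (Finset.mem_coe.1 hy)
      exact Ideal.mem_map_of_mem _ (Submodule.subset_span (Finset.mem_of_mem_erase hk))
  have h1 := Submodule.spanFinrank_span_le_ncard_of_finite (R := R ⧸ Ideal.span {x})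
    (((s.erase i).image π).finite_toSet)
  rw [Set.ncard_coe_finset] at h1
  have h2 := Finset.card_image_le (s := s.erase i) (f := π)
  have h3 := Finset.card_erase_add_one hi
  rw [key]
  exact (Nat.add_le_add_right (h1.trans h2) 1).trans (by omega)

theorem regLoc : ∀ (d : ℕ) (R : Type) [CommRing R] [IsRegularLocalRing R], ringKrullDim R = d →
    ∃ xs : List R, xs.length = d ∧ IsWeaklyRegular R xs ∧ Ideal.ofList xs = maximalIdeal R := by
  classical
  intro d
  induction d with
  | zero =>
    intro R _ _ hd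
    have h := IsRegularLocalRing.spanFinrank_maximalIdeal (R := R)
    rw [hd] at h
    have h0 : (maximalIdeal R).spanFinrank = 0 := by exact_mod_cast h
    refine ⟨[], rfl, .nil _ _, ?_⟩
    rw [Ideal.ofList_nil]
    exact ((Submodule.spanFinrank_eq_zero_iff_eq_bot (IsNoetherian.noetherian _)).1 h0).symm
  | succ d ih =>
    intro R _ _ hd
    have h := IsRegularLocalRing.spanFinrank_maximalIdeal (R := R)
    rw [hd] at h
    have h0 : (maximalIdeal R).spanFinrank = d + 1 := by exact_mod_cast h
    have hfin := Ideal.finite_minimalPrimes_of_isNoetherianRing R (⊥ : Ideal R)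
    have hjac : maximalIdeal R ≤ Ideal.jacobson ⊥ := maximalIdeal_le_jacobson _
    obtain ⟨x, hx, hx'⟩ : ∃ x ∈ maximalIdeal R, x ∉ ⋃ i ∈ ((insert (maximalIdeal R ^ 2)
        hfin.toFinset : Finset (Ideal R)) : Set (Ideal R)), ((id i : Ideal R) : Set R) := by
      by_contra hc
      push Not at hc
      obtain ⟨i, hi, hle⟩ := (Ideal.subset_union_prime (f := id) (maximalIdeal R ^ 2)
        (maximalIdeal R ^ 2) (fun i hi h1 _ => by
          rcases Finset.mem_insert.1 hi with h2 | h2
          · exact absurd h2 h1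
          · exact Ideal.IsMinimalPrime.isPrime (hfin.mem_toFinset.1 h2))).1 hc
      rcases Finset.mem_insert.1 hi with h2 | h2
      · have : maximalIdeal R = ⊥ := Submodule.eq_bot_of_le_smul_of_le_jacobson_bot
          (maximalIdeal R) _ (IsNoetherian.noetherian _) (by
            rw [smul_eq_mul, ← pow_two, ← h2]; exact hle) hjac
        rw [this, Submodule.spanFinrank_bot] at h0
        omega
      · have h3 := hfin.mem_toFinset.1 h2
        have h4 : maximalIdeal R = i := (maximalIdeal.isMaximal R).eq_of_le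
          (Ideal.IsMinimalPrime.isPrime h3).ne_top hle
        have h5 : (maximalIdeal R).height = 0 := Ideal.height_eq_zero_iff.2 (h4 ▸ h3)
        rw [← maximalIdeal_height_eq_ringKrullDim, h5] at hd
        exact absurd hd (by norm_cast)
    simp only [Set.mem_iUnion, not_exists, id] at hx'
    have hx2 : x ∉ maximalIdeal R ^ 2 := hx' _ (by simp)
    have hxp : ∀ p ∈ (⊥ : Ideal R).minimalPrimes, x ∉ p := fun p hp => hx' p (by simp [hp])
    have hloc := local_quot ((Ideal.span_singleton_le_iff_mem _).2 hx)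
    have h1 := spanFinrank_quot hx hx2
    have h2 : ringKrullDim R ≤ ringKrullDim (R ⧸ Ideal.span {x}) + 1 := by
      have := ringKrullDim_le_ringKrullDim_add_card (S := {x}) (by simpa using hx)
      rwa [Finset.coe_singleton, Finset.card_singleton, Nat.cast_one] at this
    have h3 := ringKrullDim_le_spanFinrank_maximalIdeal (R ⧸ Ideal.span {x})
    have h4 : ((maximalIdeal (R ⧸ Ideal.span {x})).spanFinrank : WithBot ℕ∞) ≤ d := by
      exact_mod_cast (by omega : (maximalIdeal (R ⧸ Ideal.span {x})).spanFinrank ≤ d)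
    have h5 : (d : WithBot ℕ∞) ≤ ringKrullDim (R ⧸ Ideal.span {x}) := by
      rw [hd, Nat.cast_add, Nat.cast_one] at h2
      exact (ENat.WithBot.add_le_add_one_right_iff).1 h2
    have hreg : IsRegularLocalRing (R ⧸ Ideal.span {x}) :=
      IsRegularLocalRing.of_spanFinrank_maximalIdeal_le _ (h4.trans h5)
    obtain ⟨ys, hl, hr, hm⟩ := ih (R ⧸ Ideal.span {x}) (le_antisymm (h3.trans h4) h5)
    have hdom := isDomain_of_regular d _ ys hl hr hm
    have hpr : (Ideal.span {x}).IsPrime := (Ideal.Quotient.isDomain_iff_prime _).1 hdom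
    obtain ⟨p, hp, hple⟩ := Ideal.exists_minimalPrimes_le (I := ⊥) (J := Ideal.span {x}) bot_le
    have hpp := Ideal.IsMinimalPrime.isPrime hp
    have hp0 : p = ⊥ := by
      refine Submodule.eq_bot_of_le_smul_of_le_jacobson_bot (maximalIdeal R) _
        (IsNoetherian.noetherian _) (fun y hy => ?_) hjac
      obtain ⟨z, rfl⟩ := Ideal.mem_span_singleton.1 (hple hy)
      exact Ideal.mul_mem_mul hx ((hpp.mem_or_mem hy).resolve_left (hxp p hp))
    have : (⊥ : Ideal R).IsPrime := hp0 ▸ hpp
    have : IsDomain R := IsDomain.of_bot_isPrime R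
    have hx0 : x ≠ 0 := fun h0 => hxp p hp (h0 ▸ zero_mem _)
    obtain ⟨xs, rfl⟩ := (Ideal.Quotient.mk_surjective (I := Ideal.span {x})).list_map ys
    refine ⟨x :: xs, by simpa using hl, (cons_iff_quot x xs).2 ⟨?_, hr⟩, ?_⟩
    · intro a b hab
      exact mul_left_cancel₀ hx0 hab
    · have h6 := congrArg (Ideal.comap (Ideal.Quotient.mk (Ideal.span {x}))) hm
      rw [← Ideal.map_ofList, ← max_quot, Ideal.comap_map_quotientMk,
        Ideal.comap_map_quotientMk] at h6
      rw [Ideal.ofList_cons, h6]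
      exact sup_eq_right.2 ((Ideal.span_singleton_le_iff_mem _).2 hx)

end Crest.Agent.R188.DimC
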