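import Crest.Agent.R183.Cohen
import Crest.Agent.R183.Red

/-! # R188 / PSB : power series toolbox (copied from `R183/PS.lean`, `R183/PSAuxd.lean` to keep the
import closure small). -/

set_option autoImplicit false
open IsLocalRing MvPowerSeries Crest.Agent.R183

namespace Crest.Agent.R188

theorem psd_prec_surj {A M N : Type} [CommRing A] [AddCommGroup M] [Module A M] [AddCommGroup N]
    [Module A N] (I : Ideal A) [IsPrecomplete I M] (f : M →ₗ[A] N) (hf : Function.Surjective f) :
    IsPrecomplete I N := by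
  refine AdicCompletion.of_surjective_iff.1 fun y => ?_
  obtain ⟨x, rfl⟩ := AdicCompletion.map_surjective I hf y
  obtain ⟨m, rfl⟩ := AdicCompletion.of_surjective I M x
  exact ⟨f m, (AdicCompletion.map_of I f m).symm⟩

theorem psd_prec_of_pow_le {R : Type} [CommRing R] {J 𝔪 : Ideal R} (h1 : J ≤ 𝔪) {N : ℕ}
    (h2 : 𝔪 ^ N ≤ J) [h : IsPrecomplete J R] : IsPrecomplete 𝔪 R := by
  refine ⟨fun f hf => ?_⟩
  simp only [SModEq.sub_mem, smul_eq_mul, Ideal.mul_top] at hf ⊢
  obtain ⟨L, hL⟩ := h.prec (f := fun k => f ((N + 1) * k)) fun {m n} hmn => by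
    simp only [SModEq.sub_mem, smul_eq_mul, Ideal.mul_top]
    have h3 := hf (Nat.mul_le_mul_left (N + 1) hmn)
    rw [pow_mul] at h3
    exact Ideal.pow_right_mono ((Ideal.pow_le_pow_right N.le_succ).trans h2) m h3
  simp only [SModEq.sub_mem, smul_eq_mul, Ideal.mul_top] at hL
  refine ⟨L, fun n => ?_⟩
  rw [← sub_add_sub_cancel _ (f ((N + 1) * n))]
  exact add_mem (hf (Nat.le_mul_of_pos_left n N.succ_pos)) (Ideal.pow_right_mono h1 n (hL n))

theorem psd_max_pow_le {A R : Type} [CommRing A] [CommRing R] [IsLocalRing A] [IsLocalRing R]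
    [Algebra A R] [Module.Finite A R] :
    (maximalIdeal A).map (algebraMap A R) ≤ maximalIdeal R ∧
      ∃ N, maximalIdeal R ^ N ≤ (maximalIdeal A).map (algebraMap A R) := by
  refine ⟨Ideal.map_le_iff_le_comap.2 (eq_maximalIdeal
    (Ideal.isMaximal_comap_of_isIntegral_of_isMaximal (R := A) (maximalIdeal R))).ge, ?_⟩
  let := Ideal.Quotient.field (maximalIdeal A)
  have h1 : Module.Finite (A ⧸ maximalIdeal A) (R ⧸ (maximalIdeal A).map (algebraMap A R)) :=
    Module.Finite.of_restrictScalars_finite A _ _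
  have h2 : IsArtinianRing (R ⧸ (maximalIdeal A).map (algebraMap A R)) :=
    IsArtinianRing.of_finite (A ⧸ maximalIdeal A) _
  exact exists_maximalIdeal_pow_le_of_isArtinianRing_quotient _

theorem psd_cln_of_finite {A R : Type} [CommRing A] [CommRing R] [CLN A] [IsLocalRing R]
    [Algebra A R] [Module.Finite A R] : CLN R := by
  have h0 : IsNoetherianRing R := IsNoetherianRing.of_finite A R
  obtain ⟨h1, N, h2⟩ := psd_max_pow_le (A := A) (R := R)
  obtain ⟨r, f, hf⟩ := Module.Finite.exists_fin' A R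
  have h3 := naga_precomplete_pi (maximalIdeal A) r
  have h4 : IsPrecomplete ((maximalIdeal A).map (algebraMap A R)) R :=
    IsPrecomplete.map_algebraMap_iff.2 (psd_prec_surj _ f hf)
  have h5 := psd_prec_of_pow_le h1 h2
  exact { noeth := h0, compl := {} }

abbrev PS (n : ℕ) (W : Type) : Type := MvPowerSeries (Fin n) W

/-- the ideal `(X)` -/
noncomputable def XP (n : ℕ) (W : Type) [CommRing W] : Ideal (PS n W) := Ideal.span (Set.range X)

section Basic
variable {n : ℕ} {W : Type} [CommRing W]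

theorem psa_mul {I : Ideal W} {j k : ℕ} {f g : PS n W} (hf : ∀ μ, coeff μ f ∈ I ^ (j - μ.degree))
    (hg : ∀ μ, coeff μ g ∈ I ^ (k - μ.degree)) (μ : Fin n →₀ ℕ) :
    coeff μ (f * g) ∈ I ^ (j + k - μ.degree) := by
  rw [coeff_mul]
  refine Ideal.sum_mem _ fun p hp => ?_
  have h1 := Ideal.mul_mem_mul (hf p.1) (hg p.2)
  rw [← pow_add] at h1
  refine Ideal.pow_le_pow_right ?_ h1
  rw [← Finset.HasAntidiagonal.mem_antidiagonal.1 hp, map_add]
  omega

/-- the filtration by coefficients -/
def psa_F (n : ℕ) (I : Ideal W) (k : ℕ) : Ideal (PS n W) where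
  carrier := {f | ∀ μ, coeff μ f ∈ I ^ (k - μ.degree)}
  add_mem' hf hg μ := by
    rw [map_add]
    exact add_mem (hf μ) (hg μ)
  zero_mem' μ := by
    rw [map_zero]
    exact zero_mem _
  smul_mem' g f hf μ := by
    have := psa_mul (j := 0) (f := g) (fun μ => by simp) hf μ
    rwa [zero_add] at this

theorem psa_deg_pos {μ : Fin n →₀ ℕ} (h : μ ≠ 0) : 1 ≤ μ.degree :=
  Nat.pos_of_ne_zero fun h' => h ((Finsupp.degree_eq_zero_iff μ).1 h')

theorem psa_pow_le (I : Ideal W) (k : ℕ) :
    (I.map (C : W →+* PS n W) ⊔ XP n W) ^ k ≤ psa_F n I k := by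
  have key : ∀ f : PS n W, coeff 0 f ∈ I → f ∈ psa_F n I 1 := fun f hf μ => by
    rcases eq_or_ne μ 0 with rfl | h
    · simpa using hf
    · rw [Nat.sub_eq_zero_of_le (psa_deg_pos h)]
      simp
  have h1 : I.map (C : W →+* PS n W) ⊔ XP n W ≤ psa_F n I 1 := by
    refine sup_le (Ideal.map_le_iff_le_comap.2 fun a ha => key _ (by simpa using ha))
      (Ideal.span_le.2 ?_)
    rintro _ ⟨i, rfl⟩
    exact key _ (by simp)
  induction k with
  | zero => exact fun f _ μ => by simp
  | succ k ih =>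
    rw [pow_succ]
    exact Ideal.mul_le.2 fun f hf g hg => psa_mul (ih hf) (h1 hg)

theorem psa_decomp (f : PS n W) (h0 : coeff 0 f = 0) : ∃ g : Fin n → PS n W,
    f = ∑ i, X i * g i ∧ ∀ i ν, coeff ν (g i) = 0 ∨ coeff ν (g i) = coeff (ν + .single i 1) f := by
  classical
  have hp : ∀ μ : Fin n →₀ ℕ, ∃ p : Fin n → Prop, μ ≠ 0 → ∃ i, μ i ≠ 0 ∧ ∀ j, p j ↔ j = i := by
    intro μ
    by_cases h : μ = 0
    · exact ⟨fun _ => True, fun h' => absurd h h'⟩
    · obtain ⟨i, hi⟩ := Finsupp.ne_iff.1 h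
      exact ⟨fun j => j = i, fun _ => ⟨i, hi, fun _ => Iff.rfl⟩⟩
  choose p hp using hp
  let g : Fin n → PS n W := fun i ν =>
    if p (ν + .single i 1) i then coeff (ν + .single i 1) f else 0
  have hg : ∀ i ν, coeff ν (g i) =
      if p (ν + .single i 1) i then coeff (ν + .single i 1) f else 0 := fun _ _ => rfl
  refine ⟨g, MvPowerSeries.ext fun μ => ?_, fun i ν => ?_⟩
  · have hc : ∀ i, coeff μ (X i * g i) = if μ i ≠ 0 ∧ p μ i then coeff μ f else 0 := fun i => by
      rw [X_def, coeff_monomial_mul, one_mul, hg]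
      by_cases h : Finsupp.single i 1 ≤ μ
      · have h1 : μ i ≠ 0 := Nat.one_le_iff_ne_zero.1 (Finsupp.single_le_iff.1 h)
        rw [if_pos h, tsub_add_cancel_of_le h]
        simp only [h1, ne_eq, not_false_eq_true, true_and]
      · rw [if_neg h, if_neg]
        exact fun h1 => h (Finsupp.single_le_iff.2 (Nat.one_le_iff_ne_zero.2 h1.1))
    rw [map_sum]
    simp only [hc]
    rcases eq_or_ne μ 0 with rfl | h
    · simpa using h0
    · obtain ⟨i, h1, h2⟩ := hp μ h
      rw [Finset.sum_eq_single i, if_pos ⟨h1, (h2 i).2 rfl⟩]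
      · exact fun j _ hj => if_neg fun h3 => hj ((h2 j).1 h3.2)
      · exact fun h3 => absurd (Finset.mem_univ i) h3
  · rw [hg]
    split_ifs
    · exact Or.inr rfl
    · exact Or.inl rfl

/-- `←`: induct on `N`; a series all of whose coefficients of degree `≤ N` vanish is `∑ X i * f i`
where a monomial `μ ≠ 0` is assigned to the least `i` with `μ i ≠ 0`.  `→`: `le_order_mul`. -/
theorem mem_XP_pow_iff {N : ℕ} {f : PS n W} :
    f ∈ XP n W ^ N ↔ ∀ μ : Fin n →₀ ℕ, μ.degree < N → coeff μ f = 0 := by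
  constructor
  · intro hf μ hμ
    have h1 := psa_pow_le ⊥ N (Ideal.pow_right_mono le_sup_right N hf) μ
    rwa [Ideal.bot_pow (by omega), Ideal.mem_bot] at h1
  · induction N generalizing f with
    | zero => exact fun _ => by simp
    | succ N ih =>
      intro hf
      obtain ⟨g, h1, h2⟩ := psa_decomp f (hf 0 (by simp))
      rw [h1, pow_succ']
      refine Ideal.sum_mem _ fun i _ =>
        Ideal.mul_mem_mul (Ideal.subset_span ⟨i, rfl⟩) (ih fun ν hν => ?_)
      rcases h2 i ν with h3 | h3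
      · exact h3
      · rw [h3]
        refine hf _ ?_
        rw [map_add, Finsupp.degree_single]
        omega

theorem sub_trunc_mem (N : ℕ) (f : PS n W) :
    f - (truncTotal N f : MvPolynomial (Fin n) W) ∈ XP n W ^ N :=
  mem_XP_pow_iff.2 fun μ hμ => by
    rw [map_sub, MvPolynomial.coeff_coe, coeff_truncTotal _ hμ, sub_self]

theorem mem_XP_iff {f : PS n W} : f ∈ XP n W ↔ constantCoeff f = 0 := by
  rw [← pow_one (XP n W), mem_XP_pow_iff, ← coeff_zero_eq_constantCoeff_apply]
  refine ⟨fun h => h 0 (by simp), fun h μ hμ => ?_⟩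
  rwa [(Finsupp.degree_eq_zero_iff μ).1 (by omega)]

theorem mem_map_C_iff {I : Ideal W} (hI : I.FG) {f : PS n W} :
    f ∈ I.map (C : W →+* PS n W) ↔ ∀ μ, coeff μ f ∈ I := by
  classical
  constructor
  · intro hf
    induction hf using Submodule.span_induction with
    | mem x hx =>
      obtain ⟨a, ha, rfl⟩ := hx
      intro μ
      rw [coeff_C]
      split_ifs
      · exact ha
      · exact zero_mem _
    | zero => exact fun μ => by simp
    | add x y _ _ hx hy => exact fun μ => by rw [map_add]; exact add_mem (hx μ) (hy μ)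
    | smul a x _ hx =>
      intro μ
      rw [smul_eq_mul, coeff_mul]
      exact Ideal.sum_mem _ fun p _ => Ideal.mul_mem_left _ _ (hx _)
  · intro hf
    obtain ⟨r, v, hv⟩ := Submodule.fg_iff_exists_fin_generating_family.1 hI
    have h1 : ∀ μ, ∃ c : Fin r → W, ∑ j, c j * v j = coeff μ f := fun μ =>
      Ideal.mem_span_range_iff_exists_fun.1 (by rw [← hv] at hf; exact hf μ)
    choose c hc using h1
    let g : Fin r → PS n W := fun j μ => c μ j
    have h2 : f = ∑ j, g j * C (v j) := MvPowerSeries.ext fun μ => by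
      rw [map_sum, ← hc μ]
      exact Finset.sum_congr rfl fun j _ => by rw [coeff_mul_C]; rfl
    rw [h2]
    refine Ideal.sum_mem _ fun j _ => Ideal.mul_mem_left _ _ (Ideal.mem_map_of_mem _ ?_)
    rw [← hv]
    exact Submodule.subset_span ⟨j, rfl⟩

theorem ker_map_eq {W' : Type} [CommRing W'] (π : W →+* W') (h : (RingHom.ker π).FG) :
    RingHom.ker (MvPowerSeries.map (σ := Fin n) π) = (RingHom.ker π).map (C : W →+* PS n W) := by
  ext f
  rw [mem_map_C_iff h, RingHom.mem_ker, MvPowerSeries.ext_iff]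
  simp only [coeff_map, map_zero, RingHom.mem_ker]

theorem map_surjective {W' : Type} [CommRing W'] (π : W →+* W') (h : Function.Surjective π) :
    Function.Surjective (MvPowerSeries.map (σ := Fin n) π) := fun g =>
  ⟨fun μ => Function.surjInv h (coeff μ g), MvPowerSeries.ext fun μ => by
    rw [coeff_map]
    exact Function.surjInv_eq h _⟩

/-- `→`: the right side defines a multiplicative filtration; `←`: `f = trunc + (X)^k`, and each
monomial `C a * X^μ` lies in `(I.map C)^(k-|μ|) * XP^|μ|`. -/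
theorem mem_sup_XP_pow_iff (I : Ideal W) {k : ℕ} {f : PS n W} :
    f ∈ (I.map (C : W →+* PS n W) ⊔ XP n W) ^ k ↔ ∀ μ, coeff μ f ∈ I ^ (k - μ.degree) := by
  classical
  refine ⟨fun hf => psa_pow_le I k hf, fun hf => ?_⟩
  rw [← sub_add_cancel f (truncTotal k f : MvPolynomial (Fin n) W)]
  refine add_mem (Ideal.pow_right_mono le_sup_right k (sub_trunc_mem k f)) ?_
  rw [(truncTotal k f).as_sum, ← MvPolynomial.coeToMvPowerSeries.ringHom_apply, map_sum]
  refine Ideal.sum_mem _ fun μ _ => ?_
  have h1 : MvPolynomial.coeff μ (truncTotal k f) ∈ I ^ (k - μ.degree) := by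
    rw [coeff_truncTotal_eq_ite]
    split_ifs
    · exact hf μ
    · exact zero_mem _
  have h2 := Ideal.mem_map_of_mem (C : W →+* PS n W) h1
  rw [Ideal.map_pow] at h2
  have h3 : (monomial μ 1 : PS n W) ∈ XP n W ^ μ.degree := mem_XP_pow_iff.2 fun ν hν => by
    rw [coeff_monomial, if_neg]
    rintro rfl
    exact lt_irrefl _ hν
  have h4 := Ideal.mul_mem_mul
    (Ideal.pow_right_mono (le_sup_left (b := XP n W)) _ h2)
    (Ideal.pow_right_mono (le_sup_right (a := I.map (C : W →+* PS n W))) _ h3)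
  rw [← pow_add, ← monomial_zero_eq_C_apply, monomial_mul_monomial, zero_add, mul_one] at h4
  rw [MvPolynomial.coeToMvPowerSeries.ringHom_apply, MvPolynomial.coe_monomial]
  exact Ideal.pow_le_pow_right (by omega) h4

/-- `MvPowerSeries.isUnit_iff_constantCoeff`. -/
theorem PS.max_eq [IsLocalRing W] :
    maximalIdeal (PS n W) = (maximalIdeal W).map (C : W →+* PS n W) ⊔ XP n W := by
  ext f
  rw [← pow_one (_ ⊔ XP n W), mem_sup_XP_pow_iff, mem_maximalIdeal, mem_nonunits_iff,
    isUnit_iff_constantCoeff, ← mem_nonunits_iff, ← mem_maximalIdeal,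
    ← coeff_zero_eq_constantCoeff_apply]
  refine ⟨fun h μ => ?_, fun h => by simpa using h 0⟩
  rcases eq_or_ne μ 0 with rfl | hμ
  · simpa using h
  · rw [Nat.sub_eq_zero_of_le (psa_deg_pos hμ)]
    simp

/-- coefficientwise limits, `mem_sup_XP_pow_iff`. -/
theorem PS.isAdicComplete (I : Ideal W) [IsAdicComplete I W] :
    IsAdicComplete (I.map (C : W →+* PS n W) ⊔ XP n W) (PS n W) := by
  refine { haus' := fun x hx => ?_, prec' := fun f hf => ?_ }
  · simp only [SModEq.zero, smul_eq_mul, Ideal.mul_top, mem_sup_XP_pow_iff] at hx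
    ext μ
    refine IsHausdorff.haus' (I := I) _ fun k => ?_
    simpa [SModEq.zero] using hx (k + μ.degree) μ
  · simp only [SModEq.sub_mem, smul_eq_mul, Ideal.mul_top, mem_sup_XP_pow_iff, map_sub] at hf ⊢
    have h := fun μ : Fin n →₀ ℕ => IsPrecomplete.prec' (I := I)
      (fun k => coeff μ (f (k + μ.degree))) fun {a b} hab => by
        simpa [SModEq.sub_mem] using hf (Nat.add_le_add_right hab μ.degree) μ
    simp only [SModEq.sub_mem, smul_eq_mul, Ideal.mul_top] at h
    choose L hL using h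
    refine ⟨L, fun k μ => ?_⟩
    have := add_mem (hf (show k ≤ k - μ.degree + μ.degree by omega) μ) (hL μ (k - μ.degree))
    rwa [sub_add_sub_cancel] at this

instance PS.cln [CLN W] : CLN (PS n W) where
  noeth := inferInstance
  compl := by
    rw [PS.max_eq]
    exact PS.isAdicComplete _

theorem PSb_mem_span (s : Finset (Fin n)) (f : PS n W) :
    f ∈ Ideal.span ((X : Fin n → PS n W) '' s) ↔
      ∀ μ : Fin n →₀ ℕ, (∀ i ∈ s, μ i = 0) → coeff μ f = 0 := by
  induction s using Finset.induction_on generalizing f with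
  | empty => simp [MvPowerSeries.ext_iff]
  | insert a s ha ih =>
    rw [Finset.coe_insert, Set.image_insert_eq, Ideal.mem_span_insert]
    constructor
    · rintro ⟨c, z, hz, rfl⟩ μ hμ
      rw [map_add, X_dvd_iff.1 (dvd_mul_left _ c) μ (hμ a (by simp)),
        (ih z).1 hz μ fun i hi => hμ i (by simp [hi]), add_zero]
    · intro h
      let g : PS n W := fun μ => if μ a = 0 then coeff μ f else 0
      have hg : ∀ μ, coeff μ g = if μ a = 0 then coeff μ f else 0 := fun _ => rfl
      obtain ⟨c, hc⟩ : X a ∣ f - g := X_dvd_iff.2 fun μ hμ => by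
        rw [map_sub, hg, if_pos hμ, sub_self]
      refine ⟨c, g, (ih g).2 fun μ hμ => ?_, by rw [mul_comm, ← hc, sub_add_cancel]⟩
      rw [hg]
      split_ifs with h0
      · exact h μ (Finset.forall_mem_insert _ _ _ |>.2 ⟨h0, hμ⟩)
      · rfl

theorem PSb_coeff (i : Fin n) (f : PS n W) (μ : Fin n →₀ ℕ) :
    coeff (Finsupp.single i 1 + μ) (X i * f) = coeff μ f := by
  rw [X_def, coeff_add_monomial_mul, one_mul]

theorem PS.X_mul_eq_zero {i : Fin n} {f : PS n W} (h : X i * f = 0) : f = 0 := by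
  ext μ
  rw [← PSb_coeff i, h, map_zero, map_zero]

/-- EVALUATION.  `IsAdicComplete.liftRingHom` with `truncTotalAlgHom` and
`Ideal.Quotient.lift`/`quotientMap` of `MvPolynomial.eval₂Hom ρ x`. -/
theorem exists_eval {R : Type} [CommRing R] (ρ : W →+* R) (I : Ideal R) [IsAdicComplete I R]
    (x : Fin n → R) (hx : ∀ i, x i ∈ I) :
    ∃ ev : PS n W →+* R, (∀ c, ev (C c) = ρ c) ∧ ∀ i, ev (X i) = x i := by
  have h : ∀ k, MvPolynomial.idealOfVars (Fin n) W ^ k ≤
      (I ^ k).comap (MvPolynomial.eval₂Hom ρ x) := fun k => by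
    rw [← Ideal.map_le_iff_le_comap, Ideal.map_pow]
    refine Ideal.pow_right_mono (Ideal.map_le_iff_le_comap.2 (Ideal.span_le.2 ?_)) k
    rintro _ ⟨i, rfl⟩
    simpa using hx i
  let ev := IsAdicComplete.liftRingHom I (fun k => (Ideal.quotientMap _ _ (h k)).comp
    (truncTotalAlgHom (Fin n) W k).toRingHom) fun {a b} hab => RingHom.ext fun p =>
      Ideal.Quotient.eq.2 (by
        rw [← map_sub]
        exact h a (truncTotal_sub_truncTotal_mem_pow_idealOfVars hab le_rfl p))
  have key : ∀ p : MvPolynomial (Fin n) W, ev p = MvPolynomial.eval₂Hom ρ x p := fun p =>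
    congrFun (IsHausdorff.funext' I (f := fun p : MvPolynomial (Fin n) W => ev p) fun k p => by
      rw [IsAdicComplete.mk_liftRingHom]
      exact congrArg (Ideal.quotientMap _ _ (h k)) ((truncTotalAlgHom (Fin n) W k).commutes p)) p
  exact ⟨ev, fun c => by simpa using key (MvPolynomial.C c),
    fun i => by simpa using key (MvPolynomial.X i)⟩

/-- both agree on polynomials, and map `XP^N` into `I^N`; `sub_trunc_mem`. -/
theorem PS.hom_ext {R : Type} [CommRing R] (I : Ideal R) [IsHausdorff I R] {f g : PS n W →+* R}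
    (hC : ∀ c, f (C c) = g (C c)) (hX : ∀ i, f (X i) = g (X i)) (hI : ∀ i, f (X i) ∈ I) : f = g := by
  have h1 : f.comp MvPolynomial.coeToMvPowerSeries.ringHom =
      g.comp MvPolynomial.coeToMvPowerSeries.ringHom :=
    MvPolynomial.ringHom_ext (fun c => by simpa using hC c) fun i => by simpa using hX i
  have h2 : ∀ φ : PS n W →+* R, (∀ i, φ (X i) ∈ I) → ∀ k, ∀ y ∈ XP n W ^ k, φ y ∈ I ^ k := by
    intro φ hφ k y hy
    have := Ideal.mem_map_of_mem φ hy
    rw [Ideal.map_pow] at this
    refine Ideal.pow_right_mono (Ideal.map_le_iff_le_comap.2 (Ideal.span_le.2 ?_)) k this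
    rintro _ ⟨i, rfl⟩
    exact hφ i
  refine DFunLike.coe_injective (IsHausdorff.funext' I fun k y => Ideal.Quotient.eq.2 ?_)
  have h3 := sub_mem (h2 f hI k _ (sub_trunc_mem k y))
    (h2 g (fun i => hX i ▸ hI i) k _ (sub_trunc_mem k y))
  have h4 : f (truncTotal k y : MvPolynomial (Fin n) W) = g (truncTotal k y : MvPolynomial (Fin n) W) :=
    RingHom.congr_fun h1 _
  rwa [map_sub, map_sub, h4, sub_sub_sub_cancel_right] at h3

theorem psc_map_XP {W' : Type} [CommRing W'] (σ : W →+* W') :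
    (XP n W).map (MvPowerSeries.map (σ := Fin n) σ) = XP n W' := by
  rw [XP, Ideal.map_span, ← Set.range_comp]
  congr 2
  funext i
  simp

theorem psc_coe_XP : (MvPolynomial.idealOfVars (Fin n) W).map
    (MvPolynomial.coeToMvPowerSeries.ringHom : MvPolynomial (Fin n) W →+* PS n W) = XP n W := by
  rw [MvPolynomial.idealOfVars, Ideal.map_span, ← Set.range_comp]
  congr 2
  funext i
  simp

theorem psc_XP_le_jac : XP n W ≤ Ideal.jacobson ⊥ := by
  intro f hf
  rw [Ideal.mem_jacobson_bot]
  intro y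
  rw [MvPowerSeries.isUnit_iff_constantCoeff]
  simp [mem_XP_iff.1 hf]

theorem psc_flat_poly {W' : Type} [CommRing W'] (σ : W →+* W') (hσ : σ.Flat) :
    (MvPolynomial.map (σ := Fin n) σ).Flat := by
  let _ := σ.toAlgebra
  let _ := MvPolynomial.algebraMvPolynomial (σ := Fin n) (R := W) (S := W')
  exact RingHom.Flat.isStableUnderBaseChange W W' (MvPolynomial (Fin n) W)
    (MvPolynomial (Fin n) W') hσ

/-- `flat_of_dense` with `A₀ = MvPolynomial (Fin n) W`, `B₀ = MvPolynomial (Fin n) W'`,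
`I₀ = idealOfVars` (flat by `Algebra.IsPushout`/`RingHom.Flat.isStableUnderBaseChange`);
`IsAdicComplete.le_jacobson_bot`. -/
theorem PS.flat_map {W' : Type} [CommRing W'] [IsNoetherianRing W] [IsNoetherianRing W']
    (σ : W →+* W') (hσ : σ.Flat) : (MvPowerSeries.map (σ := Fin n) σ).Flat := by
  refine flat_of_dense (MvPolynomial.map (σ := Fin n) σ) (psc_flat_poly σ hσ)
    MvPolynomial.coeToMvPowerSeries.ringHom MvPolynomial.coeToMvPowerSeries.ringHom _ ?_
    (MvPolynomial.idealOfVars (Fin n) W) ?_ ?_ ?_ ?_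
  · refine RingHom.ext fun x => ?_
    ext μ
    simp [MvPolynomial.coeff_map]
  · rw [psc_coe_XP, psc_map_XP]
    exact psc_XP_le_jac
  · intro N x
    rw [psc_coe_XP]
    exact ⟨_, sub_trunc_mem N x⟩
  · intro N y
    rw [psc_coe_XP, Ideal.map_pow, psc_map_XP]
    exact ⟨_, sub_trunc_mem N y⟩
  · intro N y hy
    rw [psc_coe_XP, Ideal.map_pow, psc_map_XP, mem_XP_pow_iff] at hy
    have e : (MvPolynomial.idealOfVars (Fin n) W).map (MvPolynomial.map (σ := Fin n) σ) =
        MvPolynomial.idealOfVars (Fin n) W' := by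
      rw [MvPolynomial.idealOfVars, Ideal.map_span, ← Set.range_comp]
      congr 2
      funext i
      simp
    rw [Ideal.map_pow, e, MvPolynomial.mem_pow_idealOfVars_iff']
    intro μ hμ
    simpa using hy μ hμ

/-- the slice of `b` along the residue class `μ` modulo `q` -/
noncomputable def psc_sl (q : ℕ) (μ : Fin n →₀ ℕ) (b : PS n W) : PS n W := fun ν => coeff (μ + q • ν) b

theorem psc_coeff_sl (q : ℕ) (μ ν : Fin n →₀ ℕ) (b : PS n W) :
    coeff ν (psc_sl q μ b) = coeff (μ + q • ν) b := rfl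

theorem psc_coeff_expand_mul {q : ℕ} (hq : q ≠ 0) {μ : Fin n →₀ ℕ} (hμ : ∀ i, μ i < q)
    (ν : Fin n →₀ ℕ) (a b : PS n W) :
    coeff ν (a * psc_sl q μ b) = coeff (μ + q • ν) (expand q hq a * b) := by
  classical
  rw [coeff_mul, coeff_mul]
  refine Finset.sum_of_injOn (fun x => (q • x.1, μ + q • x.2)) ?_ ?_ ?_ ?_
  · rintro ⟨x, y⟩ - ⟨x', y'⟩ - h
    simp only [Prod.mk.injEq, add_right_inj, nsmul_right_inj hq] at h
    exact Prod.ext h.1 h.2
  · rintro ⟨x, y⟩ h
    simp only [Finset.mem_coe, Finset.HasAntidiagonal.mem_antidiagonal] at h ⊢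
    rw [← h, smul_add]
    abel
  · rintro ⟨x, y⟩ h h'
    by_cases hd : ∀ i, q ∣ x i
    · exfalso
      apply h'
      rw [Finset.HasAntidiagonal.mem_antidiagonal] at h
      obtain ⟨x', rfl⟩ : ∃ x', q • x' = x := ⟨x.mapRange (fun a => a / q) (by simp), by
        ext i
        simp [Nat.mul_div_cancel' (hd i)]⟩
      have hle : x' ≤ ν := fun i => by
        have h1 := DFunLike.congr_fun h i
        simp only [Finsupp.coe_add, Finsupp.coe_smul, Pi.add_apply, Pi.smul_apply,
          smul_eq_mul] at h1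
        have h2 := hμ i
        by_contra h3
        have h4 : q * (ν i + 1) ≤ q * x' i := Nat.mul_le_mul_left _ (not_le.1 h3)
        rw [mul_add] at h4
        omega
      obtain ⟨y', rfl⟩ := exists_add_of_le hle
      refine ⟨(x', y'), by simp, Prod.ext rfl ?_⟩
      simp only [smul_add] at h ⊢
      rw [add_left_comm] at h
      exact (add_left_cancel h).symm
    · obtain ⟨i, hi⟩ := not_forall.1 hd
      rw [coeff_expand_of_not_dvd q hq a hi, zero_mul]
  · rintro ⟨x, y⟩ -
    simp only [coeff_expand_smul, psc_coeff_sl]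

/-- a residue class as an exponent -/
noncomputable def psc_ex {q : ℕ} (m : Fin n → Fin q) : Fin n →₀ ℕ :=
  Finsupp.equivFunOnFinite.symm fun i => (m i : ℕ)

theorem psc_eq_sum {q : ℕ} (hq : q ≠ 0) (b : PS n W) :
    b = ∑ m : Fin n → Fin q, monomial (psc_ex m) 1 * expand q hq (psc_sl q (psc_ex m) b) := by
  classical
  ext d
  rw [map_sum, Finset.sum_eq_single fun i => ⟨d i % q, Nat.mod_lt _ (Nat.pos_of_ne_zero hq)⟩]
  · have e : d = psc_ex (fun i => (⟨d i % q, Nat.mod_lt _ (Nat.pos_of_ne_zero hq)⟩ : Fin q)) +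
        q • d.mapRange (fun a => a / q) (by simp) := by
      ext i
      simp [psc_ex, Nat.mod_add_div]
    conv_rhs => enter [1]; rw [e]
    rw [coeff_add_monomial_mul, one_mul, coeff_expand_smul, psc_coeff_sl, ← e]
  · intro m _ hm
    rw [coeff_monomial_mul]
    split_ifs with hle
    · obtain ⟨i, hi⟩ := Function.ne_iff.1 hm
      rw [coeff_expand_of_not_dvd q hq _ (i := i), mul_zero]
      intro hd
      apply hi
      have h1 : (m i : ℕ) ≤ d i := hle i
      have h2 : q ∣ d i - m i := hd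
      refine Fin.ext ?_
      have h3 := (Nat.modEq_iff_dvd' h1).2 h2
      rw [Nat.ModEq, Nat.mod_eq_of_lt (m i).2] at h3
      exact h3
    · rfl
  · intro h
    exact absurd (Finset.mem_univ _) h

/-- `b = ∑_{μ < q} X^μ expand (b_μ)` with `coeff ν b_μ = coeff (μ + q • ν) b`, and
`coeff (μ + q • ν) (expand a * b) = coeff ν (a * b_μ)`; `flat_of_rel`. -/
theorem PS.flat_expand (q : ℕ) (hq : q ≠ 0) :
    (MvPowerSeries.expand (σ := Fin n) (R := W) q hq).toRingHom.Flat := by
  refine flat_of_rel _ fun r a b hab => ?_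
  have e : b = ∑ m : Fin n → Fin q, (monomial (psc_ex m) 1 : PS n W) •
      ((MvPowerSeries.expand (σ := Fin n) (R := W) q hq).toRingHom ∘
        fun i => psc_sl q (psc_ex m) (b i)) := by
    funext i
    rw [Finset.sum_apply]
    exact psc_eq_sum hq (b i)
  rw [e]
  refine Submodule.sum_mem _ fun m _ => Submodule.smul_mem _ _
    (Submodule.subset_span ⟨_, ?_, rfl⟩)
  rw [Ideal.mem_bot]
  ext ν
  have h1 := congrArg (coeff (psc_ex m + q • ν)) hab
  rw [map_sum] at h1 ⊢
  rw [map_zero] at h1 ⊢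
  rw [← h1]
  exact Finset.sum_congr rfl fun i _ => psc_coeff_expand_mul hq (fun j => (m j).2) ν _ _

/-- `map_iterateFrobenius_expand`; `map` of a bijection is bijective; `RingHom.Flat.comp`,
`RingHom.Flat.of_bijective`. -/
theorem PS.flat_frob (p : ℕ) [Fact p.Prime] {l : Type} [Field l] [CharP l p] [PerfectRing l p]
    (s : ℕ) (F : PS n l →+* PS n l) (hF : ∀ x, F x = x ^ p ^ s) : F.Flat := by
  have hp : p ≠ 0 := (Fact.out : p.Prime).ne_zero
  have e : F = (MvPowerSeries.map (σ := Fin n) (iterateFrobenius l p s)).comp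
      (MvPowerSeries.expand (σ := Fin n) (R := l) (p ^ s) (pow_ne_zero s hp)).toRingHom :=
    RingHom.ext fun x => (hF x).trans (map_iterateFrobenius_expand p hp x s).symm
  have hb := bijective_iterateFrobenius l p s
  rw [e]
  refine (PS.flat_expand _ _).comp (RingHom.Flat.of_bijective ⟨fun f g h => ?_,
    map_surjective _ hb.2⟩)
  ext μ
  apply hb.1
  rw [← coeff_map, ← coeff_map, h]

end Basic

section Complete

theorem cln_of_surj {R S : Type} [CommRing R] [CommRing S] [CLN R] [Nontrivial S] (f : R →+* S)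
    (hf : Function.Surjective f) : CLN S := by
  have := IsLocalRing.of_surjective' f hf
  let := f.toAlgebra
  have : Module.Finite R S := RingHom.Finite.of_surjective f hf
  exact psd_cln_of_finite (A := R)

/-- `finite_of_precomplete` with `I = 𝔪_A`: `R / 𝔪_A R` has finite `A`-length
(`length_restrict_le`, `cl_ne_top_of_pow_le`), `R` is `𝔪_A`-Hausdorff. -/
theorem finite_of_primary {A R : Type} [CommRing A] [CommRing R] [CLN A] [IsLocalRing R]
    [IsNoetherianRing R] (f : A →+* R) (hloc : (maximalIdeal A).map f ≤ maximalIdeal R)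
    (hres : ∀ r, ∃ a, r - f a ∈ maximalIdeal R) {N : ℕ}
    (hN : maximalIdeal R ^ N ≤ (maximalIdeal A).map f) : f.Finite := by
  let := f.toAlgebra
  have h1 : IsHausdorff (maximalIdeal A) R := IsHausdorff.of_map (J := maximalIdeal R) hloc
  have h2 := ne_top_of_le_ne_top (cl_ne_top_of_pow_le (maximalIdeal R) hN)
    (length_restrict_le (𝔪 := maximalIdeal A) hloc hres hN)
  have h3 := (isFiniteLength_iff_isNoetherian_isArtinian.1 (Module.length_ne_top_iff.1 h2)).1
  have h4 : Module.Finite A (R ⧸ (maximalIdeal A • ⊤ : Submodule A R)) := by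
    rw [Ideal.smul_top_eq_map]
    exact Module.Finite.equiv
      (Submodule.Quotient.restrictScalarsEquiv A ((maximalIdeal A).map f)).symm
  exact finite_of_precomplete (maximalIdeal A) R

/-- a local ring finite over a complete local Noetherian ring is complete: `R` is `𝔪_A`-precomplete
as a quotient of `Fin r → A`, and `𝔪_R^N ≤ 𝔪_A R ≤ 𝔪_R` (`R / 𝔪_A R` is Artinian). -/
theorem cln_of_finite {A R : Type} [CommRing A] [CommRing R] [CLN A] [IsLocalRing R] [Algebra A R]
    [Module.Finite A R] : CLN R :=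
  psd_cln_of_finite (A := A)

/-- for `R` finite over a local `A`: `𝔪_A R ≤ 𝔪_R` (`Ideal.isMaximal_comap_of_isIntegral_of_isMaximal`),
and `R / 𝔪_A R` is Artinian. -/
theorem max_pow_le_of_finite {A R : Type} [CommRing A] [CommRing R] [IsLocalRing A] [IsLocalRing R]
    [Algebra A R] [Module.Finite A R] :
    (maximalIdeal A).map (algebraMap A R) ≤ maximalIdeal R ∧
      ∃ N, maximalIdeal R ^ N ≤ (maximalIdeal A).map (algebraMap A R) :=
  psd_max_pow_le

end Complete

end Crest.Agent.R188
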