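import Crest.Agent.R188.Cx
import Crest.Agent.R188.PSB
import Crest.Agent.R169.CM
import Crest.Agent.R188.DimAuxC

/-! # R188 / Dim : dimension bookkeeping, prime avoidance, parameters, regular sequences. -/

set_option autoImplicit false
open IsLocalRing RingTheory.Sequence Crest.Agent.R183

namespace Crest.Agent.R188

/-- `dim R/I < n` -/
def Dl {R : Type} [CommRing R] (I : Ideal R) (n : ℕ) : Prop := ringKrullDim (R ⧸ I) < n

/-- `I + J` is primary to the maximal ideal (or the unit ideal) -/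
def Prim {R : Type} [CommRing R] [IsLocalRing R] (I J : Ideal R) : Prop :=
  ∃ L, maximalIdeal R ^ L ≤ I ⊔ J

/-- the maximal ideal is generated by a regular sequence of length `d` -/
def RegLoc (R : Type) [CommRing R] [IsLocalRing R] (d : ℕ) : Prop :=
  ∃ xs : List R, xs.length = d ∧ IsWeaklyRegular R xs ∧ Ideal.ofList xs = maximalIdeal R

section General
variable {R S : Type} [CommRing R] [CommRing S]

/-- chains of primes containing `I` -/
theorem dma_iff {I : Ideal R} {n : ℕ} :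
    Dl I n ↔ ∀ l : LTSeries (PrimeSpectrum R), I ≤ l.head.asIdeal → l.length < n := by
  rw [Dl, ringKrullDim_quotient, Order.krullDim_lt_coe_iff]
  constructor
  · intro h l hl
    exact h (LTSeries.mk l.length (fun i => ⟨l i, hl.trans (l.head_le i)⟩) l.strictMono)
  · intro h l
    exact h (l.map Subtype.val (Subtype.strictMono_coe _)) l.head.2

theorem Dl.mono {I J : Ideal R} {n n' : ℕ} (h : Dl I n) (hI : I ≤ J) (hn : n ≤ n') : Dl J n' := by
  rw [dma_iff] at h ⊢
  exact fun l hl => (h l (hI.trans hl)).trans_le hn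

theorem dl_zero_iff {I : Ideal R} : Dl I 0 ↔ I = ⊤ := by
  rw [dma_iff]
  constructor
  · intro h
    by_contra hI
    obtain ⟨m, hm, hle⟩ := Ideal.exists_le_maximal I hI
    exact Nat.not_lt_zero _ (h (RelSeries.singleton _ ⟨m, hm.isPrime⟩) hle)
  · rintro rfl l hl
    exact (l.head.2.ne_top (top_le_iff.1 hl)).elim

theorem dl_iff_of_eq {I : Ideal R} {a n : ℕ} (h : ringKrullDim (R ⧸ I) = a) : Dl I n ↔ a < n := by
  rw [Dl, h, Nat.cast_lt]

/-- `ringKrullDim_quotient`: a chain in `V(I)` lies in `V(its head)`. -/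
theorem dl_iff_primes {I : Ideal R} {n : ℕ} :
    Dl I n ↔ ∀ q : Ideal R, q.IsPrime → I ≤ q → Dl q n := by
  refine ⟨fun h q _ hq => h.mono hq le_rfl, fun h => dma_iff.2 fun l hl => ?_⟩
  exact dma_iff.1 (h _ l.head.2 hl) l le_rfl

theorem Dl.of_pow_le {I J : Ideal R} {n κ : ℕ} (h : Dl J n) (hI : J ^ κ ≤ I) : Dl I n := by
  refine dl_iff_primes.2 fun q hq hle => h.mono ?_ le_rfl
  exact Ideal.IsPrime.le_of_pow_le (hI.trans hle)

theorem Dl.of_prime_lt {P J : Ideal R} {n : ℕ} (hP : P.IsPrime) (h : Dl P (n + 1)) (hJ : P < J) :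
    Dl J n := by
  rw [dma_iff] at h ⊢
  intro l hl
  have hlt : (⟨P, hP⟩ : PrimeSpectrum R) < l.head := hJ.trans_le hl
  have h1 := h (l.cons ⟨P, hP⟩ hlt) (by rw [RelSeries.head_cons])
  simpa using h1

/-- `ringKrullDim_quotient_succ_le_of_nonZeroDivisor` in `R ⧸ I` -/
theorem Dl.sup_regular {I : Ideal R} {n : ℕ} {y : R} (h : Dl I (n + 1))
    (hy : ∀ z, y * z ∈ I → z ∈ I) : Dl (I ⊔ Ideal.span {y}) n := by
  refine dl_iff_primes.2 fun q hq hle => ?_
  obtain ⟨p, hp, hpq⟩ := Ideal.exists_minimalPrimes_le (le_sup_left.trans hle)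
  refine Dl.of_prime_lt hp.isPrime (h.mono hp.le le_rfl) (lt_of_le_of_ne hpq ?_)
  rintro rfl
  obtain ⟨z, hz, hyz⟩ := Ideal.exists_mul_mem_of_mem_minimalPrimes hp
    (hle (Ideal.mem_sup_right (Ideal.mem_span_singleton_self y)))
  exact hz (hy z hyz)

/-- `PrimeSpectrum.comap` is strictly monotone (`Ideal.comap_lt_comap_of_integral_mem_sdiff`). -/
theorem Dl.map_integral (σ : R →+* S) (hσ : σ.IsIntegral) {I : Ideal R} {n : ℕ} (h : Dl I n) :
    Dl (I.map σ) n := by
  rw [dma_iff] at h ⊢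
  intro l hl
  have hs : StrictMono (PrimeSpectrum.comap σ) := by
    intro p q hpq
    let _ := σ.toAlgebra
    have hpq' : p.asIdeal < q.asIdeal := hpq
    obtain ⟨x, hxq, hxp⟩ := SetLike.exists_of_lt hpq'
    exact Ideal.comap_lt_comap_of_integral_mem_sdiff (R := R) hpq'.le ⟨hxq, hxp⟩ (hσ x)
  exact h (l.map _ hs) (Ideal.map_le_iff_le_comap.1 hl)

theorem dim_comap_surj (π : R →+* S) (hπ : Function.Surjective π) (J : Ideal S) :
    ringKrullDim (R ⧸ J.comap π) = ringKrullDim (S ⧸ J) := by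
  refine ringKrullDim_eq_of_ringEquiv (RingEquiv.ofBijective (Ideal.quotientMap J π le_rfl)
    ⟨Ideal.quotientMap_injective, Ideal.quotientMap_surjective hπ⟩)

theorem dim_map_surj (π : R →+* S) (hπ : Function.Surjective π) {I : Ideal R}
    (hI : RingHom.ker π ≤ I) : ringKrullDim (S ⧸ I.map π) = ringKrullDim (R ⧸ I) := by
  rw [← dim_comap_surj π hπ, Ideal.comap_map_of_surjective π hπ,
    sup_eq_left.2 (show Ideal.comap π ⊥ ≤ I from hI)]

/-- PRIME AVOIDANCE WITH DIMENSION DROP.  Avoid the minimal primes `𝔭` of `I i` with `¬ Dl 𝔭 (n i)`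
(none contains `𝔞`): `Ideal.subset_union_prime`, `Ideal.finite_minimalPrimes_of_isNoetherianRing`,
`dl_iff_primes`, `Dl.of_prime_lt`, `Ideal.exists_minimalPrimes_le`. -/
theorem exists_avoid [IsNoetherianRing R] (𝔞 : Ideal R) {ι : Type} [Finite ι] (I : ι → Ideal R)
    (n : ι → ℕ) (h1 : ∀ i, Dl (I i) (n i + 1)) (h2 : ∀ i, Dl (I i ⊔ 𝔞) (n i)) :
    ∃ y ∈ 𝔞, ∀ i, Dl (I i ⊔ Ideal.span {y}) (n i) := by
  let s : Set (Ideal R) := {p | ∃ i, p ∈ (I i).minimalPrimes ∧ ¬ Dl p (n i)}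
  have hs : s.Finite := by
    refine (Set.finite_iUnion fun i => (I i).finite_minimalPrimes_of_isNoetherianRing R).subset ?_
    rintro p ⟨i, hp, -⟩
    exact Set.mem_iUnion.2 ⟨i, hp⟩
  have hn : ¬ (𝔞 : Set R) ⊆ ⋃ p ∈ s, (id p : Ideal R) := by
    rw [Ideal.subset_union_prime_finite hs (f := id) ⊥ ⊥ fun p ⟨i, hp, _⟩ _ _ => hp.isPrime]
    rintro ⟨p, ⟨i, hp, hd⟩, hle⟩
    exact hd ((h2 i).mono (sup_le hp.le hle) le_rfl)
  obtain ⟨y, hy, hys⟩ := Set.not_subset.1 hn
  refine ⟨y, hy, fun i => dl_iff_primes.2 fun q hq hle => ?_⟩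
  obtain ⟨p, hp, hpq⟩ := Ideal.exists_minimalPrimes_le (le_sup_left.trans hle)
  by_cases hd : Dl p (n i)
  · exact hd.mono hpq le_rfl
  · refine Dl.of_prime_lt hp.isPrime ((h1 i).mono hp.le le_rfl) (lt_of_le_of_ne hpq ?_)
    rintro rfl
    exact hys (Set.mem_biUnion (⟨i, hp, hd⟩ : p ∈ s)
      (hle (Ideal.mem_sup_right (Ideal.mem_span_singleton_self y))))

/-- iterate `exists_avoid` -/
theorem exists_avoid_fam [IsNoetherianRing R] (𝔞 : Ideal R) {ι : Type} [Finite ι] (t : ℕ)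
    (I : ι → Ideal R) (n : ι → ℕ) (h1 : ∀ i, Dl (I i) (n i + t)) (h2 : ∀ i, Dl (I i ⊔ 𝔞) (n i)) :
    ∃ y : Fin t → R, (∀ j, y j ∈ 𝔞) ∧ ∀ i, Dl (I i ⊔ Ideal.span (Set.range y)) (n i) := by
  induction t generalizing I with
  | zero => exact ⟨Fin.elim0, fun j => j.elim0, fun i => (h1 i).mono le_sup_left le_rfl⟩
  | succ t ih =>
    obtain ⟨y₀, hy₀, h3⟩ := exists_avoid 𝔞 I (fun i => n i + t) h1
      fun i => (h2 i).mono le_rfl (Nat.le_add_right _ _)
    obtain ⟨y, hy, h4⟩ := ih (fun i => I i ⊔ Ideal.span {y₀}) h3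
      fun i => (h2 i).mono (sup_le_sup_right le_sup_left _) le_rfl
    refine ⟨Fin.cons y₀ y, fun j => Fin.cases hy₀ hy j, fun i => (h4 i).mono ?_ le_rfl⟩
    rw [Fin.range_cons, Ideal.span_insert, sup_assoc]

/-- saturation `(I : y^∞)` -/
theorem exists_sat [IsNoetherianRing R] (I : Ideal R) (y : R) : ∃ (k₀ : ℕ) (𝔟 : Ideal R), I ≤ 𝔟 ∧
    (∀ z ∈ 𝔟, y ^ k₀ * z ∈ I) ∧ ∀ z, y * z ∈ 𝔟 → z ∈ 𝔟 := by
  let f : ℕ →o Ideal R :=
    ⟨fun k => Submodule.comap (LinearMap.mulLeft R (y ^ k)) I, monotone_nat_of_le_succ fun k z hz => by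
      change y ^ (k + 1) * z ∈ I
      rw [pow_succ', mul_assoc]
      exact I.mul_mem_left y hz⟩
  obtain ⟨k₀, hk⟩ := monotone_stabilizes_iff_noetherian.2 (inferInstance : IsNoetherian R R) f
  refine ⟨k₀, f k₀, fun z hz => I.mul_mem_left _ hz, fun z hz => hz, fun z hz => ?_⟩
  rw [hk (k₀ + 1) (Nat.le_succ _)]
  change y ^ (k₀ + 1) * z ∈ I
  rw [pow_succ, mul_assoc]
  exact hz

/-- `P` is a minimal prime of `I` (a prime `I ≤ q < P` has `dim R/q ≥ a + 1`); every `x ∈ P` has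
`g x^n ∈ I` with `g ∉ P` (`Ideal.exists_mul_mem_of_mem_minimalPrimes`-like lemmas, or localize at `P`);
`P` is finitely generated. -/
theorem exists_conductor [IsNoetherianRing R] {I P : Ideal R} (hP : P.IsPrime) (hI : I ≤ P) {a : ℕ}
    (h1 : Dl I (a + 1)) (h2 : ¬ Dl P a) : ∃ g ∉ P, ∃ κ, ∀ y ∈ P ^ κ, g * y ∈ I := by
  classical
  have hf := I.finite_minimalPrimes_of_isNoetherianRing R
  have hn : ¬ (hf.toFinset.erase P).inf id ≤ P := by
    rw [hP.inf_le']
    rintro ⟨q, hq, hle⟩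
    rw [Finset.mem_erase, hf.mem_toFinset] at hq
    exact h2 (Dl.of_prime_lt hq.2.isPrime (h1.mono hq.2.le le_rfl) (lt_of_le_of_ne hle hq.1))
  obtain ⟨g, hg, hgP⟩ := SetLike.not_le_iff_exists.1 hn
  have hr : Ideal.span {g} * P ≤ I.radical := by
    rw [← Ideal.sInf_minimalPrimes]
    refine le_sInf fun q hq => ?_
    by_cases hqP : q = P
    · exact hqP ▸ Ideal.mul_le_right
    · refine Ideal.mul_le_left.trans ((Ideal.span_singleton_le_iff_mem _).2 ?_)
      exact (Finset.inf_le (f := id) (Finset.mem_erase.2 ⟨hqP, hf.mem_toFinset.2 hq⟩) :) hg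
  obtain ⟨κ, hκ⟩ := Ideal.exists_pow_le_of_le_radical_of_fg hr (IsNoetherian.noetherian _)
  refine ⟨g ^ κ, fun h => hgP (hP.mem_of_pow_mem κ h), κ, fun y hy => hκ ?_⟩
  rw [mul_pow]
  exact Ideal.mul_mem_mul (Ideal.pow_mem_pow (Ideal.mem_span_singleton_self g) κ) hy

end General

section Local
variable {R S : Type} [CommRing R] [CommRing S] [IsLocalRing R] [IsNoetherianRing R]

theorem dl_one_iff {I : Ideal R} : Dl I 1 ↔ ∃ L, maximalIdeal R ^ L ≤ I := by
  constructor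
  · intro h
    refine Ideal.exists_pow_le_of_le_radical_of_fg ?_ (IsNoetherian.noetherian _)
    rw [Ideal.radical_eq_sInf]
    refine le_sInf fun q hq => ?_
    by_contra hn
    have hlt : q < maximalIdeal R :=
      lt_of_le_of_ne (le_maximalIdeal hq.2.ne_top) (fun e => hn e.ge)
    have h1 : Dl q (0 + 1) := h.mono hq.1 le_rfl
    exact (maximalIdeal.isMaximal R).ne_top (dl_zero_iff.mp (Dl.of_prime_lt hq.2 h1 hlt))
  · rintro ⟨L, hL⟩
    refine Dl.of_pow_le (J := maximalIdeal R) ?_ hL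
    have h0 : ringKrullDim (R ⧸ maximalIdeal R) = (0 : ℕ) :=
      ringKrullDim_eq_zero_of_isField
        ((Ideal.Quotient.maximal_ideal_iff_isField_quotient _).mp (maximalIdeal.isMaximal R))
    exact (dl_iff_of_eq h0).mpr Nat.zero_lt_one

theorem prim_iff {I J : Ideal R} : Prim I J ↔ Dl (I ⊔ J) 1 := dl_one_iff.symm

omit [IsNoetherianRing R] in
theorem Prim.symm {I J : Ideal R} (h : Prim I J) : Prim J I := by
  obtain ⟨L, hL⟩ := h
  exact ⟨L, hL.trans (sup_comm I J).le⟩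

omit [IsNoetherianRing R] in
theorem Prim.mono {I J I' J' : Ideal R} (h : Prim I J) (hI : I ≤ I') (hJ : J ≤ J') :
    Prim I' J' := by
  obtain ⟨L, hL⟩ := h
  exact ⟨L, hL.trans (sup_le_sup hI hJ)⟩

theorem Prim.of_pow_le {I J I' J' : Ideal R} (h : Prim I J) {κ κ' : ℕ} (hI : I ^ κ ≤ I')
    (hJ : J ^ κ' ≤ J') : Prim I' J' := by
  refine prim_iff.mpr (Dl.of_pow_le (κ := κ + κ') (prim_iff.mp h) ?_)
  exact Ideal.sup_pow_add_le_pow_sup_pow.trans (sup_le_sup hI hJ)

theorem exists_dim {I : Ideal R} (hI : I ≠ ⊤) : ∃ a : ℕ, ringKrullDim (R ⧸ I) = a := by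
  have : Nontrivial (R ⧸ I) := Ideal.Quotient.nontrivial_iff.mpr hI
  have : IsLocalRing (R ⧸ I) :=
    IsLocalRing.of_surjective' (Ideal.Quotient.mk I) Ideal.Quotient.mk_surjective
  have h1 : ringKrullDim (R ⧸ I) ≠ ⊥ := ringKrullDim_ne_bot
  have h2 : ringKrullDim (R ⧸ I) ≠ ⊤ := ringKrullDim_ne_top
  generalize ringKrullDim (R ⧸ I) = d at h1 h2
  induction d using WithBot.recBotCoe with
  | bot => exact absurd rfl h1
  | coe d =>
    induction d using ENat.recTopCoe with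
    | top => exact absurd rfl h2
    | coe a => exact ⟨a, rfl⟩

theorem exists_prime_dim {I : Ideal R} (hI : I ≠ ⊤) :
    ∃ P : Ideal R, P.IsPrime ∧ I ≤ P ∧ ringKrullDim (R ⧸ P) = ringKrullDim (R ⧸ I) := by
  obtain ⟨a, ha⟩ := exists_dim hI
  have h1 : ¬ Dl I a := fun h => lt_irrefl a ((dl_iff_of_eq ha).mp h)
  have h2 : Dl I (a + 1) := (dl_iff_of_eq ha).mpr (Nat.lt_succ_self a)
  rw [dl_iff_primes] at h1
  push Not at h1
  obtain ⟨q, hq, hIq, hn⟩ := h1
  obtain ⟨b, hb⟩ := exists_dim hq.ne_top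
  have h3 := (dl_iff_of_eq hb).mp (h2.mono hIq le_rfl)
  have h4 : ¬ b < a := fun h => hn ((dl_iff_of_eq hb).mpr h)
  have hab : b = a := by omega
  exact ⟨q, hq, hIq, by rw [ha, hb, hab]⟩

/-- Krull's height theorem (`ringKrullDim_le_ringKrullDim_add_card` in `R ⧸ I`). -/
theorem Dl.of_sup_list {I : Ideal R} {n : ℕ} (zs : List R) (hz : ∀ z ∈ zs, z ∈ maximalIdeal R)
    (h : Dl (I ⊔ Ideal.ofList zs) n) : Dl I (n + zs.length) := by
  classical
  by_cases hI : I = ⊤
  · exact (dl_zero_iff.mpr hI).mono le_rfl (Nat.zero_le _)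
  have : Nontrivial (R ⧸ I) := Ideal.Quotient.nontrivial_iff.mpr hI
  have : IsLocalRing (R ⧸ I) :=
    IsLocalRing.of_surjective' (Ideal.Quotient.mk I) Ideal.Quotient.mk_surjective
  have hle : I ⊔ Ideal.ofList zs ≤ maximalIdeal R :=
    sup_le (le_maximalIdeal hI) (Ideal.span_le.mpr fun z hz' => hz z hz')
  have hne : I ⊔ Ideal.ofList zs ≠ ⊤ := fun e =>
    (maximalIdeal.isMaximal R).ne_top (top_le_iff.mp (e ▸ hle))
  obtain ⟨a, ha⟩ := exists_dim hI
  obtain ⟨b, hb⟩ := exists_dim hne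
  have hbn := (dl_iff_of_eq hb).mp h
  set s : Finset (R ⧸ I) := (zs.map (Ideal.Quotient.mk I)).toFinset with hs
  have hcard : s.card ≤ zs.length := (List.toFinset_card_le _).trans (by simp)
  have hsj : (s : Set (R ⧸ I)) ⊆ Ring.jacobson (R ⧸ I) := by
    intro x hx
    rw [hs, List.coe_toFinset] at hx
    obtain ⟨z, hz1, rfl⟩ := List.mem_map.mp hx
    rw [IsLocalRing.ringJacobson_eq_maximalIdeal]
    have : IsLocalHom (Ideal.Quotient.mk I) :=
      IsLocalHom.of_surjective _ Ideal.Quotient.mk_surjective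
    exact map_nonunit (Ideal.Quotient.mk I) z (hz z hz1)
  have key := ringKrullDim_le_ringKrullDim_quotient_add_card s hsj
  have hsp : Ideal.span (s : Set (R ⧸ I)) = (Ideal.ofList zs).map (Ideal.Quotient.mk I) := by
    rw [Ideal.map_ofList, hs, List.coe_toFinset]
  have hcm : (Ideal.span (s : Set (R ⧸ I))).comap (Ideal.Quotient.mk I) = I ⊔ Ideal.ofList zs := by
    rw [hsp, Ideal.comap_map_of_surjective _ Ideal.Quotient.mk_surjective, sup_comm,
      ← RingHom.ker_eq_comap_bot, Ideal.mk_ker]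
  rw [← dim_comap_surj (Ideal.Quotient.mk I) Ideal.Quotient.mk_surjective, hcm, ha, hb] at key
  have key' : a ≤ b + s.card := by exact_mod_cast key
  exact (dl_iff_of_eq ha).mpr (by omega)

omit [IsLocalRing R] [IsNoetherianRing R] in
theorem dimb_ofList_ofFn {t : ℕ} (y : Fin t → R) :
    Ideal.ofList (List.ofFn y) = Ideal.span (Set.range y) := by
  unfold Ideal.ofList
  congr 1
  ext z
  simp [List.mem_ofFn]

theorem Dl.of_sup_fam {I : Ideal R} {n t : ℕ} (y : Fin t → R) (hy : ∀ j, y j ∈ maximalIdeal R)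
    (h : Dl (I ⊔ Ideal.span (Set.range y)) n) : Dl I (n + t) := by
  have := Dl.of_sup_list (I := I) (n := n) (List.ofFn y)
    (fun z hz => by obtain ⟨j, rfl⟩ := List.mem_ofFn.mp hz; exact hy j)
    (by rwa [dimb_ofList_ofFn])
  rwa [List.length_ofFn] at this

theorem exists_params {I : Ideal R} {n : ℕ} (h : Dl I (n + 1)) : ∃ zs : List R, zs.length = n ∧
    (∀ z ∈ zs, z ∈ maximalIdeal R) ∧ Dl (I ⊔ Ideal.ofList zs) 1 := by
  obtain ⟨y, hy, h'⟩ := exists_avoid_fam (maximalIdeal R) (ι := Unit) n (fun _ => I) (fun _ => 1)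
    (fun _ => by rwa [add_comm]) (fun _ => dl_one_iff.mpr ⟨1, by rw [pow_one]; exact le_sup_right⟩)
  refine ⟨List.ofFn y, List.length_ofFn, fun z hz => ?_, ?_⟩
  · obtain ⟨j, rfl⟩ := List.mem_ofFn.mp hz
    exact hy j
  · rw [dimb_ofList_ofFn]
    exact h' ()

/-- CURVE SELECTION.  Take `𝔭` maximal among the primes `≥ P` not containing `y`.  Every prime over
`(y) + 𝔭` is `𝔪`: otherwise the finitely many minimal primes over `(y) + 𝔭` have height one over `𝔭` and
one prime `𝔮₀ ≥ (y) + 𝔭` is not `𝔪`, so `dim R/𝔭 ≥ 2` and no minimal prime over `(y)+𝔭` is `𝔪` (Krull);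
choose `w ∈ 𝔪` outside `𝔭` and these primes; a minimal prime over `(w) + 𝔭` contains `y`, contradiction
by height one.  (If `y` is a unit take `𝔭 = P`, `r = 0`.) -/
theorem exists_curve {P : Ideal R} (hP : P.IsPrime) {y : R} (hy : y ∉ P) :
    ∃ 𝔭 : Ideal R, 𝔭.IsPrime ∧ P ≤ 𝔭 ∧ y ∉ 𝔭 ∧
      ∃ r, maximalIdeal R ^ r ≤ Ideal.span {y} ⊔ 𝔭 := by
  obtain ⟨𝔭, ⟨h𝔭, hP𝔭, hy𝔭⟩, hmax⟩ := set_has_maximal_iff_noetherian.mpr
    (inferInstance : IsNoetherian R R) {q : Ideal R | q.IsPrime ∧ P ≤ q ∧ y ∉ q} ⟨P, hP, le_rfl, hy⟩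
  refine ⟨𝔭, h𝔭, hP𝔭, hy𝔭, dl_one_iff.mp ?_⟩
  have hlt : 𝔭 < Ideal.span {y} ⊔ 𝔭 := by
    refine lt_of_le_of_ne le_sup_right fun e => hy𝔭 ?_
    rw [e]
    exact Ideal.mem_sup_left (Ideal.mem_span_singleton_self y)
  obtain ⟨d, hd⟩ := exists_dim h𝔭.ne_top
  by_cases hd2 : d < 2
  · exact Dl.of_prime_lt h𝔭 ((dl_iff_of_eq hd).mpr hd2) hlt
  exfalso
  obtain ⟨e, rfl⟩ : ∃ e, d = e + 2 := ⟨d - 2, by omega⟩
  have hA : Dl 𝔭 (e + 2 + 1) := (dl_iff_of_eq hd).mpr (Nat.lt_succ_self _)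
  have hB : Dl (Ideal.span {y} ⊔ 𝔭) (e + 1 + 1) := Dl.of_prime_lt h𝔭 hA hlt
  have hm : ∀ (J : Ideal R) (k : ℕ), Dl (J ⊔ maximalIdeal R) (k + 1) := fun J k =>
    (dl_one_iff.mpr ⟨1, by rw [pow_one]; exact le_sup_right⟩).mono le_rfl (by omega)
  obtain ⟨w, hw, hw'⟩ := exists_avoid (maximalIdeal R) (ι := Bool)
    (fun b => cond b 𝔭 (Ideal.span {y} ⊔ 𝔭)) (fun b => cond b (e + 2) (e + 1))
    (fun b => by cases b; exacts [hB, hA]) (fun b => by cases b; exacts [hm _ e, hm _ (e + 1)])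
  have h1 : Dl (𝔭 ⊔ Ideal.span {w}) (e + 2) := hw' true
  have h2 : Dl (Ideal.span {y} ⊔ 𝔭 ⊔ Ideal.span {w}) (e + 1) := hw' false
  have h3 : ¬ Dl (𝔭 ⊔ Ideal.span {w}) (e + 1) := fun h => by
    have := Dl.of_sup_list (I := 𝔭) (n := e + 1) [w] (by simpa using hw) (by simpa using h)
    exact lt_irrefl _ ((dl_iff_of_eq hd).mp this)
  rw [dl_iff_primes] at h3
  push Not at h3
  obtain ⟨q, hq, hle, hn⟩ := h3
  have hyq : y ∉ q := fun hyq => hn (h2.mono (sup_le (sup_le
    ((Ideal.span_singleton_le_iff_mem q).mpr hyq) (le_sup_left.trans hle))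
    (le_sup_right.trans hle)) le_rfl)
  have hq𝔭 : q = 𝔭 := by
    by_contra hne
    exact hmax q ⟨hq, hP𝔭.trans (le_sup_left.trans hle), hyq⟩
      (lt_of_le_of_ne (le_sup_left.trans hle) (Ne.symm hne))
  exact lt_irrefl _ ((dl_iff_of_eq hd).mp (h1.mono (hq𝔭 ▸ hle) le_rfl))

/-- `Ideal.height_eq_height_add_of_liesOver_of_hasGoingDown`,
`IsLocalRing.maximalIdeal_height_eq_ringKrullDim`. -/
theorem dim_flat_add [IsLocalRing S] [IsNoetherianRing S] (σ : R →+* S) (hσ : σ.Flat)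
    (hl : (maximalIdeal R).map σ ≤ maximalIdeal S) :
    ringKrullDim S = ringKrullDim R + ringKrullDim (S ⧸ (maximalIdeal R).map σ) :=
  DimC.dim_flat_add σ hσ hl

/-- `dim_flat_add` for `R ⧸ I → S ⧸ I S` (`R183.flat_quotientMap`). -/
theorem dim_map_flat [IsLocalRing S] [IsNoetherianRing S] (σ : R →+* S) (hσ : σ.Flat)
    (hl : (maximalIdeal R).map σ = maximalIdeal S) (I : Ideal R) :
    ringKrullDim (S ⧸ I.map σ) = ringKrullDim (R ⧸ I) :=
  DimC.dim_map_flat σ hσ hl I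

theorem RegLoc.dim {d : ℕ} (h : RegLoc R d) : ringKrullDim R = d := by
  obtain ⟨xs, rfl, h1, h2⟩ := h
  exact DimC.dim_of_regular xs h1 h2

/-- induction on the list: if `x` is regular, `R/x` is a domain and `R` is `x`-adically separated then
`R` is a domain. -/
theorem RegLoc.isDomain {d : ℕ} (h : RegLoc R d) : IsDomain R := by
  obtain ⟨xs, hl, h1, h2⟩ := h
  exact DimC.isDomain_of_regular d R xs hl h1 h2

/-- every system of parameters is regular (`R169.isWeaklyRegular_of_params`). -/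
theorem RegLoc.regular_of_params {d : ℕ} (h : RegLoc R d) (ys : List R) (hl : ys.length = d)
    (hm : ∀ y ∈ ys, y ∈ maximalIdeal R) (hp : Dl (Ideal.ofList ys) 1) : IsWeaklyRegular R ys := by
  obtain ⟨xs, hx, h1, h2⟩ := h
  obtain ⟨L, hL⟩ := dl_one_iff.1 hp
  exact DimC.regular_of_params xs ys (hx.trans hl.symm) (fun r hr => h2 ▸ Ideal.subset_span hr) h1 hm
    ⟨L, hL.trans le_sup_right⟩

/-- module version: `M` finite with a regular sequence `rs` in `𝔪`; `ys` of the same length with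
`ann M + (ys)` primary.  (`M` trivial is allowed.) -/
theorem regular_of_params {M : Type} [AddCommGroup M] [Module R M] [Module.Finite R M]
    (rs ys : List R) (hl : rs.length = ys.length) (hr : ∀ r ∈ rs, r ∈ maximalIdeal R)
    (hreg : IsWeaklyRegular M rs) (hm : ∀ y ∈ ys, y ∈ maximalIdeal R)
    (hp : Prim (Module.annihilator R M) (Ideal.ofList ys)) : IsWeaklyRegular M ys :=
  DimC.regular_of_params rs ys hl hr hreg hm hp

end Local

/-- Matsumura 14.2/14.3.  Induct on `d` for all `R`, proving also `IsDomain R`: pick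
`x ∈ 𝔪 ∖ (𝔪² ∪ ⋃ minimal primes)` (`Ideal.subset_union_prime` allows non-prime `𝔪²`); `R/x` is regular
of dimension `d - 1` (`spanFinrank_maximalIdeal_eq_finrank_cotangentSpace` or extend `x` to a minimal
generating set; `ringKrullDim_le_ringKrullDim_quotSMulTop_succ`); `(x)` is prime and not minimal, a
minimal prime `𝔭 ≤ (x)` has `𝔭 = x𝔭`, so `𝔭 = 0` (Nakayama). -/
theorem regLoc_of_isRegularLocalRing (d : ℕ) (R : Type) [CommRing R] [IsRegularLocalRing R]
    (hd : ringKrullDim R = d) : RegLoc R d :=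
  DimC.regLoc d R hd

/-! ### regular sequences of ring elements -/

section Seq
variable {A B : Type} [CommRing A] [CommRing B]

/-- ideal-theoretic description of weak regularity on a ring -/
theorem isWeaklyRegular_iff_ideal (zs : List B) : IsWeaklyRegular B zs ↔
    ∀ (i : Fin zs.length) (y : B), zs[i] * y ∈ Ideal.ofList (zs.take i) →
      y ∈ Ideal.ofList (zs.take i) := by
  rw [isWeaklyRegular_iff_Fin]
  refine forall_congr' fun i => ?_
  rw [isSMulRegular_quotient_iff_mem_of_smul_mem, Ideal.smul_eq_mul, Ideal.mul_top]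
  rfl

/-- weak regularity of `A`-elements on the `A`-algebra `B` -/
theorem isWeaklyRegular_algebra_iff [Algebra A B] (zs : List A) :
    IsWeaklyRegular B zs ↔ IsWeaklyRegular B (zs.map (algebraMap A B)) := by
  exact (isWeaklyRegular_map_algebraMap_iff B B zs).symm

theorem isWeaklyRegular_append_iff_quot (rs zs : List B) : IsWeaklyRegular B (rs ++ zs) ↔
    IsWeaklyRegular B rs ∧
      IsWeaklyRegular (B ⧸ Ideal.ofList rs) (zs.map (Ideal.Quotient.mk (Ideal.ofList rs))) := by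
  rw [isWeaklyRegular_append_iff, (Submodule.quotEquivOfEq _ (Ideal.ofList rs)
    (by rw [Ideal.smul_eq_mul, Ideal.mul_top])).isWeaklyRegular_congr zs]
  exact and_congr_right' (isWeaklyRegular_algebra_iff zs)

/-- transport along a surjection with known kernel -/
theorem isWeaklyRegular_of_ker (π : A →+* B) (hπ : Function.Surjective π) (rs zs : List A)
    (hk : RingHom.ker π = Ideal.ofList rs) (h : IsWeaklyRegular A (rs ++ zs)) :
    IsWeaklyRegular B (zs.map π) := by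
  let e := (Ideal.quotEquivOfEq hk.symm).trans (RingHom.quotientKerEquivOfSurjective hπ)
  refine (e.toAddEquiv.isWeaklyRegular_congr ?_).1 ((isWeaklyRegular_append_iff_quot rs zs).1 h).2
  rw [List.forall₂_map_left_iff, List.forall₂_map_right_iff, List.forall₂_same]
  exact fun r _ x => e.map_mul _ x

theorem Dd_mem_of_append {as bs : List B} {z y : B} (h : IsWeaklyRegular B (as ++ z :: bs))
    (hy : z * y ∈ Ideal.ofList as) : y ∈ Ideal.ofList as := by
  simpa using (isWeaklyRegular_iff_ideal _).1 h ⟨as.length, by simp⟩ y (by simpa using hy)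

/-- LOCAL-GLOBAL COHEN–MACAULAY CRITERION.  By `isWeaklyRegular_iff_ideal` it suffices to show that
`(I_i : y) ⊄ 𝔫` for every maximal `𝔫` (`I_i = rels + zs.take i`).  Clear if `rels ⊄ 𝔫`.  Otherwise
localize at `𝔫` (`IsWeaklyRegular.of_isLocalization`), apply `R169.isWeaklyRegular_of_params` to
`rels ++ zs` in `Localization.AtPrime 𝔫`. -/
theorem cm_loc [IsNoetherianRing A] (π : A →+* B) (hπ : Function.Surjective π) (rels zs : List A)
    (hk : RingHom.ker π = Ideal.ofList rels)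
    (h : ∀ 𝔫 : Ideal A, 𝔫.IsMaximal → Ideal.ofList rels ≤ 𝔫 → (∀ z ∈ zs, z ∈ 𝔫) ∧
      (∃ rs : List A, rs.length = rels.length + zs.length ∧ (∀ r ∈ rs, r ∈ 𝔫) ∧
        IsWeaklyRegular A rs) ∧
      ∀ q : Ideal A, q.IsPrime → q ≤ 𝔫 → Ideal.ofList rels ≤ q → Ideal.ofList zs ≤ q → q = 𝔫) :
    IsWeaklyRegular B (zs.map π) := by
  rw [isWeaklyRegular_iff_ideal]
  rintro ⟨i, hi⟩ y
  obtain ⟨y, rfl⟩ := hπ y
  have hi' : i < zs.length := by simpa using hi
  have e : ∀ a, π a ∈ Ideal.ofList ((zs.map π).take i) ↔ a ∈ Ideal.ofList (rels ++ zs.take i) := by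
    intro a
    rw [← List.map_take, ← Ideal.map_ofList, ← Ideal.mem_comap, Ideal.comap_map_of_surjective π hπ,
      Ideal.ofList_append, ← hk, sup_comm]
    rfl
  simp only [Fin.getElem_fin, List.getElem_map, ← map_mul, e]
  refine fun hy => Ideal.mem_of_localization_maximal fun P hP => ?_
  by_cases hr : Ideal.ofList rels ≤ P
  swap
  · obtain ⟨r, hr1, hr2⟩ := SetLike.not_le_iff_exists.1 hr
    rw [Ideal.eq_top_of_isUnit_mem _ (Ideal.mem_map_of_mem _ (show r ∈ _ by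
      rw [Ideal.ofList_append]; exact Ideal.mem_sup_left hr1))
      (IsLocalization.map_units (Localization.AtPrime P) (⟨r, hr2⟩ : P.primeCompl))]
    trivial
  obtain ⟨h1, ⟨rs, h2, h3, h4⟩, h5⟩ := h P hP hr
  have h6 := Crest.Agent.R169.isWeaklyRegular_of_params
    ((rels ++ zs).map (algebraMap A (Localization.AtPrime P))) (Localization.AtPrime P)
    (rs.map (algebraMap A (Localization.AtPrime P))) (by simp [h2]) (fun r hr' => ?_)
    (h4.isRegular_of_isLocalization_of_mem _ P h3) (fun r hr' => ?_) (fun q hq _ hq' => ?_)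
  · rw [← zs.take_append_drop i, List.drop_eq_getElem_cons hi', ← List.append_assoc,
      List.map_append, List.map_cons] at h6
    rw [Ideal.map_ofList]
    refine Dd_mem_of_append h6 ?_
    rw [← map_mul, ← Ideal.map_ofList]
    exact Ideal.mem_map_of_mem _ hy
  · obtain ⟨r, hr'', rfl⟩ := List.mem_map.1 hr'
    exact (IsLocalization.AtPrime.to_map_mem_maximal_iff _ P r).2 (h3 r hr'')
  · obtain ⟨r, hr'', rfl⟩ := List.mem_map.1 hr'
    refine (IsLocalization.AtPrime.to_map_mem_maximal_iff _ P r).2 ?_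
    exact (List.mem_append.1 hr'').elim (fun h => hr (Ideal.subset_span h)) (h1 r)
  · have h7 := h5 (q.under A) inferInstance
      ((Ideal.comap_mono (le_maximalIdeal hq.ne_top)).trans
        Localization.AtPrime.under_maximalIdeal.le)
      (Ideal.span_le.2 fun r hr' => hq' _ (List.mem_map_of_mem (List.mem_append_left _ hr')))
      (Ideal.span_le.2 fun r hr' => hq' _ (List.mem_map_of_mem (List.mem_append_right _ hr')))
    rw [← IsLocalization.map_under P.primeCompl _ q, h7, Localization.AtPrime.map_eq_maximalIdeal]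

/-- if `(y, κ)` is regular then `κ` is regular modulo `y^N` -/
theorem reg_mod_pow {y κ : B} (hy : ∀ z, y * z = 0 → z = 0) (hκ : ∀ z, y ∣ κ * z → y ∣ z) (N : ℕ)
    (z : B) (h : y ^ N ∣ κ * z) : y ^ N ∣ z := by
  induction N generalizing z with
  | zero => simp
  | succ N ih =>
    obtain ⟨z, rfl⟩ := hκ z ((dvd_pow_self y N.succ_ne_zero).trans h)
    obtain ⟨c, hc⟩ := h
    rw [pow_succ']
    refine mul_dvd_mul_left y (ih z ⟨c, sub_eq_zero.1 (hy _ ?_)⟩)
    linear_combination hc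

end Seq

/-! ### residue fields -/

/-- every integral ring map from `W` to a field is onto -/
def AC (W : Type) [CommRing W] : Prop :=
  ∀ (F : Type) [Field F] (σ : W →+* F), σ.IsIntegral → Function.Surjective σ

theorem AC.of_isAlgClosed (K : Type) [Field K] [IsAlgClosed K] : AC K := by
  exact fun _ _ σ hσ => (IsAlgClosed.ringHom_bijective_of_isIntegral σ hσ).2

theorem Dd_comap {Λ B : Type} [CommRing Λ] [CommRing B] [IsLocalRing Λ] {σ : Λ →+* B}
    (hσ : σ.IsIntegral) (𝔫 : Ideal B) [𝔫.IsMaximal] : 𝔫.comap σ = maximalIdeal Λ :=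
  eq_maximalIdeal (Ideal.isMaximal_comap_of_isIntegral_of_isMaximal' σ hσ 𝔫)

/-- the kernel of an integral map to a field is maximal, hence `(p)`; factor through `k`. -/
theorem AC.witt (p : ℕ) [Fact p.Prime] (k : Type) [Field k] [IsAlgClosed k] [CharP k p] :
    AC (WittVector p k) := by
  intro F _ σ hσ
  have := Ideal.bot_isMaximal (K := F)
  have hs := WittVector.constantCoeff_surjective (R := k) p
  have hle : RingHom.ker (WittVector.constantCoeff : WittVector p k →+* k) ≤ RingHom.ker σ :=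
    (le_maximalIdeal (RingHom.ker_ne_top _)).trans (Dd_comap hσ ⊥).ge
  have e := RingHom.liftOfSurjective_comp _ hs ⟨σ, hle⟩
  simp only at e
  rw [← e] at hσ ⊢
  exact (AC.of_isAlgClosed k F _ (RingHom.IsIntegral.tower_top _ _ hσ)).comp hs

/-- `W → Λ → B` with `Λ` local, `W → Λ/𝔪` onto, `B` integral over `Λ`. -/
theorem AC.rs {W Λ B : Type} [CommRing W] [CommRing Λ] [CommRing B] [IsLocalRing Λ] (h : AC W)
    (ω : W →+* Λ) (hω : ∀ y, ∃ w, y - ω w ∈ maximalIdeal Λ) (σ : Λ →+* B) (hσ : σ.IsIntegral) :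
    RS (σ.comp ω) := by
  intro 𝔫 h𝔫
  let := Ideal.Quotient.field 𝔫
  refine h _ _ fun x => ?_
  obtain ⟨x, rfl⟩ := Ideal.Quotient.mk_surjective x
  obtain ⟨P, hP, hx⟩ := hσ x
  obtain ⟨Q, hQ, -, hQ'⟩ := Polynomial.lifts_and_natDegree_eq_and_monic
    (f := (Ideal.Quotient.mk 𝔫).comp (σ.comp ω)) (p := P.map ((Ideal.Quotient.mk 𝔫).comp σ))
    ((Polynomial.lifts_iff_coeff_lifts _).2 fun n => by
      obtain ⟨w, hw⟩ := hω (P.coeff n)
      rw [← Dd_comap hσ 𝔫, Ideal.mem_comap, map_sub] at hw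
      exact ⟨w, by rw [Polynomial.coeff_map]; exact (Ideal.Quotient.eq.2 hw).symm⟩) (hP.map _)
  refine ⟨Q, hQ', ?_⟩
  rw [← Polynomial.eval_map, hQ, Polynomial.eval_map, ← Polynomial.hom_eval₂, hx, map_zero]

/-- an element of `𝔪_Λ` lies in the Jacobson radical of an integral `Λ`-algebra -/
theorem map_max_le_jacobson {Λ B : Type} [CommRing Λ] [CommRing B] [IsLocalRing Λ] (σ : Λ →+* B)
    (hσ : σ.IsIntegral) (J : Ideal B) : (maximalIdeal Λ).map σ ≤ J.jacobson := by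
  exact le_sInf fun 𝔫 h𝔫 => have := h𝔫.2; Ideal.map_le_iff_le_comap.2 (Dd_comap hσ 𝔫).ge

/-! ### power series -/

section PS
open MvPowerSeries
variable {n : ℕ} {W : Type} [CommRing W]

theorem dime_ofList_take (k : ℕ) : Ideal.ofList ((List.ofFn (X : Fin n → PS n W)).take k) =
    Ideal.span (X '' (Finset.univ.filter fun j : Fin n => (j : ℕ) < k)) := by
  unfold Ideal.ofList
  congr 1
  ext x
  simp only [Set.mem_ofPred_eq, List.mem_take_iff_getElem, List.length_ofFn, List.getElem_ofFn,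
    Finset.coe_filter, Finset.mem_univ, true_and, Set.mem_image, lt_min_iff]
  exact ⟨fun ⟨j, hj, e⟩ => ⟨⟨j, hj.2⟩, hj.1, e⟩, fun ⟨j, hj, e⟩ => ⟨j, ⟨hj, j.2⟩, e⟩⟩

theorem dime_ofList_X : Ideal.ofList (List.ofFn (X : Fin n → PS n W)) = XP n W := by
  unfold Ideal.ofList XP
  congr 1
  ext x
  simp [List.mem_ofFn]

theorem PS.regular_X : IsWeaklyRegular (PS n W) (List.ofFn (X : Fin n → PS n W)) := by
  rw [isWeaklyRegular_iff_ideal]
  intro i y hy
  have hi : (i : ℕ) < n := by simpa using i.2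
  have e : (List.ofFn (X : Fin n → PS n W))[i] = X ⟨i, hi⟩ := by simp
  rw [e] at hy
  rw [dime_ofList_take, PSb_mem_span] at hy ⊢
  intro μ hμ
  rw [← PSb_coeff ⟨i, hi⟩]
  refine hy _ fun j hj => ?_
  have : j ≠ ⟨i, hi⟩ := by
    rintro rfl
    simp at hj
  simp [hμ j hj, this]

/-- `W⟦X⟧` is regular local if `W` is (sequence `X ++ C xs`; `PS.max_eq`). -/
theorem RegLoc.ps [IsLocalRing W] {d : ℕ} (h : RegLoc W d) : RegLoc (PS n W) (n + d) := by
  obtain ⟨xs, h1, h2, h3⟩ := h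
  refine ⟨List.ofFn X ++ xs.map (C : W →+* PS n W), by simp [h1], ?_, ?_⟩
  · rw [isWeaklyRegular_append_iff_quot, dime_ofList_X]
    refine ⟨PS.regular_X, ?_⟩
    have := isWeaklyRegular_of_ker ((Ideal.Quotient.mk (XP n W)).comp (C : W →+* PS n W))
      (fun y => by
        obtain ⟨y, rfl⟩ := Ideal.Quotient.mk_surjective y
        exact ⟨constantCoeff y, Ideal.Quotient.eq.2 (mem_XP_iff.2 (by simp))⟩) [] xs
      (by
        ext w
        simp [Ideal.Quotient.eq_zero_iff_mem, mem_XP_iff]) h2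
    rwa [List.map_map]
  · rw [Ideal.ofList_append, dime_ofList_X, ← Ideal.map_ofList, h3, PS.max_eq, sup_comm]

/-- coefficientwise syzygies; `R183.flat_of_rel` -/
theorem PS.flat_C [IsNoetherianRing W] : (C : W →+* PS n W).Flat := by
  refine flat_of_rel _ fun r a b hab => ?_
  let φ : (Fin r → W) →ₗ[W] W := ∑ i, a i • LinearMap.proj i
  have hφ : ∀ z, φ z = ∑ i, a i * z i := fun z => by simp [φ]
  obtain ⟨m, v, hv⟩ := Submodule.fg_iff_exists_fin_generating_family.1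
    (IsNoetherian.noetherian (LinearMap.ker φ))
  have h1 : ∀ μ, ∃ c : Fin m → W, ∑ j, c j • v j = fun i => coeff μ (b i) := fun μ => by
    rw [← Submodule.mem_span_range_iff_exists_fun, hv, LinearMap.mem_ker, hφ]
    have := congrArg (coeff μ) hab
    simpa [coeff_C_mul] using this
  choose c hc using h1
  let g : Fin m → PS n W := fun j μ => c μ j
  have e : b = ∑ j, g j • ((C : W →+* PS n W) ∘ v j) := by
    funext i
    ext μ
    rw [Finset.sum_apply, map_sum, ← congrFun (hc μ) i, Finset.sum_apply]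
    refine Finset.sum_congr rfl fun j _ => ?_
    rw [Pi.smul_apply, Pi.smul_apply, smul_eq_mul, smul_eq_mul, Function.comp_apply, coeff_mul_C]
    rfl
  rw [e]
  refine Submodule.sum_mem _ fun j _ => Submodule.smul_mem _ _
    (Submodule.subset_span ⟨_, ?_, rfl⟩)
  rw [Ideal.mem_bot, ← hφ, ← LinearMap.mem_ker, ← hv]
  exact Submodule.subset_span ⟨j, rfl⟩

theorem PS.res (y : PS n W) : ∃ w, y - C w ∈ XP n W :=
  ⟨constantCoeff y, mem_XP_iff.2 (by simp)⟩

/-- two maps out of `W⟦X⟧` that agree on `W` and send `X` into `I` agree modulo the differences and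
`I^N` (truncate) -/
theorem PS.sub_mem {L : Type} [CommRing L] (α β : PS n W →+* L) (hC : ∀ w, α (C w) = β (C w))
    (I 𝔍 : Ideal L) (hα : ∀ i, α (X i) ∈ I) (hβ : ∀ i, β (X i) ∈ I)
    (hX : ∀ i, α (X i) - β (X i) ∈ 𝔍) (N : ℕ) (y : PS n W) : α y - β y ∈ 𝔍 ⊔ I ^ N := by
  have h1 : ((Ideal.Quotient.mk 𝔍).comp α).comp MvPolynomial.coeToMvPowerSeries.ringHom =
      ((Ideal.Quotient.mk 𝔍).comp β).comp MvPolynomial.coeToMvPowerSeries.ringHom :=
    MvPolynomial.ringHom_ext (fun c => by simp [hC c]) fun i => by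
      simpa using Ideal.Quotient.eq.2 (hX i)
  have h2 : ∀ φ : PS n W →+* L, (∀ i, φ (X i) ∈ I) → ∀ y ∈ XP n W ^ N, φ y ∈ I ^ N := by
    intro φ hφ y hy
    have := Ideal.mem_map_of_mem φ hy
    rw [Ideal.map_pow] at this
    refine Ideal.pow_right_mono (Ideal.map_le_iff_le_comap.2 (Ideal.span_le.2 ?_)) N this
    rintro _ ⟨i, rfl⟩
    exact hφ i
  have h3 := Ideal.sub_mem _ (h2 α hα _ (sub_trunc_mem N y)) (h2 β hβ _ (sub_trunc_mem N y))
  have h4 : α (truncTotal N y : MvPolynomial (Fin n) W) -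
      β (truncTotal N y : MvPolynomial (Fin n) W) ∈ 𝔍 :=
    Ideal.Quotient.eq.1 (RingHom.congr_fun h1 _)
  have h5 := add_mem (Ideal.mem_sup_left (T := I ^ N) h4) (Ideal.mem_sup_right (S := 𝔍) h3)
  rw [map_sub, map_sub] at h5
  convert h5 using 1
  ring

/-- the same in a Noetherian local ring (Krull intersection, `R183.fb_krull`) -/
theorem PS.sub_mem_local {L : Type} [CommRing L] [IsLocalRing L] [IsNoetherianRing L]
    (α β : PS n W →+* L) (hC : ∀ w, α (C w) = β (C w)) (hα : ∀ i, α (X i) ∈ maximalIdeal L)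
    (hβ : ∀ i, β (X i) ∈ maximalIdeal L) (y : PS n W) :
    α y - β y ∈ Ideal.span (Set.range fun i => α (X i) - β (X i)) := by
  refine fb_krull (maximalIdeal L) (maximalIdeal_le_jacobson _) _ _ fun N => ?_
  rw [smul_eq_mul, Ideal.mul_top]
  exact PS.sub_mem α β hC _ _ hα hβ (fun i => Ideal.subset_span (Set.mem_range_self i)) N y

end PS

end Crest.Agent.R188
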