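import Crest.Agent.R188.RingT

/-! # R188 / EnvAuxB : auxiliary lemmas for `poly_regular` and `root_closure`. -/

set_option autoImplicit false
open IsLocalRing RingTheory.Sequence

namespace Crest.Agent.R188

section Poly
open MvPolynomial
variable {A σ : Type} [CommRing A]

theorem envb_reg (c : σ → A) (v : σ) {y : MvPolynomial σ A} (h : (X v - C (c v)) * y = 0) :
    y = 0 := by
  let τ : MvPolynomial σ A →+* MvPolynomial σ A := eval₂Hom C fun w => X w + C (c w)
  let τ' : MvPolynomial σ A →+* MvPolynomial σ A := eval₂Hom C fun w => X w - C (c w)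
  have h1 : τ'.comp τ = RingHom.id _ := ringHom_ext (fun a => by simp [τ, τ']) fun w => by
    simp [τ, τ']
  have h2 := congrArg τ h
  have h3 : τ (X v - C (c v)) = X v := by simp [τ]
  rw [map_mul, h3, map_zero] at h2
  have h4 : τ y = 0 := (isRegular_X (n := v)).left (h2.trans (mul_zero _).symm)
  have h5 := RingHom.congr_fun h1 y
  rw [RingHom.comp_apply, h4, map_zero] at h5
  exact h5.symm

theorem envb_subst (c : σ → A) (l : List σ) : ∃ θ : MvPolynomial σ A →+* MvPolynomial σ A,
    (∀ a, θ (C a) = C a) ∧ (∀ v ∉ l, θ (X v) = X v) ∧ (∀ v ∈ l, θ (X v) = C (c v)) ∧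
      ∀ y, y ∈ Ideal.ofList (l.map fun v => X v - C (c v)) ↔ θ y = 0 := by
  classical
  let θ : MvPolynomial σ A →+* MvPolynomial σ A :=
    eval₂Hom C fun w => if w ∈ l then C (c w) else X w
  have h1 : ∀ a, θ (C a) = C a := fun a => by simp [θ]
  have h2 : ∀ v ∉ l, θ (X v) = X v := fun v hv => by simp [θ, hv]
  have h3 : ∀ v ∈ l, θ (X v) = C (c v) := fun v hv => by simp [θ, hv]
  refine ⟨θ, h1, h2, h3, fun y => ⟨fun hy => ?_, fun hy => ?_⟩⟩
  · refine (Ideal.span_le.2 ?_ : _ ≤ RingHom.ker θ) hy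
    intro r hr
    obtain ⟨v, hv, rfl⟩ := List.mem_map.1 hr
    rw [SetLike.mem_coe, RingHom.mem_ker, map_sub, h1, h3 v hv, sub_self]
  · have h4 : (Ideal.Quotient.mk (Ideal.ofList (l.map fun v => X v - C (c v)))).comp θ =
        Ideal.Quotient.mk _ := ringHom_ext (fun a => by rw [RingHom.comp_apply, h1]) fun w => by
      rw [RingHom.comp_apply]
      by_cases hw : w ∈ l
      · rw [h3 w hw, eq_comm, Ideal.Quotient.eq]
        exact Ideal.subset_span (List.mem_map.2 ⟨w, hw, rfl⟩)
      · rw [h2 w hw]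
    have h5 := RingHom.congr_fun h4 y
    rw [RingHom.comp_apply, hy, map_zero] at h5
    exact Ideal.Quotient.eq_zero_iff_mem.1 h5.symm

theorem envb_vars (c : σ → A) {l : List σ} (hl : l.Nodup) :
    IsWeaklyRegular (MvPolynomial σ A) (l.map fun v => (X v - C (c v) : MvPolynomial σ A)) := by
  rw [isWeaklyRegular_iff_ideal]
  rintro ⟨i, hi⟩ y hy
  have hi' : i < l.length := by simpa using hi
  simp only [Fin.getElem_fin, List.getElem_map, ← List.map_take] at hy ⊢
  obtain ⟨θ, h1, h2, -, h4⟩ := envb_subst c (l.take i)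
  have h5 : l[i] ∉ l.take i := fun h => by
    obtain ⟨j, hj, e⟩ := List.mem_take_iff_getElem.1 h
    have := hl.getElem_inj_iff.1 e
    omega
  rw [h4] at hy ⊢
  rw [map_mul, map_sub, h1, h2 _ h5] at hy
  exact envb_reg c _ hy

theorem envb_bij (c : σ → A) {l : List σ} (hl : ∀ v, v ∈ l) : Function.Bijective
    ((Ideal.Quotient.mk (Ideal.ofList (l.map fun v => (X v - C (c v) : MvPolynomial σ A)))).comp
      C) := by
  obtain ⟨θ, h1, -, h3, h4⟩ := envb_subst c l
  constructor
  · rw [injective_iff_map_eq_zero]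
    intro a ha
    rw [RingHom.comp_apply, Ideal.Quotient.eq_zero_iff_mem, h4, h1] at ha
    exact C_injective σ A (ha.trans C_0.symm)
  · intro z
    obtain ⟨y, rfl⟩ := Ideal.Quotient.mk_surjective z
    have h5 : (C : A →+* MvPolynomial σ A).comp (eval c) = θ :=
      ringHom_ext (fun a => by simp [h1]) fun w => by simp [h3 w (hl w)]
    refine ⟨eval c y, ?_⟩
    rw [RingHom.comp_apply, Ideal.Quotient.eq, h4, map_sub, h1, ← h5, RingHom.comp_apply, sub_self]

end Poly

theorem envb_tr (C : ℕ → Type) [∀ e, CommRing (C e)] (ι : ∀ e, C e →+* C (e + 1)) :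
    ∃ T : ∀ e e', e ≤ e' → (C e →+* C e'), (∀ e h z, T e e h z = z) ∧
      (∀ e e' h h' z, T e (e' + 1) h' z = ι e' (T e e' h z)) ∧
      ∀ e e' e'' h h' h'' z, T e' e'' h' (T e e' h z) = T e e'' h'' z := by
  let T : ∀ e e', e ≤ e' → (C e →+* C e') := fun e e' h =>
    Nat.leRecOn (C := fun k => C e →+* C k) h (fun {k} f => (ι k).comp f) (RingHom.id _)
  have h1 : ∀ e h z, T e e h z = z := fun e h z => by
    simp only [T, Nat.leRecOn_self, RingHom.id_apply]
  have h2 : ∀ e e' h h' z, T e (e' + 1) h' z = ι e' (T e e' h z) := fun e e' h h' z => by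
    simp only [T]
    rw [Nat.leRecOn_succ h, RingHom.comp_apply]
  refine ⟨T, h1, h2, fun e e' e'' h h' h'' z => ?_⟩
  induction e'', h' using Nat.le_induction with
  | base => exact h1 _ _ _
  | succ n hn ih => rw [h2 _ _ hn, h2 _ _ (h.trans hn), ih]

end Crest.Agent.R188
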