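import Crest.Agent.R188.Tor
import Crest.Agent.R188.Dim

/-! # R188 / Reg : `Tor` over Noetherian local rings: vanishing, finiteness, additivity, prime
filtrations, the Koszul lemma, reduction of the theorem to primes and flat descent. -/

set_option autoImplicit false
open TensorProduct IsLocalRing RingTheory.Sequence

namespace Crest.Agent.R188

/-- `Tor_i(Z, Y) = 0` for `i > n` and all finite `Z` -/
def BdAll (R Y : Type) [CommRing R] [AddCommGroup Y] [Module R Y] (n : ℕ) : Prop :=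
  ∀ (Z : Type) [AddCommGroup Z] [Module R Z] [Module.Finite R Z], Bd R Z Y n

section
variable {R : Type} [CommRing R] {X Y : Type} [AddCommGroup X] [Module R X] [AddCommGroup Y]
  [Module R Y]

open Pointwise in
/-- long exact sequence of `0 → X → X → X/zX → 0` -/
theorem T_les_reg (Y : Type) [AddCommGroup Y] [Module R Y] {z : R} (hz : IsSMulRegular X z) :
    ∃ (g : ∀ i, T R X Y i →ₗ[R] T R (QuotSMulTop z X) Y i)
      (δ : ∀ i, T R (QuotSMulTop z X) Y (i + 1) →ₗ[R] T R X Y i),
      LES (fun i => (z • LinearMap.id : T R X Y i →ₗ[R] T R X Y i)) g δ := by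
  have hex : Function.Exact (z • LinearMap.id : X →ₗ[R] X) (z • (⊤ : Submodule R X)).mkQ := by
    intro x
    rw [Submodule.mkQ_apply, Submodule.Quotient.mk_eq_zero, Submodule.mem_smul_pointwise_iff_exists]
    constructor
    · rintro ⟨y, -, rfl⟩
      exact ⟨y, rfl⟩
    · rintro ⟨y, rfl⟩
      exact ⟨y, trivial, rfl⟩
  obtain ⟨δ, h⟩ := T_les Y (z • LinearMap.id : X →ₗ[R] X) (z • (⊤ : Submodule R X)).mkQ
    (fun a b hab => hz hab) hex (Submodule.mkQ_surjective _)
  refine ⟨(Res R Y).tH (z • (⊤ : Submodule R X)).mkQ, δ, ?_⟩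
  have e : (fun i => (z • LinearMap.id : T R X Y i →ₗ[R] T R X Y i)) =
      (Res R Y).tH (z • LinearMap.id : X →ₗ[R] X) := by
    funext i
    ext x
    rw [Cx.tH_smul, Cx.tH_id]
    rfl
  rw [e]
  exact h

theorem Bd.quot {z : R} (hz : IsSMulRegular X z) {n : ℕ} (h : Bd R X Y n) :
    Bd R (QuotSMulTop z X) Y (n + 1) := by
  obtain ⟨g, δ, hl⟩ := T_les_reg Y hz
  intro i hi
  obtain ⟨j, rfl⟩ : ∃ j, i = j + 1 := ⟨i - 1, by omega⟩
  have := h (j + 1) (by omega)
  have := h j (by omega)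
  exact hl.sub_C j

/-- induction on the list, for all modules `X` (`isWeaklyRegular_cons_iff`,
`Submodule.quotOfListConsSMulTopEquivQuotSMulTopInner`). -/
theorem Bd.quot_list (rs : List R) (hX : IsWeaklyRegular X rs) {n : ℕ} (h : Bd R X Y n) :
    Bd R (X ⧸ (Ideal.ofList rs • ⊤ : Submodule R X)) Y (n + rs.length) := by
  induction rs generalizing X n with
  | nil =>
    refine h.congr (Submodule.quotEquivOfEqBot _ ?_).symm (LinearEquiv.refl R Y)
    rw [Ideal.ofList_nil, Submodule.bot_smul]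
  | cons r rs ih =>
    rw [isWeaklyRegular_cons_iff] at hX
    have h2 := ih hX.2 (Bd.quot hX.1 h)
    have e : n + (r :: rs).length = n + 1 + rs.length := by simp only [List.length_cons]; omega
    rw [e]
    exact h2.congr (Submodule.quotOfListConsSMulTopEquivQuotSMulTopInner X r rs).symm
      (LinearEquiv.refl R Y)

theorem bd_quot_ofList (rs : List R) (h : IsWeaklyRegular R rs) (Y : Type) [AddCommGroup Y]
    [Module R Y] : Bd R (R ⧸ Ideal.ofList rs) Y rs.length := by
  have h0 : Bd R R Y 0 := by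
    intro i hi
    obtain ⟨j, rfl⟩ : ∃ j, i = j + 1 := ⟨i - 1, by omega⟩
    exact T_flat j
  have h1 := Bd.quot_list rs h h0
  rw [Nat.zero_add] at h1
  refine h1.congr (Submodule.quotEquivOfEq _ _ ?_) (LinearEquiv.refl R Y)
  rw [smul_eq_mul, Ideal.mul_top]

/-- if `z` is regular on `R` and on `X` then `Tor_{>0}(R/z, X) = 0` -/
theorem bd_quot_zero {z : R} (hR : IsSMulRegular R z) (hX : IsSMulRegular X z) :
    Bd R (R ⧸ Ideal.span {z}) X 0 := by
  have h0 : Bd R R X 0 := by
    intro i hi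
    obtain ⟨j, rfl⟩ : ∃ j, i = j + 1 := ⟨i - 1, by omega⟩
    exact T_flat j
  have key : Bd R (QuotSMulTop z R) X 0 := by
    intro i hi
    by_cases h1 : 1 < i
    · exact Bd.quot hR h0 i (by omega)
    obtain rfl : i = 0 + 1 := by omega
    obtain ⟨g, δ, hl⟩ := T_les_reg X hR
    have := h0 (0 + 1) (by omega)
    have hinj : Function.Injective (δ 0) := les_inj (hl.gδ 0)
    obtain ⟨e⟩ := T_zero (O := R) (M := R) (N := X)
    have hreg : IsSMulRegular (T R R X 0) z :=
      ((e ≪≫ₗ TensorProduct.lid R X).isSMulRegular_congr z).mpr hX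
    refine ⟨fun a b => hinj ?_⟩
    have hk : ∀ a, δ 0 a = 0 := fun a => by
      have h2 : z • δ 0 a = 0 := (hl.δf 0).apply_apply_eq_zero a
      exact hreg (by simpa using h2)
    rw [hk, hk]
  refine key.congr (Submodule.quotEquivOfEq _ _ ?_) (LinearEquiv.refl R X)
  rw [← Submodule.ideal_span_singleton_smul, smul_eq_mul, Ideal.mul_top]

/-- `Tor_1(R/(J + s), L) = 0` gives `(J L : s) = (J : s) L`
(`rTensor_inj_of_T1` for `0 → R/(J:s) → R/J → R/(J+s) → 0`). -/
theorem colon_of_T1 {L : Type} [CommRing L] [Algebra R L] (J : Ideal R) (s : R)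
    [Subsingleton (T R (R ⧸ (J ⊔ Ideal.span {s})) L 1)] {y : L}
    (hy : algebraMap R L s * y ∈ J.map (algebraMap R L)) :
    y ∈ (J.colon {s}).map (algebraMap R L) := by
  let u : (R ⧸ J.colon {s}) →ₗ[R] (R ⧸ J) :=
    Submodule.mapQ (J.colon {s}) J (s • LinearMap.id) (by
      intro x hx
      rw [Submodule.mem_colon_singleton] at hx
      simpa [mul_comm] using hx)
  let v : (R ⧸ J) →ₗ[R] (R ⧸ (J ⊔ Ideal.span {s})) := Submodule.factor le_sup_left
  have hu1 : ∀ x : R, u (Ideal.Quotient.mk _ x) = Ideal.Quotient.mk J (s * x) := fun x => rfl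
  have hv1 : ∀ x : R, v (Ideal.Quotient.mk _ x) = Ideal.Quotient.mk _ x := fun x => rfl
  have hu : Function.Injective u := by
    rw [injective_iff_map_eq_zero]
    intro a ha
    obtain ⟨x, rfl⟩ := Ideal.Quotient.mk_surjective a
    rw [hu1, Ideal.Quotient.eq_zero_iff_mem] at ha
    rw [Ideal.Quotient.eq_zero_iff_mem, Submodule.mem_colon_singleton]
    simpa [mul_comm] using ha
  have hex : Function.Exact u v := by
    intro a
    obtain ⟨x, rfl⟩ := Ideal.Quotient.mk_surjective a
    rw [hv1, Ideal.Quotient.eq_zero_iff_mem]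
    constructor
    · intro hx
      obtain ⟨j, hj, w, hw, rfl⟩ := Submodule.mem_sup.mp hx
      obtain ⟨t, rfl⟩ := Ideal.mem_span_singleton'.mp hw
      refine ⟨Ideal.Quotient.mk _ t, ?_⟩
      rw [hu1, Ideal.Quotient.eq]
      have : s * t - (j + t * s) = -j := by ring
      rw [this]
      exact J.neg_mem hj
    · rintro ⟨b, hb⟩
      obtain ⟨t, rfl⟩ := Ideal.Quotient.mk_surjective b
      rw [hu1, Ideal.Quotient.eq] at hb
      have : x = -(s * t - x) + t * s := by ring
      rw [this]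
      exact Submodule.add_mem_sup (J.neg_mem hb) (Ideal.mem_span_singleton'.mpr ⟨t, rfl⟩)
  have hv : Function.Surjective v := by
    intro a
    obtain ⟨x, rfl⟩ := Ideal.Quotient.mk_surjective a
    exact ⟨_, hv1 x⟩
  have hinj := rTensor_inj_of_T1 (N := L) u v hu hex hv
  have h1 : u.rTensor L ((1 : R ⧸ J.colon {s}) ⊗ₜ[R] y) = 0 := by
    have e1 : u 1 = s • (1 : R ⧸ J) := hu1 1
    rw [LinearMap.rTensor_tmul, e1, TensorProduct.smul_tmul, Cx.quot_tmul_eq_zero,
      Ideal.smul_top_eq_map, Submodule.restrictScalars_mem, Algebra.smul_def]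
    exact hy
  have h2 : (1 : R ⧸ J.colon {s}) ⊗ₜ[R] y = 0 := hinj (by rw [h1, map_zero])
  rw [Cx.quot_tmul_eq_zero, Ideal.smul_top_eq_map, Submodule.restrictScalars_mem] at h2
  exact h2

end

section Local
variable {R : Type} [CommRing R] [IsLocalRing R] [IsNoetherianRing R] {X X' X'' Y : Type}
  [AddCommGroup X] [Module R X] [Module.Finite R X] [AddCommGroup X'] [Module R X']
  [Module.Finite R X'] [AddCommGroup X''] [Module R X''] [Module.Finite R X''] [AddCommGroup Y]
  [Module R Y] [Module.Finite R Y]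

/-- DEVISSAGE.  First `Z = R/I` by Noetherian induction on `I` (`I = ⊤`; `I = 𝔪`; `I` prime `≠ 𝔪`:
`y ∈ 𝔪 ∖ I` is onto on the finite module `T_i(R/I, Y)`, Nakayama; otherwise
`0 → R/(I:a) → R/I → R/(I+a) → 0`), then `IsNoetherianRing.induction_on_isQuotientEquivQuotientPrime`. -/
theorem bdAll_of_residue {n : ℕ} (h : Bd R (R ⧸ maximalIdeal R) Y n) : BdAll R Y n := by
  have key : ∀ I : Ideal R, ∀ (Z : Type) [AddCommGroup Z] [Module R Z] [Module.Finite R Z],
      I ≤ Module.annihilator R Z → Bd R Z Y n := by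
    intro I
    induction I using IsNoetherian.induction with
    | hgt I ih =>
      intro Z _ _ hZ
      induction hZ using IsNoetherianRing.induction_on_isQuotientEquivQuotientPrime R with
      | subsingleton N => exact fun _ i _ => T_sub_left i
      | exact N₁ N₂ N₃ f g hf hg hfg h₁ h₃ =>
        intro hI i hi
        have := h₁ (hI.trans (LinearMap.annihilator_le_of_injective f hf)) i hi
        have := h₃ (hI.trans (LinearMap.annihilator_le_of_surjective g hg)) i hi
        obtain ⟨δ, hl⟩ := T_les Y f g hf hfg hg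
        exact hl.sub_B i
      | quotient N p e =>
        intro hI
        by_cases hp : p.1 = maximalIdeal R
        · exact h.congr (e ≪≫ₗ Submodule.quotEquivOfEq _ _ hp).symm (LinearEquiv.refl R Y)
        have hann : Module.annihilator R N = p.1 := by
          rw [e.annihilator_eq, Ideal.annihilator_quotient]
        obtain ⟨y, hym, hyp⟩ := SetLike.exists_of_lt
          (lt_of_le_of_ne (le_maximalIdeal p.2.ne_top) hp)
        have hreg : IsSMulRegular N y := by
          rw [e.isSMulRegular_congr y]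
          have := p.2
          intro a b hab
          simp only [Algebra.smul_def] at hab
          exact mul_left_cancel₀ (fun h0 => hyp (Ideal.Quotient.eq_zero_iff_mem.mp h0)) hab
        have hq : Bd R (QuotSMulTop y N) Y n := by
          refine ih (I ⊔ Ideal.span {y}) (lt_of_le_of_ne le_sup_left fun h0 => hyp ?_) _
            (sup_le ?_ ?_)
          · rw [← hann]
            exact hI (h0 ▸ Ideal.mem_sup_right (Ideal.mem_span_singleton_self y))
          · exact hI.trans (LinearMap.annihilator_le_of_surjective _ (Submodule.mkQ_surjective _))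
          · rw [Ideal.span_singleton_le_iff_mem, Module.mem_annihilator]
            intro a
            obtain ⟨x, rfl⟩ := Submodule.mkQ_surjective _ a
            rw [← map_smul, Submodule.mkQ_apply, Submodule.Quotient.mk_eq_zero]
            exact Submodule.smul_mem_pointwise_smul _ _ _ trivial
        obtain ⟨g, δ, hl⟩ := T_les_reg Y hreg
        intro i hi
        have := hq i hi
        have hs := hl.surj_f i
        have := T_finite (O := R) (M := N) (N := Y) i
        have htop : (⊤ : Submodule R (T R N Y i)) = ⊥ := by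
          refine Submodule.eq_bot_of_le_smul_of_le_jacobson_bot (maximalIdeal R) ⊤
            Module.Finite.fg_top ?_ (maximalIdeal_le_jacobson _)
          intro a _
          obtain ⟨b, rfl⟩ := hs a
          exact Submodule.smul_mem_smul hym trivial
        exact Submodule.subsingleton_iff R |>.mp (subsingleton_of_bot_eq_top htop.symm)
  intro Z _ _ _
  exact key ⊥ Z bot_le

theorem RegLoc.bdAll {d : ℕ} (h : RegLoc R d) (Y : Type) [AddCommGroup Y] [Module R Y]
    [Module.Finite R Y] : BdAll R Y d := by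
  obtain ⟨xs, hl, hr, hm⟩ := h
  apply bdAll_of_residue
  have := bd_quot_ofList xs hr Y
  rw [hl] at this
  exact this.congr (Submodule.quotEquivOfEq _ _ hm) (LinearEquiv.refl R Y)

omit [Module.Finite R X'] [Module.Finite R X''] in
/-- a finite module killed by a power of `𝔪` has finite length -/
theorem length_ne_top_of_pow {L : ℕ} (h : maximalIdeal R ^ L ≤ Module.annihilator R X) :
    Module.length R X ≠ ⊤ := by
  induction ‹Module.Finite R X› using
    IsNoetherianRing.induction_on_isQuotientEquivQuotientPrime R with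
  | subsingleton N => simp
  | quotient N p f =>
    rw [f.annihilator_eq, Ideal.annihilator_quotient] at h
    have hp : maximalIdeal R = p.1 :=
      (maximalIdeal.isMaximal R).eq_of_le p.2.ne_top (p.2.le_of_pow_le h)
    have hs : IsSimpleModule R (R ⧸ p.1) := by
      rw [isSimpleModule_iff_isCoatom, ← Ideal.isMaximal_def, ← hp]
      exact maximalIdeal.isMaximal R
    rw [f.length_eq, Module.length_eq_one]
    simp
  | exact N₁ N₂ N₃ f g hf hg hfg h₁ h₃ =>
    rw [Module.length_eq_add_of_exact f g hf hg hfg]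
    exact WithTop.add_ne_top.2 ⟨h₁ (h.trans (f.annihilator_le_of_injective hf)),
      h₃ (h.trans (g.annihilator_le_of_surjective hg))⟩

theorem tlm_ne_top (h : Prim (Module.annihilator R X) (Module.annihilator R Y)) (i : ℕ) :
    tlm R X Y i ≠ ⊤ := by
  obtain ⟨L, hL⟩ := h
  have := T_finite (O := R) (M := X) (N := Y) i
  refine length_ne_top_of_pow (L := L) (hL.trans (sup_le ?_ ?_))
  · exact fun a ha => Module.mem_annihilator.2 (T_kill_left ha i)
  · exact fun a ha => Module.mem_annihilator.2 (T_kill_right ha i)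

/-- DESCENT OF THE BOUND.  `z` is onto on `T_i(X,Y)` for `i > n + 1` (Nakayama) and injective on
`T_{n+1}(X,Y)`, which has finite length while `z` is nilpotent on it. -/
theorem Bd.of_quot {z : R} (hm : z ∈ maximalIdeal R) (hz : IsSMulRegular X z)
    (h : Prim (Module.annihilator R X) (Module.annihilator R Y)) {n : ℕ}
    (hb : Bd R (QuotSMulTop z X) Y (n + 1)) : Bd R X Y n := by
  intro i hi
  obtain ⟨g, δ, hles⟩ := T_les_reg Y hz
  have := hb (i + 1) (Nat.succ_lt_succ hi)
  have hinj := hles.inj_f i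
  obtain ⟨L, hL⟩ := h
  have hk : Module.annihilator R X ⊔ Module.annihilator R Y ≤ Module.annihilator R (T R X Y i) :=
    sup_le (fun a ha => Module.mem_annihilator.2 (T_kill_left ha i))
      fun a ha => Module.mem_annihilator.2 (T_kill_right ha i)
  have hreg : IsSMulRegular (T R X Y i) z := hinj
  refine subsingleton_of_forall_eq 0 fun x => (hreg.pow L).right_eq_zero_of_smul ?_
  exact Module.mem_annihilator.1 (hk (hL (Ideal.pow_mem_pow hm L))) x

theorem Bd.of_regular (rs : List R) (hm : ∀ z ∈ rs, z ∈ maximalIdeal R)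
    (hX : IsWeaklyRegular X rs) (h : Prim (Module.annihilator R X) (Module.annihilator R Y)) {n : ℕ}
    (hb : BdAll R Y (n + rs.length)) : Bd R X Y n := by
  induction rs generalizing X n with
  | nil => exact hb X
  | cons z rs ih =>
    obtain ⟨hz, hX'⟩ := (isWeaklyRegular_cons_iff X z rs).1 hX
    refine Bd.of_quot (hm z List.mem_cons_self) hz h ?_
    refine ih (fun w hw => hm w (List.mem_cons_of_mem _ hw)) hX' (h.mono ?_ le_rfl) ?_
    · exact (Submodule.mkQ _).annihilator_le_of_surjective (Submodule.mkQ_surjective _)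
    · rwa [List.length_cons, ← Nat.add_assoc, Nat.add_right_comm] at hb

/-- TOR-INDEPENDENCE of Cohen–Macaulay modules of complementary dimension: `Bd.of_regular` for
`(Y, R/𝔪)` gives `Bd R Y k zs.length`; symmetry, `bdAll_of_residue`, `Bd.of_regular` for `(X, Y)`. -/
theorem tor_cm {d : ℕ} (hR : RegLoc R d) (zs zs' : List R) (hm : ∀ z ∈ zs, z ∈ maximalIdeal R)
    (hm' : ∀ z ∈ zs', z ∈ maximalIdeal R) (hX : IsWeaklyRegular X zs) (hY : IsWeaklyRegular Y zs')
    (hl : zs.length + zs'.length = d)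
    (h : Prim (Module.annihilator R X) (Module.annihilator R Y)) : Bd R X Y 0 := by
  have h1 : Bd R Y (R ⧸ maximalIdeal R) zs.length := by
    refine Bd.of_regular zs' hm' hY ⟨1, ?_⟩ (hl ▸ hR.bdAll _)
    rw [pow_one, Ideal.annihilator_quotient]
    exact le_sup_right
  refine Bd.of_regular zs hm hX h ?_
  rw [zero_add]
  exact bdAll_of_residue h1.symm

theorem chim_add (u : X →ₗ[R] X') (v : X' →ₗ[R] X'') (hu : Function.Injective u)
    (hex : Function.Exact u v) (hv : Function.Surjective v) {n : ℕ} (hb : Bd R X'' Y n)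
    (h : Prim (Module.annihilator R X') (Module.annihilator R Y)) :
    chim R X' Y n = chim R X Y n + chim R X'' Y n := by
  obtain ⟨δ, hles⟩ := T_les Y u v hu hex hv
  have := hb (n + 1) n.lt_succ_self
  exact hles.euler n (fun i _ => tlm_ne_top (h.mono (u.annihilator_le_of_injective hu) le_rfl) i)
    (fun i _ => tlm_ne_top h i)
    (fun i _ => tlm_ne_top (h.mono (v.annihilator_le_of_surjective hv) le_rfl) i) (hles.inj_f n)

/-- PRIME FILTRATION (`IsNoetherianRing.induction_on_isQuotientEquivQuotientPrime`). -/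
theorem pfl (X : Type) [AddCommGroup X] [Module R X] [Module.Finite R X] :
    ∃ l : List (Ideal R), (∀ q ∈ l, q.IsPrime ∧ Module.annihilator R X ≤ q) ∧
      l.prod ≤ Module.annihilator R X ∧
      ∀ (Y : Type) [AddCommGroup Y] [Module R Y] [Module.Finite R Y] (n : ℕ), BdAll R Y n →
        Prim (Module.annihilator R X) (Module.annihilator R Y) →
        chim R X Y n = (l.map fun q => chim R (R ⧸ q) Y n).sum := by
  induction ‹Module.Finite R X› using
    IsNoetherianRing.induction_on_isQuotientEquivQuotientPrime R with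
  | subsingleton N =>
    refine ⟨[], by simp, fun a _ => Module.mem_annihilator.2 fun _ => Subsingleton.elim _ _, ?_⟩
    intro Y _ _ _ n _ _
    simp [chim_sub_left]
  | quotient N p f =>
    have ha : Module.annihilator R N = p.1 := by rw [f.annihilator_eq, Ideal.annihilator_quotient]
    refine ⟨[p.1], by simp [ha, p.2], by simp [ha], ?_⟩
    intro Y _ _ _ n _ _
    simp [chim_congr f (LinearEquiv.refl R Y)]
  | exact N₁ N₂ N₃ f g hf hg hfg h₁ h₃ =>
    obtain ⟨l₁, a₁, b₁, c₁⟩ := h₁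
    obtain ⟨l₃, a₃, b₃, c₃⟩ := h₃
    have e₁ := f.annihilator_le_of_injective hf
    have e₃ := g.annihilator_le_of_surjective hg
    refine ⟨l₁ ++ l₃, fun q hq => ?_, ?_, ?_⟩
    · rcases List.mem_append.1 hq with hq | hq
      · exact ⟨(a₁ q hq).1, e₁.trans (a₁ q hq).2⟩
      · exact ⟨(a₃ q hq).1, e₃.trans (a₃ q hq).2⟩
    · rw [List.prod_append]
      refine Ideal.mul_le.2 fun a ha b hb => Module.mem_annihilator.2 fun x => ?_
      obtain ⟨y, hy⟩ := (hfg (b • x)).1 (by rw [map_smul, Module.mem_annihilator.1 (b₃ hb)])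
      rw [mul_smul, ← hy, ← map_smul, Module.mem_annihilator.1 (b₁ ha), map_zero]
    · intro Y _ _ _ n hb h
      rw [chim_add f g hf hfg hg (hb N₃) h, c₁ Y n hb (h.mono e₁ le_rfl), c₃ Y n hb (h.mono e₃ le_rfl),
        List.map_append, List.sum_append]

section PF
variable {n : ℕ} (hb : BdAll R Y n) (h : Prim (Module.annihilator R X) (Module.annihilator R Y))
include hb h

theorem pf_zero (h0 : ∀ q : Ideal R, q.IsPrime → Module.annihilator R X ≤ q →
    chim R (R ⧸ q) Y n = 0) : chim R X Y n = 0 := by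
  obtain ⟨l, a, -, c⟩ := pfl (R := R) X
  rw [c Y n hb h]
  refine List.sum_eq_zero fun x hx => ?_
  obtain ⟨q, hq, rfl⟩ := List.mem_map.1 hx
  exact h0 q (a q hq).1 (a q hq).2

theorem pf_pos (h0 : ∀ q : Ideal R, q.IsPrime → Module.annihilator R X ≤ q →
    0 ≤ chim R (R ⧸ q) Y n) {P : Ideal R} (hP : P.IsPrime) (hX : Module.annihilator R X ≤ P)
    (h1 : ∀ q : Ideal R, q.IsPrime → Module.annihilator R X ≤ q → q ≤ P →
      0 < chim R (R ⧸ q) Y n) : 0 < chim R X Y n := by
  obtain ⟨l, a, b, c⟩ := pfl (R := R) X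
  rw [c Y n hb h]
  obtain ⟨q, hq, hqP⟩ := (hP.multiset_prod_le (s := (l : Multiset (Ideal R)))).1
    (by rw [Multiset.prod_coe]; exact b.trans hX)
  rw [Multiset.mem_coe] at hq
  refine (h1 q (a q hq).1 (a q hq).2 hqP).trans_le
    (List.single_le_sum (fun x hx => ?_) _ (List.mem_map.2 ⟨q, hq, rfl⟩))
  obtain ⟨q, hq, rfl⟩ := List.mem_map.1 hx
  exact h0 q (a q hq).1 (a q hq).2

theorem pf_mul {P : Ideal R} (hP : P.IsPrime) {κ : ℕ} (h1 : P ^ κ ≤ Module.annihilator R X)
    (h2 : Module.annihilator R X ≤ P)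
    (h0 : ∀ q : Ideal R, q.IsPrime → P < q → chim R (R ⧸ q) Y n = 0) :
    ∃ m : ℕ, 0 < m ∧ chim R X Y n = m * chim R (R ⧸ P) Y n := by
  classical
  obtain ⟨l, a, b, c⟩ := pfl (R := R) X
  rw [c Y n hb h]
  obtain ⟨q, hq, hqP⟩ := (hP.multiset_prod_le (s := (l : Multiset (Ideal R)))).1
    (by rw [Multiset.prod_coe]; exact b.trans h2)
  rw [Multiset.mem_coe] at hq
  have a' : ∀ q ∈ l, q.IsPrime ∧ P ≤ q := fun q hq =>
    ⟨(a q hq).1, (a q hq).1.le_of_pow_le (h1.trans (a q hq).2)⟩
  obtain rfl : q = P := le_antisymm hqP (a' q hq).2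
  refine ⟨l.count q, List.count_pos_iff.2 hq, ?_⟩
  clear hq a b c
  induction l with
  | nil => simp
  | cons p l ih =>
    rw [List.map_cons, List.sum_cons, ih fun r hr => a' r (List.mem_cons_of_mem _ hr)]
    obtain ⟨hp, hqp⟩ := a' p List.mem_cons_self
    rcases hqp.eq_or_lt with rfl | hlt
    · rw [List.count_cons_self]
      push_cast
      ring
    · rw [h0 p hp hlt, List.count_cons_of_ne hlt.ne', zero_add]

end PF

end Local

theorem kos_reduce {Λ : Type} [CommRing Λ] [IsLocalRing Λ] [IsNoetherianRing Λ] {n : ℕ}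
    {I : Ideal Λ} (hb : BdAll Λ (Λ ⧸ I) n)
    (H : ∀ q : Ideal Λ, q.IsPrime → Prim I q →
      (Dl q n → chim Λ (Λ ⧸ I) (Λ ⧸ q) n = 0) ∧ (¬ Dl q n → 0 < chim Λ (Λ ⧸ I) (Λ ⧸ q) n))
    (X : Type) [AddCommGroup X] [Module Λ X] [Module.Finite Λ X]
    (h : Prim I (Module.annihilator Λ X)) :
    (Dl (Module.annihilator Λ X) n → chim Λ (Λ ⧸ I) X n = 0) ∧
      (¬ Dl (Module.annihilator Λ X) n → 0 < chim Λ (Λ ⧸ I) X n) := by
  have h' : Prim (Module.annihilator Λ X) (Module.annihilator Λ (Λ ⧸ I)) := by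
    rw [Ideal.annihilator_quotient]
    exact h.symm
  simp only [chim_symm (M := Λ ⧸ I)] at H ⊢
  refine ⟨fun hd => pf_zero hb h' fun q hq hle =>
    (H q hq (h.mono le_rfl hle)).1 (hd.mono hle le_rfl), fun hd => ?_⟩
  obtain ⟨P, hP, hle, hdim⟩ := exists_prime_dim (I := Module.annihilator Λ X)
    fun e => hd ((dl_zero_iff.2 e).mono le_rfl (Nat.zero_le _))
  refine pf_pos hb h' (fun q hq hle => ?_) hP hle fun q hq hle hqP =>
    (H q hq (h.mono le_rfl hle)).2 fun hd' => hd ?_
  · by_cases hd' : Dl q n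
    · exact ((H q hq (h.mono le_rfl hle)).1 hd').ge
    · exact ((H q hq (h.mono le_rfl hle)).2 hd').le
  · have := hd'.mono hqP le_rfl
    rwa [Dl, hdim] at this

theorem kos_zero {Λ : Type} [CommRing Λ] [IsLocalRing Λ] :
    0 < chim Λ (Λ ⧸ Ideal.ofList ([] : List Λ)) (Λ ⧸ maximalIdeal Λ) 0 := by
  obtain ⟨e⟩ := T_zero (O := Λ) (M := Λ) (N := Λ ⧸ maximalIdeal Λ)
  have : IsSimpleModule Λ (Λ ⧸ maximalIdeal Λ) :=
    isSimpleModule_iff_isCoatom.2 (maximalIdeal.isMaximal Λ).out
  rw [chim_congr (Submodule.quotEquivOfEqBot _ Ideal.ofList_nil) (LinearEquiv.refl _ _)]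
  simp only [chim, alt, zero_add, Finset.sum_range_one, tlm]
  rw [(e.trans (TensorProduct.lid Λ _)).length_eq, Module.length_eq_one]
  simp

theorem kos_succ {Λ : Type} [CommRing Λ] [IsLocalRing Λ] [IsNoetherianRing Λ] (vs : List Λ)
    (u : Λ) (hreg : IsWeaklyRegular Λ (vs ++ [u])) :
    chim Λ (Λ ⧸ Ideal.ofList (vs ++ [u])) (Λ ⧸ maximalIdeal Λ) (vs.length + 1) = 0 := by
  obtain ⟨h1, h2⟩ := (isWeaklyRegular_append_iff Λ vs [u]).1 hreg
  obtain ⟨g, δ, hles⟩ := T_les_reg (Λ ⧸ maximalIdeal Λ) ((isWeaklyRegular_singleton_iff _ u).1 h2)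
  have hp : ∀ I : Ideal Λ, Prim I (Module.annihilator Λ (Λ ⧸ maximalIdeal Λ)) := fun I =>
    ⟨1, by rw [Ideal.annihilator_quotient, pow_one]; exact le_sup_right⟩
  have hb := (bd_quot_ofList vs h1 (Λ ⧸ maximalIdeal Λ)).congr
    (Submodule.quotEquivOfEq _ (Ideal.ofList vs • ⊤ : Submodule Λ Λ) (by simp)) (LinearEquiv.refl _ _)
    (vs.length + 1) (Nat.lt_succ_self _)
  have := hles.euler (vs.length + 1) (fun i _ => tlm_ne_top (hp _) i)
    (fun i _ => tlm_ne_top (hp _) i) (fun i _ => tlm_ne_top (hp _) i)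
    fun _ _ _ => Subsingleton.elim _ _
  rw [chim_congr ((Submodule.quotEquivOfEq _ (Ideal.ofList (u :: vs) • ⊤ : Submodule Λ Λ)
    (by simp [sup_comm])).trans (Submodule.quotOfListConsSMulTopEquivQuotSMulTopOuter Λ u vs))
    (LinearEquiv.refl _ _)]
  exact left_eq_add.1 this

theorem kos_change {Λ : Type} [CommRing Λ] {u : Λ} (hu : IsSMulRegular Λ u) {q : Ideal Λ}
    (hq : q.IsPrime) (huq : u ∉ q) (I : Ideal Λ) :
    tlm Λ (Λ ⧸ (Ideal.span {u} ⊔ I)) (Λ ⧸ q) =
      tlm (Λ ⧸ Ideal.span {u}) ((Λ ⧸ Ideal.span {u}) ⧸ I.map (Ideal.Quotient.mk _))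
        ((Λ ⧸ Ideal.span {u}) ⧸ q.map (Ideal.Quotient.mk _)) := by
  have hq' : IsSMulRegular (Λ ⧸ q) u := by
    refine IsSMulRegular.of_right_eq_zero_of_smul fun x hx => ?_
    obtain ⟨x, rfl⟩ := Ideal.Quotient.mk_surjective x
    rw [Algebra.smul_def, Ideal.Quotient.algebraMap_eq, ← map_mul,
      Ideal.Quotient.eq_zero_iff_mem] at hx
    exact Ideal.Quotient.eq_zero_iff_mem.2 ((hq.mem_or_mem hx).resolve_left huq)
  let e := (Algebra.TensorProduct.quotIdealMapEquivTensorQuot (Λ ⧸ Ideal.span {u}) q).symm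
  let e' : ((Λ ⧸ Ideal.span {u}) ⧸ I.map (Ideal.Quotient.mk (Ideal.span {u}))) ≃ₐ[Λ]
      Λ ⧸ (Ideal.span {u} ⊔ I) := DoubleQuot.quotQuotEquivQuotSupₐ Λ (Ideal.span {u}) I
  rw [tlm_congr e'.symm.toLinearEquiv (LinearEquiv.refl _ _)]
  funext i
  exact (T_change (e.toLinearEquiv.toLinearMap.restrictScalars Λ ∘ₗ TensorProduct.mk Λ _ _ 1)
    (IsBaseChange.of_equiv e.toLinearEquiv fun _ => rfl) (bd_quot_zero hu hq') i).length_eq
    (RS.of_surjective Ideal.Quotient.mk_surjective)

/-- KOSZUL LEMMA.  Induct on `n` for all `(Λ, us, X)`.  By `chim_symm`, `pf_zero`, `pf_pos` (second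
module `Λ/us`, bound `bd_quot_ofList`; `exists_prime_dim`) reduce to `X = Λ/q`, `q` prime.
If all `us ⊆ q` then `q = 𝔪`: for `n = 0` the value is `len (Λ ⊗ k) = 1`; for `n > 0` write
`us = us' ++ [u]` (or permute) and use `T_les_reg`/`LES.euler` for `0 → Λ/us' → Λ/us' → Λ/us → 0`
against `k`: the value is `0`.  Otherwise permute (`IsLocalRing.isWeaklyRegular_of_perm_of_subset_maximalIdeal`)
so that `u = head ∉ q`; `T_change` along `Λ → Λ/u` (`bd_quot_zero`), `dim` drops by exactly one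
(`ringKrullDim_quotient_span_singleton_succ_eq_ringKrullDim`). -/
theorem koszul (n : ℕ) (Λ : Type) [CommRing Λ] [IsLocalRing Λ] [IsNoetherianRing Λ] (us : List Λ)
    (hl : us.length = n) (hm : ∀ u ∈ us, u ∈ maximalIdeal Λ) (hreg : IsWeaklyRegular Λ us)
    (X : Type) [AddCommGroup X] [Module Λ X] [Module.Finite Λ X]
    (h : Prim (Ideal.ofList us) (Module.annihilator Λ X)) :
    (Dl (Module.annihilator Λ X) n → chim Λ (Λ ⧸ Ideal.ofList us) X n = 0) ∧
      (¬ Dl (Module.annihilator Λ X) n → 0 < chim Λ (Λ ⧸ Ideal.ofList us) X n) := by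
  induction n generalizing Λ us X with
  | zero =>
    obtain rfl := List.length_eq_zero_iff.1 hl
    refine kos_reduce (fun Z _ _ _ => (bd_quot_ofList [] hreg Z).symm) (fun q hq ⟨L, hL⟩ => ?_) X h
    rw [Ideal.ofList_nil, bot_sup_eq] at hL
    obtain rfl := (maximalIdeal.isMaximal Λ).eq_of_le hq.ne_top (hq.le_of_pow_le hL)
    exact ⟨fun hd => absurd (dl_zero_iff.1 hd) hq.ne_top, fun _ => kos_zero⟩
  | succ n ih =>
    refine kos_reduce (fun Z _ _ _ => hl ▸ (bd_quot_ofList us hreg Z).symm)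
      (fun q hq ⟨L, hL⟩ => ?_) X h
    by_cases hall : ∀ u ∈ us, u ∈ q
    · rw [sup_eq_right.2 (show Ideal.ofList us ≤ q from Ideal.span_le.2 hall)] at hL
      obtain rfl := (maximalIdeal.isMaximal Λ).eq_of_le hq.ne_top (hq.le_of_pow_le hL)
      refine ⟨fun _ => ?_, fun hd => absurd ((dl_one_iff.2 ⟨1, (pow_one _).le⟩).mono le_rfl
        (Nat.le_add_left _ _)) hd⟩
      obtain rfl | ⟨vs, u, rfl⟩ := us.eq_nil_or_concat'
      · exact absurd hl (by simp)
      · obtain rfl : vs.length = n := by simpa using hl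
        exact kos_succ vs u hreg
    push Not at hall
    obtain ⟨u, hu, huq⟩ := hall
    obtain ⟨s, t, rfl⟩ := List.append_of_mem hu
    have hreg' := IsLocalRing.isWeaklyRegular_of_perm_of_subset_maximalIdeal hreg List.perm_middle hm
    have hI : Ideal.ofList (s ++ u :: t) = Ideal.span {u} ⊔ Ideal.ofList (s ++ t) := by
      simp [sup_left_comm]
    have hlen : (s ++ t).length = n := by
      simp only [List.length_append, List.length_cons] at hl ⊢
      omega
    have hm' : ∀ v ∈ s ++ t, v ∈ maximalIdeal Λ := fun v hv =>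
      hm v (List.perm_middle.mem_iff.2 (List.mem_cons_of_mem _ hv))
    have hum := hm u hu
    rw [hI] at hL ⊢
    generalize s ++ t = vs at *
    have hnt : Nontrivial (Λ ⧸ Ideal.span {u}) := Ideal.Quotient.nontrivial_iff.2
      (ne_top_of_le_ne_top (maximalIdeal.isMaximal Λ).ne_top (Ideal.span_le.2 (by simpa using hum)))
    have hs := Ideal.Quotient.mk_surjective (I := Ideal.span {u})
    have hloc : IsLocalRing (Λ ⧸ Ideal.span {u}) := IsLocalRing.of_surjective' _ hs
    have hmax := IsLocalRing.map_maximalIdeal_of_surjective _ hs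
    have hrg := isWeaklyRegular_of_ker _ hs [u] vs (by simp) hreg'
    have hlen' : (vs.map (Ideal.Quotient.mk (Ideal.span {u}))).length = n := by simpa using hlen
    have key := ih (Λ ⧸ Ideal.span {u}) _ hlen' (fun v hv => by
        obtain ⟨v, hv', rfl⟩ := List.mem_map.1 hv
        exact hmax ▸ Ideal.mem_map_of_mem _ (hm' v hv')) hrg
      ((Λ ⧸ Ideal.span {u}) ⧸ q.map (Ideal.Quotient.mk _)) ⟨L, by
        have := Ideal.map_mono (f := Ideal.Quotient.mk (Ideal.span {u})) hL
        rwa [Ideal.map_pow, hmax, Ideal.map_sup, Ideal.map_sup, Ideal.map_quotient_self, bot_sup_eq,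
          Ideal.map_ofList, ← Ideal.annihilator_quotient (I := q.map _)] at this⟩
    have hdl : Dl (q.map (Ideal.Quotient.mk (Ideal.span {u}))) n ↔ Dl q (n + 1) := by
      rw [Dl, ringKrullDim_eq_of_ringEquiv (DoubleQuot.quotQuotEquivQuotSup _ q), sup_comm]
      refine ⟨fun hd => Dl.of_sup_list [u] (by simpa using hum) ?_,
        fun hd => Dl.of_prime_lt hq hd (left_lt_sup.2 (by simpa using huq))⟩
      rwa [Ideal.ofList_singleton]
    rw [Ideal.annihilator_quotient, hdl] at key
    rwa [chim, kos_change ((isWeaklyRegular_cons_iff _ _ _).1 hreg').1 hq huq, Ideal.map_ofList,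
      alt_of_le (Nat.le_succ n) fun i hi =>
        tlm_eq_zero_iff.2 (bd_quot_ofList _ hrg _ i (hlen' ▸ hi))]

/-! ### the statements to be proved -/

section Statements
variable (R : Type) [CommRing R] [IsLocalRing R]

/-- vanishing for primes, total dimension `< s` -/
def VanP (d s : ℕ) : Prop := ∀ P Q : Ideal R, P.IsPrime → Q.IsPrime → Prim P Q → ∀ a b : ℕ,
  ringKrullDim (R ⧸ P) = a → ringKrullDim (R ⧸ Q) = b → a + b < s → chim R (R ⧸ P) (R ⧸ Q) d = 0

/-- positivity for primes -/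
def PosP (d : ℕ) : Prop := ∀ P Q : Ideal R, P.IsPrime → Q.IsPrime → Prim P Q → ∀ a b : ℕ,
  ringKrullDim (R ⧸ P) = a → ringKrullDim (R ⧸ Q) = b → a + b = d → 0 < chim R (R ⧸ P) (R ⧸ Q) d

/-- vanishing for modules: `dim X < a`, `dim Y < b`, `a + b ≤ s + 1` -/
def VanM (d s : ℕ) : Prop := ∀ (X : Type) [AddCommGroup X] [Module R X] [Module.Finite R X]
  (Y : Type) [AddCommGroup Y] [Module R Y] [Module.Finite R Y],
  Prim (Module.annihilator R X) (Module.annihilator R Y) → ∀ a b : ℕ,
    Dl (Module.annihilator R X) a → Dl (Module.annihilator R Y) b → a + b ≤ s + 1 →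
      chim R X Y d = 0

/-- positivity for modules -/
def PosM (d : ℕ) : Prop := ∀ (X : Type) [AddCommGroup X] [Module R X] [Module.Finite R X]
  (Y : Type) [AddCommGroup Y] [Module R Y] [Module.Finite R Y],
  Prim (Module.annihilator R X) (Module.annihilator R Y) → ∀ a b : ℕ,
    ringKrullDim (R ⧸ Module.annihilator R X) = a → ringKrullDim (R ⧸ Module.annihilator R Y) = b →
      a + b = d → 0 < chim R X Y d

variable {R} [IsNoetherianRing R]

theorem regd_dim_le {I q : Ideal R} {a : ℕ} (h : Dl I (a + 1)) (hq : q.IsPrime) (hI : I ≤ q) :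
    ∃ a' ≤ a, ringKrullDim (R ⧸ q) = a' := by
  obtain ⟨a', ha'⟩ := exists_dim hq.ne_top
  exact ⟨a', Nat.lt_succ_iff.1 ((dl_iff_of_eq ha').1 (h.mono hI le_rfl)), ha'⟩

theorem regd_dim_eq {I q P : Ideal R} {a : ℕ} (h : Dl I (a + 1)) (hq : q.IsPrime) (hI : I ≤ q)
    (hqP : q ≤ P) (hP : ringKrullDim (R ⧸ P) = a) : ringKrullDim (R ⧸ q) = a := by
  obtain ⟨a', h1, h2⟩ := regd_dim_le h hq hI
  have h3 : a < a' + 1 :=
    (dl_iff_of_eq hP).1 (((dl_iff_of_eq h2).2 (Nat.lt_succ_self a')).mono hqP le_rfl)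
  rw [h2, show a' = a by omega]

omit [IsNoetherianRing R] in
theorem regd_prim {X Y : Type} [AddCommGroup X] [Module R X] [AddCommGroup Y] [Module R Y]
    (h : Prim (Module.annihilator R X) (Module.annihilator R Y)) {q : Ideal R}
    (hq : Module.annihilator R X ≤ q) :
    Prim (Module.annihilator R Y) (Module.annihilator R (R ⧸ q)) := by
  rw [Ideal.annihilator_quotient]
  exact h.symm.mono le_rfl hq

theorem regd_nonneg {X Y : Type} [AddCommGroup X] [Module R X] [Module.Finite R X] [AddCommGroup Y]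
    [Module R Y] [Module.Finite R Y] {n : ℕ} (hb : BdAll R Y n)
    (h : Prim (Module.annihilator R X) (Module.annihilator R Y))
    (h0 : ∀ q : Ideal R, q.IsPrime → Module.annihilator R X ≤ q → 0 ≤ chim R (R ⧸ q) Y n) :
    0 ≤ chim R X Y n := by
  obtain ⟨l, h1, -, h2⟩ := pfl (R := R) X
  rw [h2 Y n hb h]
  refine List.sum_nonneg fun z hz => ?_
  obtain ⟨q, hq, rfl⟩ := List.mem_map.1 hz
  exact h0 q (h1 q hq).1 (h1 q hq).2

/-- `pf_zero` twice (with `chim_symm`), `exists_dim`, `dl_iff_of_eq` -/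
theorem VanP.vanM {d s : ℕ} (hR : RegLoc R d) (h : VanP R d s) : VanM R d s := by
  intro X _ _ _ Y _ _ _ hp a b ha hb hab
  refine pf_zero (hR.bdAll Y) hp fun q hq hXq => ?_
  rw [chim_symm]
  refine pf_zero (hR.bdAll (R ⧸ q)) (regd_prim hp hXq) fun q' hq' hYq => ?_
  obtain ⟨a', ha'⟩ := exists_dim hq.ne_top
  obtain ⟨b', hb'⟩ := exists_dim hq'.ne_top
  have h1 := (dl_iff_of_eq ha').1 (ha.mono hXq le_rfl)
  have h2 := (dl_iff_of_eq hb').1 (hb.mono hYq le_rfl)
  exact h q' q hq' hq (hp.symm.mono hYq hXq) b' a' hb' ha' (by omega)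

/-- `pf_pos` twice, `exists_prime_dim` -/
theorem PosP.posM {d : ℕ} (hR : RegLoc R d) (h0 : VanP R d d) (h : PosP R d) : PosM R d := by
  intro X _ _ _ Y _ _ _ hp a b ha hb hab
  have da : Dl (Module.annihilator R X) (a + 1) := (dl_iff_of_eq ha).2 (Nat.lt_succ_self a)
  have db : Dl (Module.annihilator R Y) (b + 1) := (dl_iff_of_eq hb).2 (Nat.lt_succ_self b)
  obtain ⟨P, hP, hXP, hPa⟩ := exists_prime_dim (I := Module.annihilator R X) fun ht =>
    Nat.not_lt_zero a ((dl_iff_of_eq ha).1 (dl_zero_iff.2 ht))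
  obtain ⟨Q, hQ, hYQ, hQb⟩ := exists_prime_dim (I := Module.annihilator R Y) fun ht =>
    Nat.not_lt_zero b ((dl_iff_of_eq hb).1 (dl_zero_iff.2 ht))
  rw [ha] at hPa
  rw [hb] at hQb
  have nn : ∀ q q' : Ideal R, q.IsPrime → q'.IsPrime → Module.annihilator R X ≤ q →
      Module.annihilator R Y ≤ q' → 0 ≤ chim R (R ⧸ q') (R ⧸ q) d := by
    intro q q' hq hq' hXq hYq
    obtain ⟨a', h1, ha'⟩ := regd_dim_le da hq hXq
    obtain ⟨b', h2, hb'⟩ := regd_dim_le db hq' hYq
    rcases (show b' + a' < d ∨ b' + a' = d by omega) with h3 | h3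
    · exact (h0 q' q hq' hq (hp.symm.mono hYq hXq) b' a' hb' ha' h3).ge
    · exact (h q' q hq' hq (hp.symm.mono hYq hXq) b' a' hb' ha' h3).le
  refine pf_pos (hR.bdAll Y) hp (fun q hq hXq => ?_) hP hXP fun q hq hXq hqP => ?_
  · rw [chim_symm]
    exact regd_nonneg (hR.bdAll (R ⧸ q)) (regd_prim hp hXq) fun q' hq' hYq =>
      nn q q' hq hq' hXq hYq
  · rw [chim_symm]
    refine pf_pos (hR.bdAll (R ⧸ q)) (regd_prim hp hXq) (fun q' hq' hYq => nn q q' hq hq' hXq hYq)
      hQ hYQ fun q' hq' hYq hqQ => ?_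
    exact h q' q hq' hq (hp.symm.mono hYq hXq) b a (regd_dim_eq db hq' hYq hqQ hQb)
      (regd_dim_eq da hq hXq hqP hPa) (by omega)

/-- one of the primes is the maximal ideal: `koszul` with the regular parameters -/
theorem case_max {d : ℕ} (hR : RegLoc R d) {P : Ideal R} {a : ℕ} (ha : ringKrullDim (R ⧸ P) = a) :
    (a < d → chim R (R ⧸ maximalIdeal R) (R ⧸ P) d = 0) ∧
      (a = d → 0 < chim R (R ⧸ maximalIdeal R) (R ⧸ P) d) := by
  obtain ⟨xs, hl, hreg, hx⟩ := hR
  have hk := koszul d R xs hl (fun u hu => hx ▸ Ideal.subset_span hu) hreg (R ⧸ P)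
    ⟨1, by rw [pow_one, hx]; exact le_sup_left⟩
  rw [Ideal.annihilator_quotient, dl_iff_of_eq ha, hx] at hk
  exact ⟨hk.1, fun h => hk.2 (by omega)⟩

/-- `T_flat_bc`, `IsLocalRing.length_baseChange`, `alt_mul`;
`Algebra.TensorProduct.quotIdealMapEquivTensorQuot` for the base changes. -/
theorem chim_flat {S : Type} [CommRing S] [IsLocalRing S] (σ : R →+* S) (hσ : σ.Flat)
    (hl : (maximalIdeal R).map σ ≤ maximalIdeal S) (I J : Ideal R) (n : ℕ) :
    chim S (S ⧸ I.map σ) (S ⧸ J.map σ) n = chim R (R ⧸ I) (R ⧸ J) n *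
      ((Module.length S (S ⧸ (maximalIdeal R).map σ)).toNat : ℤ) := by
  let _ : Algebra R S := σ.toAlgebra
  have : Module.Flat R S := hσ
  have : IsLocalHom (algebraMap R S) := ((IsLocalRing.local_hom_TFAE σ).out 0 2).2 hl
  have e := chim_congr (Algebra.TensorProduct.quotIdealMapEquivTensorQuot S I).toLinearEquiv
    (Algebra.TensorProduct.quotIdealMapEquivTensorQuot S J).toLinearEquiv n
  refine e.trans (alt_mul _ fun i _ => ?_)
  obtain ⟨f⟩ := T_flat_bc _ (TensorProduct.isBaseChange R (R ⧸ I) S) _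
    (TensorProduct.isBaseChange R (R ⧸ J) S) i
  exact f.length_eq.trans (IsLocalRing.length_baseChange R S _)

/-- FLAT DESCENT of the theorem (`chim_flat`, `dim_map_flat`, `VanP.vanM`, `PosP.posM`) -/
theorem descent {S : Type} [CommRing S] [IsLocalRing S] [IsNoetherianRing S] (σ : R →+* S)
    (hσ : σ.Flat) (hl : (maximalIdeal R).map σ = maximalIdeal S) {d : ℕ} (hS : RegLoc S d)
    (h0 : VanP S d d) (h1 : PosP S d) : VanP R d d ∧ PosP R d := by
  have key : ∀ I J : Ideal R,
      chim S (S ⧸ I.map σ) (S ⧸ J.map σ) d = chim R (R ⧸ I) (R ⧸ J) d := fun I J => by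
    have : IsSimpleModule S (S ⧸ maximalIdeal S) :=
      isSimpleModule_iff_isCoatom.2 (Ideal.isMaximal_def.1 inferInstance)
    rw [chim_flat σ hσ hl.le, hl, Module.length_eq_one]
    simp
  have hp : ∀ {I J : Ideal R}, Prim I J →
      Prim (Module.annihilator S (S ⧸ I.map σ)) (Module.annihilator S (S ⧸ J.map σ)) := by
    rintro I J ⟨L, hL⟩
    rw [Ideal.annihilator_quotient, Ideal.annihilator_quotient]
    refine ⟨L, ?_⟩
    rw [← hl, ← Ideal.map_pow, ← Ideal.map_sup]
    exact Ideal.map_mono hL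
  have hd : ∀ {I : Ideal R} {a : ℕ}, ringKrullDim (R ⧸ I) = a →
      ringKrullDim (S ⧸ Module.annihilator S (S ⧸ I.map σ)) = a := by
    intro I a ha
    rw [Ideal.annihilator_quotient, dim_map_flat σ hσ hl, ha]
  constructor
  · intro P Q _ _ hPQ a b ha hb hab
    rw [← key]
    exact h0.vanM hS _ _ (hp hPQ) (a + 1) (b + 1) ((dl_iff_of_eq (hd ha)).2 (Nat.lt_succ_self a))
      ((dl_iff_of_eq (hd hb)).2 (Nat.lt_succ_self b)) (by omega)
  · intro P Q _ _ hPQ a b ha hb hab
    rw [← key]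
    exact h1.posM hS h0 _ _ (hp hPQ) a b (hd ha) (hd hb) hab

end Statements

end Crest.Agent.R188
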