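import Crest.Agent.R188.KL
import Crest.Agent.R188.Reg

/-! # R188 / RingT : pushouts of rings, `Tor` of ring maps, almost-factorisations, ring form of the key
lemma. -/

set_option autoImplicit false
open TensorProduct IsLocalRing RingTheory.Sequence Crest.Agent.R183

namespace Crest.Agent.R188

/-! ### pushouts -/

/-- `D = B ⊗_A C` -/
def IsPO {A B C D : Type} [CommRing A] [CommRing B] [CommRing C] [CommRing D] (f : A →+* B)
    (g : A →+* C) (i : B →+* D) (j : C →+* D) : Prop :=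
  CategoryTheory.IsPushout (CommRingCat.ofHom f) (CommRingCat.ofHom g) (CommRingCat.ofHom i)
    (CommRingCat.ofHom j)

section PO
variable {A B C D C' D' E : Type} [CommRing A] [CommRing B] [CommRing C] [CommRing D] [CommRing C']
  [CommRing D'] [CommRing E] {f : A →+* B} {g : A →+* C} {i : B →+* D} {j : C →+* D}

theorem IsPO.comm (h : IsPO f g i j) (a : A) : i (f a) = j (g a) := by
  have := (CategoryTheory.IsPushout.toCommSq h).w
  exact congrArg (fun φ => φ.hom a) this

theorem IsPO.lift (h : IsPO f g i j) (u : B →+* E) (v : C →+* E) (huv : ∀ a, u (f a) = v (g a)) :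
    ∃ w : D →+* E, (∀ b, w (i b) = u b) ∧ ∀ c, w (j c) = v c := by
  obtain ⟨d, h1, h2⟩ := CategoryTheory.IsPushout.exists_desc h (CommRingCat.ofHom u)
    (CommRingCat.ofHom v) (CommRingCat.hom_ext (RingHom.ext huv))
  exact ⟨d.hom, fun b => congrArg (fun φ => φ.hom b) h1, fun c => congrArg (fun φ => φ.hom c) h2⟩

theorem IsPO.ext (h : IsPO f g i j) {w w' : D →+* E} (h1 : ∀ b, w (i b) = w' (i b))
    (h2 : ∀ c, w (j c) = w' (j c)) : w = w' := by
  have := CategoryTheory.IsPushout.hom_ext h (k := CommRingCat.ofHom w) (l := CommRingCat.ofHom w')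
    (CommRingCat.hom_ext (RingHom.ext h1)) (CommRingCat.hom_ext (RingHom.ext h2))
  exact congrArg (fun φ => φ.hom) this

theorem IsPO.symm (h : IsPO f g i j) : IsPO g f j i := by
  exact CategoryTheory.IsPushout.flip h

theorem IsPO.paste (h : IsPO f g i j) {g' : C →+* C'} {i' : D →+* D'} {j' : C' →+* D'}
    (h' : IsPO j g' i' j') : IsPO f (g'.comp g) (i'.comp i) j' := by
  exact CategoryTheory.IsPushout.paste_vert h h'

theorem IsPO.cancel (h : IsPO f g i j) {g' : C →+* C'} {i' : D →+* D'} {j' : C' →+* D'}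
    (h' : IsPO f (g'.comp g) (i'.comp i) j') (hc : ∀ c, i' (j c) = j' (g' c)) :
    IsPO j g' i' j' := by
  exact CategoryTheory.IsPushout.of_top (v₁₁ := CommRingCat.ofHom g) (v₁₂ := CommRingCat.ofHom i)
    (v₂₁ := CommRingCat.ofHom g') (v₂₂ := CommRingCat.ofHom i') h'
    (CommRingCat.hom_ext (RingHom.ext hc)) h

theorem exists_po (f : A →+* B) (g : A →+* C) :
    ∃ (D : Type) (_ : CommRing D) (i : B →+* D) (j : C →+* D), IsPO f g i j := by
  let _ := f.toAlgebra
  let _ := g.toAlgebra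
  exact ⟨B ⊗[A] C, inferInstance, _, _, CommRingCat.isPushout_tensorProduct A B C⟩

/-- `CommRingCat.isPushout_iff_isPushout` -/
theorem isPO_iff [Algebra A B] [Algebra A C] [Algebra B D] [Algebra C D] [Algebra A D]
    [IsScalarTower A B D] [IsScalarTower A C D] :
    IsPO (algebraMap A B) (algebraMap A C) (algebraMap B D) (algebraMap C D) ↔
      Algebra.IsPushout A B C D := by
  exact CommRingCat.isPushout_iff_isPushout

theorem IsPO.rta_stable (h : IsPO f g i j)
    {P : ∀ {R S : Type} [CommRing R] [CommRing S], (R →+* S) → Prop}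
    (hP : RingHom.IsStableUnderBaseChange P) (hf : P f) : P j := by
  let _ := f.toAlgebra
  let _ := g.toAlgebra
  let _ := i.toAlgebra
  let _ := j.toAlgebra
  let _ := (i.comp f).toAlgebra
  have : IsScalarTower A B D := .of_algebraMap_eq fun _ => rfl
  have : IsScalarTower A C D := .of_algebraMap_eq fun a => h.comm a
  have : Algebra.IsPushout A B C D := isPO_iff.1 h
  exact hP A B C D hf

theorem IsPO.flat (h : IsPO f g i j) (hf : f.Flat) : j.Flat := by
  exact h.rta_stable RingHom.Flat.isStableUnderBaseChange hf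

theorem IsPO.finite (h : IsPO f g i j) (hf : f.Finite) : j.Finite := by
  exact h.rta_stable RingHom.finite_isStableUnderBaseChange hf

theorem IsPO.surj (h : IsPO f g i j) (hf : Function.Surjective f) :
    Function.Surjective j ∧ RingHom.ker j = (RingHom.ker f).map g := by
  refine ⟨h.rta_stable RingHom.surjective_isStableUnderBaseChange hf, le_antisymm ?_ ?_⟩
  · have hle : RingHom.ker f ≤
        RingHom.ker ((Ideal.Quotient.mk ((RingHom.ker f).map g)).comp g) := fun a ha =>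
      Ideal.Quotient.eq_zero_iff_mem.2 (Ideal.mem_map_of_mem g ha)
    obtain ⟨w, -, hw⟩ := h.lift (f.liftOfSurjective hf ⟨_, hle⟩)
      (Ideal.Quotient.mk ((RingHom.ker f).map g))
      fun a => RingHom.liftOfSurjective_comp_apply f hf _ a
    intro c hc
    rw [← Ideal.Quotient.eq_zero_iff_mem, ← hw, RingHom.mem_ker.1 hc, map_zero]
  · rw [Ideal.map_le_iff_le_comap]
    intro a ha
    rw [Ideal.mem_comap, RingHom.mem_ker, ← h.comm, RingHom.mem_ker.1 ha, map_zero]

theorem IsPO.of_surj (hf : Function.Surjective f) (hj : Function.Surjective j)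
    (hc : ∀ a, i (f a) = j (g a)) (hk : RingHom.ker j = (RingHom.ker f).map g) : IsPO f g i j := by
  refine CategoryTheory.IsPushout.mk' (CommRingCat.hom_ext (RingHom.ext hc)) ?_ ?_
  · intro T φ φ' _ h2
    refine CommRingCat.hom_ext (RingHom.ext fun d => ?_)
    obtain ⟨c, rfl⟩ := hj d
    exact congrArg (fun ψ => ψ.hom c) h2
  · intro T a b hab
    have hab' : ∀ x, a.hom (f x) = b.hom (g x) := fun x => congrArg (fun ψ => ψ.hom x) hab
    have hle : RingHom.ker j ≤ RingHom.ker b.hom := by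
      rw [hk, Ideal.map_le_iff_le_comap]
      intro x hx
      rw [Ideal.mem_comap, RingHom.mem_ker, ← hab', RingHom.mem_ker.1 hx, map_zero]
    have hl := RingHom.liftOfSurjective_comp_apply j hj ⟨b.hom, hle⟩
    refine ⟨CommRingCat.ofHom (j.liftOfSurjective hj ⟨b.hom, hle⟩),
      CommRingCat.hom_ext (RingHom.ext fun y => ?_), CommRingCat.hom_ext (RingHom.ext hl)⟩
    obtain ⟨x, rfl⟩ := hf y
    exact (congrArg _ (hc x)).trans ((hl _).trans (hab' x).symm)

/-- `D` is generated by the two images -/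
theorem IsPO.induction (h : IsPO f g i j) (S : Subring D) (h1 : ∀ b, i b ∈ S) (h2 : ∀ c, j c ∈ S) :
    S = ⊤ := by
  rw [← top_le_iff, ← CommRingCat.closure_range_union_range_eq_top_of_isPushout h,
    Subring.closure_le]
  rintro _ (⟨b, rfl⟩ | ⟨c, rfl⟩)
  · exact h1 b
  · exact h2 c

/-- over a field, `b ⊗ c ≠ 0` -/
theorem IsPO.mul_ne_zero (h : IsPO f g i j) (hA : IsField A) {b : B} {c : C} (hb : b ≠ 0)
    (hc : c ≠ 0) : i b * j c ≠ 0 := by
  let _ := f.toAlgebra
  let _ := g.toAlgebra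
  let _ := i.toAlgebra
  let _ := j.toAlgebra
  let _ := (i.comp f).toAlgebra
  have : IsScalarTower A B D := .of_algebraMap_eq fun _ => rfl
  have : IsScalarTower A C D := .of_algebraMap_eq fun a => h.comm a
  have : Algebra.IsPushout A B C D := isPO_iff.1 h
  have h1 : ∃ φ : B →ₗ[A] A, φ b = 1 := by
    let _ := hA.toField
    exact Module.Projective.exists_dual_eq_one A hb
  have h2 : ∃ φ : C →ₗ[A] A, φ c = 1 := by
    let _ := hA.toField
    exact Module.Projective.exists_dual_eq_one A hc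
  obtain ⟨φ, hφ⟩ := h1
  obtain ⟨ψ, hψ⟩ := h2
  intro h0
  have h3 : b ⊗ₜ[A] c = 0 := (Algebra.IsPushout.equiv A B C D).injective (by
    rw [Algebra.IsPushout.equiv_tmul, map_zero]; exact h0)
  have h4 := congrArg (fun x => TensorProduct.lid A A (TensorProduct.map φ ψ x)) h3
  simp only [TensorProduct.map_tmul, hφ, hψ, TensorProduct.lid_tmul, map_zero, one_smul] at h4
  have := hA.nontrivial
  exact one_ne_zero h4

/-- `C⟦X⟧ ⊗_C M = M⟦X⟧` for `M` finite over a Noetherian `C`.  (`isPO_iff`; the map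
`(ι → C) ⊗ M → (ι → M)` is bijective for finitely presented `M`: look for
`TensorProduct.piScalarRight`/`piRightHom`, `Module.FinitePresentation` lemmas, or argue with a
presentation `C^r → C^s → M → 0`, coefficientwise.) -/
theorem isPO_ps [IsNoetherianRing A] (n : ℕ) (β : A →+* B) (hβ : β.Finite) :
    IsPO (MvPowerSeries.C : A →+* PS n A) β (MvPowerSeries.map (σ := Fin n) β)
      (MvPowerSeries.C : B →+* PS n B) := by
  letI := β.toAlgebra
  haveI : Module.Finite A B := hβ
  haveI : IsScalarTower A (PS n A) (PS n B) := IsScalarTower.of_algebraMap_eq fun a => by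
    rw [MvPowerSeries.algebraMap_apply'', MvPowerSeries.algebraMap_apply,
      MvPowerSeries.algebraMap_apply, MvPowerSeries.map_C]
    rfl
  refine (isPO_iff (A := A) (B := PS n A) (C := B) (D := PS n B)).2
    (Algebra.IsPushout.symm ⟨?_⟩)
  obtain ⟨r, m, hm⟩ := Module.Finite.exists_fin (R := A) (M := B)
  set L : B ⊗[A] PS n A →ₗ[A] PS n B := TensorProduct.lift
    (((Algebra.linearMap B <| Module.End B (PS n A →ₗ[A] PS n B)).flip
      (IsScalarTower.toAlgHom A (PS n A) (PS n B)).toLinearMap).restrictScalars A) with hL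
  have hLc : ∀ (g : Fin r → PS n A) μ, MvPowerSeries.coeff μ (L (∑ i, m i ⊗ₜ g i)) =
      ∑ i, MvPowerSeries.coeff μ (g i) • m i := fun g μ => by
    rw [map_sum, map_sum]
    refine Finset.sum_congr rfl fun i _ => ?_
    have : L (m i ⊗ₜ g i) = m i • MvPowerSeries.map (algebraMap A B) (g i) := by
      simp [hL, MvPowerSeries.algebraMap_apply'']
    rw [this, MvPowerSeries.coeff_smul, MvPowerSeries.coeff_map, Algebra.smul_def, mul_comm]
  have hgen : ∀ b : B, ∃ c : Fin r → A, ∑ i, c i • m i = b := fun b => by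
    rw [← Submodule.mem_span_range_iff_exists_fun, hm]; trivial
  show Function.Bijective L
  constructor
  · rw [injective_iff_map_eq_zero]
    intro x hx
    obtain ⟨g, rfl⟩ : ∃ g : Fin r → PS n A, x = ∑ i, m i ⊗ₜ g i := by
      clear hx
      induction x with
      | zero => exact ⟨0, by simp⟩
      | add x y hx hy =>
        obtain ⟨g, rfl⟩ := hx
        obtain ⟨g', rfl⟩ := hy
        exact ⟨g + g', by simp [tmul_add, Finset.sum_add_distrib]⟩
      | tmul b y =>
        obtain ⟨c, rfl⟩ := hgen b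
        exact ⟨fun i => c i • y, by simp [sum_tmul, smul_tmul]⟩
    let φ : (Fin r → A) →ₗ[A] B := Fintype.linearCombination A m
    obtain ⟨k, v, hv⟩ := Submodule.fg_iff_exists_fin_generating_family.1
      (IsNoetherian.noetherian (LinearMap.ker φ))
    have h1 : ∀ μ, ∃ c : Fin k → A, ∑ j, c j • v j = fun i => MvPowerSeries.coeff μ (g i) :=
      fun μ => by
        rw [← Submodule.mem_span_range_iff_exists_fun, hv, LinearMap.mem_ker,
          Fintype.linearCombination_apply, ← hLc, hx, map_zero]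
    choose c hc using h1
    let c' : Fin k → PS n A := fun j μ => c μ j
    have e : ∀ i, g i = ∑ j, v j i • c' j := fun i => by
      ext μ
      rw [map_sum, ← congrFun (hc μ) i, Finset.sum_apply]
      refine Finset.sum_congr rfl fun j _ => ?_
      rw [Pi.smul_apply, smul_eq_mul, MvPowerSeries.coeff_smul, mul_comm]
      rfl
    simp only [e, tmul_sum, ← smul_tmul]
    rw [Finset.sum_comm]
    refine Finset.sum_eq_zero fun j _ => ?_
    have h2 : v j ∈ LinearMap.ker φ := hv ▸ Submodule.subset_span ⟨j, rfl⟩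
    rw [LinearMap.mem_ker, Fintype.linearCombination_apply] at h2
    rw [← sum_tmul, h2, zero_tmul]
  · intro h
    choose c hc using fun μ => hgen (MvPowerSeries.coeff μ h)
    refine ⟨∑ i, m i ⊗ₜ (show PS n A from fun μ => c μ i), ?_⟩
    ext μ
    rw [hLc, ← hc μ]
    rfl

theorem flat_reg (hf : f.Flat) {z : A} (hz : ∀ y, z * y = 0 → y = 0) (y : B) (h : f z * y = 0) :
    y = 0 := by
  let _ := f.toAlgebra
  have : Module.Flat A B := hf
  have h1 : IsSMulRegular A z := fun a b hab => sub_eq_zero.1 (hz _ (by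
    rw [mul_sub]; exact sub_eq_zero.2 hab))
  exact (h1.of_flat (S := B)) (h.trans (mul_zero _).symm)

theorem flat_regular (hf : f.Flat) {zs : List A} (hz : IsWeaklyRegular A zs) :
    IsWeaklyRegular B (zs.map f) := by
  let _ := f.toAlgebra
  have : Module.Flat A B := hf
  exact hz.of_flat

end PO

/-! ### `Tor` of ring maps -/

section TL
variable {O X Y X' Y' : Type} [CommRing O] [CommRing X] [CommRing Y] [CommRing X'] [CommRing Y']

/-- length of `Tor_i^O(X, Y)` -/
noncomputable def tl (f : O →+* X) (g : O →+* Y) (i : ℕ) : ℕ∞ :=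
  letI := f.toAlgebra
  letI := g.toAlgebra
  tlm O X Y i

/-- `w` kills `Tor_i^O(X, Y)` -/
def tk (f : O →+* X) (g : O →+* Y) (i : ℕ) (w : O) : Prop :=
  letI := f.toAlgebra
  letI := g.toAlgebra
  ∀ x : T O X Y i, w • x = 0

noncomputable def chi (f : O →+* X) (g : O →+* Y) (n : ℕ) : ℤ := alt (tl f g) n

theorem tl_algebraMap [Algebra O X] [Algebra O Y] :
    tl (algebraMap O X) (algebraMap O Y) = tlm O X Y := by
  funext i
  rename_i a b
  unfold tl
  rw [toAlgebra_algebraMap, toAlgebra_algebraMap]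

theorem chi_algebraMap [Algebra O X] [Algebra O Y] (n : ℕ) :
    chi (algebraMap O X) (algebraMap O Y) n = chim O X Y n := by
  rw [chi, tl_algebraMap, chim]

theorem chi_mk (I J : Ideal O) (n : ℕ) :
    chi (Ideal.Quotient.mk I) (Ideal.Quotient.mk J) n = chim O (O ⧸ I) (O ⧸ J) n :=
  chi_algebraMap (O := O) (X := O ⧸ I) (Y := O ⧸ J) n

theorem tl_symm (f : O →+* X) (g : O →+* Y) : tl f g = tl g f := by
  letI := f.toAlgebra
  letI := g.toAlgebra
  exact tlm_symm (O := O) (M := X) (N := Y)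

theorem chi_symm (f : O →+* X) (g : O →+* Y) (n : ℕ) : chi f g n = chi g f n := by
  rw [chi, tl_symm, chi]

theorem tk_symm {f : O →+* X} {g : O →+* Y} {i : ℕ} {w : O} (h : tk f g i w) : tk g f i w := by
  letI := f.toAlgebra
  letI := g.toAlgebra
  obtain ⟨e⟩ := T_symm (O := O) (M := X) (N := Y) i
  intro x
  obtain ⟨y, rfl⟩ := e.surjective x
  rw [← map_smul, h y, map_zero]

theorem tl_ker {f : O →+* X} {f' : O →+* X'} (hf : Function.Surjective f)
    (hf' : Function.Surjective f') (hk : RingHom.ker f = RingHom.ker f') (g : O →+* Y) :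
    tl f g = tl f' g := by
  letI := f.toAlgebra
  letI := f'.toAlgebra
  letI := g.toAlgebra
  have hk' : LinearMap.ker (Algebra.linearMap O X) = LinearMap.ker (Algebra.linearMap O X') := by
    ext x
    exact (SetLike.ext_iff.1 hk x :)
  have e : X ≃ₗ[O] X' := ((Algebra.linearMap O X).quotKerEquivOfSurjective hf).symm ≪≫ₗ
    Submodule.quotEquivOfEq _ _ hk' ≪≫ₗ (Algebra.linearMap O X').quotKerEquivOfSurjective hf'
  exact tlm_congr e (LinearEquiv.refl O Y)

theorem tl_flat {f : O →+* X} (hf : f.Flat) (g : O →+* Y) (i : ℕ) : tl f g (i + 1) = 0 := by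
  letI := f.toAlgebra
  letI := g.toAlgebra
  haveI : Module.Flat O X := hf
  exact tlm_eq_zero_iff.2 (T_flat i)

/-- `T_change`, `SEq.length_eq` -/
theorem tl_push {B : Type} [CommRing B] {σ : O →+* B} {g : O →+* Y} {g' : B →+* Y'} {j : Y →+* Y'}
    (h : IsPO σ g g' j) (hac : ∀ i, tl σ g (i + 1) = 0) (hσ : RS σ) (f : B →+* X) :
    tl (f.comp σ) g = tl f g' := by
  letI := σ.toAlgebra
  letI := g.toAlgebra
  letI := g'.toAlgebra
  letI := j.toAlgebra
  letI := f.toAlgebra
  letI := (f.comp σ).toAlgebra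
  letI := (g'.comp σ).toAlgebra
  haveI : IsScalarTower O B X := IsScalarTower.of_algebraMap_eq fun _ => rfl
  haveI : IsScalarTower O B Y' := IsScalarTower.of_algebraMap_eq fun _ => rfl
  haveI : IsScalarTower O Y Y' := IsScalarTower.of_algebraMap_eq fun a => h.comm a
  have hp := (isPO_iff (A := O) (B := B) (C := Y) (D := Y')).1 h
  funext i
  refine (T_change (A := O) (B := B) (X := X) _ hp.out (fun k hk => ?_) i).length_eq hσ
  obtain ⟨k, rfl⟩ : ∃ l, k = l + 1 := ⟨k - 1, by omega⟩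
  exact tlm_eq_zero_iff.1 (hac k)

theorem tk_of_mem_ker {f : O →+* X} {g : O →+* Y} (i : ℕ) {w : O} (hw : g w = 0) : tk f g i w := by
  letI := f.toAlgebra
  letI := g.toAlgebra
  refine T_kill_right (Module.mem_annihilator.2 fun y => ?_) i
  rw [Algebra.smul_def, show algebraMap O Y w = g w from rfl, hw, zero_mul]

/-- the elements killing `Tor_i` form an ideal -/
theorem tk_of_mem_sup {f : O →+* X} {g : O →+* Y} {i : ℕ} {S : Set O} (hS : ∀ w ∈ S, tk f g i w)
    {w : O} (hw : w ∈ RingHom.ker g ⊔ Ideal.span S) : tk f g i w := by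
  letI := f.toAlgebra
  letI := g.toAlgebra
  have : RingHom.ker g ⊔ Ideal.span S ≤ Module.annihilator O (T O X Y i) :=
    sup_le (fun w hw => Module.mem_annihilator.2 (tk_of_mem_ker (f := f) i hw))
      (Ideal.span_le.2 fun w hw => Module.mem_annihilator.2 (hS w hw))
  exact Module.mem_annihilator.1 (this hw)

/-- `w = b z` on `X` with `b` killing `Y` (`tH_smul`, `tH_comp`, `T_kill_right`) -/
theorem tk_of_dvd {f : O →+* X} {g : O →+* Y} (i : ℕ) {w b : O} (hb : g b = 0) (hw : f b ∣ f w) :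
    tk f g i w := by
  letI := f.toAlgebra
  letI := g.toAlgebra
  obtain ⟨z, hz⟩ := hw
  intro x
  have e : (w • LinearMap.id : X →ₗ[O] X) = b • LinearMap.mulLeft O z := by
    ext1 y
    show f w * y = f b * (z * y)
    rw [hz, mul_assoc]
  have h1 := (Res O Y).tH_smul w (LinearMap.id : X →ₗ[O] X) i x
  rw [(Res O Y).tH_id, e, (Res O Y).tH_smul] at h1
  rw [← h1]
  exact tk_of_mem_ker (f := f) i hb _

theorem rtb_ann [Algebra O X] : Module.annihilator O X = RingHom.ker (algebraMap O X) := by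
  ext w
  rw [Module.mem_annihilator, RingHom.mem_ker]
  refine ⟨fun h => by simpa [Algebra.smul_def] using h 1, fun h y => ?_⟩
  rw [Algebra.smul_def, h, zero_mul]

/-- `Tor` over a local ring: transfer of `tor_cm` -/
theorem tl_cm [IsLocalRing O] [IsNoetherianRing O] {d : ℕ} (hR : RegLoc O d) {f : O →+* X}
    {g : O →+* Y} (hf : f.Finite) (hg : g.Finite) (zs zs' : List O)
    (hm : ∀ z ∈ zs, z ∈ maximalIdeal O) (hm' : ∀ z ∈ zs', z ∈ maximalIdeal O)
    (hX : IsWeaklyRegular X (zs.map f)) (hY : IsWeaklyRegular Y (zs'.map g))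
    (hl : zs.length + zs'.length = d) (h : Prim (RingHom.ker f) (RingHom.ker g)) (i : ℕ) :
    tl f g (i + 1) = 0 := by
  letI := f.toAlgebra
  letI := g.toAlgebra
  haveI : Module.Finite O X := hf
  haveI : Module.Finite O Y := hg
  refine tlm_eq_zero_iff.2 (tor_cm (X := X) (Y := Y) hR zs zs' hm hm'
    ((isWeaklyRegular_algebra_iff zs).2 hX) ((isWeaklyRegular_algebra_iff zs').2 hY) hl ?_ (i + 1)
    (Nat.succ_pos i))
  rw [rtb_ann, rtb_ann]
  exact h

theorem tl_bd [IsLocalRing O] [IsNoetherianRing O] {d : ℕ} (hR : RegLoc O d) {f : O →+* X}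
    {g : O →+* Y} (hf : f.Finite) (hg : g.Finite) {i : ℕ} (hi : d < i) : tl f g i = 0 := by
  letI := f.toAlgebra
  letI := g.toAlgebra
  haveI : Module.Finite O X := hf
  haveI : Module.Finite O Y := hg
  exact tlm_eq_zero_iff.2 (hR.bdAll Y X i hi)

theorem tl_quot_list (rs : List O) (h : IsWeaklyRegular O rs) (g : O →+* Y) {i : ℕ}
    (hi : rs.length < i) : tl (Ideal.Quotient.mk (Ideal.ofList rs)) g i = 0 := by
  letI := g.toAlgebra
  have := tl_algebraMap (O := O) (X := O ⧸ Ideal.ofList rs) (Y := Y)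
  exact (congrFun this i).trans (tlm_eq_zero_iff.2 (bd_quot_ofList rs h Y i hi))

theorem colon_of_tl {L : Type} [CommRing L] (σ : O →+* L) (J : Ideal O) (s : O)
    (h : tl (Ideal.Quotient.mk (J ⊔ Ideal.span {s})) σ 1 = 0) {y : L} (hy : σ s * y ∈ J.map σ) :
    y ∈ (J.colon {s}).map σ := by
  letI := σ.toAlgebra
  have := tl_algebraMap (O := O) (X := O ⧸ (J ⊔ Ideal.span {s})) (Y := L)
  haveI := tlm_eq_zero_iff.1 ((congrFun this 1).symm.trans h)
  exact colon_of_T1 J s hy

theorem rtd_ker_le [Algebra O X] : RingHom.ker (algebraMap O X) ≤ Module.annihilator O X :=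
  fun a ha => Module.mem_annihilator.2 fun x => by
    rw [Algebra.smul_def, (RingHom.mem_ker.1 ha), zero_mul]

theorem rtd_prim {R S Rb : Type} [CommRing R] [CommRing S] [CommRing Rb] [IsLocalRing R]
    [IsLocalRing S] (πR : R →+* Rb) (πS : S →+* Rb) (h1 : Function.Surjective πR)
    (h2 : Function.Surjective πS) {f : Rb →+* X} {g : Rb →+* Y}
    (h : Prim (RingHom.ker (f.comp πR)) (RingHom.ker (g.comp πR))) :
    Prim (RingHom.ker (f.comp πS)) (RingHom.ker (g.comp πS)) := by
  obtain ⟨L, hL⟩ := h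
  have key : ∀ x : S, πS x ∈ RingHom.ker f ⊔ RingHom.ker g →
      x ∈ RingHom.ker (f.comp πS) ⊔ RingHom.ker (g.comp πS) := by
    intro x hx
    obtain ⟨a, ha, b, hb, hab⟩ := Submodule.mem_sup.1 hx
    obtain ⟨b, rfl⟩ := h2 b
    refine Submodule.mem_sup.2 ⟨x - b, ?_, b, hb, sub_add_cancel _ _⟩
    rw [RingHom.mem_ker, RingHom.comp_apply, map_sub, ← hab, add_sub_cancel_right]
    exact ha
  refine ⟨L, fun x hx => key x ?_⟩
  cases subsingleton_or_nontrivial Rb with
  | inl _ => rw [Subsingleton.elim (πS x) 0]; exact zero_mem _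
  | inr _ =>
    have := IsLocalRing.of_surjective' πR h1
    have e : πS x ∈ (maximalIdeal R ^ L).map πR := by
      rw [Ideal.map_pow, map_maximalIdeal_of_surjective πR h1, ← map_maximalIdeal_of_surjective πS h2,
        ← Ideal.map_pow]
      exact Ideal.mem_map_of_mem _ hx
    refine (Ideal.map_le_iff_le_comap.2 (hL.trans (sup_le ?_ ?_))) e
    · exact fun a ha => Ideal.mem_sup_left ha
    · exact fun a ha => Ideal.mem_sup_right ha

theorem rtd_side {R Rb : Type} [CommRing R] [CommRing Rb] [IsLocalRing R] [IsNoetherianRing R] {d : ℕ}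
    (hR : RegLoc R d) (πR : R →+* Rb) (h1 : Function.Surjective πR) {y : R} (hy : y ≠ 0)
    (hk : RingHom.ker πR = Ideal.span {y}) {f : Rb →+* X} {g : Rb →+* Y} (hf : f.Finite)
    (hg : g.Finite) (h : Prim (RingHom.ker (f.comp πR)) (RingHom.ker (g.comp πR))) :
    chi (f.comp πR) (g.comp πR) d =
      (-1) ^ d * (((tl f g d).toNat : ℤ) - (tl f g (d + 1)).toNat) := by
  have hf' := hf.comp (RingHom.Finite.of_surjective πR h1)
  have hg' := hg.comp (RingHom.Finite.of_surjective πR h1)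
  have hb := fun i (hi : d < i) => tl_bd hR hf' hg' hi
  let _ := πR.toAlgebra
  let _ := f.toAlgebra
  let _ := g.toAlgebra
  let _ := (f.comp πR).toAlgebra
  let _ := (g.comp πR).toAlgebra
  have : IsScalarTower R Rb X := IsScalarTower.of_algebraMap_eq' rfl
  have : IsScalarTower R Rb Y := IsScalarTower.of_algebraMap_eq' rfl
  have : Module.Finite R X := hf'
  have : Module.Finite R Y := hg'
  have : Module.Finite Rb X := hf
  have : Module.Finite Rb Y := hg
  have := hR.isDomain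
  have : IsNoetherianRing Rb := isNoetherianRing_of_surjective R Rb πR h1
  refine theta (R := R) (Rb := Rb) (M := X) (N := Y) h1 y
    (fun z hz => (mul_eq_zero.1 hz).resolve_left hy) hk d (fun i hi => tlm_eq_zero_iff.1 (hb i hi))
    (tlm_ne_top (h.mono rtd_ker_le rtd_ker_le)) fun i => ?_
  obtain ⟨L, hL⟩ := h
  have := T_finite (O := Rb) (M := X) (N := Y) i
  let _ : Module R (T Rb X Y i) := Module.compHom _ πR
  have : IsScalarTower R Rb (T Rb X Y i) := ⟨fun a b x => mul_smul (πR a) b x⟩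
  have : Module.Finite R Rb := RingHom.Finite.of_surjective πR h1
  have : Module.Finite R (T Rb X Y i) := Module.Finite.trans Rb _
  have e : SEq πR (T Rb X Y i) (T Rb X Y i) :=
    ⟨AddMonoidHom.id _, Function.bijective_id, fun _ _ => rfl⟩
  rw [tlm, ← e.length_eq (RS.of_surjective h1)]
  refine length_ne_top_of_pow (L := L) (hL.trans (sup_le ?_ ?_))
  · exact fun a ha => Module.mem_annihilator.2
      (T_kill_left (O := Rb) (M := X) (N := Y) (a := πR a) (rtd_ker_le (O := Rb) (X := X) ha) i)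
  · exact fun a ha => Module.mem_annihilator.2
      (T_kill_right (O := Rb) (M := X) (N := Y) (a := πR a) (rtd_ker_le (O := Rb) (X := Y) ha) i)

/-- ring form of `theta`: two hypersurface presentations of `Rb` give the same Euler characteristic -/
theorem chi_theta {R S Rb : Type} [CommRing R] [CommRing S] [CommRing Rb] [IsLocalRing R]
    [IsNoetherianRing R] [IsLocalRing S] [IsNoetherianRing S] {d : ℕ} (hR : RegLoc R d)
    (hS : RegLoc S d) (πR : R →+* Rb) (πS : S →+* Rb) (h1 : Function.Surjective πR)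
    (h2 : Function.Surjective πS) {y : R} {y' : S} (hy : y ≠ 0) (hy' : y' ≠ 0)
    (hk : RingHom.ker πR = Ideal.span {y}) (hk' : RingHom.ker πS = Ideal.span {y'}) {f : Rb →+* X}
    {g : Rb →+* Y} (hf : f.Finite) (hg : g.Finite)
    (h : Prim (RingHom.ker (f.comp πR)) (RingHom.ker (g.comp πR))) :
    chi (f.comp πR) (g.comp πR) d = chi (f.comp πS) (g.comp πS) d := by
  rw [rtd_side hR πR h1 hy hk hf hg h, rtd_side hS πS h2 hy' hk' hf hg (rtd_prim πR πS h1 h2 h)]

end TL

/-! ### almost-factorisations -/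

section Fac
variable {Λ M Λ' M' : Type} [CommRing Λ] [CommRing M] [CommRing Λ'] [CommRing M']

/-- multiplication by `w` on `M` factors, modulo `b`, through `Λ/b` -/
def Fac (b : Λ) (β : Λ →+* M) (w : Λ) : Prop :=
  letI := β.toAlgebra
  ∃ a : M →ₗ[Λ] Λ ⧸ Ideal.span {b},
    ∀ (y : M) (z : Λ), a y = Ideal.Quotient.mk _ z → β b ∣ β z - β w * y

/-- it suffices to check the factorisation identity on one lift of each value -/
theorem rtc_lift {b w : Λ} {β : Λ →+* M} (a : M → Λ ⧸ Ideal.span {b})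
    (h : ∀ y, ∃ z, a y = Ideal.Quotient.mk _ z ∧ β b ∣ β z - β w * y) (y : M) (z : Λ)
    (hz : a y = Ideal.Quotient.mk _ z) : β b ∣ β z - β w * y := by
  obtain ⟨z', h1, h2⟩ := h y
  have h3 : b ∣ z - z' := Ideal.mem_span_singleton.1 (Ideal.Quotient.eq.1 (hz.symm.trans h1))
  have h4 := (map_dvd β h3).add h2
  rwa [map_sub, sub_add_sub_cancel] at h4

theorem Fac.of_dvd {b w : Λ} {β : Λ →+* M} (h : β b ∣ β w) : Fac b β w := by
  let _ := β.toAlgebra
  refine ⟨0, rtc_lift _ fun y => ⟨0, rfl, ?_⟩⟩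
  rw [map_zero, zero_sub, dvd_neg]
  exact h.mul_right y

/-- `a m = [w y]` for any `y` with `β y = β w * m` -/
theorem Fac.of_ker {b w : Λ} {β : Λ →+* M} (h1 : ∀ m : M, ∃ y, β y = β w * m)
    (h2 : ∀ y, β y = 0 → b ∣ w * y) : Fac b β (w ^ 2) := by
  let _ := β.toAlgebra
  choose y hy using h1
  have key : ∀ u v : Λ, β u = β v →
      Ideal.Quotient.mk (Ideal.span {b}) (w * u) = Ideal.Quotient.mk _ (w * v) := by
    intro u v huv
    rw [Ideal.Quotient.eq, Ideal.mem_span_singleton, ← mul_sub]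
    exact h2 _ (by rw [map_sub, huv, sub_self])
  let a : M →ₗ[Λ] Λ ⧸ Ideal.span {b} :=
    { toFun := fun m => Ideal.Quotient.mk _ (w * y m)
      map_add' := fun m m' => by
        rw [← map_add, ← mul_add]
        exact key _ _ (by rw [map_add, hy, hy, hy, mul_add])
      map_smul' := fun c m => by
        have e : c • Ideal.Quotient.mk (Ideal.span {b}) (w * y m) =
            Ideal.Quotient.mk _ (w * (c * y m)) := by
          rw [mul_left_comm]
          rfl
        rw [RingHom.id_apply, e]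
        refine key _ _ ?_
        rw [map_mul, hy, hy, mul_left_comm]
        rfl }
  refine ⟨a, rtc_lift _ fun m => ⟨w * y m, rfl, ?_⟩⟩
  rw [map_mul, hy, map_pow, show β w * (β w * m) - β w ^ 2 * m = 0 by ring]
  exact dvd_zero _

/-- base change (`isPO_iff`, `IsBaseChange.lift`) -/
theorem Fac.push {b w : Λ} {β : Λ →+* M} (h : Fac b β w) {g : Λ →+* Λ'} {i : M →+* M'}
    {j : Λ' →+* M'} (hp : IsPO β g i j) : Fac (g b) j (g w) := by
  let _ := β.toAlgebra
  let _ := g.toAlgebra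
  let _ := i.toAlgebra
  let _ := j.toAlgebra
  let _ := (i.comp β).toAlgebra
  have : IsScalarTower Λ M M' := IsScalarTower.of_algebraMap_eq fun _ => rfl
  have : IsScalarTower Λ Λ' M' := IsScalarTower.of_algebraMap_eq fun x => hp.comm x
  have hbc := (Algebra.IsPushout.symm (isPO_iff.1 hp)).out
  obtain ⟨a, ha⟩ := h
  let q : (Λ ⧸ Ideal.span {b}) →ₐ[Λ] Λ' ⧸ Ideal.span {g b} :=
    Ideal.quotientMapₐ _ (Algebra.ofId Λ Λ') (by
      rw [Ideal.span_le, Set.singleton_subset_iff]
      exact Ideal.mem_span_singleton_self (g b))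
  refine ⟨hbc.lift (q.toLinearMap ∘ₗ a), rtc_lift _ fun y => ?_⟩
  induction y using hbc.inductionOn with
  | zero => exact ⟨0, by rw [map_zero, map_zero], by simp⟩
  | tmul m =>
    obtain ⟨z, hz⟩ := Ideal.Quotient.mk_surjective (a m)
    refine ⟨g z, ?_, ?_⟩
    · rw [hbc.lift_eq, LinearMap.comp_apply, ← hz]
      rfl
    · have h1 := map_dvd i (ha m z hz.symm)
      rw [map_sub, map_mul, hp.comm, hp.comm, hp.comm] at h1
      exact h1
  | smul s n ih =>
    obtain ⟨z, h1, h2⟩ := ih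
    refine ⟨s * z, ?_, ?_⟩
    · rw [map_smul, h1]
      rfl
    · have h3 := h2.mul_left (j s)
      have e : j (s * z) - j (g w) * s • n = j s * (j z - j (g w) * n) := by
        rw [map_mul, show s • n = j s * n from rfl]
        ring
      rwa [e]
  | add n n' ih ih' =>
    obtain ⟨z, h1, h2⟩ := ih
    obtain ⟨z', h1', h2'⟩ := ih'
    refine ⟨z + z', ?_, ?_⟩
    · rw [map_add, h1, h1', map_add]
    · have e : j (z + z') - j (g w) * (n + n') = (j z - j (g w) * n) + (j z' - j (g w) * n') := by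
        rw [map_add]
        ring
      rw [e]
      exact h2.add h2'

theorem Fac.comp {b w w' : Λ} {β : Λ →+* M} {β' : M →+* M'} (h : Fac b β w)
    (h' : Fac (β b) β' (β w')) : Fac b (β'.comp β) (w * w') := by
  let _ := β.toAlgebra
  let _ := β'.toAlgebra
  let _ := (β'.comp β).toAlgebra
  have : IsScalarTower Λ M M' := IsScalarTower.of_algebraMap_eq fun _ => rfl
  obtain ⟨a, ha⟩ := h
  obtain ⟨a', ha'⟩ := h'
  have hk : (Ideal.span {β b}).restrictScalars Λ ≤ LinearMap.ker a := by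
    intro m hm
    obtain ⟨t, rfl⟩ := Ideal.mem_span_singleton.1 hm
    obtain ⟨z, hz⟩ := Ideal.Quotient.mk_surjective (a t)
    rw [LinearMap.mem_ker, show β b * t = b • t from rfl, map_smul, ← hz]
    exact Ideal.Quotient.eq_zero_iff_mem.2 (Ideal.mem_span_singleton.2 (dvd_mul_right b z))
  let abar : (M ⧸ Ideal.span {β b}) →ₗ[Λ] Λ ⧸ Ideal.span {b} :=
    Submodule.liftQ _ a hk ∘ₗ
      (Submodule.Quotient.restrictScalarsEquiv Λ (Ideal.span {β b})).symm.toLinearMap
  refine ⟨abar ∘ₗ a'.restrictScalars Λ, rtc_lift _ fun y => ?_⟩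
  obtain ⟨m, hm⟩ := Ideal.Quotient.mk_surjective (a' y)
  obtain ⟨z, hz⟩ := Ideal.Quotient.mk_surjective (a m)
  refine ⟨z, ?_, ?_⟩
  · rw [LinearMap.comp_apply, LinearMap.restrictScalars_apply, ← hm, hz]
    rfl
  · have h1 := map_dvd β' (ha m z hz.symm)
    have h2 := (ha' y m hm.symm).mul_left (β' (β w))
    have e : (β'.comp β) z - (β'.comp β) (w * w') * y =
        β' (β z - β w * m) + β' (β w) * (β' m - β' (β w') * y) := by
      simp only [RingHom.comp_apply, map_mul, map_sub]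
      ring
    rw [e]
    exact h1.add h2

/-- a map out of `Λ/b²` whose image is killed by `b` induces zero on higher `Tor` -/
theorem rtc_van {X N : Type} [AddCommGroup X] [Module Λ X] [AddCommGroup N] [Module Λ N] {b : Λ}
    (hX : ∀ x : X, b • x = 0) (hreg : (∀ z, b * z = 0 → z = 0) ∨ b = 0)
    (c : (Λ ⧸ Ideal.span {b ^ 2}) →ₗ[Λ] N) (hc : b • c 1 = 0) (i : ℕ)
    (x : T Λ (Λ ⧸ Ideal.span {b ^ 2}) X (i + 1)) : (Res Λ X).tH c (i + 1) x = 0 := by
  obtain ⟨⟨z, hz⟩, rfl⟩ := Cx.cls_surj _ _ x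
  obtain ⟨z, rfl⟩ := Cx.quot_tmul_surj _ z
  have h1 : (Res Λ X).d i z ∈ Ideal.span {b ^ 2} • (⊤ : Submodule Λ ((Res Λ X).X i)) := by
    rw [← Cx.quot_tmul_eq_zero]
    exact hz
  rw [Submodule.ideal_span_singleton_smul, Submodule.mem_smul_pointwise_iff_exists] at h1
  obtain ⟨y, -, hy⟩ := h1
  have h2 : ∃ v, (Res Λ X).d i v = b • y := by
    rcases hreg with hreg | rfl
    · cases i with
      | zero => exact ((Res.isRes Λ X).ex0 _).1 (by rw [map_smul, hX])
      | succ i =>
        have := (Res.proj Λ X).flat i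
        have hb : IsSMulRegular ((Res Λ X).X i) b :=
          Module.Flat.isSMulRegular_of_nonZeroDivisors
            (mem_nonZeroDivisors_iff_left.2 fun z hz => hreg z hz)
        have h3 : (Res Λ X).d i y = 0 := by
          refine hb (hb ?_)
          change b • b • (Res Λ X).d i y = b • b • 0
          rw [smul_smul, ← sq, ← map_smul, hy, (Res Λ X).dd, smul_zero, smul_zero]
        obtain ⟨v, hv⟩ := (Res.isRes Λ X).ex i h3
        exact ⟨b • v, by rw [map_smul, hv]⟩
    · exact ⟨0, by rw [map_zero, zero_smul]⟩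
  obtain ⟨v, hv⟩ := h2
  have h4 : (Res Λ X).d i (z - b • v) = 0 := by
    rw [map_sub, map_smul, hv, smul_smul, ← sq, hy, sub_self]
  obtain ⟨t, ht⟩ := (Res.isRes Λ X).ex i h4
  refine (Cx.cls_eq_zero _).2 ⟨c 1 ⊗ₜ t, ?_⟩
  change c 1 ⊗ₜ[Λ] (Res Λ X).d (i + 1) t = c 1 ⊗ₜ[Λ] z
  rw [ht, TensorProduct.tmul_sub, TensorProduct.tmul_smul, TensorProduct.smul_tmul', hc,
    TensorProduct.zero_tmul, sub_zero]

/-- Regular case: `T(M,X) → T(M/b,X)` is injective (`T_les_reg`, `b` kills `T(M,X)`), and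
`M → M → M/b` (multiplication by `w`) factors as `M → Λ/b² → Λ/b → M/b`, where
`T_{i+1}(Λ/b², X) → T_{i+1}(Λ/b, X)` vanishes: if `d z = b² y` in `F = Res X` then `b y = d u`
(`i = 0`: `b` kills `X`; `i > 0`: `d y = 0`), `z - b u` is a cycle, hence a boundary
(`Cx.quot_tmul_surj`, `Cx.quot_tmul_eq_zero`).  Case `b = 0`: `T_flat`. -/
theorem tk_of_fac {β : Λ →+* M} {X : Type} [CommRing X] {g : Λ →+* X} {b w : Λ} (hb : g b = 0)
    (h : Fac (b ^ 2) β w)
    (hreg : ((∀ z, b * z = 0 → z = 0) ∧ ∀ z, β b * z = 0 → z = 0) ∨ b = 0) (i : ℕ) :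
    tk β g (i + 1) w := by
  let _ := β.toAlgebra
  let _ := g.toAlgebra
  obtain ⟨a, ha⟩ := h
  have hX : ∀ x : X, b • x = 0 := fun x => by
    rw [show b • x = g b * x from rfl, hb, zero_mul]
  have main : ∀ (N : Type) [AddCommGroup N] [Module Λ N] (π : M →ₗ[Λ] N), (∀ m, b • π m = 0) →
      Function.Injective ((Res Λ X).tH π (i + 1)) → ∀ x : T Λ M X (i + 1), w • x = 0 := by
    intro N _ _ π hπ hinj x
    have hk : Ideal.span {b ^ 2} ≤ LinearMap.ker (π ∘ₗ Algebra.linearMap Λ M) := by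
      rw [Ideal.span_le, Set.singleton_subset_iff]
      change π (β (b ^ 2)) = 0
      rw [sq, map_mul, show β b * β b = b • β b from rfl, map_smul, hπ]
    let c : (Λ ⧸ Ideal.span {b ^ 2}) →ₗ[Λ] N := Submodule.liftQ _ _ hk
    have hc : c ∘ₗ a = w • π := by
      ext y
      obtain ⟨z, hz⟩ := Ideal.Quotient.mk_surjective (a y)
      obtain ⟨t, ht⟩ := ha y z hz.symm
      rw [LinearMap.comp_apply, ← hz, LinearMap.smul_apply, ← map_smul]
      change π (β z) = π (β w * y)
      rw [← sub_eq_zero, ← map_sub, ht, sq, map_mul β, mul_assoc,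
        show β b * (β b * t) = b • (β b * t) from rfl, map_smul, hπ]
    apply hinj
    rw [map_smul, map_zero, ← Cx.tH_smul, ← hc, Cx.tH_comp]
    exact rtc_van hX (hreg.imp_left And.left) c (hπ (β 1)) i _
  rcases hreg with hreg | rfl
  · have hex : Function.Exact (b • LinearMap.id : M →ₗ[Λ] M)
        (LinearMap.range (b • LinearMap.id : M →ₗ[Λ] M)).mkQ := LinearMap.exact_map_mkQ_range _
    have hinj : Function.Injective (b • LinearMap.id : M →ₗ[Λ] M) :=
      (injective_iff_map_eq_zero _).2 fun z hz => hreg.2 z hz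
    obtain ⟨δ, hl⟩ := T_les X _ _ hinj hex (Submodule.mkQ_surjective _)
    refine main _ (LinearMap.range (b • LinearMap.id : M →ₗ[Λ] M)).mkQ (fun m => ?_) ?_
    · rw [← map_smul]
      exact (hex _).2 ⟨m, rfl⟩
    · refine (injective_iff_map_eq_zero _).2 fun x hx => ?_
      obtain ⟨u, rfl⟩ := (hl.fg (i + 1) x).1 hx
      rw [Cx.tH_smul]
      exact T_kill_right (Module.mem_annihilator.2 hX) _ _
  · refine main M LinearMap.id (fun m => zero_smul _ _) fun x y hxy => ?_
    rwa [Cx.tH_id, Cx.tH_id] at hxy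

end Fac

theorem rtd_zl {Λ O M : Type} [CommRing Λ] [CommRing O] [CommRing M] [Algebra Λ O] [Algebra Λ M]
    (hs : Function.Surjective (algebraMap Λ O)) (s : Λ) :
    zl ((Res Λ M).bc O) (algebraMap Λ O s) =
      tl (Ideal.Quotient.mk (RingHom.ker (algebraMap Λ O) ⊔ Ideal.span {s})) (algebraMap Λ M) := by
  have h1 : Function.Surjective (algebraMap Λ (O ⧸ Ideal.span {algebraMap Λ O s})) := by
    intro x
    obtain ⟨y, rfl⟩ := Ideal.Quotient.mk_surjective x
    obtain ⟨z, rfl⟩ := hs y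
    exact ⟨z, rfl⟩
  have h2 : RingHom.ker (algebraMap Λ (O ⧸ Ideal.span {algebraMap Λ O s})) =
      RingHom.ker (Ideal.Quotient.mk (RingHom.ker (algebraMap Λ O) ⊔ Ideal.span {s})) := by
    rw [Ideal.mk_ker, IsScalarTower.algebraMap_eq Λ O (O ⧸ Ideal.span {algebraMap Λ O s}),
      ← RingHom.comap_ker, Ideal.Quotient.algebraMap_eq, Ideal.mk_ker, ← Set.image_singleton, ← Ideal.map_span, Ideal.comap_map_of_surjective _ hs,
      sup_comm]
    rfl
  rw [← tl_ker h1 Ideal.Quotient.mk_surjective h2, tl_algebraMap]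
  funext i
  exact (((Res Λ M).bc_tens_seq O (O ⧸ Ideal.span {algebraMap Λ O s}) i).length_eq
    (RS.of_surjective hs)).symm

theorem rtd_tk {O X Y : Type} [CommRing O] [CommRing X] [CommRing Y] [iX : Algebra O X]
    [iY : Algebra O Y] {i : ℕ} {w : O} :
    tk (algebraMap O X) (algebraMap O Y) i w ↔ ∀ x : T O X Y i, w • x = 0 := by
  have key : ∀ (a a' : Algebra O X) (b b' : Algebra O Y), a = a' → b = b' →
      ((letI := a; letI := b; ∀ x : T O X Y i, w • x = 0) ↔
        (letI := a'; letI := b'; ∀ x : T O X Y i, w • x = 0)) := by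
    rintro a _ b _ rfl rfl
    rfl
  exact key _ _ _ _ (Algebra.algebra_ext _ _ fun _ => rfl) (Algebra.algebra_ext _ _ fun _ => rfl)

/-- KEY LEMMA, ring form.  `O = Λ/J`, `Φ = (Res Λ M).bc O`, `G = O ⊗ M`, `ε = (Res.ε).baseChange`;
`EP.of_artinian`; `Cx.bc_seq` for `hr`, `hm`; `Cx.bc_tens_seq` with `X = O/(s)` and `tl_ker`/`tlm_congr`
to identify `zl Φ s` with `tl (mk (J + s)) β`; `KL_van`, `KL_pos`. -/
theorem KL_ring {Λ M : Type} [CommRing Λ] [IsNoetherianRing Λ] [CommRing M] (β : Λ →+* M)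
    (hβ : β.Finite) (J : Ideal Λ) [IsArtinianRing (Λ ⧸ J)] {s B : Λ} {n m r ν : ℕ}
    (hnil : ∃ t, s ^ t ∈ J) (h0 : s * (s ^ (n - 1) * B) ∈ J)
    (h1 : ∀ y, s * y ∈ J → y ∈ J ⊔ Ideal.span {s ^ (n - 1) * B}) (hn : 2 * (m * r) + 1 ≤ n)
    (hr : ∀ i, r < i → tl (Ideal.Quotient.mk J) β i = 0)
    (hm : ∀ i, tk (Ideal.Quotient.mk J) β (i + 1) (s ^ m))
    (hν : ∀ i, ν < i → tl (Ideal.Quotient.mk (J ⊔ Ideal.span {s})) β i = 0) :
    (β (s ^ (m * r)) ∈ J.map β → chi (Ideal.Quotient.mk (J ⊔ Ideal.span {s})) β ν = 0) ∧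
      ∀ w, (∀ i, tk (Ideal.Quotient.mk J) β (i + 1) w) →
        β (w ^ r) ∉ (J ⊔ Ideal.span {s}).map β →
          0 < chi (Ideal.Quotient.mk (J ⊔ Ideal.span {s})) β ν := by
  let _ := β.toAlgebra
  have : Module.Finite Λ M := hβ
  have hs : Function.Surjective ((Res.ε Λ M).baseChange (Λ ⧸ J)) :=
    LinearMap.lTensor_surjective (Λ ⧸ J) (Res.isRes Λ M).surj
  have he : Function.Exact (((Res Λ M).bc (Λ ⧸ J)).d 0) ((Res.ε Λ M).baseChange (Λ ⧸ J)) :=
    lTensor_exact (Λ ⧸ J) (Res.isRes Λ M).ex0 (Res.isRes Λ M).surj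
  have hP := (Res.proj Λ M).bc (Λ ⧸ J)
  have hF := (Res.fin Λ M).bc (Λ ⧸ J)
  have hEP : EP (Ideal.Quotient.mk J s) (Ideal.Quotient.mk J s ^ (n - 1) * Ideal.Quotient.mk J B) := by
    refine EP.of_artinian ?_ fun y hy => ?_
    · rw [← map_pow, ← map_mul, ← map_mul, Ideal.Quotient.eq_zero_iff_mem]
      exact h0
    · obtain ⟨y, rfl⟩ := Ideal.Quotient.mk_surjective y
      rw [← map_mul, Ideal.Quotient.eq_zero_iff_mem] at hy
      obtain ⟨a, ha, b, hb, rfl⟩ := Submodule.mem_sup.1 (h1 y hy)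
      rw [map_add, Ideal.Quotient.eq_zero_iff_mem.2 ha, zero_add, ← map_pow, ← map_mul]
      exact map_dvd _ (Ideal.mem_span_singleton.1 hb)
  have hr' : ∀ i, r < i → ((Res Λ M).bc (Λ ⧸ J)).Ex i := by
    intro i hi
    have h2 : tlm Λ (Λ ⧸ J) M i = 0 := by
      rw [← tl_algebraMap]
      exact hr i hi
    exact (Cx.ex_iff _ _).2 (((Res Λ M).bc_seq (Λ ⧸ J) i).subsingleton_iff.1 (tlm_eq_zero_iff.1 h2))
  have hzl : zl ((Res Λ M).bc (Λ ⧸ J)) (Ideal.Quotient.mk J s) =
      tl (Ideal.Quotient.mk (J ⊔ Ideal.span {s})) β := by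
    have := rtd_zl (O := Λ ⧸ J) (M := M) Ideal.Quotient.mk_surjective s
    rwa [Ideal.Quotient.algebraMap_eq, Ideal.mk_ker] at this
  have hk : ∀ (w : Λ) (i : ℕ), tk (Ideal.Quotient.mk J) β i w →
      ((Res Λ M).bc (Λ ⧸ J)).Kill (Ideal.Quotient.mk J w) i := fun w i hw =>
    (Cx.kill_iff _ _ _).2 ((((Res Λ M).bc_seq (Λ ⧸ J) i).kill_iff w).1 (rtd_tk.1 hw))
  have hm' : ∀ i, ((Res Λ M).bc (Λ ⧸ J)).Kill (Ideal.Quotient.mk J s ^ m) (i + 1) := fun i => by
    rw [← map_pow]
    exact hk _ _ (hm i)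
  have hsm : ∀ (a : Λ) (z : M), Ideal.Quotient.mk J a • ((1 : Λ ⧸ J) ⊗ₜ[Λ] z) =
      (1 : Λ ⧸ J) ⊗ₜ[Λ] (β a * z) := by
    intro a z
    rw [← Ideal.Quotient.algebraMap_eq, algebraMap_smul, ← TensorProduct.tmul_smul]
    rfl
  have hz : ∀ z : M, ((1 : Λ ⧸ J) ⊗ₜ[Λ] z : (Λ ⧸ J) ⊗[Λ] M) = 0 ↔ z ∈ J.map β := by
    intro z
    rw [Cx.quot_tmul_eq_zero, Ideal.smul_top_eq_map]
    rfl
  rw [← hzl] at hν
  rw [chi, ← hzl]
  refine ⟨fun hv => KL_van hEP hn hP hF _ hs he hr' hν hm' fun x => ?_, fun w hw hw' => ?_⟩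
  · obtain ⟨z, rfl⟩ := Cx.quot_tmul_surj J x
    rw [← map_pow, hsm, hz]
    exact Ideal.mul_mem_right _ _ hv
  · obtain ⟨t, ht⟩ := hnil
    refine KL_pos hEP hn hP hF _ hs he hr' hν hm'
      ⟨t, by rw [← map_pow, Ideal.Quotient.eq_zero_iff_mem]; exact ht⟩ (fun i => hk _ _ (hw i))
      (x := (1 : Λ ⧸ J) ⊗ₜ[Λ] (1 : M)) fun hx => hw' ?_
    obtain ⟨y, hy⟩ := klc_mem.1 hx
    obtain ⟨z, rfl⟩ := Cx.quot_tmul_surj J y
    rw [← map_pow, hsm, hsm, mul_one, eq_comm, ← sub_eq_zero, ← TensorProduct.tmul_sub, hz] at hy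
    rw [← sub_add_cancel (β (w ^ r)) (β s * z)]
    refine add_mem (Ideal.map_mono le_sup_left hy) (Ideal.mul_mem_right _ _ ?_)
    exact Ideal.mem_map_of_mem _ (Ideal.mem_sup_right (Ideal.mem_span_singleton_self s))

end Crest.Agent.R188
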