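import Crest.Agent.R188.Wv
import Crest.Agent.R188.RingT
import Crest.Agent.R188.EnvAuxB

/-! # R188 / Env : the rings `E_n` and `C_e` (Witt-vector envelopes) and the tower they form. -/

set_option autoImplicit false
open IsLocalRing RingTheory.Sequence Crest.Agent.R183 WittVector

namespace Crest.Agent.R188

/-! ### Witt vector lemmas -/

section Witt
variable {p : ℕ} [Fact p.Prime] {L : Type} [CommRing L]

theorem enva_ghost_iter (x : WittVector p L) (e n : ℕ) :
    ghostComponent n (frobenius^[e] x) = ghostComponent (n + e) x := by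
  induction e generalizing n with
  | zero => rfl
  | succ e ih =>
    rw [Function.iterate_succ_apply', ghostComponent_frobenius, ih, add_right_comm, add_assoc]

/-- `z = V^e z'`, `x V^e z' = V^e (F^e x · z')` (`iterate_verschiebung_mul_left`; `z'` = the shift of
`z`), and `(F^e x)₀ = w_e(x)` (`ghostComponent_frobenius`) -/
theorem mul_VI {x z : WittVector p L} {e : ℕ} (hx : ghostComponent e x = 0) (hz : z ∈ VI p L e) :
    x * z ∈ VI p L (e + 1) := by
  rw [mem_VI] at hz ⊢
  intro j hj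
  rw [eq_iterate_verschiebung hz, mul_comm, iterate_verschiebung_mul_left]
  rcases (Nat.lt_succ_iff.1 hj).lt_or_eq with h | rfl
  · exact iterate_verschiebung_coeff_eq_zero _ h
  · have h1 := iterate_verschiebung_coeff (z.shift j * frobenius^[j] x) j 0
    rw [zero_add] at h1
    rw [h1, WittVector.mul_coeff_zero, ← stdd_ghost_zero (frobenius^[j] x), enva_ghost_iter,
      zero_add, hx, mul_zero]

theorem ghost_eq_zero {z : WittVector p L} {n j : ℕ} (hz : z ∈ VI p L n) (hj : j < n) :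
    ghostComponent j z = 0 := by
  rw [mem_VI] at hz
  rw [ghost_of_coeff p fun i hi => hz i (hi.trans hj), hz j hj, mul_zero]

/-- strong induction with `ghost_of_coeff` -/
theorem mem_VI_of_ghost (hp : IsUnit (p : L)) {z : WittVector p L} {n : ℕ}
    (h : ∀ j < n, ghostComponent j z = 0) : z ∈ VI p L n := by
  rw [mem_VI]
  intro j hj
  induction j using Nat.strong_induction_on with
  | _ j ih =>
    have h1 := h j hj
    rw [ghost_of_coeff p fun i hi => ih i hi (hi.trans hj)] at h1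
    exact (hp.pow j).mul_right_eq_zero.1 h1

/-- `F V = p` -/
theorem frobenius_VI {z : WittVector p L} {n : ℕ} (hz : z ∈ VI p L (n + 1)) :
    frobenius z ∈ VI p L n := by
  rw [mem_VI] at hz
  have h1 : z = verschiebung (z.shift 1) :=
    eq_iterate_verschiebung (n := 1) fun i hi => hz i (by omega)
  rw [h1, frobenius_verschiebung]
  refine Ideal.mul_mem_right _ _ (mem_VI.2 fun j hj => ?_)
  rw [shift_coeff]
  exact hz _ (by omega)

/-- lift to `MvPolynomial L ℤ` (or `Polynomial ℤ`), `ghost_inj` -/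
theorem frobenius_teich (r : L) : frobenius (teichmuller p r) = teichmuller p (r ^ p) := by
  obtain ⟨r, rfl⟩ := MvPolynomial.counit_surjective L r
  have h : frobenius (teichmuller p r) = teichmuller p (r ^ p) := by
    refine ghost_inj p (fun y hy => (mul_eq_zero.1 hy).resolve_left ?_) fun n => ?_
    · exact_mod_cast (Fact.out : p.Prime).ne_zero
    · rw [ghostComponent_frobenius, ghostComponent_teichmuller, ghostComponent_teichmuller,
        ← pow_mul, pow_succ']
  have h1 := (frobenius_isPoly p).map (MvPolynomial.counit L) (teichmuller p r)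
  simp only [h, map_teichmuller] at h1
  rw [← map_pow]
  exact h1.symm

theorem map_VI {L' : Type} [CommRing L'] (χ : L →+* L') {z : WittVector p L} {n : ℕ}
    (hz : z ∈ VI p L n) : WittVector.map χ z ∈ VI p L' n := by
  rw [mem_VI] at hz ⊢
  intro j hj
  rw [map_coeff, hz j hj, map_zero]

theorem VI_anti {n n' : ℕ} (h : n ≤ n') : VI p L n' ≤ VI p L n := by
  intro z hz
  rw [mem_VI] at hz ⊢
  exact fun j hj => hz j (hj.trans_le h)

/-- vectors with the same first coefficients are congruent (`WittVector.truncate`) -/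
theorem sub_mem_VI {x y : WittVector p L} {n : ℕ} (h : ∀ j < n, x.coeff j = y.coeff j) :
    x - y ∈ VI p L n := by
  exact mem_VI.2 (le_coeff_eq_iff_le_sub_coeff_eq_zero.1 h)

end Witt

/-! ### commutative algebra -/

/-- VALUATIVE CRITERION OF INTEGRALITY.  If `y` is not integral, the monoid of values at `y` of monic
polynomials misses `0`, so some prime `𝔭` is disjoint from it (`Ideal.exists_le_prime_disjoint`); embed
`C/𝔭` in an algebraic closure `K` of its fraction field; `iInf_valuationSubring_superset`. -/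
theorem isIntegral_of_val {A C : Type} [CommRing A] [CommRing C] (α : A →+* C) (y : C)
    (h : ∀ (K : Type) [Field K] [IsAlgClosed K] (χ : C →+* K) (V : ValuationSubring K),
      (∀ a, χ (α a) ∈ V) → χ y ∈ V) : α.IsIntegralElem y := by
  by_contra hn
  let S : Submonoid C :=
    { carrier := {z | ∃ q : Polynomial A, q.Monic ∧ q.eval₂ α y = z}
      one_mem' := ⟨1, Polynomial.monic_one, Polynomial.eval₂_one _ _⟩
      mul_mem' := by
        rintro _ _ ⟨q, hq, rfl⟩ ⟨q', hq', rfl⟩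
        exact ⟨q * q', hq.mul hq', Polynomial.eval₂_mul _ _⟩ }
  obtain ⟨𝔭, h𝔭, -, hd⟩ := Ideal.exists_le_prime_disjoint (⊥ : Ideal C) S
    (Set.disjoint_left.2 fun z hz hz' => hn (by
      obtain rfl : z = 0 := hz
      exact hz'))
  let K := AlgebraicClosure (FractionRing (C ⧸ 𝔭))
  let χ : C →+* K := ((algebraMap (FractionRing (C ⧸ 𝔭)) K).comp
    (algebraMap (C ⧸ 𝔭) (FractionRing (C ⧸ 𝔭)))).comp (Ideal.Quotient.mk 𝔭)
  have hχ : ∀ z, χ z = 0 → z ∈ 𝔭 := fun z hz => Ideal.Quotient.eq_zero_iff_mem.1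
    (IsFractionRing.injective (C ⧸ 𝔭) (FractionRing (C ⧸ 𝔭))
      ((algebraMap (FractionRing (C ⧸ 𝔭)) K).injective (hz.trans (by simp))))
  have h1 := iInf_valuationSubring_superset (s := ((χ.comp α).range : Set K))
  rw [Subring.closure_eq] at h1
  have h2 : χ y ∈ (integralClosure (χ.comp α).range K).toSubring := by
    rw [← h1, Subring.mem_iInf]
    exact fun V => h K χ V.1 fun a => V.2 ⟨a, rfl⟩
  obtain ⟨q, hq, hq0⟩ : IsIntegral (χ.comp α).range (χ y) := h2
  obtain ⟨q', rfl, -, hq'⟩ := Polynomial.lifts_and_natDegree_eq_and_monic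
    ((Polynomial.mem_lifts q).2 (Polynomial.map_surjective (χ.comp α).rangeRestrict
      (χ.comp α).rangeRestrict_surjective q)) hq
  rw [Polynomial.eval₂_map] at hq0
  refine Set.disjoint_left.1 hd (hχ _ ?_) ⟨q', hq', rfl⟩
  rw [Polynomial.hom_eval₂]
  exact hq0

/-- Induct on the list of variables, or transport `X ↦ X + C c` and use `X ++ xs`
(`MvPolynomial.isWeaklyRegular`-type lemmas / `isWeaklyRegular_iff_ideal`,
`isWeaklyRegular_append_iff_quot`; the quotient by all `X v - C (c v)` is `A`).  Alternatively put `xs`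
first: `A → A[X]` is flat (`flat_regular`) and the quotient is `(A/xs)[X]`. -/
theorem poly_regular {A σ : Type} [CommRing A] [Fintype σ] (c : σ → A) {xs : List A}
    (h : IsWeaklyRegular A xs) : ∃ rs : List (MvPolynomial σ A),
      rs.length = Fintype.card σ + xs.length ∧ IsWeaklyRegular (MvPolynomial σ A) rs ∧
      ∀ r ∈ rs, (∃ v, r = MvPolynomial.X v - MvPolynomial.C (c v)) ∨
        ∃ x ∈ xs, r = MvPolynomial.C x := by
  refine ⟨(Finset.univ.toList.map fun v => MvPolynomial.X v - MvPolynomial.C (c v)) ++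
    xs.map MvPolynomial.C, by simp, ?_, fun r hr => ?_⟩
  · rw [isWeaklyRegular_append_iff_quot, List.map_map]
    exact ⟨envb_vars c (Finset.nodup_toList _), flat_regular (RingHom.Flat.of_bijective
      (envb_bij c fun v => Finset.mem_toList.2 (Finset.mem_univ v))) h⟩
  · rcases List.mem_append.1 hr with hr | hr
    · obtain ⟨v, -, rfl⟩ := List.mem_map.1 hr
      exact Or.inl ⟨v, rfl⟩
    · obtain ⟨x, hx, rfl⟩ := List.mem_map.1 hr
      exact Or.inr ⟨x, hx, rfl⟩

/-- COMPLETE INTERSECTIONS ARE COHEN–MACAULAY.  `cm_loc` with `zs.map C`.  For a maximal `𝔫 ≥ rels`: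
`𝔫 ∩ A = 𝔪` (integrality), `X v ≡ C (c v) mod 𝔫` (`AC.rs`), `poly_regular`; a prime between `rels + zs`
and `𝔫` lies over `𝔪`, hence is maximal (`Ideal.isMaximal_of_isIntegral_of_isMaximal_comap`). -/
theorem cm_ci {W A B σ : Type} [CommRing W] [CommRing A] [IsLocalRing A] [IsNoetherianRing A]
    [CommRing B] [Fintype σ] (hW : AC W) (ω : W →+* A) (hω : ∀ y, ∃ w, y - ω w ∈ maximalIdeal A)
    {D : ℕ} (hA : RegLoc A D) (π : MvPolynomial σ A →+* B) (hπ : Function.Surjective π)
    (hint : (π.comp MvPolynomial.C).IsIntegral) (rels : List (MvPolynomial σ A))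
    (hk : RingHom.ker π = Ideal.ofList rels) (zs : List A) (hz : ∀ z ∈ zs, z ∈ maximalIdeal A)
    (hl : rels.length + zs.length = Fintype.card σ + D)
    (hp : Prim (RingHom.ker (π.comp MvPolynomial.C)) (Ideal.ofList zs)) :
    IsWeaklyRegular B (zs.map (π.comp MvPolynomial.C)) := by
  have key := cm_loc π hπ rels (zs.map MvPolynomial.C) hk fun 𝔫 h𝔫 hr => by
    rw [← hk] at hr
    have h1 : (𝔫.map π).IsMaximal := Ideal.IsMaximal.map_of_surjective_of_ker_le hπ hr
    have h2 : ∀ {q : Ideal (MvPolynomial σ A)}, RingHom.ker π ≤ q → (q.map π).comap π = q :=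
      fun hq => (Ideal.comap_map_of_surjective π hπ _).trans (sup_eq_left.2 hq)
    have h3 : ∀ a ∈ maximalIdeal A, MvPolynomial.C a ∈ 𝔫 := fun a ha => by
      rw [← Dd_comap hint (𝔫.map π), ← Ideal.comap_comap, h2 hr] at ha
      exact ha
    refine ⟨fun z hz' => ?_, ?_, fun q hq hq𝔫 hq1 hq2 => ?_⟩
    · obtain ⟨x, hx, rfl⟩ := List.mem_map.1 hz'
      exact h3 x (hz x hx)
    · choose c hc using fun v : σ => hW.rs ω hω _ hint (𝔫.map π) h1
        (Ideal.Quotient.mk _ (π (MvPolynomial.X v)))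
      obtain ⟨xs, hx1, hx2, hx3⟩ := hA
      obtain ⟨rs, h4, h5, h6⟩ := poly_regular (fun v => ω (c v)) hx2
      refine ⟨rs, by rw [h4, List.length_map, hl, hx1], fun r hr' => ?_, h5⟩
      rcases h6 r hr' with ⟨v, rfl⟩ | ⟨x, hx, rfl⟩
      · rw [← h2 hr, Ideal.mem_comap, map_sub]
        exact Ideal.Quotient.eq.1 (hc v).symm
      · exact h3 x (hx3 ▸ Ideal.subset_span hx)
    · rw [← hk] at hq1
      have h4 : (q.map π).IsPrime := Ideal.map_isPrime_of_surjective hπ hq1
      obtain ⟨L, hL⟩ := hp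
      have h5 : maximalIdeal A ≤ (q.map π).comap (π.comp MvPolynomial.C) := by
        refine Ideal.IsPrime.le_of_pow_le (hL.trans (sup_le (fun a ha => ?_) ?_))
        · rw [Ideal.mem_comap, RingHom.mem_ker.1 ha]
          exact zero_mem _
        · rw [← Ideal.comap_comap, h2 hq1, ← Ideal.map_le_iff_le_comap, Ideal.map_ofList]
          exact hq2
      have h6 : (q.map π).IsMaximal := Ideal.isMaximal_of_isIntegral_of_isMaximal_comap' _ hint _
        ((maximalIdeal.isMaximal A).eq_of_le Ideal.IsPrime.ne_top' h5 ▸ maximalIdeal.isMaximal A)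
      have h7 : q.IsMaximal := h2 hq1 ▸ Ideal.comap_isMaximal_of_surjective π hπ
      exact h7.eq_of_le h𝔫.ne_top hq𝔫
  rwa [List.map_map] at key

/-- ROOT CLOSURE.  Write `tr e e'` for the composite transition maps (`Nat.leRec`, or the inductive
relation generated by `(e, z) ↦ (e+1, ι z)`).  (A) `p^i ∣ z^p`, `z ∈ C e`, gives `ϖ_{e+i}^i ∣ ι^(i+1) z`:
`ι z = ϖ_e z₁`, `p^(i-1) ∣ z₁^p` as `ϖ^p ~ p` is regular, and `ϖ_{e+1} ∣ ι ϖ_e`.  (B) `p^(pN) ∣ z^p` gives
`p^N ∣ ι^t z` for large `t`.  (C) iterate: `p^(p^r N) ∣ z^(p^r)` gives `p^N ∣ ι^t z`; `ι^t (y e₀) =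
y (e₀+t)^(p^t)`. -/
theorem root_closure (p : ℕ) [Fact p.Prime] (C : ℕ → Type) [∀ e, CommRing (C e)]
    (ι : ∀ e, C e →+* C (e + 1)) (hp : ∀ e (z : C e), (p : C e) * z = 0 → z = 0)
    (pr : ∀ e, ∃ ϖ : C (e + 1), (p : C (e + 1)) ∣ ϖ ^ p ∧ ϖ ^ p ∣ (p : C (e + 1)) ∧
      ∀ z : C e, (p : C e) ∣ z ^ p → ϖ ∣ ι e z)
    (y : ∀ e, C e) (hy : ∀ e, ι e (y e) = y (e + 1) ^ p) (e₀ : ℕ) (h0 : IsNilpotent (y e₀)) (N : ℕ) :
    ∃ e₂, e₀ ≤ e₂ ∧ ∀ e, e₂ ≤ e → (p : C e) ^ N ∣ y e ^ p ^ (e - e₀) := by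
  have hp1 : 1 < p := (Fact.out : p.Prime).one_lt
  obtain ⟨T, T0, Ts, Tt⟩ := envb_tr C ι
  choose ϖ h1 h2 h3 using pr
  have h4 : ∀ e E (h : e ≤ E), ϖ E ∣ T (e + 1) (E + 1) (Nat.succ_le_succ h) (ϖ e) := by
    intro e E h
    induction E, h using Nat.le_induction with
    | base => rw [T0]
    | succ n hn ih =>
      rw [Ts _ _ (Nat.succ_le_succ hn)]
      exact (h3 _ _ (h1 n)).trans (map_dvd _ ih)
  have hA : ∀ i e (z : C e), (p : C e) ^ i ∣ z ^ p →
      ∃ E, ∃ h : e ≤ E, ϖ E ^ i ∣ T e (E + 1) (Nat.le_succ_of_le h) z := by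
    intro i
    induction i with
    | zero => exact fun e z _ => ⟨e, le_rfl, by rw [pow_zero]; exact one_dvd _⟩
    | succ i ih =>
      intro e z hz
      obtain ⟨z₁, hz₁⟩ := h3 e z ((dvd_pow_self _ i.succ_ne_zero).trans hz)
      have a1 := map_dvd (ι e) hz
      rw [map_pow, map_pow, map_natCast, hz₁, mul_pow] at a1
      obtain ⟨u, hu⟩ := a1.trans (mul_dvd_mul_right (h2 e) _)
      have a2 : z₁ ^ p = (p : C (e + 1)) ^ i * u := by
        refine sub_eq_zero.1 (hp _ _ ?_)
        rw [mul_sub, hu]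
        ring
      obtain ⟨E, hE, a3⟩ := ih (e + 1) z₁ ⟨u, a2⟩
      refine ⟨E, Nat.le_of_succ_le hE, ?_⟩
      rw [← Tt e (e + 1) (E + 1) e.le_succ (Nat.le_succ_of_le hE), Ts e e le_rfl, T0, hz₁, map_mul,
        pow_succ']
      exact mul_dvd_mul (h4 e E (Nat.le_of_succ_le hE)) a3
  have hC : ∀ r N e (z : C e), (p : C e) ^ (p ^ r * N) ∣ z ^ p ^ r →
      ∃ E, ∃ h : e ≤ E, (p : C E) ^ N ∣ T e E h z := by
    intro r
    induction r with
    | zero => exact fun N e z hz => ⟨e, le_rfl, by rw [T0]; simpa using hz⟩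
    | succ r ih =>
      intro N e z hz
      obtain ⟨E, hE, a1⟩ := ih (p * N) e (z ^ p) (by
        rwa [← mul_assoc, ← pow_succ, ← pow_mul, ← pow_succ'])
      rw [map_pow] at a1
      obtain ⟨E', hE', a2⟩ := hA _ E _ a1
      refine ⟨E' + 1, hE.trans (Nat.le_succ_of_le hE'), ?_⟩
      rw [Tt _ _ _ _ _ (hE.trans (Nat.le_succ_of_le hE')), pow_mul] at a2
      exact (pow_dvd_pow_of_dvd (h1 E') N).trans a2
  have hT : ∀ e (h : e₀ ≤ e), T e₀ e h (y e₀) = y e ^ p ^ (e - e₀) := by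
    intro e h
    induction e, h using Nat.le_induction with
    | base => rw [T0, Nat.sub_self, pow_zero, pow_one]
    | succ n hn ih => rw [Ts _ _ hn, ih, map_pow, hy, ← pow_mul, ← pow_succ', Nat.succ_sub hn]
  obtain ⟨n, hn⟩ := h0
  obtain ⟨E, hE, a1⟩ := hC n N e₀ (y e₀) (by
    rw [pow_eq_zero_of_le (Nat.lt_pow_self hp1).le hn]
    exact dvd_zero _)
  refine ⟨E, hE, fun e he => ?_⟩
  have a2 := map_dvd (T E e he) a1
  rwa [map_pow, map_natCast, Tt _ _ _ _ _ (hE.trans he), hT] at a2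

/-! ### envelopes -/

variable {p : ℕ} [Fact p.Prime] {k : Type} [Field k] [IsAlgClosed k] [CharP k p] {d : ℕ}

/-- (Fib).  Characteristic `p`: `ψ f = 0` (`map_ph`), `Psi_dist_zero`, `p τ = V F τ`.  Otherwise `p` is a
unit, so is `ψ (φ^j f)` for `j < e` (`Dist.ph_assoc`); `ghost_eq_zero`, `Psi_ghost`, `mem_VI_of_ghost`. -/
theorem fib {f : AA p k d} (hf : Dist f) {K : Type} [Field K] [IsAlgClosed K] (ψ : AA p k d →+* K)
    {e : ℕ} (h0 : ψ (ph p k d e f) = 0) {τ : WittVector p K} (h : Psi ψ f * τ ∈ VI p K (e + 1)) :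
    τ ∈ VI p K e := by
  by_cases hp : (p : K) = 0
  · have : CharP K p := (CharP.charP_iff_prime_eq_zero (Fact.out : p.Prime)).2 hp
    rw [map_ph hp] at h0
    obtain ⟨υ, hυ, h1⟩ := Psi_dist_zero ψ hf (pow_eq_zero_iff (by
      exact pow_ne_zero _ (Fact.out : p.Prime).ne_zero) |>.1 h0)
    have h2 : υ * τ ∈ VI p K e := mem_VI.2 fun j hj => by
      have h3 := mem_VI.1 h (j + 1) (by omega)
      rw [h1, mul_assoc, mul_comm, mul_charP_coeff_succ] at h3
      exact (pow_eq_zero_iff (Fact.out : p.Prime).ne_zero).1 h3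
    exact (Ideal.unit_mul_mem_iff_mem _ hυ).1 h2
  · refine mem_VI_of_ghost (Ne.isUnit hp) fun j hj => ?_
    have h1 := ghost_eq_zero h (hj.trans e.lt_succ_self)
    rw [map_mul, Psi_ghost] at h1
    refine (mul_eq_zero.1 h1).resolve_left fun h2 => ?_
    obtain ⟨υ, y, hυ, h3⟩ := hf.ph_assoc hj
    rw [h3, map_add, map_mul, map_mul, h2, mul_zero, add_zero, map_natCast] at h0
    exact mul_ne_zero hp (hυ.map ψ).ne_zero h0

/-- SCALING.  Suppose some `τ_j ∉ V`, `j < e`.  Choose `ρ_j ∈ K` with `ρ_j^(p^j) = τ_j` and let `λ⁻¹` be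
the one of largest valuation; `λ ∈ 𝔪_V`, `λ^(p^j) τ_j ∈ V` for all `j < e`, one of them a unit.  Let
`τ' ∈ W(V)` have these coefficients (`0` from `e` on).  `[λ] τ - τ' ∈ VI e` (`R183.teich_mul_coeff`), so
`[λ] z - Ψ f · τ' ∈ VI (e+1)` (`mul_VI`), first over `K`, then over `V`; reduce to (an algebraic closure
of) the residue field and apply `fib`. -/
theorem coeff_mem_val {f : AA p k d} (hf : Dist f) {K : Type} [Field K] [IsAlgClosed K]
    (V : ValuationSubring K) (ψ : AA p k d →+* V) {e : ℕ} (h0 : ψ (ph p k d e f) = 0)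
    (z : WittVector p V) {τ : WittVector p K}
    (h : WittVector.map V.subtype z - Psi (V.subtype.comp ψ) f * τ ∈ VI p K (e + 1)) {j : ℕ}
    (hj : j < e) : τ.coeff j ∈ V := by
  by_contra hn
  have hp : ∀ i, 0 < p ^ i := fun i => pow_pos (Fact.out : p.Prime).pos i
  choose ρ hρ using fun i => IsAlgClosed.exists_pow_nat_eq (τ.coeff i) (hp i)
  obtain ⟨i₀, hi₀, hmax⟩ := Finset.exists_max_image (Finset.range e) (fun i => V.valuation (ρ i))
    ⟨j, Finset.mem_range.2 hj⟩
  rw [Finset.mem_range] at hi₀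
  have h1 : 1 < V.valuation (ρ i₀) := by
    refine lt_of_lt_of_le (not_le.1 fun h1 => hn ?_) (hmax j (Finset.mem_range.2 hj))
    rw [← hρ j]
    exact pow_mem ((V.valuation_le_one_iff _).1 h1) _
  have h2 : 0 < V.valuation (ρ i₀) := zero_lt_one.trans h1
  have h3 : ρ i₀ ≠ 0 := fun h3 => by simp [h3] at h2
  have h4 : V.valuation (ρ i₀)⁻¹ < 1 := by
    rw [map_inv₀]
    exact inv_lt_one_of_one_lt₀ h1
  obtain ⟨l, hl⟩ : ∃ l : V, (l : K) = (ρ i₀)⁻¹ := ⟨⟨_, (V.valuation_le_one_iff _).1 h4.le⟩, rfl⟩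
  have hlm : l ∈ maximalIdeal V := (V.valuation_lt_one_iff l).2 (hl ▸ h4)
  have h5 : ∀ i, ∃ c : V, i < e → (c : K) = (l : K) ^ p ^ i * τ.coeff i := fun i => by
    by_cases hi : i < e
    · have : (ρ i₀)⁻¹ * ρ i ∈ V := by
        rw [← V.valuation_le_one_iff, map_mul, map_inv₀, inv_mul_le_iff₀ h2, mul_one]
        exact hmax i (Finset.mem_range.2 hi)
      exact ⟨⟨_, this⟩ ^ p ^ i, fun _ => by
        rw [← hρ i, hl, ← mul_pow]
        simp⟩
    · exact ⟨0, fun h => absurd h hi⟩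
  choose c hc using h5
  have h6 : teichmuller p (l : K) * τ - WittVector.map V.subtype (WittVector.mk p c) ∈ VI p K e :=
    sub_mem_VI fun i hi => by
      rw [teich_mul_coeff, map_coeff, coeff_mk, ← hc i hi]
      rfl
  have h7 := mul_VI (x := Psi (V.subtype.comp ψ) f) (by
    rw [Psi_ghost, RingHom.comp_apply, h0, map_zero]) h6
  have h8 : WittVector.map V.subtype (teichmuller p l * z - Psi ψ f * WittVector.mk p c) ∈
      VI p K (e + 1) := by
    have h9 := add_mem (Ideal.mul_mem_left _ (teichmuller p (l : K)) h) h7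
    rw [map_sub, map_mul, map_mul, map_teichmuller, ← Psi_comp]
    convert h9 using 1
    simp only [ValuationSubring.subtype_apply]
    ring
  have h9 : teichmuller p l * z - Psi ψ f * WittVector.mk p c ∈ VI p V (e + 1) :=
    mem_VI.2 fun i hi => by
      have := mem_VI.1 h8 i hi
      rw [map_coeff] at this
      exact Subtype.ext this
  let χ : V →+* AlgebraicClosure (ResidueField V) :=
    (algebraMap (ResidueField V) _).comp (residue V)
  have hχ : χ l = 0 := by
    simp only [χ, RingHom.comp_apply]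
    rw [(residue_eq_zero_iff l).2 hlm, map_zero]
  have h10 := neg_mem (map_VI χ h9)
  rw [map_sub, map_mul, map_mul, map_teichmuller, hχ, teichmuller_zero, zero_mul, zero_sub,
    neg_neg, ← Psi_comp] at h10
  have h11 := mem_VI.1 (fib hf (χ.comp ψ) (by rw [RingHom.comp_apply, h0, map_zero]) h10) i₀ hi₀
  have h12 : c i₀ = 1 := Subtype.ext (by
    rw [hc i₀ hi₀, ← hρ i₀, hl, ← mul_pow, inv_mul_cancel₀ h3, one_pow]
    rfl)
  rw [map_coeff, coeff_mk, h12, map_one] at h11
  exact one_ne_zero h11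

/-- in `C_e`, `e ≥ 1`: `f^(p^e) ~ p`.  `φ^(e+1) f = (φ^e f)^p + p φ^e δ` (`Dist.delta`),
`(φ^e f)^p ≡ f^(p^(e+1)) mod p²` (`ph_sub_pow`, `dvd_sub_pow_of_dvd_sub`), `p ∈ Jac`
(`map_max_le_jacobson`). -/
theorem pow_assoc_p {f : AA p k d} (hf : Dist f) {C : Type} [CommRing C] (α : AA p k d →+* C)
    (hα : α.Finite) {e : ℕ} (h0 : α (ph p k d (e + 1) f) = 0) :
    (p : C) ∣ α f ^ p ^ (e + 1) ∧ α f ^ p ^ (e + 1) ∣ (p : C) := by
  obtain ⟨δ, hδ, h1⟩ := hf.delta
  obtain ⟨w, hw⟩ := dvd_sub_pow_of_dvd_sub (ph_sub_pow e f) 1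
  have hu : IsUnit (ph p k d e δ + p * w) :=
    stc_unit_add (hδ.map _) (Ideal.mul_mem_right _ _ stc_p_mem)
  have h2 : ph p k d (e + 1) f = f ^ p ^ (e + 1) + p * (ph p k d e δ + p * w) := by
    rw [ph_succ, h1, map_add, map_mul, map_pow, map_natCast, pow_succ p e, pow_mul]
    rw [pow_one] at hw
    linear_combination hw
  rw [h2, map_add, map_mul, map_pow, map_natCast] at h0
  have h3 : α f ^ p ^ (e + 1) = p * -α (ph p k d e δ + p * w) := by linear_combination h0
  rw [h3]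
  exact ⟨dvd_mul_right _ _, (hu.map α).neg.mul_right_dvd.2 dvd_rfl⟩

section Univ
variable (f : AA p k d) {H G : Type} (h : H → AA p k d) (a : G → AA p k d)

/-- `[σ] ≡ Ψ a + Ψ f · τ mod V^n` (with `σ = 0` for the elements `h`) -/
def Rel {L : Type} [CommRing L] (ψ : AA p k d →+* L) (σ : G → L) (τ : H ⊕ G → WittVector p L)
    (n : ℕ) : Prop :=
  ∀ l, teichmuller p (Sum.elim (fun _ => 0) σ l) - Psi ψ (Sum.elim h a l) - Psi ψ f * τ l ∈ VI p L n

/-- the universal solution of `Rel _ _ _ n'` and `b = 0`, generated by the first `n` coefficients -/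
structure Univ (n n' : ℕ) (b : AA p k d) {E : Type} [CommRing E] (α : AA p k d →+* E) (s : G → E)
    (t : H ⊕ G → WittVector p E) : Prop where
  rel : Rel f h a α s t n'
  kill : α b = 0
  lift : ∀ (L : Type) [CommRing L] (ψ : AA p k d →+* L) (σ : G → L) (τ : H ⊕ G → WittVector p L),
    Rel f h a ψ σ τ n' → ψ b = 0 → ∃ χ : E →+* L, (∀ y, χ (α y) = ψ y) ∧ (∀ γ, χ (s γ) = σ γ) ∧
      ∀ l, ∀ j < n, χ ((t l).coeff j) = (τ l).coeff j
  gen : ∀ S : Subring E, (∀ y, α y ∈ S) → (∀ γ, s γ ∈ S) → (∀ l, ∀ j < n, (t l).coeff j ∈ S) → S = ⊤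

theorem enc_elim {H G L L' : Type} [CommRing L] [CommRing L'] (χ : L →+* L') (σ : G → L)
    (l : H ⊕ G) : χ (Sum.elim (fun _ => 0) σ l) = Sum.elim (fun _ => 0) (fun γ => χ (σ γ)) l := by
  cases l <;> simp

theorem enc_frob {L : Type} [CommRing L] (ψ : AA p k d →+* L) (y : AA p k d) :
    frobenius (Psi ψ y) = Psi (ψ.comp (phi p k d)) y := by
  have h1 : Psi (phi p k d) y = dw p k d (phi p k d y) := map_phi_dw y
  rw [Psi_comp, h1, ← frobenius_dw]
  exact ((frobenius_isPoly p).map ψ (dw p k d y)).symm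

/-- `Pol = MvPolynomial (G ⊕ (H ⊕ G) × Fin n) A`, `T l = mk p (j ↦ if j < n then X (l, j) else 0)`,
`Y l = [sg l] - Psi C (a l) - Psi C f * T l`; relations: the coefficients `j < n'` of the `Y l`, and `C b`
(list: `C b :: (univ : Finset ((H ⊕ G) × Fin n')).toList.map _`).  `Psi_comp`, `map_teichmuller`,
`sub_mem_VI`. -/
theorem exists_univ [Fintype H] [Fintype G] (n n' : ℕ) (b : AA p k d)
    (hb : ∀ (L : Type) [CommRing L] (ψ : AA p k d →+* L), ψ b = 0 → ∀ z ∈ VI p L n,
      Psi ψ f * z ∈ VI p L n') :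
    ∃ (E : Type) (_ : CommRing E) (α : AA p k d →+* E) (s : G → E) (t : H ⊕ G → WittVector p E),
      Univ f h a n n' b α s t ∧ ∃ (π : MvPolynomial (G ⊕ (H ⊕ G) × Fin n) (AA p k d) →+* E)
        (rels : List (MvPolynomial (G ⊕ (H ⊕ G) × Fin n) (AA p k d))), Function.Surjective π ∧
        π.comp MvPolynomial.C = α ∧ RingHom.ker π = Ideal.ofList rels ∧
        rels.length = (Fintype.card H + Fintype.card G) * n' + 1 := by
  classical
  let T : H ⊕ G → WittVector p (MvPolynomial (G ⊕ (H ⊕ G) × Fin n) (AA p k d)) := fun l =>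
    WittVector.mk p fun j => if hj : j < n then MvPolynomial.X (Sum.inr (l, ⟨j, hj⟩)) else 0
  let Y : H ⊕ G → WittVector p (MvPolynomial (G ⊕ (H ⊕ G) × Fin n) (AA p k d)) := fun l =>
    teichmuller p (Sum.elim (fun _ => 0) (fun γ => MvPolynomial.X (Sum.inl γ)) l) -
      Psi MvPolynomial.C (Sum.elim h a l) - Psi MvPolynomial.C f * T l
  let rels : List (MvPolynomial (G ⊕ (H ⊕ G) × Fin n) (AA p k d)) := MvPolynomial.C b ::
    (Finset.univ : Finset ((H ⊕ G) × Fin n')).toList.map fun lj => (Y lj.1).coeff lj.2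
  have hT : ∀ l j (hj : j < n), (T l).coeff j = MvPolynomial.X (Sum.inr (l, ⟨j, hj⟩)) :=
    fun l j hj => by simp only [T, WittVector.coeff_mk, dif_pos hj]
  have hY : ∀ (L : Type) [CommRing L] (χ : MvPolynomial (G ⊕ (H ⊕ G) × Fin n) (AA p k d) →+* L) l,
      WittVector.map χ (Y l) = teichmuller p (Sum.elim (fun _ => 0)
        (fun γ => χ (MvPolynomial.X (Sum.inl γ))) l) - Psi (χ.comp MvPolynomial.C) (Sum.elim h a l) -
          Psi (χ.comp MvPolynomial.C) f * WittVector.map χ (T l) := fun L _ χ l => by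
    simp only [Y, map_sub, map_mul, map_teichmuller, Psi_comp, enc_elim]
  let π := Ideal.Quotient.mk (Ideal.ofList rels)
  refine ⟨_, inferInstance, π.comp MvPolynomial.C, fun γ => π (MvPolynomial.X (Sum.inl γ)),
    fun l => WittVector.map π (T l), ⟨fun l => ?_, ?_, ?_, ?_⟩, π, rels,
    Ideal.Quotient.mk_surjective, rfl, Ideal.mk_ker, ?_⟩
  · rw [← hY, mem_VI]
    intro j hj
    rw [WittVector.map_coeff, Ideal.Quotient.eq_zero_iff_mem]
    exact Ideal.subset_span (List.mem_cons_of_mem _ (List.mem_map.2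
      ⟨(l, ⟨j, hj⟩), Finset.mem_toList.2 (Finset.mem_univ _), rfl⟩))
  · exact Ideal.Quotient.eq_zero_iff_mem.2 (Ideal.subset_span List.mem_cons_self)
  · intro L _ ψ σ τ hr hψ
    let χ : MvPolynomial (G ⊕ (H ⊕ G) × Fin n) (AA p k d) →+* L :=
      MvPolynomial.eval₂Hom ψ (Sum.elim σ fun lj => (τ lj.1).coeff lj.2)
    have h1 : χ.comp MvPolynomial.C = ψ := MvPolynomial.eval₂Hom_comp_C _ _
    have h2 : ∀ γ, χ (MvPolynomial.X (Sum.inl γ)) = σ γ := fun γ =>
      MvPolynomial.eval₂Hom_X' _ _ _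
    have h3 : ∀ l, ∀ j < n, χ ((T l).coeff j) = (τ l).coeff j := fun l j hj => by
      rw [hT l j hj]
      exact MvPolynomial.eval₂Hom_X' _ _ _
    have h4 : ∀ l, WittVector.map χ (Y l) ∈ VI p L n' := fun l => by
      have h5 := add_mem (hr l) (hb L ψ hψ _ (sub_mem_VI (x := τ l) (y := WittVector.map χ (T l))
        fun j hj => by rw [WittVector.map_coeff, h3 l j hj]))
      rw [hY, h1, funext h2]
      convert h5 using 1
      ring
    have hle : ∀ y ∈ Ideal.ofList rels, χ y = 0 := by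
      intro y hy
      refine (Ideal.span_le (I := RingHom.ker χ)).2 (fun r hr => ?_) hy
      rcases List.mem_cons.1 hr with rfl | hr
      · exact (RingHom.congr_fun h1 b).trans hψ
      · obtain ⟨lj, -, rfl⟩ := List.mem_map.1 hr
        exact (WittVector.map_coeff χ _ _).symm.trans (mem_VI.1 (h4 lj.1) _ lj.2.2)
    refine ⟨Ideal.Quotient.lift _ χ hle, fun y => RingHom.congr_fun h1 y, h2, fun l j hj => ?_⟩
    rw [WittVector.map_coeff]
    exact h3 l j hj
  · intro S h1 h2 h3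
    refine eq_top_iff.2 fun z _ => ?_
    obtain ⟨q, rfl⟩ := Ideal.Quotient.mk_surjective z
    induction q using MvPolynomial.induction_on with
    | C y => exact h1 y
    | add q q' hq hq' => rw [map_add]; exact add_mem (hq trivial) (hq' trivial)
    | mul_X q v hq =>
      rw [map_mul]
      refine mul_mem (hq trivial) ?_
      rcases v with γ | ⟨l, j, hj⟩
      · exact h2 γ
      · have h4 := h3 l j hj
        rwa [WittVector.map_coeff, hT l j hj] at h4
  · simp [rels]

variable {f h a} {E : Type} [CommRing E] {α : AA p k d →+* E} {s : G → E}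
  {t : H ⊕ G → WittVector p E}

theorem Rel.mono {n n' : ℕ} (hr : Rel f h a α s t n') (hn : n ≤ n') : Rel f h a α s t n :=
  fun l => VI_anti hn (hr l)

theorem Rel.map {n : ℕ} (hr : Rel f h a α s t n) {L : Type} [CommRing L] (χ : E →+* L) :
    Rel f h a (χ.comp α) (fun γ => χ (s γ)) (fun l => WittVector.map χ (t l)) n := by
  intro l
  have h1 := map_VI χ (hr l)
  rwa [map_sub, map_sub, map_mul, map_teichmuller, ← Psi_comp, ← Psi_comp, enc_elim] at h1

/-- `frobenius_VI`, `frobenius_teich`, `frobenius_dw`, `map_phi_dw` -/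
theorem Rel.frob {n : ℕ} (hr : Rel f h a α s t (n + 1)) :
    Rel f h a (α.comp (phi p k d)) (fun γ => s γ ^ p) (fun l => frobenius (t l)) n := by
  intro l
  have h1 := frobenius_VI (hr l)
  rw [map_sub, map_sub, map_mul, frobenius_teich, enc_frob, enc_frob] at h1
  convert h1 using 4
  cases l <;> simp [(Fact.out : p.Prime).ne_zero]

/-- `Rel.map`, `mem_span_p_pow_iff_le_coeff_eq_zero`, `Deep.span` -/
theorem Rel.root {n : ℕ} (hr : Rel f h a α s t n) :
    Deep α f n (Ideal.span {f} ⊔ Ideal.span (Set.range h)) ∧ ∀ γ, Root α f n (s γ) (a γ) := by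
  have key : ∀ l, Root α f n (Sum.elim (fun _ => 0) s l) (Sum.elim h a l) := by
    intro l V _ _ _ ψ
    have h1 := hr.map ψ l
    rw [mem_VI, ← mem_span_p_pow_iff_le_coeff_eq_zero, ← enc_elim, Ideal.mem_span_singleton'] at h1
    obtain ⟨c, hc⟩ := h1
    exact Ideal.mem_span_pair.2 ⟨WittVector.map ψ (t l), c, by linear_combination hc⟩
  exact ⟨Deep.span fun l => key (Sum.inl l), fun γ => key (Sum.inr γ)⟩

/-- the ghost equations -/
theorem Rel.ghost {n j : ℕ} (hr : Rel f h a α s t n) (hj : j < n) (l : H ⊕ G) :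
    Sum.elim (fun _ => 0) s l ^ p ^ j - α (ph p k d j (Sum.elim h a l)) =
      α (ph p k d j f) * ghostComponent j (t l) := by
  have h1 := ghost_eq_zero (hr l) hj
  rwa [map_sub, map_sub, map_mul, ghostComponent_teichmuller, Psi_ghost, Psi_ghost,
    sub_eq_zero] at h1

variable {e : ℕ} (U : Univ f h a e (e + 1) (ph p k d e f) α s t)
include U

theorem Univ.sp (γ : G) : s γ ^ p ^ e = α (ph p k d e (a γ)) := by
  have h1 := U.rel.ghost (Nat.lt_succ_self e) (Sum.inr γ)
  rwa [U.kill, zero_mul, sub_eq_zero] at h1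

theorem Univ.kh (l : H) : α (ph p k d e (h l)) = 0 := by
  have h1 := U.rel.ghost (Nat.lt_succ_self e) (Sum.inl l)
  rw [U.kill, zero_mul, sub_eq_zero] at h1
  exact h1.symm.trans (zero_pow (pow_ne_zero _ (Fact.out : p.Prime).ne_zero))

/-- the generators are integral: `isIntegral_of_val`, `coeff_mem_val`; a ring generated by finitely many
integral elements is finite (`Algebra.finite_adjoin_of_finite_of_isIntegral`) -/
theorem Univ.finite [Finite H] [Finite G] (hf : Dist f) : α.Finite := by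
  let := α.toAlgebra
  have hpe : 0 < p ^ e := pow_pos (Fact.out : p.Prime).pos e
  let S : Set E := Set.range s ∪ Set.range fun x : (H ⊕ G) × Fin e => (t x.1).coeff x.2
  have hS : S.Finite := (Set.finite_range _).union (Set.finite_range _)
  have hint : ∀ y ∈ S, IsIntegral (AA p k d) y := by
    rintro _ (⟨γ, rfl⟩ | ⟨⟨l, j⟩, rfl⟩)
    · refine IsIntegral.of_pow hpe ?_
      rw [U.sp γ]
      exact isIntegral_algebraMap
    · refine isIntegral_of_val α _ fun K _ _ χ V hV => ?_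
      let ψ : AA p k d →+* V := (χ.comp α).codRestrict V.toSubring hV
      have hψ : V.subtype.comp ψ = χ.comp α := rfl
      have h0 : ψ (ph p k d e f) = 0 := Subtype.ext (by
        show χ (α _) = 0
        rw [U.kill, map_zero])
      have hσ : Sum.elim (fun _ => (0 : K)) (fun γ => χ (s γ)) l ∈ V := by
        cases l with
        | inl l => exact V.zero_mem
        | inr γ =>
          have h1 : χ (s γ) ^ p ^ e ∈ V := by rw [← map_pow, U.sp γ]; exact hV _
          rw [← V.valuation_le_one_iff, map_pow, pow_le_one_iff_of_nonneg zero_le hpe.ne',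
            V.valuation_le_one_iff] at h1
          exact h1
      have h2 := coeff_mem_val hf V ψ h0
        (teichmuller p (⟨_, hσ⟩ : V) - Psi ψ (Sum.elim h a l)) (τ := WittVector.map χ (t l))
        (by
          rw [map_sub, map_teichmuller, ← Psi_comp, hψ]
          exact U.rel.map χ l) j.2
      rwa [WittVector.map_coeff] at h2
  have htop : Algebra.adjoin (AA p k d) S = ⊤ := by
    have := U.gen (Algebra.adjoin (AA p k d) S).toSubring
      (fun y => (Algebra.adjoin (AA p k d) S).algebraMap_mem y)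
      (fun γ => Algebra.subset_adjoin (Or.inl ⟨γ, rfl⟩))
      (fun l j hj => Algebra.subset_adjoin (Or.inr ⟨(l, ⟨j, hj⟩), rfl⟩))
    exact eq_top_iff.2 fun y _ => (this.ge (Subring.mem_top y) :)
  have hfin := Algebra.finite_adjoin_of_finite_of_isIntegral hS hint
  rw [htop] at hfin
  exact Module.Finite.equiv (Subalgebra.topEquiv (R := AA p k d) (A := E)).toLinearEquiv

/-- define `τ l` by its ghost components (`ghostEquiv`): `(σ^(p^j) - ψ φ^j a) / ψ φ^j f` for `j < e`
(`Dist.ph_assoc`), `0` otherwise; `mem_VI_of_ghost` -/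
theorem Univ.pt (hf : Dist f) (L : Type) [CommRing L] (ψ : AA p k d →+* L) (σ : G → L)
    (hp : IsUnit (p : L)) (h1 : ψ (ph p k d e f) = 0) (h2 : ∀ l, ψ (ph p k d e (h l)) = 0)
    (h3 : ∀ γ, σ γ ^ p ^ e = ψ (ph p k d e (a γ))) :
    ∃ χ : E →+* L, (∀ y, χ (α y) = ψ y) ∧ ∀ γ, χ (s γ) = σ γ := by
  classical
  let := hp.invertible
  have hu : ∀ j < e, IsUnit (ψ (ph p k d j f)) := fun j hj => by
    obtain ⟨υ, y, hυ, hy⟩ := hf.ph_assoc hj
    have h4 : ψ (ph p k d j f) * -ψ y = p * ψ υ := by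
      have := congrArg ψ hy
      rw [h1, map_add, map_mul, map_mul, map_natCast] at this
      linear_combination this
    exact isUnit_of_mul_isUnit_left (h4 ▸ hp.mul (hυ.map ψ))
  have hτ : ∀ l : H ⊕ G, ∃ τ : WittVector p L, ∀ j, ghostComponent j τ =
      (Sum.elim (fun _ => 0) σ l ^ p ^ j - ψ (ph p k d j (Sum.elim h a l))) *
        Ring.inverse (ψ (ph p k d j f)) := fun l => by
    obtain ⟨τ, hτ⟩ := (ghostMap.bijective_of_invertible p L).2 fun j =>
      (Sum.elim (fun _ => 0) σ l ^ p ^ j - ψ (ph p k d j (Sum.elim h a l))) *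
        Ring.inverse (ψ (ph p k d j f))
    exact ⟨τ, fun j => congrFun hτ j⟩
  choose τ hτ using hτ
  have hr : Rel f h a ψ σ τ (e + 1) := fun l => by
    refine mem_VI_of_ghost hp fun j hj => ?_
    rw [map_sub, map_sub, map_mul, ghostComponent_teichmuller, Psi_ghost, Psi_ghost, hτ]
    rcases (Nat.lt_succ_iff.1 hj).lt_or_eq with hj | rfl
    · rw [mul_comm, mul_assoc, Ring.inverse_mul_cancel _ (hu j hj), mul_one, sub_self]
    · rw [h1, zero_mul, sub_zero]
      cases l with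
      | inl l => simp [h2 l, (Fact.out : p.Prime).ne_zero]
      | inr γ => exact sub_eq_zero.2 (h3 γ)
  obtain ⟨χ, c1, c2, -⟩ := U.lift L ψ σ τ hr h1
  exact ⟨χ, c1, c2⟩

/-- `{y | ∃ κ, p^κ y ∈ S}` is a subring; `p w_j(t) ∈ S` by `Rel.ghost`, `Dist.ph_assoc`; strong induction
on `j` with `w_j(t) = ∑ p^i t_i^(p^(j-i))` (`aeval_wittPolynomial`) -/
theorem Univ.sat (hf : Dist f) (y : E) :
    ∃ κ, (p : E) ^ κ * y ∈ Subring.closure (Set.range α ∪ Set.range s) := by
  set S := Subring.closure (Set.range α ∪ Set.range s) with hS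
  have hpS : ∀ κ, (p : E) ^ κ ∈ S := fun κ => pow_mem (natCast_mem S p) κ
  have hα : ∀ y, α y ∈ S := fun y => Subring.subset_closure (Or.inl ⟨y, rfl⟩)
  have hs : ∀ γ, s γ ∈ S := fun γ => Subring.subset_closure (Or.inr ⟨γ, rfl⟩)
  let T : Subring E :=
    { carrier := {y | ∃ κ, (p : E) ^ κ * y ∈ S}
      one_mem' := ⟨0, by simp⟩
      zero_mem' := ⟨0, by simp⟩
      mul_mem' := by
        rintro x y ⟨κ, hx⟩ ⟨κ', hy⟩
        refine ⟨κ + κ', ?_⟩
        have := mul_mem hx hy
        rwa [mul_mul_mul_comm, ← pow_add] at this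
      add_mem' := by
        rintro x y ⟨κ, hx⟩ ⟨κ', hy⟩
        refine ⟨κ + κ', ?_⟩
        have := add_mem (mul_mem (hpS κ') hx) (mul_mem (hpS κ) hy)
        convert this using 1
        ring
      neg_mem' := by
        rintro x ⟨κ, hx⟩
        exact ⟨κ, by rw [mul_neg]; exact neg_mem hx⟩ }
  have hST : ∀ y ∈ S, y ∈ T := fun y hy => ⟨0, by simpa using hy⟩
  have hsat : ∀ κ y, (p : E) ^ κ * y ∈ T → y ∈ T := by
    rintro κ y ⟨κ', hy⟩
    exact ⟨κ' + κ, by rwa [pow_add, mul_assoc]⟩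
  have hT : T = ⊤ := by
    refine U.gen T (fun y => hST _ (hα y)) (fun γ => hST _ (hs γ)) fun l j => ?_
    induction j using Nat.strong_induction_on with
    | _ j ih =>
      intro hj
      have hw : ghostComponent j (t l) ∈ T := by
        obtain ⟨υ, y, hυ, hy⟩ := hf.ph_assoc hj
        obtain ⟨υ', hυ'⟩ := hυ.exists_right_inv
        have h1 := congrArg α hy
        rw [U.kill, map_add, map_mul, map_mul, map_natCast] at h1
        have h2 := U.rel.ghost (Nat.lt_succ_of_lt hj) l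
        have h3 : α υ * α υ' = 1 := by rw [← map_mul, hυ', map_one]
        have h4 : Sum.elim (fun _ => (0 : E)) s l ∈ S := by
          cases l with
          | inl l => exact zero_mem _
          | inr γ => exact hs γ
        refine ⟨1, ?_⟩
        have h5 := neg_mem (mul_mem (mul_mem (hα υ') (hα y))
          (sub_mem (pow_mem h4 (p ^ j)) (hα (ph p k d j (Sum.elim h a l)))))
        rw [h2] at h5
        convert h5 using 1
        linear_combination (-(α υ' * ghostComponent j (t l))) * h1 -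
          (p * ghostComponent j (t l)) * h3
      rw [ghostComponent_apply, aeval_wittPolynomial, Finset.sum_range_succ, Nat.sub_self, pow_zero,
        pow_one] at hw
      refine hsat j _ ((add_mem_cancel_left ?_).1 hw)
      refine sum_mem fun i hi => mul_mem (hST _ (hpS i)) (pow_mem ?_ _)
      have hi' := Finset.mem_range.1 hi
      exact ih i hi' (hi'.trans hj)
  exact (hT.ge (Subring.mem_top y) :)

/-- `ι` from `Rel.frob`; `ϖ = α' f ^ p ^ e` (`pow_assoc_p`); `ρ : E → E'/ϖ` from `Rel.map`, `Rel.mono`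
(`p = 0` in `E'/ϖ`, `map_ph`); `mk (ι z) = ρ z ^ p` on generators (`coeff_frobenius_charP`; treat the
trivial ring apart), `U.gen`. -/
theorem Univ.step [Finite H] [Finite G] (hf : Dist f) {E' : Type} [CommRing E']
    {α' : AA p k d →+* E'} {s' : G → E'} {t' : H ⊕ G → WittVector p E'}
    (U' : Univ f h a (e + 1) (e + 1 + 1) (ph p k d (e + 1) f) α' s' t') :
    ∃ ι : E →+* E', (∀ γ, ι (s γ) = s' γ ^ p) ∧ ∃ ϖ : E', (p : E') ∣ ϖ ^ p ∧ ϖ ^ p ∣ (p : E') ∧
      ∀ z : E, (p : E) ∣ z ^ p → ϖ ∣ ι z := by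
  have hk : (α'.comp (phi p k d)) (ph p k d e f) = 0 := by
    have := U'.kill
    rw [add_comm, ph_add] at this
    exact this
  obtain ⟨ι, i1, i2, i3⟩ := U.lift E' _ _ _ U'.rel.frob hk
  obtain ⟨d1, d2⟩ := pow_assoc_p hf α' (U'.finite hf) U'.kill
  rw [pow_succ, pow_mul] at d1 d2
  refine ⟨ι, i2, α' f ^ p ^ e, d1, d2, fun z hz => ?_⟩
  rw [← Ideal.mem_span_singleton, ← Ideal.Quotient.eq_zero_iff_mem]
  set π := Ideal.Quotient.mk (Ideal.span {α' f ^ p ^ e}) with hπ
  rcases subsingleton_or_nontrivial (E' ⧸ Ideal.span {α' f ^ p ^ e}) with hQ | hQ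
  · exact Subsingleton.elim _ _
  have hp0 : (p : E' ⧸ Ideal.span {α' f ^ p ^ e}) = 0 := by
    rw [← map_natCast π, hπ, Ideal.Quotient.eq_zero_iff_mem, Ideal.mem_span_singleton]
    exact (dvd_pow_self _ (Fact.out : p.Prime).ne_zero).trans d2
  have : CharP (E' ⧸ Ideal.span {α' f ^ p ^ e}) p :=
    (CharP.charP_iff_prime_eq_zero Fact.out).2 hp0
  have hk' : (π.comp α') (ph p k d e f) = 0 := by
    rw [map_ph hp0, RingHom.comp_apply, ← map_pow π, hπ, Ideal.Quotient.eq_zero_iff_mem]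
    exact Ideal.mem_span_singleton_self _
  obtain ⟨ρ, r1, r2, r3⟩ := U.lift _ _ _ _ ((U'.rel.map π).mono (Nat.le_succ _)) hk'
  have hE := U.gen (RingHom.eqLocus (π.comp ι) ((_root_.frobenius _ p).comp ρ))
    (fun y => by
      show π (ι (α y)) = ρ (α y) ^ p
      rw [i1, r1]
      have := map_ph hp0 (π.comp α') 1 y
      rw [pow_one] at this
      exact this)
    (fun γ => by
      show π (ι (s γ)) = ρ (s γ) ^ p
      rw [i2, r2, map_pow])
    (fun l j hj => by
      show π (ι ((t l).coeff j)) = ρ ((t l).coeff j) ^ p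
      rw [i3 l j hj, r3 l j hj, ← WittVector.map_coeff, (frobenius_isPoly p).map,
        coeff_frobenius_charP])
  have h1 : π (ι z) = ρ z ^ p := (hE.ge (Subring.mem_top z) :)
  obtain ⟨c, hc⟩ := hz
  rw [h1, ← map_pow ρ, hc, map_mul, map_natCast, hp0, zero_mul]

end Univ

/-- the tower of envelopes -/
structure Tow (f : AA p k d) {t : ℕ} (h : Fin t → AA p k d) {G : Type} (a : G → AA p k d) where
  C : ℕ → Type
  [cr : ∀ e, CommRing (C e)]
  α : ∀ e, AA p k d →+* C e
  s : ∀ e, G → C e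
  ι : ∀ e, C e →+* C (e + 1)
  fin : ∀ e, (α e).Finite
  kill : ∀ e, ∀ y ∈ Ideal.span {f} ⊔ Ideal.span (Set.range h), α e (ph p k d e y) = 0
  sp : ∀ e γ, s e γ ^ p ^ e = α e (ph p k d e (a γ))
  cm : ∀ e (zs : List (AA p k d)), (∀ z ∈ zs, z ∈ maximalIdeal (AA p k d)) → t + zs.length = d →
    Prim (Ideal.span {f} ⊔ Ideal.span (Set.range h)) (Ideal.ofList zs) →
      IsWeaklyRegular (C e) (zs.map ((α e).comp (ph p k d e)))
  pt : ∀ e (L : Type) [CommRing L] (ψ : AA p k d →+* L) (σ : G → L), IsUnit (p : L) →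
    (∀ y ∈ Ideal.span {f} ⊔ Ideal.span (Set.range h), ψ (ph p k d e y) = 0) →
    (∀ γ, σ γ ^ p ^ e = ψ (ph p k d e (a γ))) →
      ∃ χ : C e →+* L, (∀ y, χ (α e y) = ψ y) ∧ ∀ γ, χ (s e γ) = σ γ
  sat : ∀ e (y : C e), ∃ κ, (p : C e) ^ κ * y ∈ Subring.closure (Set.range (α e) ∪ Set.range (s e))
  ιs : ∀ e γ, ι e (s e γ) = s (e + 1) γ ^ p
  pr : ∀ e, ∃ ϖ : C (e + 1), (p : C (e + 1)) ∣ ϖ ^ p ∧ ϖ ^ p ∣ (p : C (e + 1)) ∧
    ∀ z : C e, (p : C e) ∣ z ^ p → ϖ ∣ ι e z
  env : ∀ n, ∃ (E : Type) (_ : CommRing E) (αE : AA p k d →+* E) (σ : G → E),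
    Deep αE f n (Ideal.span {f} ⊔ Ideal.span (Set.range h)) ∧ (∀ γ, Root αE f n (σ γ) (a γ)) ∧
      ∀ e, n ≤ e → ∃ ε : E →+* C e, (∀ y, ε (αE y) = α e y) ∧ ∀ γ, ε (σ γ) = s e γ

attribute [instance] Tow.cr

/-- `choose` from `exists_univ e (e+1) (φ^e f)` (`mul_VI`, `Psi_ghost`); `cm_ci` with `zs.map (φ^e)`
(`AC.witt`, `AA_res`, `AA_regLoc`, `Prim.ph`, `ph_max`); `env` from `exists_univ n n 0`. -/
theorem exists_tow {f : AA p k d} (hf : Dist f) {t : ℕ} (h : Fin t → AA p k d) {G : Type}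
    [Fintype G] (a : G → AA p k d) : Nonempty (Tow f h a) := by
  choose C cr α s τ U π rels hπ hα hk hl using fun e => exists_univ f h a e (e + 1) (ph p k d e f)
    fun L _ ψ hψ z hz => mul_VI (by rw [Psi_ghost, hψ]) hz
  choose ι hι hϖ using fun e => (U e).step hf (U (e + 1))
  have hf1 : f ∈ Ideal.span {f} ⊔ Ideal.span (Set.range h) :=
    Ideal.mem_sup_left (Ideal.mem_span_singleton_self _)
  have hh1 : ∀ l, h l ∈ Ideal.span {f} ⊔ Ideal.span (Set.range h) := fun l =>
    Ideal.mem_sup_right (Ideal.subset_span ⟨l, rfl⟩)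
  have kill : ∀ e, Ideal.span {f} ⊔ Ideal.span (Set.range h) ≤
      (RingHom.ker (α e)).comap (ph p k d e) := fun e => by
    refine sup_le ((Ideal.span_singleton_le_iff_mem _).2 (U e).kill) (Ideal.span_le.2 ?_)
    rintro _ ⟨l, rfl⟩
    exact (U e).kh l
  refine ⟨⟨C, α, s, ι, fun e => (U e).finite hf, fun e y hy => kill e hy, fun e => (U e).sp,
    fun e zs hz hlen hP => ?_, fun e L _ ψ σ hp h1 h2 =>
      (U e).pt hf L ψ σ hp (h1 _ hf1) (fun l => h1 _ (hh1 l)) h2,
    fun e => (U e).sat hf, hι, hϖ, fun n => ?_⟩⟩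
  · have h1 := cm_ci (AC.witt p k) MvPowerSeries.C (AA_res p k d) (AA_regLoc p k d) (π e) (hπ e)
      (by rw [hα]; exact ((U e).finite hf).to_isIntegral) (rels e) (hk e) (zs.map (ph p k d e))
      (fun z hz' => by
        obtain ⟨y, hy, rfl⟩ := List.mem_map.1 hz'
        exact ph_max e (hz y hy))
      (by
        rw [hl, List.length_map]
        simp only [Fintype.card_sum, Fintype.card_prod, Fintype.card_fin]
        rw [mul_add_one]
        omega)
      (by
        rw [hα, ← Ideal.map_ofList]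
        exact (hP.ph e).mono (Ideal.map_le_iff_le_comap.2 (kill e)) le_rfl)
    rwa [hα, List.map_map] at h1
  · obtain ⟨E, _, αE, σ, t', U', -⟩ := exists_univ f h a n n 0
      fun L _ ψ _ z hz => Ideal.mul_mem_left _ _ hz
    refine ⟨E, inferInstance, αE, σ, U'.rel.root.1, U'.rel.root.2, fun e he => ?_⟩
    obtain ⟨ε, h1, h2, -⟩ := U'.lift (C e) (α e) (s e) (τ e)
      ((U e).rel.mono (he.trans (Nat.le_succ e))) (map_zero _)
    exact ⟨ε, h1, h2⟩

end Crest.Agent.R188
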