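import Crest.Agent.R188.MU

/-! # R188 / GP : general position of the linear forms `u''`; two Nakayama lemmas; the form of `ξ`. -/

set_option autoImplicit false
open IsLocalRing RingTheory.Sequence Crest.Agent.R183

namespace Crest.Agent.R188

/-- `dl_iff_primes`, `Ideal.exists_minimalPrimes_le`, `Dl.of_prime_lt`, `Dl.mono` -/
theorem Dl.sup_of_avoid {R : Type} [CommRing R] {I : Ideal R} {n : ℕ} (h : Dl I (n + 1)) {z : R}
    (hz : ∀ q ∈ I.minimalPrimes, ¬ Dl q n → z ∉ q) : Dl (I ⊔ Ideal.span {z}) n := by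
  rw [dl_iff_primes] at h ⊢
  intro P hP hle
  obtain ⟨q, hq, hqP⟩ := Ideal.exists_minimalPrimes_le (le_sup_left.trans hle)
  by_cases hd : Dl q n
  · exact hd.mono hqP le_rfl
  · refine Dl.of_prime_lt hq.1.1 (h q hq.1.1 hq.1.2) (lt_of_le_of_ne hqP ?_)
    rintro rfl
    exact hz _ hq hd (hle (Ideal.mem_sup_right (Ideal.mem_span_singleton_self z)))

section GP
variable {p : ℕ} [Fact p.Prime] {k : Type} [Field k] [IsAlgClosed k] [CharP k p] {Λ : Type}
  [CommRing Λ] [IsNoetherianRing Λ] (ω : WW p k →+* Λ) {d' : ℕ} (x y : Fin (d' + 1) → Λ)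
  (𝔥 : Ideal Λ)

omit [IsNoetherianRing Λ] [IsAlgClosed k] in
/-- at most one residue is bad for each prime -/
theorem gpa_fin {Q : Set (Ideal Λ)} (hQ : Q.Finite) {a b : Λ}
    (h : ∀ q ∈ Q, a ∉ q ∨ b ∉ q) :
    {t : k | ∃ q ∈ Q, a + ω (WittVector.teichmuller p t) * b ∈ q}.Finite := by
  have e : {t : k | ∃ q ∈ Q, a + ω (WittVector.teichmuller p t) * b ∈ q} =
      ⋃ q ∈ Q, {t : k | a + ω (WittVector.teichmuller p t) * b ∈ q} := by
    ext t; simp
  rw [e]
  refine hQ.biUnion fun q hq => Set.Subsingleton.finite fun t ht t' ht' => ?_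
  by_contra hne
  have hu : IsUnit (WittVector.teichmuller p t - WittVector.teichmuller p t') := by
    refine WittVector.isUnit_of_coeff_zero_ne_zero _ ?_
    rw [← WittVector.constantCoeff_apply, map_sub]
    simpa [sub_eq_zero] using hne
  have h1 : ω (WittVector.teichmuller p t - WittVector.teichmuller p t') * b ∈ q := by
    have := q.sub_mem ht ht'
    rwa [add_sub_add_left_eq_sub, ← sub_mul, ← map_sub] at this
  have hb : b ∈ q := (Ideal.unit_mul_mem_iff_mem q (hu.map ω)).1 h1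
  have ha : a ∈ q := by
    have := q.sub_mem ht (q.mul_mem_left (ω (WittVector.teichmuller p t)) hb)
    rwa [add_sub_cancel_right] at this
  exact (h q hq).elim (fun h' => h' ha) fun h' => h' hb

omit [IsNoetherianRing Λ] in
theorem gpa_comb {ι : Type} [DecidableEq ι] (u : ι → Λ) (a : Λ) (s : Finset ι) :
    ∀ Q : Set (Ideal Λ), Q.Finite → (∀ q ∈ Q, a ∉ q ∨ ∃ l ∈ s, u l ∉ q) →
      ∃ c : ι → WW p k, ∀ q ∈ Q, a + ∑ l ∈ s, ω (c l) * u l ∉ q := by
  induction s using Finset.induction_on with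
  | empty => exact fun Q _ h => ⟨0, fun q hq => by simpa using h q hq⟩
  | insert l s hl ih =>
    intro Q hQ h
    obtain ⟨c, hc⟩ := ih {q ∈ Q | u l ∈ q} (hQ.subset fun q hq => hq.1) fun q hq => by
      rcases h q hq.1 with h' | ⟨l', hl', h'⟩
      · exact Or.inl h'
      · rcases Finset.mem_insert.1 hl' with rfl | hl'
        · exact absurd hq.2 h'
        · exact Or.inr ⟨l', hl', h'⟩
    obtain ⟨t, ht⟩ := (gpa_fin ω hQ (a := a + ∑ l ∈ s, ω (c l) * u l) (b := u l) fun q hq => by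
      by_cases h' : u l ∈ q
      · exact Or.inl (hc q ⟨hq, h'⟩)
      · exact Or.inr h').exists_notMem
    refine ⟨Function.update c l (WittVector.teichmuller p t), fun q hq hm => ht ⟨q, hq, ?_⟩⟩
    rw [Finset.sum_insert hl, Function.update_self, Finset.sum_congr rfl
      (g := fun l => ω (c l) * u l) fun l' hl' => by
        rw [Function.update_of_ne (ne_of_mem_of_not_mem hl' hl)]] at hm
    convert hm using 1
    ring

theorem gpa_span_succ {R : Type} [CommRing R] {n : ℕ} (I : Ideal R) (v : Fin n → R) (j : Fin n) :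
    I ⊔ Ideal.span (v '' {i | (i : ℕ) < j + 1}) =
      I ⊔ Ideal.span (v '' {i | (i : ℕ) < j}) ⊔ Ideal.span {v j} := by
  have : {i : Fin n | (i : ℕ) < j + 1} = insert j {i : Fin n | (i : ℕ) < j} := by
    ext i
    simp only [Set.mem_setOf_eq, Set.mem_insert_iff, Fin.ext_iff]
    omega
  rw [this, Set.image_insert_eq, Ideal.span_insert, sup_comm (Ideal.span {v j}), sup_assoc]

theorem gpa_det {W : Type} [CommRing W] {n : ℕ} {Γ : Matrix (Fin n) (Fin n) W}
    (h0 : ∀ i l, l < i → Γ i l = 0) (h1 : ∀ i, Γ i i = 1) : IsUnit Γ.det := by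
  rw [Matrix.det_of_upperTriangular (fun i l hl => h0 i l hl)]
  simp [h1]

/-- Take `Γ` upper unitriangular, `Γ j l = t_j^(l-j)` for `l ≥ j` (`Matrix.det_of_upperTriangular`), and
choose the rows one after the other (induct on `j`, changing only row `j`).  For a minimal prime `q` of
`𝔥 + (v_0, …, v_{j-1})` with `¬ Dl q (d' - j)` only finitely many residues of `t_j` are bad: the polynomial
`∑_{l ≥ j} u_l T^(l-j)` is nonzero over the domain `Λ/q` (otherwise all `u_l ∈ q` by triangularity and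
`Dl q 1`), and elements of `W` with different residues have different images (their difference is a
unit).  `k` is infinite; use Teichmüller lifts.  `Dl.sup_of_avoid`. -/
theorem exists_gamma (h1 : Dl 𝔥 (d' + 1))
    (h2 : Dl (𝔥 ⊔ Ideal.span (Set.range fun l => x l - y l)) 1) :
    ∃ Γ : Matrix (Fin (d' + 1)) (Fin (d' + 1)) (WW p k), IsUnit Γ.det ∧ ∀ j ≤ d',
      Dl (𝔥 ⊔ Ideal.span (vv ω Γ x y '' {i | (i : ℕ) < j})) (d' + 1 - j) := by
  have key : ∀ j ≤ d', ∃ Γ : Matrix (Fin (d' + 1)) (Fin (d' + 1)) (WW p k),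
      (∀ i l, l < i → Γ i l = 0) ∧ (∀ i, Γ i i = 1) ∧ ∀ j' ≤ j,
        Dl (𝔥 ⊔ Ideal.span (vv ω Γ x y '' {i | (i : ℕ) < j'})) (d' + 1 - j') := by
    intro j
    induction j with
    | zero =>
      refine fun _ => ⟨1, fun i l h => Matrix.one_apply_ne h.ne', fun i => Matrix.one_apply_eq i,
        fun j' hj' => h1.mono le_sup_left (by omega)⟩
    | succ j ih =>
      intro hj
      obtain ⟨Γ, h0, h1', hΓ⟩ := ih (by omega)
      set j₀ : Fin (d' + 1) := ⟨j, by omega⟩ with hj₀
      set I := 𝔥 ⊔ Ideal.span (vv ω Γ x y '' {i | (i : ℕ) < j}) with hI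
      obtain ⟨c, hc⟩ := gpa_comb ω (fun l => x l - y l) (x j₀ - y j₀) (Finset.Ioi j₀)
        {q ∈ I.minimalPrimes | ¬ Dl q (d' - j)}
        ((Ideal.finite_minimalPrimes_of_isNoetherianRing Λ I).subset fun q hq => hq.1) (by
          rintro q ⟨hq, hd⟩
          by_contra hcon
          push Not at hcon
          refine hd (h2.mono (sup_le (le_sup_left.trans hq.1.2) ?_) (by omega))
          rw [← span_vv ω Γ x y (gpa_det h0 h1'), Ideal.span_le]
          rintro _ ⟨i, rfl⟩
          rcases lt_or_ge i j₀ with hi | hi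
          · exact hq.1.2 (Ideal.mem_sup_right (Ideal.subset_span ⟨i, hi, rfl⟩))
          · refine q.sum_mem fun l _ => ?_
            rcases lt_trichotomy l j₀ with hl | rfl | hl
            · rw [h0 i l (lt_of_lt_of_le hl hi), map_zero, zero_mul]; exact q.zero_mem
            · exact q.mul_mem_left _ hcon.1
            · exact q.mul_mem_left _ (hcon.2 l (Finset.mem_Ioi.2 hl)))
      let r : Fin (d' + 1) → WW p k := fun l => if l = j₀ then 1 else if j₀ < l then c l else 0
      have hv : ∀ i, i ≠ j₀ → vv ω (Γ.updateRow j₀ r) x y i = vv ω Γ x y i := fun i hi => by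
        simp only [vv, Matrix.updateRow_ne hi]
      have hv₀ : vv ω (Γ.updateRow j₀ r) x y j₀ =
          x j₀ - y j₀ + ∑ l ∈ Finset.Ioi j₀, ω (c l) * (x l - y l) := by
        rw [vv, Matrix.updateRow_self, ← Finset.add_sum_erase _ _ (Finset.mem_univ j₀)]
        congr 1
        · simp [r]
        · symm
          refine Finset.sum_subset_zero_on_sdiff (fun l hl => ?_) (fun l hl => ?_) fun l hl => ?_
          · exact Finset.mem_erase.2 ⟨(Finset.mem_Ioi.1 hl).ne', Finset.mem_univ _⟩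
          · simp only [Finset.mem_sdiff, Finset.mem_erase, Finset.mem_Ioi] at hl
            simp [r, hl.1.1, hl.2]
          · have := Finset.mem_Ioi.1 hl
            simp [r, this.ne', this]
      have him : ∀ j' ≤ j, vv ω (Γ.updateRow j₀ r) x y '' {i | (i : ℕ) < j'} =
          vv ω Γ x y '' {i | (i : ℕ) < j'} := fun j' hj' =>
        Set.image_congr fun i hi => hv i fun h => by
          rw [h] at hi
          exact absurd hi (not_lt.2 hj')
      refine ⟨Γ.updateRow j₀ r, fun i l hl => ?_, fun i => ?_, fun j' hj' => ?_⟩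
      · by_cases hi : i = j₀
        · subst hi
          simp [r, hl.ne, hl.le]
        · rw [Matrix.updateRow_ne hi]; exact h0 i l hl
      · by_cases hi : i = j₀
        · subst hi
          simp [r]
        · rw [Matrix.updateRow_ne hi]; exact h1' i
      · rcases Nat.lt_or_ge j' (j + 1) with hlt | hge
        · rw [him j' (by omega)]; exact hΓ j' (by omega)
        · obtain rfl : j' = j + 1 := by omega
          have e := gpa_span_succ 𝔥 (vv ω (Γ.updateRow j₀ r) x y) j₀
          rw [show (j₀ : ℕ) = j from rfl] at e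
          rw [e, him j le_rfl, hv₀, show d' + 1 - (j + 1) = d' - j by omega]
          refine Dl.sup_of_avoid ?_ fun q hq hd => hc q ⟨hq, hd⟩
          exact (hΓ j le_rfl).mono le_rfl (by omega)
  obtain ⟨Γ, h0, h1', hΓ⟩ := key d' le_rfl
  exact ⟨Γ, gpa_det h0 h1', hΓ⟩

theorem gpa_poly {k : Type} [Field k] {n : ℕ} {Θ : MvPolynomial (Fin n) k} {c : Fin n → k}
    (h : MvPolynomial.eval c Θ ≠ 0) (i : Fin n) :
    {t : k | MvPolynomial.eval (Function.update c i t) Θ = 0}.Finite := by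
  classical
  let P : Polynomial k :=
    MvPolynomial.aeval (Function.update (fun j => Polynomial.C (c j)) i Polynomial.X) Θ
  have hP : ∀ t, P.eval t = MvPolynomial.eval (Function.update c i t) Θ := by
    intro t
    have : (Polynomial.evalRingHom t).comp (MvPolynomial.aeval
        (Function.update (fun j => Polynomial.C (c j)) i Polynomial.X)).toRingHom =
        MvPolynomial.eval (Function.update c i t) := by
      refine MvPolynomial.ringHom_ext (fun a => by simp) fun j => ?_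
      by_cases hj : j = i
      · subst hj; simp
      · simp [Function.update_of_ne hj]
    exact RingHom.congr_fun this Θ
  have hP0 : P ≠ 0 := fun h0 => h (by
    have := hP (c i)
    rw [Function.update_eq_self, h0, Polynomial.eval_zero] at this
    exact this.symm)
  refine (P.roots.toFinset.finite_toSet).subset fun t ht => ?_
  rw [Finset.mem_coe, Multiset.mem_toFinset, Polynomial.mem_roots hP0, Polynomial.IsRoot, hP]
  exact ht

/-- Induct on `i ≤ d'`: there is `c` with `Θ(c) ≠ 0` and `Dl (𝔥 + (uu_j, j < i)) (d' + 1 - i)`.  Step: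
change only `c_i`.  The polynomial `t ↦ Θ(update c i t)` is nonzero; a minimal prime `q` of
`𝔥 + (uu_j, j < i)` with `¬ Dl q (d' - i)` does not contain `v_0` (else it contains `v_0, …, v_i`), so at
most one residue of `c_i` is bad for `q`. -/
theorem exists_c {Γ : Matrix (Fin (d' + 1)) (Fin (d' + 1)) (WW p k)}
    (h : ∀ j ≤ d', Dl (𝔥 ⊔ Ideal.span (vv ω Γ x y '' {i | (i : ℕ) < j})) (d' + 1 - j))
    {Θ : MvPolynomial (Fin d') k} (hΘ : Θ ≠ 0) :
    ∃ c : Fin d' → WW p k, MvPolynomial.eval (fun i => (c i).coeff 0) Θ ≠ 0 ∧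
      Dl (𝔥 ⊔ Ideal.span (Set.range (uu ω Γ c x y))) 1 := by
  have key : ∀ i ≤ d', ∃ c : Fin d' → WW p k, MvPolynomial.eval (fun i => (c i).coeff 0) Θ ≠ 0 ∧
      Dl (𝔥 ⊔ Ideal.span (uu ω Γ c x y '' {j | (j : ℕ) < i})) (d' + 1 - i) := by
    intro i
    induction i with
    | zero =>
      intro _
      obtain ⟨c, hc⟩ : ∃ c : Fin d' → k, MvPolynomial.eval c Θ ≠ 0 := by
        by_contra hcon
        push Not at hcon
        exact hΘ (MvPolynomial.funext fun c => by rw [hcon c, map_zero])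
      refine ⟨fun j => WittVector.teichmuller p (c j), by simpa using hc, ?_⟩
      simpa using h 0 (Nat.zero_le _)
    | succ i ih =>
      intro hi
      obtain ⟨c, hc, hd⟩ := ih (by omega)
      set i₀ : Fin d' := ⟨i, by omega⟩ with hi₀
      set I := 𝔥 ⊔ Ideal.span (uu ω Γ c x y '' {j | (j : ℕ) < i}) with hI
      have hfin := gpa_fin ω (Q := {q ∈ I.minimalPrimes | ¬ Dl q (d' - i)})
        ((Ideal.finite_minimalPrimes_of_isNoetherianRing Λ I).subset fun q hq => hq.1)
        (a := vv ω Γ x y i₀.succ) (b := -vv ω Γ x y 0) (by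
          rintro q ⟨hq, hqd⟩
          refine Or.inr fun h0 => hqd ((h (i + 1) hi).mono
            (sup_le (le_sup_left.trans hq.1.2) ?_) (by omega))
          rw [neg_mem_iff] at h0
          rw [Ideal.span_le]
          rintro _ ⟨j, hj, rfl⟩
          induction j using Fin.cases with
          | zero => exact h0
          | succ j =>
            have e : vv ω Γ x y j.succ = uu ω Γ c x y j + ω (c j) * vv ω Γ x y 0 := by simp [uu]
            rw [e]
            refine q.add_mem (hq.1.2 (Ideal.mem_sup_right (Ideal.subset_span ⟨j, ?_, rfl⟩)))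
              (q.mul_mem_left _ h0)
            simpa using hj)
      obtain ⟨t, ht⟩ := (hfin.union (gpa_poly hc i₀)).exists_notMem
      rw [Set.mem_union, not_or] at ht
      refine ⟨Function.update c i₀ (WittVector.teichmuller p t), fun h0 => ht.2 ?_, ?_⟩
      · rw [Set.mem_setOf_eq, ← h0]
        congr 2
        funext j
        by_cases hj : j = i₀
        · subst hj; simp
        · simp [Function.update_of_ne hj]
      · have e := gpa_span_succ 𝔥
          (uu ω Γ (Function.update c i₀ (WittVector.teichmuller p t)) x y) i₀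
        rw [show (i₀ : ℕ) = i from rfl] at e
        have him : uu ω Γ (Function.update c i₀ (WittVector.teichmuller p t)) x y ''
            {j | (j : ℕ) < i} = uu ω Γ c x y '' {j | (j : ℕ) < i} :=
          Set.image_congr fun j hj => by
            have : j ≠ i₀ := fun h => by rw [h] at hj; exact lt_irrefl i hj
            simp only [uu, Function.update_of_ne this]
        rw [e, him, show d' + 1 - (i + 1) = d' - i by omega]
        refine Dl.sup_of_avoid (hd.mono le_rfl (by omega)) fun q hq hqd hm =>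
          ht.1 ⟨q, ⟨hq, hqd⟩, ?_⟩
        rwa [uu, Function.update_self, sub_eq_add_neg, ← mul_neg] at hm
  obtain ⟨c, hc, hd⟩ := key d' le_rfl
  refine ⟨c, hc, hd.mono (sup_le_sup_left (Ideal.span_mono (Set.image_subset_range _ _)) _) ?_⟩
  omega

end GP

section Nak
variable {L : Type} [CommRing L] {d : ℕ} {x y : Fin d → L} {J : Ideal L} {s P : L}

theorem gpb_pow {K : Ideal L} {z : L} (h : z ∈ K ⊔ Ideal.span {s}) (n : ℕ) :
    z ^ n ∈ K ⊔ Ideal.span {s ^ n} := by
  obtain ⟨j, hj, b, hb, rfl⟩ := Submodule.mem_sup.1 h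
  obtain ⟨a, rfl⟩ := Ideal.mem_span_singleton'.1 hb
  obtain ⟨c, hc⟩ := sub_dvd_pow_sub_pow (j + a * s) (a * s) n
  have e : (j + a * s) ^ n = j * c + a ^ n * s ^ n := by rw [← mul_pow]; linear_combination hc
  rw [e]
  exact add_mem (Ideal.mem_sup_left (K.mul_mem_right c hj))
    (Ideal.mem_sup_right (Ideal.mul_mem_left _ _ (Ideal.mem_span_singleton_self _)))

theorem gpb_nak {K : Ideal L} {z t : L} (ht : t ∈ Ideal.jacobson (⊥ : Ideal L))
    (h : z - t * z ∈ K) : z ∈ K := by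
  have h1 : Ideal.span {z} ≤ K := by
    refine Submodule.le_of_le_smul_of_le_jacobson_bot (Submodule.fg_span_singleton z) le_rfl ?_
    rw [Ideal.span_singleton_le_iff_mem]
    have h2 := add_mem (Ideal.mem_sup_left h) (Ideal.mem_sup_right
      (Submodule.smul_mem_smul ht (Ideal.mem_span_singleton_self z)))
    rwa [smul_eq_mul t z, sub_add_cancel] at h2
  exact h1 (Ideal.mem_span_singleton_self z)

/-- `U = J + (s) = (x - y)`.  `I = (x_l^j')` satisfies `I ≤ U + (P) + Jac · I`, Nakayama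
(`Submodule.le_of_le_smul_of_le_jacobson_bot`).  `P ∈ (U + (P))^n ≤ J + (s^n) + P · Jac`. -/
theorem nak_p (hJ : J ⊔ Ideal.span {s} = Ideal.span (Set.range fun l => x l - y l))
    (hx : ∀ l, x l ∈ Ideal.jacobson (⊥ : Ideal L)) (hy : ∀ l, y l ∈ Ideal.jacobson (⊥ : Ideal L))
    {q j' n : ℕ} (hP : P ∈ Ideal.span (Set.range fun l => x l ^ q)) (hq : (j' + 1) * n ≤ q)
    (hn : 2 ≤ n) (hm : ∀ l, x l ^ j' ∈ Ideal.span (Set.range fun i => x i - y i) ⊔
      Ideal.span (Set.range fun i => x i ^ (j' + 1)) ⊔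
      Ideal.span (Set.range fun i => y i ^ (j' + 1)) ⊔ Ideal.span {P}) :
    (∀ l, x l ^ j' ∈ J ⊔ Ideal.span {s}) ∧ (∀ l, y l ^ j' ∈ J ⊔ Ideal.span {s}) ∧
      P ∈ J ⊔ Ideal.span {s ^ n} := by
  have hU : ∀ l m, x l ^ m - y l ^ m ∈ J ⊔ Ideal.span {s} := fun l m => by
    obtain ⟨c, hc⟩ := sub_dvd_pow_sub_pow (x l) (y l) m
    rw [hc, hJ]
    exact Ideal.mul_mem_right _ _ (Ideal.subset_span (Set.mem_range_self l))
  have _ := hy
  have hI : Ideal.span (Set.range fun l => x l ^ j') ≤ J ⊔ Ideal.span {s} ⊔ Ideal.span {P} := by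
    refine Submodule.le_of_le_smul_of_le_jacobson_bot
      (Submodule.fg_span (Set.finite_range _)) le_rfl ?_
    have h1 : ∀ i, x i ^ (j' + 1) ∈ J ⊔ Ideal.span {s} ⊔ Ideal.span {P} ⊔
        Ideal.jacobson (⊥ : Ideal L) • Ideal.span (Set.range fun l => x l ^ j') := fun i => by
      rw [pow_succ']
      exact Ideal.mem_sup_right
        (Submodule.smul_mem_smul (hx i) (Ideal.subset_span (Set.mem_range_self i)))
    refine Ideal.span_le.2 ?_
    rintro _ ⟨l, rfl⟩
    refine SetLike.le_def.1 ?_ (hm l)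
    refine sup_le (sup_le (sup_le ?_ ?_) ?_) (le_sup_of_le_left le_sup_right)
    · rw [← hJ]
      exact le_sup_of_le_left le_sup_left
    · refine Ideal.span_le.2 ?_
      rintro _ ⟨i, rfl⟩
      exact h1 i
    · refine Ideal.span_le.2 ?_
      rintro _ ⟨i, rfl⟩
      have h2 := sub_mem (h1 i) (Ideal.mem_sup_left (Ideal.mem_sup_left (hU i (j' + 1))))
      rwa [sub_sub_cancel] at h2
  have hPn : P ∈ J ⊔ Ideal.span {s ^ n} := by
    have h1 : Ideal.span {P} ≤ J ⊔ Ideal.span {s ^ n} := by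
      refine Submodule.le_of_le_smul_of_le_jacobson_bot (Submodule.fg_span_singleton P) le_rfl ?_
      rw [Ideal.span_singleton_le_iff_mem]
      refine (Ideal.span_le.2 ?_ : _ ≤ _) hP
      rintro _ ⟨l, rfl⟩
      have h2 : x l ^ j' ∈ J ⊔ Ideal.span {P} ⊔ Ideal.span {s} := by
        rw [sup_right_comm]
        exact hI (Ideal.subset_span (Set.mem_range_self l))
      have h3 := gpb_pow h2 n
      rw [sup_right_comm] at h3
      obtain ⟨u, hu, b, hb, e⟩ := Submodule.mem_sup.1 h3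
      obtain ⟨r, rfl⟩ : ∃ r, q = j' * n + (r + 1) := ⟨q - j' * n - 1, by
        have : (j' + 1) * n = j' * n + n := by ring
        omega⟩
      show x l ^ (j' * n + (r + 1)) ∈ _
      rw [pow_add, pow_mul, ← e, add_mul]
      refine add_mem (Ideal.mem_sup_left (Ideal.mul_mem_right _ _ hu)) (Ideal.mem_sup_right ?_)
      rw [mul_comm]
      exact Submodule.smul_mem_smul (Ideal.pow_mem_of_mem _ (hx l) _ r.succ_pos) hb
    exact h1 (Ideal.mem_span_singleton_self P)
  have hPs : Ideal.span {P} ≤ J ⊔ Ideal.span {s} := by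
    rw [Ideal.span_singleton_le_iff_mem]
    refine (sup_le_sup_left ?_ J : _ ≤ _) hPn
    exact Ideal.span_singleton_le_span_singleton.2 (dvd_pow_self s (by omega))
  have hx' : ∀ l, x l ^ j' ∈ J ⊔ Ideal.span {s} := fun l =>
    (sup_le le_rfl hPs : _ ≤ _) (hI (Ideal.subset_span (Set.mem_range_self l)))
  refine ⟨hx', fun l => ?_, hPn⟩
  have h2 := sub_mem (hx' l) (hU l j')
  rwa [sub_sub_cancel] at h2

/-- `s^m (1 - s t) ∈ J + 𝔴` -/
theorem nak_s (hs : s ∈ Ideal.jacobson (⊥ : Ideal L)) {j' m n : ℕ}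
    (hx : ∀ l, x l ^ j' ∈ J ⊔ Ideal.span {s}) (hy : ∀ l, y l ^ j' ∈ J ⊔ Ideal.span {s})
    (hP : P ∈ J ⊔ Ideal.span {s ^ n}) (hn : m + 1 ≤ n) {𝔴 : Ideal L}
    (hU : s ^ m ∈ J ⊔ 𝔴 ⊔ Ideal.span (Set.range fun i => x i ^ (j' * (m + 1))) ⊔
      Ideal.span (Set.range fun i => y i ^ (j' * (m + 1))) ⊔ Ideal.span {P}) : s ^ m ∈ J ⊔ 𝔴 := by
  have hle : J ⊔ Ideal.span {s ^ (m + 1)} ≤ J ⊔ 𝔴 ⊔ Ideal.span {s ^ (m + 1)} :=
    sup_le_sup_right le_sup_left _
  have h1 : s ^ m ∈ J ⊔ 𝔴 ⊔ Ideal.span {s ^ (m + 1)} := by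
    refine SetLike.le_def.1 ?_ hU
    refine sup_le (sup_le (sup_le le_sup_left ?_) ?_) ?_
    · refine Ideal.span_le.2 ?_
      rintro _ ⟨i, rfl⟩
      exact hle (by simpa only [pow_mul] using gpb_pow (hx i) (m + 1))
    · refine Ideal.span_le.2 ?_
      rintro _ ⟨i, rfl⟩
      exact hle (by simpa only [pow_mul] using gpb_pow (hy i) (m + 1))
    · rw [Ideal.span_singleton_le_iff_mem]
      refine hle ((sup_le_sup_left ?_ J : _ ≤ _) hP)
      exact Ideal.span_singleton_le_span_singleton.2 (pow_dvd_pow s hn)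
  obtain ⟨u, hu, b, hb, e⟩ := Submodule.mem_sup.1 h1
  obtain ⟨a, rfl⟩ := Ideal.mem_span_singleton'.1 hb
  refine gpb_nak (t := a * s) (Ideal.mul_mem_left _ a hs) ?_
  have : s ^ m - a * s * s ^ m = u := by linear_combination -e
  rwa [this]

theorem colon_diag {S : Type} [CommRing S] (κ : L →+* S) (hκ : Function.Surjective κ) {ξ h : L}
    (hk : RingHom.ker κ = Ideal.span {ξ}) (hs : ∀ z, s * z ∈ J → z ∈ J) (hξ : ξ - s * h ∈ J) :
    (J.map κ).colon {κ s} ≤ (J ⊔ Ideal.span {h}).map κ := by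
  intro z hz
  obtain ⟨w, rfl⟩ := hκ z
  rw [Submodule.mem_colon_singleton, smul_eq_mul, ← map_mul, ← Ideal.mem_comap,
    Ideal.comap_map_of_surjective κ hκ, ← RingHom.ker_eq_comap_bot, hk] at hz
  obtain ⟨j, hj, b, hb, e⟩ := Submodule.mem_sup.1 hz
  obtain ⟨a, rfl⟩ := Ideal.mem_span_singleton'.1 hb
  have h1 : w - a * h ∈ J := by
    refine hs _ ?_
    have : s * (w - a * h) = j + a * (ξ - s * h) := by linear_combination -e
    rw [this]
    exact add_mem hj (J.mul_mem_left a hξ)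
  refine Ideal.mem_map_of_mem κ ?_
  rw [← sub_add_cancel w (a * h)]
  exact add_mem (Ideal.mem_sup_left h1)
    (Ideal.mem_sup_right (Ideal.mul_mem_left _ _ (Ideal.mem_span_singleton_self h)))

/-- `φ^e f = f^q + p g` (`ph_sub_pow`); `(b + c)^q = b^q + c^q + p b c r`
(`exists_add_pow_prime_pow_eq`). -/
theorem xi_form {p : ℕ} [Fact p.Prime] {k : Type} [Field k] [IsAlgClosed k] [CharP k p]
    (α β : AA p k d →+* L) (h : ∀ a, α a - β a ∈ J ⊔ Ideal.span {s}) (e : ℕ) (f : AA p k d) :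
    ∃ c c', α (ph p k d e f) - β (ph p k d e f) - s * (c * s ^ (p ^ e - 1) + p * c') ∈ J := by
  obtain ⟨g, hg⟩ := ph_sub_pow e f
  rw [sub_eq_iff_eq_add] at hg
  obtain ⟨j₀, hj₀, b₀, hb₀, e₀⟩ := Submodule.mem_sup.1 (h f)
  obtain ⟨c₀, rfl⟩ := Ideal.mem_span_singleton'.1 hb₀
  obtain ⟨j₁, hj₁, b₁, hb₁, e₁⟩ := Submodule.mem_sup.1 (h g)
  obtain ⟨c₁, rfl⟩ := Ideal.mem_span_singleton'.1 hb₁
  obtain ⟨r, hr⟩ := exists_add_pow_prime_pow_eq (Fact.out : p.Prime) (β f) (c₀ * s) e
  obtain ⟨u, hu⟩ := sub_dvd_pow_sub_pow (α f) (β f + c₀ * s) (p ^ e)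
  obtain ⟨q, hq⟩ : ∃ q, p ^ e = q + 1 :=
    ⟨p ^ e - 1, (Nat.sub_add_cancel (Nat.one_le_pow _ _ (Fact.out : p.Prime).pos)).symm⟩
  refine ⟨c₀ ^ p ^ e, β f * c₀ * r + c₁, ?_⟩
  have e₂ : α (ph p k d e f) - β (ph p k d e f) -
      s * (c₀ ^ p ^ e * s ^ (p ^ e - 1) + p * (β f * c₀ * r + c₁)) = j₀ * u + p * j₁ := by
    rw [hg]
    simp only [map_add, map_mul, map_pow, map_natCast]
    rw [hq] at hr hu ⊢
    rw [Nat.add_sub_cancel]
    linear_combination hu + hr - u * e₀ - (p : L) * e₁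
  rw [e₂]
  exact add_mem (J.mul_mem_right u hj₀) (J.mul_mem_left _ hj₁)

end Nak

/-- proportionality by positive integers -/
def Pr (a b : ℤ) : Prop := ∃ m n : ℕ, 0 < m ∧ 0 < n ∧ (m : ℤ) * a = n * b

theorem Pr.refl (a : ℤ) : Pr a a := ⟨1, 1, one_pos, one_pos, rfl⟩

theorem Pr.symm {a b : ℤ} (h : Pr a b) : Pr b a := by
  obtain ⟨m, n, h1, h2, h3⟩ := h
  exact ⟨n, m, h2, h1, h3.symm⟩

theorem Pr.trans {a b c : ℤ} (h : Pr a b) (h' : Pr b c) : Pr a c := by
  obtain ⟨m, n, h1, h2, h3⟩ := h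
  obtain ⟨m', n', h1', h2', h3'⟩ := h'
  refine ⟨m' * m, n * n', Nat.mul_pos h1' h1, Nat.mul_pos h2 h2', ?_⟩
  push_cast
  linear_combination (m' : ℤ) * h3 + (n : ℤ) * h3'

theorem Pr.of_eq_mul {a b : ℤ} {n : ℕ} (hn : 0 < n) (h : a = n * b) : Pr a b :=
  ⟨1, n, one_pos, hn, by rw [h]; simp⟩

theorem Pr.zero {a b : ℤ} (h : Pr a b) (ha : a = 0) : b = 0 := by
  obtain ⟨m, n, -, h2, h3⟩ := h
  rw [ha, mul_zero, eq_comm, mul_eq_zero] at h3
  rcases h3 with h3 | h3
  · exact absurd (by exact_mod_cast h3) h2.ne'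
  · exact h3

theorem Pr.pos {a b : ℤ} (h : Pr a b) (ha : 0 < a) : 0 < b := by
  obtain ⟨m, n, h1, h2, h3⟩ := h
  have : (0 : ℤ) < n * b := h3 ▸ mul_pos (by exact_mod_cast h1) ha
  exact (pos_iff_pos_of_mul_pos this).1 (by exact_mod_cast h2)

end Crest.Agent.R188
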