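import Crest.Agent.R188.Tor

/-! # R188 / HtyAuxB : comparison of homology groups, peeling. -/

set_option autoImplicit false
open TensorProduct

namespace Crest.Agent.R188

namespace Cx
variable {O : Type} [CommRing O]

theorem htb_equiv (C D : Cx O) (i j : ℕ) (u : C.X i →ₗ[O] D.X j)
    (hZ : ∀ x ∈ C.Z i, u x ∈ D.Z j) (hB : ∀ x ∈ C.Z i, u x ∈ D.B j ↔ x ∈ C.B i)
    (hs : ∀ y ∈ D.Z j, ∃ x ∈ C.Z i, u x = y) : Nonempty (C.H i ≃ₗ[O] D.H j) := by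
  let g : C.H i →ₗ[O] D.H j :=
    Submodule.mapQ ((C.B i).submoduleOf (C.Z i)) ((D.B j).submoduleOf (D.Z j)) (u.restrict hZ)
      fun x hx => (hB x x.2).2 hx
  refine ⟨LinearEquiv.ofBijective g ⟨?_, ?_⟩⟩
  · rw [injective_iff_map_eq_zero]
    intro y hy
    obtain ⟨x, rfl⟩ := C.cls_surj i y
    have : D.cls j (u.restrict hZ x) = 0 := hy
    exact C.cls_eq_zero.2 ((hB x x.2).1 (D.cls_eq_zero.1 this))
  · intro y
    obtain ⟨z, rfl⟩ := D.cls_surj j y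
    obtain ⟨x, hx, hxz⟩ := hs z z.2
    exact ⟨C.cls i ⟨x, hx⟩, congrArg (D.cls j) (Subtype.ext hxz)⟩

theorem htb_peel (Y Y' : Cx O) (u : ∀ i, Y'.X i →ₗ[O] Y.X (i + 1))
    (hinj : ∀ i, Function.Injective (u i))
    (hc : ∀ i x, u i (Y'.d i x) = Y.d (i + 1) (u (i + 1) x))
    (hs : ∀ i, Function.Surjective (u (i + 1))) (h0 : ∀ y, y ∈ Y.Z 1 ↔ ∃ x, u 0 x = y) (i : ℕ) :
    Nonempty (Y'.H i ≃ₗ[O] Y.H (i + 1)) := by
  have hZ : ∀ x, u i x ∈ Y.Z (i + 1) ↔ x ∈ Y'.Z i := by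
    intro x
    cases i with
    | zero => exact ⟨fun _ => trivial, fun _ => (h0 _).2 ⟨x, rfl⟩⟩
    | succ i =>
      rw [mem_Z_succ, mem_Z_succ, ← hc]
      exact map_eq_zero_iff _ (hinj i)
  refine htb_equiv Y' Y i (i + 1) (u i) (fun x hx => (hZ x).2 hx) (fun x _ => ⟨?_, ?_⟩) ?_
  · rintro ⟨y, hy⟩
    obtain ⟨y', rfl⟩ := hs i y
    exact ⟨y', hinj i (by rw [hc, hy])⟩
  · rintro ⟨y, rfl⟩
    exact ⟨u (i + 1) y, (hc i y).symm⟩
  · intro y hy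
    have : ∃ x, u i x = y := by
      cases i with
      | zero => exact (h0 y).1 hy
      | succ i => exact hs i y
    obtain ⟨x, rfl⟩ := this
    exact ⟨x, (hZ x).1 hy, rfl⟩

/-- terms of the peeled complex -/
def htbX (Y : Cx O) : ℕ → Type
  | 0 => LinearMap.ker (Y.d 0)
  | i + 1 => Y.X (i + 2)

instance (Y : Cx O) : ∀ i, AddCommGroup (Y.htbX i)
  | 0 => inferInstanceAs (AddCommGroup (LinearMap.ker (Y.d 0)))
  | i + 1 => inferInstanceAs (AddCommGroup (Y.X (i + 2)))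

instance (Y : Cx O) : ∀ i, Module O (Y.htbX i)
  | 0 => inferInstanceAs (Module O (LinearMap.ker (Y.d 0)))
  | i + 1 => inferInstanceAs (Module O (Y.X (i + 2)))

def htbd (Y : Cx O) : ∀ i, Y.htbX (i + 1) →ₗ[O] Y.htbX i
  | 0 => LinearMap.codRestrict (LinearMap.ker (Y.d 0)) (Y.d 1) (Y.dd 0)
  | i + 1 => Y.d (i + 2)

def htbu (Y : Cx O) : ∀ i, Y.htbX i →ₗ[O] Y.X (i + 1)
  | 0 => (LinearMap.ker (Y.d 0)).subtype
  | _ + 1 => LinearMap.id

/-- the peeled complex -/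
def htbY (Y : Cx O) : Cx O where
  X := Y.htbX
  d := Y.htbd
  dd i x := by
    cases i with
    | zero => exact Subtype.ext (Y.dd 1 x)
    | succ i => exact Y.dd (i + 2) x

theorem htb_comm (Y : Cx O) (i : ℕ) :
    Y.htbu i ∘ₗ Y.htbd i = Y.d (i + 1) ∘ₗ Y.htbu (i + 1) := by
  cases i <;> rfl

theorem htb_exists_peel {Y : Cx O} (hY : Y.Proj) (h0 : Y.Ex 0) : ∃ Y' : Cx O, Y'.Proj ∧
    (∀ i, Nonempty (Y'.H i ≃ₗ[O] Y.H (i + 1))) ∧
    ∀ (M : Type) [AddCommGroup M] [Module O M], (Y.tens M).Ex 0 ∧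
      ∀ i, Nonempty ((Y'.tens M).H i ≃ₗ[O] (Y.tens M).H (i + 1)) := by
  have hsurj : Function.Surjective (Y.d 0) := fun y => h0 (Y.mem_Z_zero y)
  have := hY 0
  have := hY 1
  obtain ⟨s, hs⟩ := Module.projective_lifting_property (Y.d 0) LinearMap.id hsurj
  have hs' : ∀ x, Y.d 0 (s x) = x := fun x => LinearMap.congr_fun hs x
  let π : Y.X 1 →ₗ[O] Y.htbX 0 := LinearMap.codRestrict (LinearMap.ker (Y.d 0))
    (LinearMap.id - s ∘ₗ Y.d 0) fun x => by simp [hs']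
  have hπ : π ∘ₗ Y.htbu 0 = LinearMap.id := by
    refine LinearMap.ext fun x => Subtype.ext ?_
    change x.1 - s (Y.d 0 x.1) = x.1
    rw [x.2, map_zero, sub_zero]
  have hπ' : Y.htbu 0 ∘ₗ π = LinearMap.id - s ∘ₗ Y.d 0 := rfl
  have hd : Y.d 0 ∘ₗ Y.htbu 0 = 0 := LinearMap.ext fun x => x.2
  have hr : ∀ i, ∃ r : Y.X (i + 1) →ₗ[O] Y.htbX i, r ∘ₗ Y.htbu i = LinearMap.id := by
    intro i
    cases i with
    | zero => exact ⟨π, hπ⟩
    | succ i => exact ⟨LinearMap.id, rfl⟩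
  refine ⟨Y.htbY, fun i => ?_, ?_, fun M _ _ => ⟨fun x _ => ?_, ?_⟩⟩
  · obtain ⟨r, hr⟩ := hr i
    have := hY (i + 1)
    exact Module.Projective.of_split (Y.htbu i) r hr
  · refine htb_peel Y Y.htbY Y.htbu (fun i => ?_) (fun i => LinearMap.congr_fun (Y.htb_comm i))
      (fun i => Function.surjective_id) fun y => ⟨fun hy => ⟨⟨y, hy⟩, rfl⟩, ?_⟩
    · obtain ⟨r, hr⟩ := hr i
      exact Function.LeftInverse.injective (g := r) (LinearMap.congr_fun hr)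
    · rintro ⟨x, rfl⟩
      exact x.2
  · exact LinearMap.lTensor_surjective M hsurj x
  · refine htb_peel (Y.tens M) (Y.htbY.tens M) (fun i => (Y.htbu i).lTensor M) (fun i => ?_)
      (fun i x => ?_) (fun i => LinearMap.lTensor_surjective M Function.surjective_id)
      fun y => ⟨fun hy => ⟨π.lTensor M y, ?_⟩, ?_⟩
    · obtain ⟨r, hr⟩ := hr i
      refine Function.LeftInverse.injective (g := r.lTensor M) fun x => ?_
      change r.lTensor M ((Y.htbu i).lTensor M x) = x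
      rw [← LinearMap.lTensor_comp_apply, hr, LinearMap.lTensor_id, LinearMap.id_apply]
    · change (Y.htbu i).lTensor M ((Y.htbd i).lTensor M x) =
        (Y.d (i + 1)).lTensor M ((Y.htbu (i + 1)).lTensor M x)
      rw [← LinearMap.lTensor_comp_apply, ← LinearMap.lTensor_comp_apply, htb_comm]
    · have hy' : (Y.d 0).lTensor M y = 0 := hy
      change (Y.htbu 0).lTensor M (π.lTensor M y) = y
      rw [← LinearMap.lTensor_comp_apply, hπ', LinearMap.lTensor_sub, LinearMap.sub_apply,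
        LinearMap.lTensor_comp_apply, hy', map_zero, sub_zero, LinearMap.lTensor_id,
        LinearMap.id_apply]
    · rintro ⟨x, rfl⟩
      change (Y.d 0).lTensor M ((Y.htbu 0).lTensor M x) = 0
      rw [← LinearMap.lTensor_comp_apply, hd, LinearMap.lTensor_zero, LinearMap.zero_apply]

theorem htb_ex_congr {C D : Cx O} {i j : ℕ} (h : Nonempty (C.H i ≃ₗ[O] D.H j)) :
    C.Ex i ↔ D.Ex j := by
  obtain ⟨e⟩ := h
  rw [ex_iff, ex_iff]
  exact e.toEquiv.subsingleton_congr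

theorem htb_shift_two {Y : Cx O} (hY : Y.Proj) (h : ∀ i, i ≠ 2 → Y.Ex i) {N : Type}
    [AddCommGroup N] [Module O N] (e : Y.H 2 ≃ₗ[O] N) (M : Type) [AddCommGroup M] [Module O M] :
    (Y.tens M).Ex 0 ∧ (Y.tens M).Ex 1 ∧ ∀ i, (Y.tens M).hl (i + 2) = tlm O M N i := by
  obtain ⟨Y1, p1, a1, b1⟩ := htb_exists_peel hY (h 0 (by norm_num))
  obtain ⟨Y2, p2, a2, b2⟩ := htb_exists_peel p1 ((htb_ex_congr (a1 0)).2 (h 1 (by norm_num)))
  refine ⟨(b1 M).1, (htb_ex_congr ((b1 M).2 0)).1 (b2 M).1, fun i => ?_⟩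
  obtain ⟨e1⟩ := a1 1
  obtain ⟨e2⟩ := a2 0
  let e3 : Y2.H 0 ≃ₗ[O] N := e2.trans (e1.trans e)
  let ε : Y2.X 0 →ₗ[O] N := e3.toLinearMap ∘ₗ Y2.cls 0 ∘ₗ
    LinearMap.codRestrict (Y2.Z 0) LinearMap.id fun _ => trivial
  have hres : Y2.IsRes ε := by
    refine ⟨fun n => ?_, fun x => ?_, fun j => ?_⟩
    · obtain ⟨z, hz⟩ := Y2.cls_surj 0 (e3.symm n)
      refine ⟨z.1, ?_⟩
      change e3 (Y2.cls 0 z) = n
      rw [hz, e3.apply_symm_apply]
    · change e3 (Y2.cls 0 ⟨x, trivial⟩) = 0 ↔ _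
      rw [e3.map_eq_zero_iff, cls_eq_zero]
      rfl
    · exact (htb_ex_congr (a2 _)).2 ((htb_ex_congr (a1 _)).2 (h _ (by omega)))
  obtain ⟨f1⟩ := (b1 M).2 (i + 1)
  obtain ⟨f2⟩ := (b2 M).2 i
  obtain ⟨f3⟩ := T_res M i Y2 ε hres p2.flat
  exact (f1.symm.trans (f2.symm.trans f3)).length_eq

end Cx

end Crest.Agent.R188
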