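import Crest.Agent.R188.Tor
import Crest.Agent.R188.HtyAuxB

/-! # R188 / Hty : lifting, null-homotopies (ghost lemma), shift and cone. -/

set_option autoImplicit false
open TensorProduct

namespace Crest.Agent.R188

namespace Cx
variable {O : Type} [CommRing O]

theorem htya_lift {P A B : Type} [AddCommGroup P] [Module O P] [AddCommGroup A] [Module O A]
    [AddCommGroup B] [Module O B] (hP : Module.Projective O P) (d : A →ₗ[O] B) (g : P →ₗ[O] B)
    (h : ∀ x, g x ∈ LinearMap.range d) : ∃ s : P →ₗ[O] A, ∀ x, d (s x) = g x := by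
  obtain ⟨s, hs⟩ := Module.projective_lifting_property d.rangeRestrict
    (g.codRestrict (LinearMap.range d) h) d.surjective_rangeRestrict
  exact ⟨s, fun x => congrArg Subtype.val (LinearMap.congr_fun hs x)⟩

theorem htya_rec {T : ℕ → Type} (Q : ∀ i, T i → Prop) (R : ∀ i, T i → T (i + 1) → Prop)
    (t₀ : T 0) (h0 : Q 0 t₀) (hs : ∀ i t, Q i t → ∃ t', Q (i + 1) t' ∧ R i t t') :
    ∃ f : ∀ i, T i, f 0 = t₀ ∧ ∀ i, R i (f i) (f (i + 1)) := by
  choose F hQ hR using hs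
  let g : ∀ i, {t : T i // Q i t} := fun i =>
    Nat.rec (motive := fun i => {t : T i // Q i t}) ⟨t₀, h0⟩
      (fun i t => ⟨F i t.1 t.2, hQ i t.1 t.2⟩) i
  exact ⟨fun i => (g i).1, rfl, fun i => hR i (g i).1 (g i).2⟩

theorem htya_H_congr {X : Type} [AddCommGroup X] [Module O X] {Z Z' B B' : Submodule O X}
    (hZ : Z = Z') (hB : B = B') :
    Nonempty ((Z ⧸ B.submoduleOf Z) ≃ₗ[O] (Z' ⧸ B'.submoduleOf Z')) := by
  subst hZ hB
  exact ⟨LinearEquiv.refl _ _⟩

/-- comparison: a projective complex over `N` maps to any resolution of `N` -/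
theorem exists_lift {P D : Cx O} (hP : P.Proj) {N : Type} [AddCommGroup N] [Module O N]
    (ε : P.X 0 →ₗ[O] N) (hε : ∀ x, ε (P.d 0 x) = 0) (ε' : D.X 0 →ₗ[O] N) (hD : D.IsRes ε') :
    ∃ φ : Hom P D, ∀ x, ε' (φ.f 0 x) = ε x := by
  obtain ⟨f₀, hf₀⟩ := htya_lift (hP 0) ε' ε fun x => hD.surj _
  obtain ⟨f, h0, hf⟩ := htya_rec (T := fun i => P.X i →ₗ[O] D.X i)
    (fun i f => ∀ x, f (P.d i x) ∈ D.B i) (fun i f f' => ∀ x, f (P.d i x) = D.d i (f' x)) f₀
    (fun x => (hD.ex0 _).1 (by rw [hf₀, hε])) fun i f hf => by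
      obtain ⟨f', hf'⟩ := htya_lift (hP (i + 1)) (D.d i) (f ∘ₗ P.d i) hf
      refine ⟨f', fun x => hD.ex i ?_, fun x => (hf' x).symm⟩
      rw [mem_Z_succ, hf', LinearMap.comp_apply, P.dd, map_zero]
  exact ⟨⟨f, hf⟩, fun x => by rw [← hf₀, ← h0]⟩

/-- multiplication by `w` is null-homotopic -/
def Nh (C : Cx O) (w : O) : Prop := ∃ σ : ∀ i, C.X i →ₗ[O] C.X (i + 1),
  (∀ x, C.d 0 (σ 0 x) = w • x) ∧ ∀ i x, C.d (i + 1) (σ (i + 1) x) + σ i (C.d i x) = w • x

/-- GHOST LEMMA.  With `e i = min (i + 1 - j) r` construct recursively `σ i` with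
`d σ_i = w^(e i) - w^(e i - e (i-1)) σ_{i-1} d` (the map `w^(e (i-1)) - σ_{i-1} d` lands in the cycles;
multiply by `w` if `j ≤ i < j + r`; lift by projectivity, `Module.projective_lifting_property`);
finally rescale `σ i` by `w^(r - e i)`. -/
theorem ghost {Y : Cx O} (hY : Y.Proj) (w : O) (j r : ℕ) (h1 : ∀ i, i < j ∨ j + r ≤ i → Y.Ex i)
    (h2 : ∀ i, Y.Kill w i) : Y.Nh (w ^ r) := by
  obtain ⟨E, hE0, hEm, hEr, hk⟩ : ∃ E : ℕ → ℕ, E 0 = 0 ∧ (∀ i, E i ≤ E (i + 1)) ∧ (∀ i, E i ≤ r) ∧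
      ∀ i, Y.Kill (w ^ (E (i + 1) - E i)) i := by
    refine ⟨fun i => min (i - j) r, by simp, fun i => min_le_min_right _ (by omega),
      fun i => min_le_right _ _, fun i x hx => ?_⟩
    by_cases hi : i < j ∨ j + r ≤ i
    · exact Submodule.smul_mem _ _ (h1 i hi hx)
    · rw [show min (i + 1 - j) r - min (i - j) r = 1 by omega, pow_one]
      exact h2 i x hx
  obtain ⟨σ₀, hσ₀⟩ := htya_lift (hY 0) (Y.d 0) (w ^ E 1 • LinearMap.id) fun x => by
    have := hk 0 x trivial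
    rwa [hE0] at this
  obtain ⟨σ, h0, hσ⟩ := htya_rec (T := fun i => Y.X i →ₗ[O] Y.X (i + 1))
    (fun i σ => ∀ x, Y.d i (σ (Y.d i x)) = w ^ E (i + 1) • Y.d i x)
    (fun i σ σ' => ∀ x, Y.d (i + 1) (σ' x) + w ^ (E (i + 2) - E (i + 1)) • σ (Y.d i x) =
      w ^ E (i + 2) • x) σ₀ (fun x => hσ₀ _) fun i σ hσ => by
      obtain ⟨σ', hσ'⟩ := htya_lift (hY (i + 1)) (Y.d (i + 1))
        (w ^ (E (i + 2) - E (i + 1)) • (w ^ E (i + 1) • LinearMap.id - σ ∘ₗ Y.d i)) fun x =>
          hk (i + 1) _ (by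
            rw [mem_Z_succ, LinearMap.sub_apply, LinearMap.smul_apply, LinearMap.id_apply,
              LinearMap.comp_apply, map_sub, map_smul, hσ, sub_self])
      have h : ∀ x, Y.d (i + 1) (σ' x) + w ^ (E (i + 2) - E (i + 1)) • σ (Y.d i x) =
          w ^ E (i + 2) • x := fun x => by
        rw [hσ', LinearMap.smul_apply, LinearMap.sub_apply, LinearMap.smul_apply,
          LinearMap.id_apply, LinearMap.comp_apply, smul_sub, sub_add_cancel, smul_smul, ← pow_add,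
          Nat.sub_add_cancel (hEm _)]
      refine ⟨σ', fun x => ?_, h⟩
      rw [← h, Y.dd, map_zero, smul_zero, add_zero]
  refine ⟨fun i => w ^ (r - E (i + 1)) • σ i, fun x => ?_, fun i x => ?_⟩
  · rw [LinearMap.smul_apply, map_smul, h0, hσ₀, LinearMap.smul_apply, LinearMap.id_apply,
      smul_smul, ← pow_add, Nat.sub_add_cancel (hEr _)]
  · have e1 : r - E (i + 1) = (r - E (i + 2)) + (E (i + 2) - E (i + 1)) := by
      have : E (i + 1) ≤ E (i + 2) := hEm (i + 1)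
      have := hEr (i + 2)
      omega
    rw [LinearMap.smul_apply, LinearMap.smul_apply, map_smul, e1, pow_add, mul_smul, ← smul_add,
      hσ, smul_smul, ← pow_add, Nat.sub_add_cancel (hEr _)]

theorem Nh.kill_tens {C : Cx O} {w : O} (h : C.Nh w) (M : Type) [AddCommGroup M] [Module O M]
    (i : ℕ) : (C.tens M).Kill w i := by
  obtain ⟨σ, h0, hσ⟩ := h
  intro x hx
  refine ⟨(σ i).lTensor M x, ?_⟩
  cases i with
  | zero =>
    have e : C.d 0 ∘ₗ σ 0 = w • LinearMap.id := LinearMap.ext h0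
    have e' := LinearMap.congr_fun (congrArg (LinearMap.lTensor M) e) x
    rwa [LinearMap.lTensor_comp, LinearMap.lTensor_smul, LinearMap.lTensor_id] at e'
  | succ i =>
    have e : C.d (i + 1) ∘ₗ σ (i + 1) + σ i ∘ₗ C.d i = w • LinearMap.id := LinearMap.ext (hσ i)
    have e' := LinearMap.congr_fun (congrArg (LinearMap.lTensor M) e) x
    have hx' : (C.d i).lTensor M x = 0 := hx
    rwa [LinearMap.lTensor_add, LinearMap.lTensor_comp, LinearMap.lTensor_comp,
      LinearMap.lTensor_smul, LinearMap.lTensor_id, LinearMap.add_apply, LinearMap.comp_apply,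
      LinearMap.comp_apply, hx', map_zero, add_zero] at e'

/-- terms of the shifted complex -/
def shX (C : Cx O) : ℕ → Type
  | 0 => PUnit
  | i + 1 => C.X i

instance (C : Cx O) : ∀ i, AddCommGroup (C.shX i)
  | 0 => inferInstanceAs (AddCommGroup PUnit)
  | i + 1 => inferInstanceAs (AddCommGroup (C.X i))

instance (C : Cx O) : ∀ i, Module O (C.shX i)
  | 0 => inferInstanceAs (Module O PUnit)
  | i + 1 => inferInstanceAs (Module O (C.X i))

def shd (C : Cx O) : ∀ i, C.shX (i + 1) →ₗ[O] C.shX i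
  | 0 => 0
  | i + 1 => -C.d i

/-- `C[1]` with differential `-d` -/
def sh (C : Cx O) : Cx O where
  X := C.shX
  d := C.shd
  dd i x := by
    cases i with
    | zero => rfl
    | succ i =>
      change (-C.d i) ((-C.d (i + 1)) x) = 0
      simp [C.dd]

theorem cone_dd {C D : Cx O} (φ : Hom C D) (i : ℕ) (x : C.X (i + 1)) (y : D.X (i + 2)) :
    φ.f i (C.shd (i + 1) x) + D.d i (φ.f (i + 1) x + D.d (i + 1) y) = 0 := by
  change φ.f i ((-C.d i) x) + _ = 0
  simp [φ.comm, D.dd]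

/-- mapping cone -/
def cone {C D : Cx O} (φ : Hom C D) : Cx O where
  X i := C.shX i × D.X i
  d i := (C.shd i ∘ₗ LinearMap.fst O _ _).prod
    ((φ.f i : C.shX (i + 1) →ₗ[O] D.X i).coprod (D.d i))
  dd i x := Prod.ext (C.sh.dd i x.1) (cone_dd φ i x.1 x.2)

def coneIn {C D : Cx O} (φ : Hom C D) : Hom D (cone φ) where
  f i := LinearMap.inr O (C.shX i) (D.X i)
  comm i x := by
    refine Prod.ext ?_ ?_
    · exact (map_zero (C.shd i)).symm
    · change D.d i x = φ.f i 0 + D.d i x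
      simp

def coneOut {C D : Cx O} (φ : Hom C D) : Hom (cone φ) C.sh where
  f i := LinearMap.fst O (C.shX i) (D.X i)
  comm _ _ := rfl

theorem cone_proj {C D : Cx O} (φ : Hom C D) (hC : C.Proj) (hD : D.Proj) : (cone φ).Proj := by
  intro i
  have h1 : Module.Projective O (C.shX i) := by
    cases i with
    | zero => exact inferInstanceAs (Module.Projective O PUnit)
    | succ i => exact hC i
  have h2 := hD i
  exact inferInstanceAs (Module.Projective O (C.shX i × D.X i))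

theorem cone_fin {C D : Cx O} (φ : Hom C D) (hC : C.Fin) (hD : D.Fin) : (cone φ).Fin := by
  intro i
  have h1 : Module.Finite O (C.shX i) := by
    cases i with
    | zero => exact inferInstanceAs (Module.Finite O PUnit)
    | succ i => exact hC i
  have h2 := hD i
  exact inferInstanceAs (Module.Finite O (C.shX i × D.X i))

/-- the cone sequence stays exact after tensoring (it is termwise split) -/
theorem cone_ses {C D : Cx O} (φ : Hom C D) (M : Type) [AddCommGroup M] [Module O M] :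
    SES ((coneIn φ).tens M) ((coneOut φ).tens M) := by
  refine ⟨fun i => ?_, fun i => ?_, fun i => ?_⟩
  · refine Function.LeftInverse.injective
      (g := (LinearMap.snd O (C.shX i) (D.X i)).lTensor M) fun x => ?_
    have e := LinearMap.congr_fun
      (congrArg (LinearMap.lTensor M) (LinearMap.snd_comp_inr O (C.shX i) (D.X i))) x
    rwa [LinearMap.lTensor_comp, LinearMap.lTensor_id] at e
  · have h := lTensor_exact M (Function.Exact.inr_fst (R := O) (M := C.shX i) (N := D.X i))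
      LinearMap.fst_surjective
    exact h
  · exact LinearMap.lTensor_surjective M (g := LinearMap.fst O (C.shX i) (D.X i))
      LinearMap.fst_surjective

theorem sh_tens_zero (C : Cx O) (M : Type) [AddCommGroup M] [Module O M] : (C.sh.tens M).Ex 0 := by
  intro x _
  have : Subsingleton (M ⊗[O] PUnit) := inferInstance
  have hx : x = 0 := this.elim x _
  rw [hx]
  exact Submodule.zero_mem _

theorem sh_tens_succ (C : Cx O) (M : Type) [AddCommGroup M] [Module O M] (i : ℕ) :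
    Nonempty ((C.sh.tens M).H (i + 1) ≃ₗ[O] (C.tens M).H i) := by
  refine htya_H_congr (X := M ⊗[O] C.X i) ?_ ?_
  · cases i with
    | zero =>
      change LinearMap.ker ((0 : C.X 0 →ₗ[O] PUnit).lTensor M) = ⊤
      rw [LinearMap.lTensor_zero, LinearMap.ker_zero]
    | succ i =>
      change LinearMap.ker ((-C.d i).lTensor M) = LinearMap.ker ((C.d i).lTensor M)
      rw [LinearMap.lTensor_neg, LinearMap.ker_neg]
  · change LinearMap.range ((-C.d i).lTensor M) = LinearMap.range ((C.d i).lTensor M)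
    rw [LinearMap.lTensor_neg, LinearMap.range_neg]

section
variable {C D : Cx O} (φ : Hom C D) {N : Type} [AddCommGroup N] [Module O N]
  (ε : C.X 0 →ₗ[O] N) (hs : Function.Surjective ε) (he : Function.Exact (C.d 0) ε)
  (ε' : D.X 0 →ₗ[O] N) (hD : D.IsRes ε') (hφ : ∀ x, ε' (φ.f 0 x) = ε x)
include hs he hD hφ

theorem cone_ex_zero : (cone φ).Ex 0 := by
  rintro ⟨p, y⟩ -
  obtain ⟨a, ha⟩ := hs (ε' y)
  obtain ⟨b, hb⟩ := (hD.ex0 (y - φ.f 0 a)).1 (by rw [map_sub, hφ, ha, sub_self])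
  refine ⟨(a, b), Prod.ext rfl ?_⟩
  change φ.f 0 a + D.d 0 b = y
  rw [hb, add_sub_cancel]

theorem cone_ex_one : (cone φ).Ex 1 := by
  rintro ⟨a, b⟩ hab
  have h1 : φ.f 0 a + D.d 0 b = 0 := congrArg Prod.snd hab
  obtain ⟨a', ha'⟩ := (he a).1 (by
    rw [← hφ, eq_neg_of_add_eq_zero_left h1, map_neg, hD.ex0.apply_apply_eq_zero, neg_zero])
  obtain ⟨b', hb'⟩ := hD.ex 0 (x := φ.f 1 a' + b) (by
    rw [mem_Z_succ, map_add, ← φ.comm, ha', h1])
  refine ⟨((-a' : C.X 1), b'), Prod.ext ?_ ?_⟩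
  · change (-C.d 0) (-a') = a
    rw [LinearMap.neg_apply, map_neg, neg_neg, ha']
  · change φ.f 1 (-a') + D.d 1 b' = b
    rw [hb', map_neg, neg_add_cancel_left]

omit hs he hφ in
/-- `(x, y) ↦ x` -/
theorem cone_H (i : ℕ) : Nonempty ((cone φ).H (i + 2) ≃ₗ[O] C.H (i + 1)) := by
  refine htb_equiv (cone φ) C (i + 2) (i + 1) (LinearMap.fst O (C.X (i + 1)) (D.X (i + 2)))
    ?_ ?_ ?_
  · rintro ⟨a, b⟩ hab
    have h1 : (-C.d i) a = 0 := congrArg Prod.fst hab
    exact neg_eq_zero.1 h1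
  · rintro ⟨a, b⟩ hab
    have h1 : φ.f (i + 1) a + D.d (i + 1) b = 0 := congrArg Prod.snd hab
    constructor
    · rintro ⟨a', ha'⟩
      have ha' : C.d (i + 1) a' = a := ha'
      obtain ⟨b', hb'⟩ := hD.ex (i + 1) (x := φ.f (i + 2) a' + b) (by
        rw [mem_Z_succ, map_add, ← φ.comm, ha', h1])
      refine ⟨((-a' : C.X (i + 2)), b'), Prod.ext ?_ ?_⟩
      · change (-C.d (i + 1)) (-a') = a
        rw [LinearMap.neg_apply, map_neg, neg_neg, ha']
      · change φ.f (i + 2) (-a') + D.d (i + 2) b' = b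
        rw [hb', map_neg, neg_add_cancel_left]
    · rintro ⟨⟨a', b'⟩, h⟩
      have h2 : (-C.d (i + 1)) a' = a := congrArg Prod.fst h
      exact ⟨-(show C.X (i + 2) from a'), (map_neg _ _).trans h2⟩
  · intro a ha
    obtain ⟨b, hb⟩ := hD.ex i (φ.map_Z (i + 1) a ha)
    refine ⟨(a, -b), Prod.ext ?_ ?_, rfl⟩
    · change (-C.d i) a = 0
      rw [LinearMap.neg_apply, C.mem_Z_succ.1 ha, neg_zero]
    · change φ.f (i + 1) a + D.d (i + 1) (-b) = 0
      rw [map_neg, hb, add_neg_cancel]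

end

/-- PEELING.  If `H_0(Y) = 0` and `Y` is projective, `d 0` splits; `Y'` with `Y'.X 0 = ker (d 0)`,
`Y'.X (i+1) = Y.X (i+2)` is projective and has the homology of `Y` shifted down, also after
tensoring (`ker (M ⊗ d 0) = M ⊗ ker (d 0)` by the splitting). -/
theorem exists_peel {Y : Cx O} (hY : Y.Proj) (h0 : Y.Ex 0) : ∃ Y' : Cx O, Y'.Proj ∧
    (∀ i, Nonempty (Y'.H i ≃ₗ[O] Y.H (i + 1))) ∧
    ∀ (M : Type) [AddCommGroup M] [Module O M], (Y.tens M).Ex 0 ∧
      ∀ i, Nonempty ((Y'.tens M).H i ≃ₗ[O] (Y.tens M).H (i + 1)) := by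
  exact htb_exists_peel hY h0

/-- SHIFT LEMMA: peel twice; a projective complex with homology only in degree `0` resolves its
`H 0` (through `cls 0`); `T_res`, `T_congr`. -/
theorem shift_two {Y : Cx O} (hY : Y.Proj) (h : ∀ i, i ≠ 2 → Y.Ex i) {N : Type} [AddCommGroup N]
    [Module O N] (e : Y.H 2 ≃ₗ[O] N) (M : Type) [AddCommGroup M] [Module O M] :
    (Y.tens M).Ex 0 ∧ (Y.tens M).Ex 1 ∧ ∀ i, (Y.tens M).hl (i + 2) = tlm O M N i := by
  exact htb_shift_two hY h e M

end Cx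

theorem theta_eps {R Rb : Type} [CommRing R] [CommRing Rb] [Algebra R Rb]
    (hs : Function.Surjective (algebraMap R Rb)) {N : Type} [AddCommGroup N] [Module Rb N]
    [Module R N] [IsScalarTower R Rb N] : ∃ ε : ((Res R N).bc Rb).X 0 →ₗ[Rb] N,
      Function.Surjective ε ∧ Function.Exact (((Res R N).bc Rb).d 0) ε := by
  refine ⟨(Res.ε R N).liftBaseChange Rb, fun n => ?_, fun x => ?_⟩
  · obtain ⟨x, rfl⟩ := (Res.isRes R N).surj n
    exact ⟨1 ⊗ₜ x, (LinearMap.liftBaseChange_tmul _ _ _ _).trans (one_smul _ _)⟩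
  · obtain ⟨x, rfl⟩ := TensorProduct.mk_surjective R ((Res R N).X 0) Rb hs x
    have h0 : (Res.ε R N).liftBaseChange Rb (1 ⊗ₜ x) = Res.ε R N x :=
      (LinearMap.liftBaseChange_tmul _ _ _ _).trans (one_smul _ _)
    refine ⟨fun h => ?_, fun ⟨z, hz⟩ => ?_⟩
    · obtain ⟨z, rfl⟩ := ((Res.isRes R N).ex0 x).1 (h0.symm.trans h)
      exact ⟨1 ⊗ₜ z, rfl⟩
    · obtain ⟨z, rfl⟩ := TensorProduct.mk_surjective R ((Res R N).X 1) Rb hs z
      rw [← hz]
      exact ((LinearMap.liftBaseChange_tmul Rb (Res.ε R N) 1 ((Res R N).d 0 z)).trans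
        (one_smul _ _)).trans ((Res.isRes R N).ex0.apply_apply_eq_zero z)

theorem theta_H {R Rb : Type} [CommRing R] [CommRing Rb] [Algebra R Rb]
    (hs : Function.Surjective (algebraMap R Rb)) (y : R) (hy : ∀ z, y * z = 0 → z = 0)
    (hk : RingHom.ker (algebraMap R Rb) = Ideal.span {y}) {N : Type} [AddCommGroup N] [Module Rb N]
    [Module R N] [IsScalarTower R Rb N] : Nonempty (((Res R N).bc Rb).H 1 ≃ₗ[Rb] N) ∧
      ∀ i, Subsingleton (((Res R N).bc Rb).H (i + 2)) := by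
  obtain ⟨δ, L⟩ := T_les N (y • (LinearMap.id : R →ₗ[R] R)) (Algebra.linearMap R Rb)
    ((injective_iff_map_eq_zero _).2 hy) (fun x => by
      rw [Algebra.linearMap_apply, ← RingHom.mem_ker, hk, Ideal.mem_span_singleton]
      exact exists_congr fun _ => eq_comm) hs
  have hf : ∀ i, Subsingleton (T R R N (i + 1)) := T_flat
  refine ⟨?_, fun i => ((Res R N).bc_seq Rb _).subsingleton_iff.1 (L.sub_C (i + 1))⟩
  have hyN : y ∈ Module.annihilator R N := Module.mem_annihilator.2 fun n => by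
    rw [← algebraMap_smul Rb, (RingHom.mem_ker.1 (hk ▸ Ideal.mem_span_singleton_self y) :), zero_smul]
  have hδ : Function.Bijective (δ 0) := ⟨les_inj (L.gδ 0), fun x => (L.δf 0 x).1 (by
    rw [Cx.tH_smul, T_kill_right hyN])⟩
  obtain ⟨e⟩ := T_zero (O := R) (M := R) (N := N)
  obtain ⟨g, hg, hg'⟩ := SEq.equiv_left
    ((LinearEquiv.ofBijective _ hδ).trans (e.trans (TensorProduct.lid R N))).symm
    ((Res R N).bc_seq Rb 1)
  refine ⟨(LinearEquiv.ofBijective (⟨g.toAddHom, fun a n => ?_⟩ : N →ₗ[Rb] _) hg).symm⟩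
  obtain ⟨a, rfl⟩ := hs a
  rw [algebraMap_smul]
  exact hg' a n

/-- HOCHSTER'S `θ`.  `Rb = R/(y)`, `y` regular.  `P = (Res R N).bc Rb` has `H_0 = N`, `H_1 ≃ N`,
`H_i = 0` (`i ≥ 2`): `H_i(P) ~ T R Rb N i` (`bc_seq`), computed by `T_les` for
`0 → R → R → Rb → 0` (`T_flat`, `T_zero`, `tH_smul`, `T_kill_right`; an `R`-linear bijection of
`Rb`-modules is `Rb`-linear).  `Ψ = Res Rb N`, `φ : P → Ψ` (`exists_lift`), `Y = cone φ`, `shift_two`.
`cone_ses`, `SES.les`, `LES.euler` at `ν + 2`... : with `t i = tlm Rb M N i`, `T i = tlm R M N i`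
(`bc_tens_seq`, `SEq.length_eq`), the sequence `(Ψ ⊗ M, Y ⊗ M, P[1] ⊗ M)` has lengths
`(t i, t (i-2), T (i-1))`, and `H_{ν+2}(P[1] ⊗ M) = 0` makes `f (ν+1)` injective. -/
theorem theta {R Rb : Type} [CommRing R] [CommRing Rb] [Algebra R Rb]
    (hs : Function.Surjective (algebraMap R Rb)) (y : R) (hy : ∀ z, y * z = 0 → z = 0)
    (hk : RingHom.ker (algebraMap R Rb) = Ideal.span {y}) {M N : Type} [AddCommGroup M]
    [Module Rb M] [Module R M] [IsScalarTower R Rb M] [AddCommGroup N] [Module Rb N] [Module R N]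
    [IsScalarTower R Rb N] (ν : ℕ) (hb : Bd R M N ν) (h1 : ∀ i, tlm R M N i ≠ ⊤)
    (h2 : ∀ i, tlm Rb M N i ≠ ⊤) :
    chim R M N ν = (-1) ^ ν * (((tlm Rb M N ν).toNat : ℤ) - (tlm Rb M N (ν + 1)).toNat) := by
  obtain ⟨ε, hεs, hεe⟩ := theta_eps (N := N) hs
  obtain ⟨⟨e1⟩, hP⟩ := theta_H (N := N) hs y hy hk
  have hPp := (Res.proj R N).bc Rb
  obtain ⟨φ, hφ⟩ := Cx.exists_lift hPp ε (fun x => hεe.apply_apply_eq_zero x) _ (Res.isRes Rb N)
  obtain ⟨e2⟩ := Cx.cone_H φ _ (Res.isRes Rb N) 0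
  obtain ⟨b0, b1, b2⟩ := Cx.shift_two (Cx.cone_proj φ hPp (Res.proj Rb N)) (fun i hi => by
    match i, hi with
    | 0, _ => exact Cx.cone_ex_zero φ ε hεs hεe _ (Res.isRes Rb N) hφ
    | 1, _ => exact Cx.cone_ex_one φ ε hεs hεe _ (Res.isRes Rb N) hφ
    | i + 3, _ =>
      obtain ⟨e⟩ := Cx.cone_H φ _ (Res.isRes Rb N) (i + 1)
      exact (Cx.ex_iff _ _).2 (e.toEquiv.subsingleton_congr.2 (hP i))) (e2.trans e1) M
  rw [Cx.ex_iff_hl] at b0 b1
  have c0 := (Cx.ex_iff_hl _ _).1 (((Res R N).bc Rb).sh_tens_zero M)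
  have c1 : ∀ i, (((Res R N).bc Rb).sh.tens M).hl (i + 1) = tlm R M N i := fun i => by
    obtain ⟨e⟩ := ((Res R N).bc Rb).sh_tens_succ M i
    exact e.length_eq.trans (((Res R N).bc_tens_seq Rb M i).length_eq (RS.of_surjective hs)).symm
  obtain ⟨δ, L⟩ := (Cx.cone_ses φ M).les
  have : Subsingleton ((((Res R N).bc Rb).sh.tens M).H (ν + 1 + 1)) :=
    Module.length_eq_zero_iff.1 ((c1 _).trans (tlm_eq_zero_iff.2 (hb _ (Nat.lt_succ_self ν))))
  have key := L.euler (ν + 1) (fun i _ => h2 i) (fun i _ => by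
    match i with
    | 0 => exact b0.trans_ne ENat.zero_ne_top
    | 1 => exact b1.trans_ne ENat.zero_ne_top
    | i + 2 => exact (b2 i).trans_ne (h2 i)) (fun i _ => by
    match i with
    | 0 => exact c0.trans_ne ENat.zero_ne_top
    | i + 1 => exact (c1 i).trans_ne (h1 i)) (L.inj_f _)
  change alt ((Cx.cone φ).tens M).hl _ = alt (tlm Rb M N) _ +
    alt (((Res R N).bc Rb).sh.tens M).hl _ at key
  unfold alt at key
  rw [Finset.sum_range_succ', Finset.sum_range_succ', Finset.sum_range_succ,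
    Finset.sum_range_succ _ ν, Finset.sum_range_succ'] at key
  simp only [zero_add, b0, b1, b2, c0, c1, pow_succ, mul_neg, mul_one, neg_neg, neg_mul,
    Finset.sum_neg_distrib, ENat.toNat_zero, Nat.cast_zero, mul_zero] at key
  unfold chim alt
  linear_combination key

end Crest.Agent.R188
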