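import Crest.Agent.R188.Hty

/-! # R188 / KL : the key lemma on complexes over a ring with a "matrix factorisation" `s · s^(n-1) B`. -/

set_option autoImplicit false
open TensorProduct

namespace Crest.Agent.R188

variable {O : Type} [CommRing O]

/-- exact pair of zero divisors -/
def EP (a b : O) : Prop := (∀ y, a * y = 0 ↔ b ∣ y) ∧ ∀ y, b * y = 0 ↔ a ∣ y

theorem EP.symm {a b : O} (h : EP a b) : EP b a := ⟨h.2, h.1⟩

/-- LENGTH TRICK: `len (O/s) = len (ker s) = len (hO) = len O - len (ker h)`, and `sO ≤ ker h`. -/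
theorem EP.of_artinian [IsArtinianRing O] {s h : O} (h0 : s * h = 0) (h1 : ∀ y, s * y = 0 → h ∣ y) :
    EP s h := by
  have hk : LinearMap.ker (LinearMap.mulLeft O s) = LinearMap.range (LinearMap.mulLeft O h) := by
    ext y
    simp only [LinearMap.mem_ker, LinearMap.mem_range, LinearMap.mulLeft_apply]
    constructor
    · intro hy
      obtain ⟨c, rfl⟩ := h1 y hy
      exact ⟨c, rfl⟩
    · rintro ⟨c, rfl⟩
      rw [← mul_assoc, h0, zero_mul]
  have hle : LinearMap.range (LinearMap.mulLeft O s) ≤ LinearMap.ker (LinearMap.mulLeft O h) := by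
    rintro _ ⟨c, rfl⟩
    simp only [LinearMap.mem_ker, LinearMap.mulLeft_apply]
    rw [← mul_assoc, mul_comm h s, h0, zero_mul]
  have e1 := les_rn (LinearMap.mulLeft O s)
  have e2 := les_rn (LinearMap.mulLeft O h)
  rw [hk, e2, add_comm] at e1
  have hfin : Module.length O (LinearMap.range (LinearMap.mulLeft O h)) ≠ ⊤ :=
    Module.length_ne_top
  have e3 := (ENat.add_right_injective_of_ne_top hfin) e1
  have heq : LinearMap.range (LinearMap.mulLeft O s) = LinearMap.ker (LinearMap.mulLeft O h) := by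
    by_contra hne
    have := Submodule.height_strictMono (lt_of_le_of_ne hle hne)
    simp only [← Module.length_submodule] at this
    exact this.ne e3.symm
  refine ⟨fun y => ⟨h1 y, ?_⟩, fun y => ⟨fun hy => ?_, ?_⟩⟩
  · rintro ⟨c, rfl⟩
    rw [← mul_assoc, h0, zero_mul]
  · have : y ∈ LinearMap.ker (LinearMap.mulLeft O h) := hy
    rw [← heq] at this
    obtain ⟨c, rfl⟩ := this
    exact ⟨c, rfl⟩
  · rintro ⟨c, rfl⟩
    rw [← mul_assoc, mul_comm h s, h0, zero_mul]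

/-- induction on `j` for the first half, descending induction for the second -/
theorem EP.pow {s B : O} {n : ℕ} (hn : 1 ≤ n) (h : EP s (s ^ (n - 1) * B)) {j : ℕ} (hj : j ≤ n) :
    EP (s ^ j) (s ^ (n - j) * B) := by
  have h0 : s ^ n * B = 0 := by
    have := (h.1 _).2 dvd_rfl
    rwa [← mul_assoc, ← pow_succ', Nat.sub_add_cancel hn] at this
  have hz : ∀ j ≤ n, s ^ j * (s ^ (n - j) * B) = 0 := fun j hj => by
    rw [← mul_assoc, ← pow_add, Nat.add_sub_cancel' hj, h0]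
  have a1 : ∀ j ≤ n, ∀ y, s ^ j * y = 0 → s ^ (n - j) * B ∣ y := by
    intro j
    induction j with
    | zero =>
      intro _ y hy
      rw [pow_zero, one_mul] at hy
      rw [hy]
      exact dvd_zero _
    | succ j ih =>
      intro hj y hy
      obtain ⟨c, hc⟩ := ih (Nat.le_of_succ_le hj) (s * y) (by rw [← mul_assoc, ← pow_succ, hy])
      have e1 : n - j = (n - (j + 1)) + 1 := by omega
      have h2 : s * (y - s ^ (n - (j + 1)) * B * c) = 0 := by
        rw [mul_sub, hc, e1]; ring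
      obtain ⟨c', hc'⟩ := (h.1 _).1 h2
      have e2 : n - 1 = (n - (j + 1)) + j := by omega
      refine ⟨c + s ^ j * c', ?_⟩
      rw [e2] at hc'
      linear_combination hc'
  have a2 : ∀ j ≤ n, ∀ y, s ^ (n - j) * B * y = 0 → s ^ j ∣ y := by
    intro j
    induction j with
    | zero => intro _ y _; rw [pow_zero]; exact one_dvd _
    | succ j ih =>
      intro hj y hy
      have e2 : n - 1 = (n - (j + 1)) + j := by omega
      have e1 : n - j = (n - (j + 1)) + 1 := by omega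
      obtain ⟨y', rfl⟩ := (h.2 y).1 (by rw [e2]; linear_combination s ^ j * hy)
      obtain ⟨c, rfl⟩ := ih (Nat.le_of_succ_le hj) y' (by rw [e1]; linear_combination hy)
      exact ⟨c, by ring⟩
  refine ⟨fun y => ⟨a1 j hj y, ?_⟩, fun y => ⟨a2 j hj y, ?_⟩⟩
  · rintro ⟨c, rfl⟩
    rw [← mul_assoc, hz j hj, zero_mul]
  · rintro ⟨c, rfl⟩
    rw [← mul_assoc, mul_comm _ (s ^ j), hz j hj, zero_mul]

/-- length of `H_i(Z/a)` -/
noncomputable def zl (Z : Cx O) (a : O) (i : ℕ) : ℕ∞ := (Z.tens (O ⧸ Ideal.span {a})).hl i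

/-- the kernel of `H_i(Z) → H_i(Z/a)` -/
noncomputable def kk (Z : Cx O) (a : O) (i : ℕ) : Submodule O ((Z.tens O).H i) :=
  LinearMap.ker (Z.tH (Ideal.span {a}).mkQ i)

theorem zl_ne_top [IsArtinianRing O] {Z : Cx O} (hZ : Z.Fin) (a : O) (i : ℕ) : zl Z a i ≠ ⊤ := by
  have := hZ i
  have : Module.Finite O ((Z.tens (O ⧸ Ideal.span {a})).X i) :=
    inferInstanceAs (Module.Finite O ((O ⧸ Ideal.span {a}) ⊗[O] Z.X i))
  have := Cx.finite_H (C := Z.tens (O ⧸ Ideal.span {a})) i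
  exact Module.length_ne_top

/-- `Cx.les_tens` for `0 → O/b → O → O/a → 0`; `LES.len_zero`, `LES.len_succ`. -/
theorem zl_rec {Z : Cx O} (hZ : Z.Flat) {a b : O} (h : EP a b) :
    zl Z a 0 + Module.length O (kk Z a 0) = (Z.tens O).hl 0 ∧
      ∀ i, zl Z a (i + 1) + Module.length O (kk Z a (i + 1)) + Module.length O (kk Z a i) =
        (Z.tens O).hl (i + 1) + zl Z b i := by
  have hle : Ideal.span {b} ≤ LinearMap.ker (LinearMap.mulLeft O a) := by
    intro y hy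
    exact (h.1 y).2 (Ideal.mem_span_singleton.1 hy)
  let u : (O ⧸ Ideal.span {b}) →ₗ[O] O := (Ideal.span {b}).liftQ (LinearMap.mulLeft O a) hle
  have hu : Function.Injective u := by
    rw [← LinearMap.ker_eq_bot]
    refine Submodule.ker_liftQ_eq_bot _ _ _ fun y hy => ?_
    exact Ideal.mem_span_singleton.2 ((h.1 y).1 hy)
  have hex : Function.Exact u (Ideal.span {a}).mkQ := by
    rw [LinearMap.exact_iff, Submodule.ker_mkQ, Submodule.range_liftQ]
    ext y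
    rw [Ideal.mem_span_singleton]
    exact ⟨fun ⟨c, hc⟩ => ⟨c, hc.symm⟩, fun ⟨c, hc⟩ => ⟨c, hc.symm⟩⟩
  obtain ⟨δ, hδ⟩ := Cx.les_tens hZ u (Ideal.span {a}).mkQ hu hex (Submodule.mkQ_surjective _)
  exact ⟨hδ.len_zero, fun i => hδ.len_succ i⟩

/-- the class of `1 ⊗ z` dies modulo `a` iff `z ∈ dZ + aZ` (`Cx.quot_tmul_surj`,
`Cx.quot_tmul_eq_zero`, `TensorProduct.lid`). -/
theorem mem_kk {Z : Cx O} (a : O) (i : ℕ) (z : Z.X i) (hz : (1 : O) ⊗ₜ[O] z ∈ (Z.tens O).Z i) :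
    (Z.tens O).cls i ⟨_, hz⟩ ∈ kk Z a i ↔ ∃ u y, z = Z.d i u + a • y := by
  rw [kk, LinearMap.mem_ker, Cx.tH, Cx.Hom.hmap_cls, Cx.cls_eq_zero, Cx.mem_B]
  change (∃ w : (O ⧸ Ideal.span {a}) ⊗[O] Z.X (i + 1), (Z.d i).lTensor _ w =
    ((1 : O ⧸ Ideal.span {a}) ⊗ₜ[O] z : (O ⧸ Ideal.span {a}) ⊗[O] Z.X i)) ↔ _
  have key : ∀ u, ((Z.d i).lTensor (O ⧸ Ideal.span {a}) ((1 : O ⧸ Ideal.span {a}) ⊗ₜ[O] u) =
      ((1 : O ⧸ Ideal.span {a}) ⊗ₜ[O] z : (O ⧸ Ideal.span {a}) ⊗[O] Z.X i)) ↔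
      ∃ y, z = Z.d i u + a • y := by
    intro u
    rw [LinearMap.lTensor_tmul, eq_comm, ← sub_eq_zero, ← TensorProduct.tmul_sub,
      Cx.quot_tmul_eq_zero, Submodule.ideal_span_singleton_smul,
      Submodule.mem_smul_pointwise_iff_exists]
    constructor
    · rintro ⟨y, -, hy⟩
      exact ⟨y, by rw [hy]; abel⟩
    · rintro ⟨y, hy⟩
      exact ⟨y, trivial, by rw [hy]; abel⟩
  constructor
  · rintro ⟨w, hw⟩
    obtain ⟨u, rfl⟩ := Cx.quot_tmul_surj _ w
    exact ⟨u, (key u).1 hw⟩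
  · rintro ⟨u, hu⟩
    exact ⟨_, (key u).2 hu⟩

/-- on a flat module an exact pair stays exact -/
theorem EP.smul_eq_zero {a b : O} (h : EP a b) {P : Type} [AddCommGroup P] [Module O P]
    [Module.Flat O P] {x : P} (hx : a • x = 0) : ∃ y, x = b • y := by
  have hex : Function.Exact (LinearMap.mulLeft O b) (LinearMap.mulLeft O a) := fun y =>
    (h.1 y).trans ⟨fun ⟨c, hc⟩ => ⟨c, hc.symm⟩, fun ⟨c, hc⟩ => ⟨c, hc.symm⟩⟩
  have key : ∀ (c : O) (w : O ⊗[O] P), TensorProduct.lid O P ((LinearMap.mulLeft O c).rTensor P w) =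
      c • TensorProduct.lid O P w := by
    intro c w
    induction w with
    | zero => simp
    | tmul r p => simp [mul_smul]
    | add x y hx hy => simp only [map_add, hx, hy, smul_add]
  obtain ⟨w, hw⟩ := (Module.Flat.rTensor_exact P hex ((1 : O) ⊗ₜ[O] x)).1 (by
    apply (TensorProduct.lid O P).injective
    rw [key, map_zero, TensorProduct.lid_tmul, one_smul, hx])
  refine ⟨TensorProduct.lid O P w, ?_⟩
  rw [← key, hw, TensorProduct.lid_tmul, one_smul]

theorem kla_kk {Y : Cx O} (hY : Y.Flat) {w a' a b c e : O} (h : EP a b) (hN : Y.Nh w)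
    (ha : a = w * a') (hc : c = a' * b) (he : c = a * e) (i : ℕ) : kk Y a i = kk Y c i := by
  obtain ⟨σ, hσ0, hσ⟩ := hN
  ext x
  obtain ⟨⟨t, ht⟩, rfl⟩ := (Y.tens O).cls_surj i x
  obtain ⟨z, rfl⟩ : ∃ z : Y.X i, t = (1 : O) ⊗ₜ[O] z :=
    ⟨TensorProduct.lid O (Y.X i) t, ((TensorProduct.lid O (Y.X i)).symm_apply_apply t).symm⟩
  rw [mem_kk, mem_kk]
  constructor
  · rintro ⟨u, y, hz⟩
    cases i with
    | zero =>
      refine ⟨u + a' • σ 0 y, 0, ?_⟩
      rw [hz, map_add, map_smul, hσ0, smul_zero, add_zero, ha, mul_comm, mul_smul]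
    | succ i =>
      have hd : Y.d i z = 0 := by
        have h1 : (Y.d i).lTensor O ((1 : O) ⊗ₜ[O] z) = 0 := ht
        have h2 := congrArg (TensorProduct.lid O (Y.X i)) h1
        rwa [LinearMap.lTensor_tmul, TensorProduct.lid_tmul, one_smul, map_zero] at h2
      rw [hz, map_add, Y.dd, zero_add, map_smul] at hd
      have := hY i
      obtain ⟨y', hy'⟩ := h.smul_eq_zero hd
      refine ⟨u + a' • σ (i + 1) y, σ i y', ?_⟩
      have h3 := hσ i y
      rw [hy', map_smul] at h3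
      rw [hz, map_add, map_smul, ha, mul_comm, mul_smul, ← h3, hc, mul_smul, smul_add]
      exact (add_assoc _ _ _).symm
  · rintro ⟨u, y, hz⟩
    exact ⟨u, e • y, by rw [hz, he, mul_smul]⟩

/-- For a cycle `z` and `μ ≤ j ≤ n - μ`: `z ∈ dY + s^j Y ↔ z ∈ dY + s^(n-μ) B Y ↔ z ∈ dY + s^(n-j) B Y`.
(If `z = d u + s^j y` then `s^j d y = 0`, so `d y = s^(n-j) B y'` and
`s^j y = s^(j-μ) (d σ y + σ d y) = d(..) + s^(n-μ) B σ y'`; likewise with `s^(n-j) B`.) -/
theorem kk_eq {Y : Cx O} (hY : Y.Flat) {s B : O} {n μ : ℕ} (hn : 1 ≤ n)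
    (h : EP s (s ^ (n - 1) * B)) (hN : Y.Nh (s ^ μ)) {j : ℕ} (h1 : μ ≤ j) (h2 : j + μ ≤ n) (i : ℕ) :
    kk Y (s ^ j) i = kk Y (s ^ (n - μ) * B) i ∧
      kk Y (s ^ (n - j) * B) i = kk Y (s ^ (n - μ) * B) i := by
  constructor
  · have := kla_kk hY (w := s ^ μ) (a' := s ^ (j - μ)) (b := s ^ (n - j) * B)
      (e := s ^ (n - μ - j) * B) (a := s ^ j) (c := s ^ (n - μ) * B) (h.pow hn (by omega)) hN
      (by rw [← pow_add]; congr 1; omega)
      (by rw [← mul_assoc, ← pow_add]; congr 2; omega)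
      (by rw [← mul_assoc, ← pow_add]; congr 2; omega) i
    exact this
  · have := kla_kk hY (w := s ^ μ) (a' := s ^ (n - j - μ) * B) (b := s ^ j)
      (e := s ^ (j - μ)) (a := s ^ (n - j) * B) (c := s ^ (n - μ) * B)
      (h.pow hn (by omega)).symm hN
      (by rw [← mul_assoc, ← pow_add]; congr 2; omega)
      (by rw [mul_right_comm, ← pow_add]; congr 2; omega)
      (by rw [mul_right_comm, ← pow_add]; congr 2; omega) i
    exact this

theorem klb_fin [IsArtinianRing O] {Z : Cx O} (hZ : Z.Fin) (M : Type) [AddCommGroup M]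
    [Module O M] [Module.Finite O M] (i : ℕ) : Module.Finite O ((Z.tens M).H i) := by
  have := hZ i
  have : Module.Finite O ((Z.tens M).X i) := inferInstanceAs (Module.Finite O (M ⊗[O] Z.X i))
  exact Cx.finite_H (C := Z.tens M) i

theorem klb_kk_ne [IsArtinianRing O] {Z : Cx O} (hZ : Z.Fin) (a : O) (i : ℕ) :
    Module.length O (kk Z a i) ≠ ⊤ := by
  have := klb_fin hZ O i
  exact Module.length_ne_top

/-- induction on `i` with `zl_rec` for both pairs, cancelling finite lengths -/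
theorem zl_eq [IsArtinianRing O] {Y : Cx O} (hY : Y.Flat) (hF : Y.Fin) {a b a' b' : O} (h : EP a b)
    (h' : EP a' b') (ha : ∀ i, kk Y a i = kk Y a' i) (hb : ∀ i, kk Y b i = kk Y b' i) (i : ℕ) :
    zl Y a i = zl Y a' i ∧ zl Y b i = zl Y b' i := by
  induction i with
  | zero =>
    have h1 := (zl_rec hY h).1
    have h2 := (zl_rec hY h').1
    have h3 := (zl_rec hY h.symm).1
    have h4 := (zl_rec hY h'.symm).1
    rw [ha 0, ← h2] at h1
    rw [hb 0, ← h4] at h3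
    exact ⟨WithTop.add_right_cancel (klb_kk_ne hF _ _) h1,
      WithTop.add_right_cancel (klb_kk_ne hF _ _) h3⟩
  | succ i ih =>
    have h1 := (zl_rec hY h).2 i
    have h2 := (zl_rec hY h').2 i
    have h3 := (zl_rec hY h.symm).2 i
    have h4 := (zl_rec hY h'.symm).2 i
    rw [ha, ha, ih.2, ← h2] at h1
    rw [hb, hb, ih.1, ← h4] at h3
    exact ⟨WithTop.add_right_cancel (klb_kk_ne hF _ _)
        (WithTop.add_right_cancel (klb_kk_ne hF _ _) h1),
      WithTop.add_right_cancel (klb_kk_ne hF _ _)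
        (WithTop.add_right_cancel (klb_kk_ne hF _ _) h3)⟩

/-- for a resolution all higher `zl` are equal: `zl_rec` with `H_{≥1}(Ψ) = 0` gives
`zl a (i+2) = zl b (i+1)`, `zl a 1 = zl b 0 - len (kk a 0) = zl b 0 + zl a 0 - len H_0 = zl b 1`. -/
theorem zl_res [IsArtinianRing O] {Ψ : Cx O} (hY : Ψ.Flat) (hF : Ψ.Fin) (hex : ∀ i, Ψ.Ex (i + 1))
    {a b : O} (h : EP a b) (i : ℕ) : zl Ψ a (i + 1) = zl Ψ a 1 := by
  have hs : ∀ i, Subsingleton ((Ψ.tens O).H (i + 1)) := fun i =>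
    (Cx.ex_iff _ _).1 ((hex i).tens O)
  have hl : ∀ i, (Ψ.tens O).hl (i + 1) = 0 := fun i => (Cx.ex_iff_hl _ _).1 ((hex i).tens O)
  have hk : ∀ (c : O) i, Module.length O (kk Ψ c (i + 1)) = 0 := fun c i => by
    have := hs i
    exact Module.length_eq_zero
  have hstep : ∀ {a b : O}, EP a b → ∀ i, zl Ψ a (i + 2) = zl Ψ b (i + 1) := by
    intro a b h i
    have h1 := (zl_rec hY h).2 (i + 1)
    rwa [hk, hk, hl, add_zero, add_zero, zero_add] at h1
  have hone : zl Ψ b 1 = zl Ψ a 1 := by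
    have h1 := (zl_rec hY h).2 0
    have h2 := (zl_rec hY h.symm).2 0
    have h3 := (zl_rec hY h).1
    have h4 := (zl_rec hY h.symm).1
    rw [hk, hl, add_zero, zero_add, zero_add] at h1 h2
    rw [← h2] at h3
    rw [← h1, ← h3, add_right_comm] at h4
    exact (WithTop.add_right_cancel (klb_kk_ne hF _ _)
      (WithTop.add_right_cancel (klb_kk_ne hF _ _) h4)).symm
  have key : ∀ i, zl Ψ a (i + 1) = zl Ψ a 1 ∧ zl Ψ b (i + 1) = zl Ψ a 1 := by
    intro i
    induction i with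
    | zero => exact ⟨rfl, hone⟩
    | succ i ih => exact ⟨(hstep h i).trans ih.2, (hstep h.symm i).trans ih.1⟩
  exact (key i).1

theorem klb_les {Φ : Cx O} (hP : Φ.Flat) {s B : O} {n : ℕ} (h : EP s (s ^ (n - 1) * B)) {j : ℕ}
    (hj : j < n) : ∃ (u : (O ⧸ Ideal.span {s}) →ₗ[O] O ⧸ Ideal.span {s ^ (j + 1)})
      (v : (O ⧸ Ideal.span {s ^ (j + 1)}) →ₗ[O] O ⧸ Ideal.span {s ^ j})
      (δ : ∀ i, (Φ.tens (O ⧸ Ideal.span {s ^ j})).H (i + 1) →ₗ[O]
        (Φ.tens (O ⧸ Ideal.span {s})).H i), LES (Φ.tH u) (Φ.tH v) δ := by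
  have hp := h.pow (by omega) hj.le
  let u : (O ⧸ Ideal.span {s}) →ₗ[O] O ⧸ Ideal.span {s ^ (j + 1)} :=
    Submodule.mapQ (Ideal.span {s}) (Ideal.span {s ^ (j + 1)}) (LinearMap.mul O O (s ^ j)) (by
      intro x hx
      obtain ⟨y, rfl⟩ := Ideal.mem_span_singleton.1 hx
      exact Ideal.mem_span_singleton.2 ⟨y, by
        rw [LinearMap.mul_apply']
        ring⟩)
  let v : (O ⧸ Ideal.span {s ^ (j + 1)}) →ₗ[O] O ⧸ Ideal.span {s ^ j} :=
    Submodule.mapQ (Ideal.span {s ^ (j + 1)}) (Ideal.span {s ^ j}) LinearMap.id (by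
      intro x hx
      obtain ⟨y, rfl⟩ := Ideal.mem_span_singleton.1 hx
      exact Ideal.mem_span_singleton.2 ⟨s * y, by
        change s ^ (j + 1) * y = _
        ring⟩)
  have hu : ∀ x : O, u (Submodule.Quotient.mk x) = Submodule.Quotient.mk (s ^ j * x) :=
    fun x => rfl
  have hv : ∀ x : O, v (Submodule.Quotient.mk x) = Submodule.Quotient.mk x := fun x => rfl
  refine ⟨u, v, Cx.les_tens hP u v ?_ ?_ ?_⟩
  · rw [injective_iff_map_eq_zero]
    intro x hx
    obtain ⟨x, rfl⟩ := Submodule.Quotient.mk_surjective _ x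
    rw [hu, Submodule.Quotient.mk_eq_zero] at hx
    obtain ⟨y, hy⟩ := Ideal.mem_span_singleton.1 hx
    obtain ⟨z, hz⟩ := (hp.1 (x - s * y)).1 (by linear_combination hy)
    obtain ⟨k, hk⟩ : ∃ k, n - j = k + 1 := ⟨n - j - 1, by omega⟩
    rw [hk] at hz
    rw [Submodule.Quotient.mk_eq_zero]
    exact Ideal.mem_span_singleton.2 ⟨y + s ^ k * B * z, by linear_combination hz⟩
  · intro x
    obtain ⟨x, rfl⟩ := Submodule.Quotient.mk_surjective _ x
    rw [hv, Submodule.Quotient.mk_eq_zero]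
    constructor
    · intro hx
      obtain ⟨y, rfl⟩ := Ideal.mem_span_singleton.1 hx
      exact ⟨Submodule.Quotient.mk y, hu y⟩
    · rintro ⟨y, hy⟩
      obtain ⟨y, rfl⟩ := Submodule.Quotient.mk_surjective _ y
      rw [hu, Submodule.Quotient.eq] at hy
      obtain ⟨z, hz⟩ := Ideal.mem_span_singleton.1 hy
      exact Ideal.mem_span_singleton.2 ⟨y - s * z, by linear_combination -hz⟩
  · intro x
    obtain ⟨x, rfl⟩ := Submodule.Quotient.mk_surjective _ x
    exact ⟨Submodule.Quotient.mk x, hv x⟩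

theorem klb_zl_zero (Φ : Cx O) (s : O) (i : ℕ) : zl Φ (s ^ 0) i = 0 := by
  have h1 : Subsingleton (O ⧸ Ideal.span {s ^ 0}) := by
    rw [pow_zero, Ideal.span_singleton_one]
    infer_instance
  have h2 : Subsingleton ((Φ.tens (O ⧸ Ideal.span {s ^ 0})).X i) :=
    inferInstanceAs (Subsingleton ((O ⧸ Ideal.span {s ^ 0}) ⊗[O] Φ.X i))
  refine (Cx.ex_iff_hl _ _).1 fun x _ => ?_
  rw [Subsingleton.elim x 0]
  exact zero_mem _

/-- `0 → O/s → O/s^(j+1) → O/s^j → 0` for `j < n` (`EP.pow`: `ker s^j = s^(n-j) B O ≤ sO`) -/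
theorem zl_step [IsArtinianRing O] {Φ : Cx O} (hP : Φ.Flat) (hF : Φ.Fin) {s B : O} {n ν : ℕ}
    (h : EP s (s ^ (n - 1) * B)) (hν : ∀ i, ν < i → zl Φ s i = 0) {j : ℕ} (hj : j ≤ n) :
    (∀ i, ν < i → zl Φ (s ^ j) i = 0) ∧
      (j < n → alt (zl Φ (s ^ (j + 1))) ν = alt (zl Φ s) ν + alt (zl Φ (s ^ j)) ν) := by
  have h1 : ∀ j ≤ n, ∀ i, ν < i → zl Φ (s ^ j) i = 0 := by
    intro j
    induction j with
    | zero => exact fun _ i _ => klb_zl_zero Φ s i
    | succ j ih =>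
      intro hj i hi
      obtain ⟨u, v, δ, hl⟩ := klb_les hP h (j := j) hj
      have := Module.length_eq_zero_iff.1 (hν i hi)
      have := Module.length_eq_zero_iff.1 (ih (Nat.le_of_succ_le hj) i hi)
      have := hl.sub_B i
      exact Module.length_eq_zero
  refine ⟨h1 j hj, fun hj' => ?_⟩
  obtain ⟨u, v, δ, hl⟩ := klb_les hP h hj'
  have := Module.length_eq_zero_iff.1 (h1 j hj (ν + 1) (Nat.lt_succ_self ν))
  exact hl.euler ν (fun i _ => zl_ne_top hF _ i) (fun i _ => zl_ne_top hF _ i)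
    (fun i _ => zl_ne_top hF _ i) (hl.inj_f ν)

theorem klb_alt_shift {l l' : ℕ → ℕ∞} (h0 : l 0 = 0) (h : ∀ i, l (i + 1) = l' i) (N : ℕ) :
    alt l (N + 1) = -alt l' N := by
  unfold alt
  rw [Finset.sum_range_succ', h0, ← Finset.sum_neg_distrib]
  simp only [ENat.toNat_zero, Nat.cast_zero, mul_zero, add_zero]
  refine Finset.sum_congr rfl fun i _ => ?_
  rw [h i]
  ring

theorem klb_alt_const {l : ℕ → ℕ∞} (h : ∀ i, l (i + 1) = l 1) (k : ℕ) :
    alt l (2 * k) = (l 0).toNat := by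
  induction k with
  | zero => simp [alt]
  | succ k ih =>
    unfold alt at ih ⊢
    rw [show 2 * (k + 1) + 1 = 2 * k + 1 + 1 + 1 by ring, Finset.sum_range_succ,
      Finset.sum_range_succ, ih, h (2 * k + 1), h (2 * k)]
    ring

theorem klb_cone [IsArtinianRing O] {Φ Ψ : Cx O} (φ : Cx.Hom Φ Ψ) (hΦ : Φ.Fin) (hΨ : Ψ.Fin) (a : O)
    {ν N : ℕ} (hN : ν ≤ N) (hν : ∀ i, ν < i → zl Φ a i = 0) :
    alt (zl (Cx.cone φ) a) (N + 1) = alt (zl Ψ a) (N + 1) - alt (zl Φ a) ν := by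
  obtain ⟨δ, hl⟩ := (Cx.cone_ses φ (O ⧸ Ideal.span {a})).les
  have h0 : zl Φ.sh a 0 = 0 := (Cx.ex_iff_hl _ _).1 (Cx.sh_tens_zero Φ _)
  have h1 : ∀ i, zl Φ.sh a (i + 1) = zl Φ a i := fun i =>
    (Cx.sh_tens_succ Φ (O ⧸ Ideal.span {a}) i).some.length_eq
  have h2 : ∀ i, zl Φ.sh a i ≠ ⊤ := by
    intro i
    cases i with
    | zero => rw [h0]; exact ENat.zero_ne_top
    | succ i => rw [h1]; exact zl_ne_top hΦ a i
  have := Module.length_eq_zero_iff.1 ((h1 (N + 1)).trans (hν (N + 1) (Nat.lt_succ_of_le hN)))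
  have h3 : alt (zl (Cx.cone φ) a) (N + 1) = alt (zl Ψ a) (N + 1) + alt (zl Φ.sh a) (N + 1) :=
    hl.euler (N + 1) (fun i _ => zl_ne_top hΨ a i)
      (fun i _ => zl_ne_top (Cx.cone_fin φ hΦ hΨ) a i) (fun i _ => h2 i) (hl.inj_f (N + 1))
  rw [h3, klb_alt_shift h0 h1, alt_of_le hN hν, sub_eq_add_neg]

theorem klb_res [IsArtinianRing O] (G : Type) [AddCommGroup G] [Module O G] [Module.Finite O G]
    {a b : O} (h : EP a b) (k : ℕ) : alt (zl (Res O G) a) (2 * k) =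
      (Module.length O (G ⧸ (Ideal.span {a} • ⊤ : Submodule O G))).toNat := by
  rw [klb_alt_const (zl_res (Res.proj O G).flat (Res.fin O G) (Res.isRes O G).ex h)]
  obtain ⟨e, -⟩ := (Res O G).tens_H0 (Res.ε O G) (Res.isRes O G).surj (Res.isRes O G).ex0
    (O ⧸ Ideal.span {a})
  have : zl (Res O G) a 0 = Module.length O (G ⧸ (Ideal.span {a} • ⊤ : Submodule O G)) :=
    (e.trans (TensorProduct.quotTensorEquivQuotSMul G (Ideal.span {a}))).length_eq
  rw [this]

/-- multiplication by `a` as a map `O/b → O` -/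
noncomputable def klc_u {a b : O} (h : EP a b) : (O ⧸ Ideal.span {b}) →ₗ[O] O :=
  (Ideal.span {b}).liftQ (LinearMap.lsmul O O a) fun y hy =>
    (h.1 y).2 (Ideal.mem_span_singleton.1 hy)

theorem klc_u_mk {a b : O} (h : EP a b) (y : O) :
    klc_u h (Ideal.Quotient.mk (Ideal.span {b}) y) = a * y := rfl

theorem klc_u_inj {a b : O} (h : EP a b) : Function.Injective (klc_u h) := by
  rw [injective_iff_map_eq_zero]
  intro y hy
  obtain ⟨y, rfl⟩ := Ideal.Quotient.mk_surjective y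
  exact Ideal.Quotient.eq_zero_iff_mem.2 (Ideal.mem_span_singleton.2 ((h.1 y).1 hy))

theorem klc_u_ex {a b : O} (h : EP a b) : Function.Exact (klc_u h) (Ideal.span {a}).mkQ := by
  intro y
  rw [Submodule.mkQ_apply, Submodule.Quotient.mk_eq_zero, Ideal.mem_span_singleton]
  constructor
  · rintro ⟨c, rfl⟩
    exact ⟨Ideal.Quotient.mk _ c, rfl⟩
  · rintro ⟨c, rfl⟩
    obtain ⟨c, rfl⟩ := Ideal.Quotient.mk_surjective c
    exact ⟨c, rfl⟩

/-- dimension shifting along `0 → O/b → O → O/a → 0` -/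
theorem klc_shift {a b : O} (h : EP a b) {G : Type} [AddCommGroup G] [Module O G] {c : O} {i : ℕ}
    (hk : ∀ x : T O (O ⧸ Ideal.span {a}) G (i + 2), c • x = 0)
    (x : T O (O ⧸ Ideal.span {b}) G (i + 1)) : c • x = 0 := by
  obtain ⟨δ, hδ⟩ := T_les G (klc_u h) (Ideal.span {a}).mkQ (klc_u_inj h) (klc_u_ex h)
    (Submodule.mkQ_surjective _)
  have h1 : Subsingleton (T O O G (i + 1)) := T_flat i
  obtain ⟨y, rfl⟩ := les_surj (hδ.δf (i + 1)) x
  rw [← map_smul, hk, map_zero]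

theorem klc_down {a b : O} (h : EP a b) {G : Type} [AddCommGroup G] [Module O G] {c : O} (k : ℕ)
    (hk : ∀ x : T O (O ⧸ Ideal.span {a}) G (2 * k + 1), c • x = 0)
    (x : T O (O ⧸ Ideal.span {a}) G 1) : c • x = 0 := by
  induction k with
  | zero => exact hk x
  | succ k ih => exact ih (klc_shift h.symm (klc_shift (i := 2 * k + 1) h hk))

theorem klc_one {a b : O} (h : EP a b) {G : Type} [AddCommGroup G] [Module O G] {c : O}
    (h0 : ∀ x : G, a • x = 0) (hk : ∀ x : T O (O ⧸ Ideal.span {a}) G 1, c • x = 0) (x : G) :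
    c • x ∈ (Ideal.span {b} • ⊤ : Submodule O G) := by
  have h1 : Subsingleton (T O O G 1) := T_flat 0
  obtain ⟨e⟩ := T1_equiv_ker (N := G) (klc_u h) (Ideal.span {a}).mkQ (klc_u_inj h) (klc_u_ex h)
    (Submodule.mkQ_surjective _)
  have hx : (1 : O ⧸ Ideal.span {b}) ⊗ₜ[O] x ∈ LinearMap.ker ((klc_u h).rTensor G) := by
    rw [LinearMap.mem_ker, LinearMap.rTensor_tmul]
    have : klc_u h 1 = a • (1 : O) := klc_u_mk h 1
    rw [this, TensorProduct.smul_tmul, h0, TensorProduct.tmul_zero]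
  have h2 : c • (⟨_, hx⟩ : LinearMap.ker ((klc_u h).rTensor G)) = 0 := by
    obtain ⟨y, hy⟩ := e.surjective ⟨_, hx⟩
    rw [← hy, ← map_smul, hk, map_zero]
  rw [← Cx.quot_tmul_eq_zero, TensorProduct.tmul_smul]
  exact congrArg Subtype.val h2

theorem klc_mem {G : Type} [AddCommGroup G] [Module O G] {a : O} {x : G} :
    x ∈ (Ideal.span {a} • ⊤ : Submodule O G) ↔ ∃ y, a • y = x := by
  rw [Submodule.ideal_span_singleton_smul, Submodule.mem_smul_pointwise_iff_exists]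
  simp

section KL
variable [IsArtinianRing O] {s B : O} {n m r ν : ℕ} (h : EP s (s ^ (n - 1) * B))
  (hn : 2 * (m * r) + 1 ≤ n) {Φ : Cx O} (hP : Φ.Proj) (hF : Φ.Fin) {G : Type} [AddCommGroup G]
  [Module O G] (ε : Φ.X 0 →ₗ[O] G) (hs : Function.Surjective ε) (he : Function.Exact (Φ.d 0) ε)
  (hr : ∀ i, r < i → Φ.Ex i) (hν : ∀ i, ν < i → zl Φ s i = 0)
include h hn hP hF hs he hr hν

/-- KEY LEMMA.  `Ψ = Res O G`, `φ : Φ → Ψ` (`exists_lift`), `Y = cone φ` has homology in `[2, r+1]`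
killed by `s^m` (`cone_ex_zero`, `cone_ex_one`, `cone_H`), so `Y.Nh (s^(m r))` (`ghost` with `j = 2`).
For `j ∈ {μ, μ+1}` and an EVEN `N > ν`: `cone_ses`, `SES.les`, `LES.euler` at `N`
(`H_{N+1}(Φ[1]/s^j) = H_N(Φ/s^j) = 0` by `zl_step`) give
`alt (zl Y) N = alt (zl Ψ) N - alt (zl Φ) ν`; `alt (zl Ψ (s^j)) N = zl Ψ (s^j) 0 = len (G/s^j G)` by
`zl_res`, `tens_H0`; `zl Y` does not depend on `j` by `kk_eq`, `zl_eq`; conclude with `zl_step`. -/
theorem KL (hm : ∀ i, Φ.Kill (s ^ m) (i + 1)) : alt (zl Φ s) ν =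
    ((Module.length O (G ⧸ (Ideal.span {s ^ (m * r + 1)} • ⊤ : Submodule O G))).toNat : ℤ) -
      (Module.length O (G ⧸ (Ideal.span {s ^ (m * r)} • ⊤ : Submodule O G))).toNat := by
  have hG : Module.Finite O G := by
    have := hF 0
    exact Module.Finite.of_surjective ε hs
  have hn1 : 1 ≤ n := by omega
  obtain ⟨φ, hφ⟩ := Cx.exists_lift hP ε (fun x => he.apply_apply_eq_zero x) (Res.ε O G)
    (Res.isRes O G)
  have hYP : (Cx.cone φ).Proj := Cx.cone_proj φ hP (Res.proj O G)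
  have hYF : (Cx.cone φ).Fin := Cx.cone_fin φ hF (Res.fin O G)
  have e0 : (Cx.cone φ).Ex 0 := Cx.cone_ex_zero φ ε hs he _ (Res.isRes O G) hφ
  have e1 : (Cx.cone φ).Ex 1 := Cx.cone_ex_one φ ε hs he _ (Res.isRes O G) hφ
  have hN : (Cx.cone φ).Nh (s ^ (m * r)) := by
    rw [pow_mul]
    refine Cx.ghost hYP (s ^ m) 2 r ?_ ?_
    · intro i hi
      match i, hi with
      | 0, _ => exact e0
      | 1, _ => exact e1
      | i + 2, hi =>
        obtain ⟨e⟩ := Cx.cone_H φ _ (Res.isRes O G) i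
        have := (Cx.ex_iff _ _).1 (hr (i + 1) (by omega))
        exact (Cx.ex_iff _ _).2 e.toEquiv.subsingleton
    · intro i
      match i with
      | 0 => exact fun x hx => Submodule.smul_mem _ _ (e0 hx)
      | 1 => exact fun x hx => Submodule.smul_mem _ _ (e1 hx)
      | i + 2 =>
        obtain ⟨e⟩ := Cx.cone_H φ _ (Res.isRes O G) i
        refine (Cx.kill_iff _ _ _).2 fun x => e.injective ?_
        rw [map_smul, map_zero]
        exact (Cx.kill_iff _ _ _).1 (hm i) _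
  have j1 : m * r ≤ n := by omega
  have j2 : m * r + 1 ≤ n := by omega
  have k1 := kk_eq hYP.flat hn1 h hN (j := m * r) le_rfl (by omega)
  have k2 := kk_eq hYP.flat hn1 h hN (j := m * r + 1) (Nat.le_succ _) (by omega)
  have hz := zl_eq hYP.flat hYF (h.pow hn1 j1) (h.pow hn1 j2)
    (fun i => (k1 i).1.trans (k2 i).1.symm) (fun i => (k2 i).2.symm)
  have s1 := zl_step hP.flat hF h hν j1
  have s2 := zl_step hP.flat hF h hν j2
  have c1 := klb_cone φ hF (Res.fin O G) _ (N := 2 * ν + 1) (by omega) s1.1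
  have c2 := klb_cone φ hF (Res.fin O G) _ (N := 2 * ν + 1) (by omega) s2.1
  have r1 := klb_res G (h.pow hn1 j1) (ν + 1)
  have r2 := klb_res G (h.pow hn1 j2) (ν + 1)
  rw [show 2 * (ν + 1) = 2 * ν + 1 + 1 by ring] at r1 r2
  have hc : alt (zl (Cx.cone φ) (s ^ (m * r))) (2 * ν + 1 + 1) =
      alt (zl (Cx.cone φ) (s ^ (m * r + 1))) (2 * ν + 1 + 1) := alt_congr fun i _ => (hz i).1
  have s3 := s1.2 j2
  linarith

/-- With `a = s^μ`, `b = s^(n-μ) B`: `Y.Nh (w^r)`; for odd `i > ν`, `T O (O/a) G i` embeds in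
`H_i(Y/a)` (`LES.inj_f`), so is killed by `w^r`; `T (O/a) G (i+2) ≃ T (O/b) G (i+1) ≃ T (O/a) G i` for
`i ≥ 1` (`T_les`, `LES.bij_δ`, `T_flat`); `T (O/a) G 1 ≃ ker (O/b ⊗ G → O ⊗ G) = ⊤` (`T1_equiv_ker`). -/
theorem KL2 {w : O} (hw : ∀ i, Φ.Kill w (i + 1)) (h0 : ∀ x : G, s ^ (m * r) • x = 0) (x : G) :
    w ^ r • x ∈ (Ideal.span {s} • ⊤ : Submodule O G) := by
  have hab : EP (s ^ (m * r)) (s ^ (n - m * r) * B) := h.pow (by omega) (by omega)
  obtain ⟨φ, hφ⟩ := Cx.exists_lift hP ε (fun y => he.apply_apply_eq_zero y) (Res.ε O G)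
    (Res.isRes O G)
  have hE0 := Cx.cone_ex_zero φ ε hs he _ (Res.isRes O G) hφ
  have hE1 := Cx.cone_ex_one φ ε hs he _ (Res.isRes O G) hφ
  have hN : (Cx.cone φ).Nh (w ^ r) := by
    refine Cx.ghost (Cx.cone_proj φ hP (Res.proj O G)) w 2 r (fun i hi => ?_) fun i => ?_
    · match i, hi with
      | 0, _ => exact hE0
      | 1, _ => exact hE1
      | i + 2, hi =>
        obtain ⟨e⟩ := Cx.cone_H φ _ (Res.isRes O G) i
        have := (Φ.ex_iff _).1 (hr (i + 1) (by omega))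
        exact (Cx.ex_iff _ _).2 e.toEquiv.subsingleton
    · match i with
      | 0 => exact fun y hy => Submodule.smul_mem _ _ (hE0 hy)
      | 1 => exact fun y hy => Submodule.smul_mem _ _ (hE1 hy)
      | i + 2 =>
        obtain ⟨e⟩ := Cx.cone_H φ _ (Res.isRes O G) i
        refine (Cx.kill_iff _ _ _).2 fun y => e.injective ?_
        rw [map_smul, (Φ.kill_iff _ _).1 (hw i), map_zero]
  obtain ⟨δ, hδ⟩ := (Cx.cone_ses φ (O ⧸ Ideal.span {s ^ (m * r)})).les
  have hz := (zl_step hP.flat hF h hν (j := m * r) (by omega)).1 (2 * ν + 1) (by omega)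
  obtain ⟨e⟩ := Φ.sh_tens_succ (O ⧸ Ideal.span {s ^ (m * r)}) (2 * ν + 1)
  have h1 : Subsingleton ((Φ.tens (O ⧸ Ideal.span {s ^ (m * r)})).H (2 * ν + 1)) :=
    Module.length_eq_zero_iff.1 hz
  have h2 : Subsingleton ((Φ.sh.tens (O ⧸ Ideal.span {s ^ (m * r)})).H (2 * ν + 1 + 1)) :=
    e.toEquiv.subsingleton
  have hk : ∀ y : T O (O ⧸ Ideal.span {s ^ (m * r)}) G (2 * ν + 1), w ^ r • y = 0 := by
    intro y
    apply hδ.inj_f (2 * ν + 1)
    rw [map_smul, map_zero]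
    exact (Cx.kill_iff _ _ _).1 (hN.kill_tens _ _) _
  obtain ⟨y, hy⟩ := klc_mem.1 (klc_one hab h0 (klc_down hab ν hk) x)
  refine klc_mem.2 ⟨(s ^ (n - m * r - 1) * B) • y, ?_⟩
  rw [← hy, smul_smul, ← mul_assoc, ← pow_succ', Nat.sub_add_cancel (by omega)]

theorem KL_van (hm : ∀ i, Φ.Kill (s ^ m) (i + 1)) (h0 : ∀ x : G, s ^ (m * r) • x = 0) :
    alt (zl Φ s) ν = 0 := by
  have h1 : (Ideal.span {s ^ (m * r + 1)} • ⊤ : Submodule O G) =
      (Ideal.span {s ^ (m * r)} • ⊤ : Submodule O G) := by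
    ext x
    rw [klc_mem, klc_mem]
    simp only [pow_succ, mul_smul, h0]
  rw [KL h hn hP hF ε hs he hr hν hm, h1, sub_self]

/-- if `s^μ G ≠ 0` then `s^(μ+1) G < s^μ G` since `s` is nilpotent -/
theorem KL_pos (hm : ∀ i, Φ.Kill (s ^ m) (i + 1)) (hnil : IsNilpotent s) {w : O}
    (hw : ∀ i, Φ.Kill w (i + 1)) {x : G} (hx : w ^ r • x ∉ (Ideal.span {s} • ⊤ : Submodule O G)) :
    0 < alt (zl Φ s) ν := by
  have := hF 0
  have : Module.Finite O G := Module.Finite.of_surjective ε hs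
  have hlt : (Ideal.span {s ^ (m * r + 1)} • ⊤ : Submodule O G) <
      (Ideal.span {s ^ (m * r)} • ⊤ : Submodule O G) := by
    refine lt_of_le_of_ne (fun y hy => ?_) fun heq => hx (KL2 h hn hP hF ε hs he hr hν hw ?_ x)
    · obtain ⟨z, rfl⟩ := klc_mem.1 hy
      exact klc_mem.2 ⟨s • z, by rw [smul_smul, pow_succ]⟩
    · have key : ∀ (k : ℕ) (y : G), ∃ z, s ^ (m * r + k) • z = s ^ (m * r) • y := by
        intro k
        induction k with
        | zero => exact fun y => ⟨y, rfl⟩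
        | succ k ih =>
          intro y
          obtain ⟨z, hz⟩ := klc_mem.1 (heq.ge (klc_mem.2 ⟨y, rfl⟩))
          obtain ⟨z', hz'⟩ := ih z
          refine ⟨z', ?_⟩
          rw [← hz, ← add_assoc, pow_succ', pow_succ', mul_smul, mul_smul, hz']
      obtain ⟨k, hk⟩ := hnil
      intro y
      obtain ⟨z, hz⟩ := key k y
      rw [← hz, pow_add, hk, mul_zero, zero_smul]
  have h2 : Module.length O (G ⧸ (Ideal.span {s ^ (m * r)} • ⊤ : Submodule O G)) <
      Module.length O (G ⧸ (Ideal.span {s ^ (m * r + 1)} • ⊤ : Submodule O G)) := by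
    rw [Module.length_quotient, Module.length_quotient]
    exact Order.coheight_strictAnti hlt (Order.coheight_lt_top _)
  rw [KL h hn hP hF ε hs he hr hν hm, sub_pos, Nat.cast_lt]
  have h3 : Module.length O (G ⧸ (Ideal.span {s ^ (m * r + 1)} • ⊤ : Submodule O G)) ≠ ⊤ :=
    Module.length_ne_top
  rw [← ENat.natCast_toNat h3, ← ENat.natCast_toNat h2.ne_top] at h2
  exact_mod_cast h2

end KL

end Crest.Agent.R188
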