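import Crest.Agent.R188.AA
import Crest.Agent.R188.RingT

/-! # R188 / MU : the two valuative estimates `(m1)` and `(U)` and their Briançon–Skoda forms. -/

set_option autoImplicit false
open IsLocalRing Crest.Agent.R183 WittVector

namespace Crest.Agent.R188

/-- valuative criterion (proof of `R183.val_crit`: `vala_prime`, `vala_field`) -/
theorem val_crit' {U : Type} [CommRing U] (I : Ideal U) (b : U)
    (h : ∀ (K : Type) [Field K] [IsAlgClosed K] (O : ValuationSubring K) (ψ : U →+* O), ψ b ≠ 0 →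
      (∀ i ∈ I, ∃ μ ∈ maximalIdeal O, ψ i = ψ b * μ) → False) :
    ∃ s, b ^ (s + 1) ∈ I * (I ⊔ Ideal.span {b}) ^ s := by
  by_contra hs
  obtain ⟨𝔭, h1, h2⟩ := vala_prime (not_exists.1 hs)
  obtain ⟨O, ψ, h3, h4⟩ := vala_field
    ((algebraMap (U ⧸ 𝔭) (AlgebraicClosure (FractionRing (U ⧸ 𝔭)))).comp (Ideal.Quotient.mk 𝔭))
    (I := I) (b := b) fun s y hy e => h2 s y hy (by
      rw [RingHom.comp_apply, IsScalarTower.algebraMap_apply (U ⧸ 𝔭) (FractionRing (U ⧸ 𝔭)),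
        map_eq_zero, map_eq_zero_iff _ (IsFractionRing.injective _ _)] at e
      exact Ideal.Quotient.eq_zero_iff_mem.1 e)
  exact h _ O ψ h3 h4

theorem mua_span_pow {U : Type} [CommRing U] {ι : Type} (g : ι → U) (Q : ℕ) (s : Finset ι) :
    Ideal.span (g '' s) ^ (s.card * Q + 1) ≤ Ideal.span ((fun i => g i ^ Q) '' s) := by
  classical
  induction s using Finset.induction_on with
  | empty => simp
  | insert a s ha ih =>
    rw [Finset.coe_insert, Set.image_insert_eq, Set.image_insert_eq, Ideal.span_insert,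
      Ideal.span_insert, Finset.card_insert_of_notMem ha,
      show (s.card + 1) * Q + 1 = Q + (s.card * Q + 1) by ring]
    refine Ideal.sup_pow_add_le_pow_sup_pow.trans (sup_le_sup ?_ ih)
    rw [Ideal.span_singleton_pow]

/-- PIGEONHOLE: `(g)^(ν Q) ≤ (g^Q)` for `ν ≥ 1` generators (`Ideal.span_pow...`, or induction on the
generators with `Ideal.sup_pow_add_le_pow_sup_pow`); if `ν = 0` use `t = 1`. -/
theorem pow_mem_span_pow {U : Type} [CommRing U] {ι : Type} [Fintype ι] (g : ι → U) {b : U}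
    {μ Q : ℕ} (h : ∀ t, b ^ (t + μ) ∈ Ideal.span (Set.range g) ^ t) (hQ : μ < Q) :
    b ^ ((Fintype.card ι + 1) * Q) ∈ Ideal.span (Set.range fun i => g i ^ Q) := by
  have h1 := mua_span_pow g Q Finset.univ
  rw [Finset.coe_univ, Set.image_univ, Set.image_univ, Finset.card_univ] at h1
  obtain ⟨r, rfl⟩ : ∃ r, Q = μ + 1 + r := ⟨Q - (μ + 1), by omega⟩
  have h2 := h (Fintype.card ι * (μ + 1 + r) + 1 + r)
  rw [show Fintype.card ι * (μ + 1 + r) + 1 + r + μ = (Fintype.card ι + 1) * (μ + 1 + r) by ring]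
    at h2
  exact h1 (Ideal.pow_le_pow_right (Nat.le_add_right _ r) h2)

/-- `(Γ (x - y))_i` -/
def vv {W L : Type} [CommRing W] [CommRing L] {d : ℕ} (ω : W →+* L) (Γ : Matrix (Fin d) (Fin d) W)
    (x y : Fin d → L) (i : Fin d) : L := ∑ l, ω (Γ i l) * (x l - y l)

/-- `u''_i = v_{i+1} - c_i v_0` -/
def uu {W L : Type} [CommRing W] [CommRing L] {d' : ℕ} (ω : W →+* L)
    (Γ : Matrix (Fin (d' + 1)) (Fin (d' + 1)) W) (c : Fin d' → W) (x y : Fin (d' + 1) → L)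
    (i : Fin d') : L := vv ω Γ x y i.succ - ω (c i) * vv ω Γ x y 0

section vv
variable {W L L' : Type} [CommRing W] [CommRing L] [CommRing L'] {d' : ℕ} (ω : W →+* L)
  (Γ : Matrix (Fin (d' + 1)) (Fin (d' + 1)) W) (c : Fin d' → W) (x y : Fin (d' + 1) → L)

theorem map_vv (θ : L →+* L') (i : Fin (d' + 1)) :
    θ (vv ω Γ x y i) = vv (θ.comp ω) Γ (fun l => θ (x l)) (fun l => θ (y l)) i := by
  simp [vv, map_sum]

theorem map_uu (θ : L →+* L') (i : Fin d') :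
    θ (uu ω Γ c x y i) = uu (θ.comp ω) Γ c (fun l => θ (x l)) (fun l => θ (y l)) i := by
  simp [uu, map_vv]

/-- `(v) = (x - y)` for invertible `Γ` -/
theorem span_vv (hΓ : IsUnit Γ.det) : Ideal.span (Set.range (vv ω Γ x y)) =
    Ideal.span (Set.range fun l => x l - y l) := by
  apply le_antisymm
  · rw [Ideal.span_le]
    rintro _ ⟨i, rfl⟩
    exact Ideal.sum_mem _ fun l _ => Ideal.mul_mem_left _ _ (Ideal.subset_span ⟨l, rfl⟩)
  · rw [Ideal.span_le]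
    rintro _ ⟨l, rfl⟩
    have e : x l - y l = ∑ i, ω (Γ⁻¹ l i) * vv ω Γ x y i := by
      simp only [vv, Finset.mul_sum, ← mul_assoc, ← map_mul]
      rw [Finset.sum_comm]
      simp only [← Finset.sum_mul, ← map_sum, ← Matrix.mul_apply, Matrix.nonsing_inv_mul Γ hΓ]
      simp [Matrix.one_apply, apply_ite ω]
    show x l - y l ∈ Ideal.span (Set.range (vv ω Γ x y))
    rw [e]
    exact Ideal.sum_mem _ fun i _ => Ideal.mul_mem_left _ _ (Ideal.subset_span ⟨i, rfl⟩)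

theorem span_uu (hΓ : IsUnit Γ.det) :
    Ideal.span (Set.range (uu ω Γ c x y)) ⊔ Ideal.span {vv ω Γ x y 0} =
      Ideal.span (Set.range fun l => x l - y l) := by
  rw [← span_vv ω Γ x y hΓ]
  apply le_antisymm
  · refine sup_le (Ideal.span_le.2 ?_) (Ideal.span_mono (by simp))
    rintro _ ⟨i, rfl⟩
    exact sub_mem (Ideal.subset_span ⟨_, rfl⟩)
      (Ideal.mul_mem_left _ _ (Ideal.subset_span ⟨_, rfl⟩))
  · rw [Ideal.span_le]
    rintro _ ⟨i, rfl⟩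
    have h0 : vv ω Γ x y 0 ∈ Ideal.span (Set.range (uu ω Γ c x y)) ⊔ Ideal.span {vv ω Γ x y 0} :=
      Ideal.mem_sup_right (Ideal.mem_span_singleton_self _)
    refine Fin.cases h0 (fun i => ?_) i
    have e : vv ω Γ x y i.succ = uu ω Γ c x y i + ω (c i) * vv ω Γ x y 0 := by simp [uu]
    rw [e]
    exact add_mem (Ideal.mem_sup_left (Ideal.subset_span ⟨i, rfl⟩)) (Ideal.mul_mem_left _ _ h0)

end vv

/-- `S ∈ 𝔪 ∖ 0` and elements `ρ` with algebraically independent residues are algebraically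
independent: write a relation as `Y^i (G₀(ρ) + Y G₁)` (`MvPolynomial.finSuccEquiv`,
`Polynomial.exists_eq_pow_rootMultiplicity_mul_and_not_dvd` or `natTrailingDegree`). -/
theorem algInd_cons {k K : Type} [Field k] [Field K] [Algebra k K] (V : ValuationSubring K)
    (ι : k →+* V) (hι : ∀ c, (ι c : K) = algebraMap k K c) {n : ℕ} (S : V) (ρ : Fin n → V)
    (hS : S ∈ maximalIdeal V) (hS0 : S ≠ 0)
    (hρ : ∀ Θ : MvPolynomial (Fin n) k, Θ ≠ 0 → IsUnit (MvPolynomial.eval₂Hom ι ρ Θ)) :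
    AlgebraicIndependent k (Fin.cons (S : K) (fun i => (ρ i : K)) : Fin (n + 1) → K) := by
  rw [algebraicIndependent_iff]
  intro P hP
  by_contra hP0
  have hQ : MvPolynomial.finSuccEquiv k n P ≠ 0 := fun h =>
    hP0 ((MvPolynomial.finSuccEquiv k n).injective (h.trans (map_zero _).symm))
  let Φ : Polynomial (MvPolynomial (Fin n) k) →+* V :=
    Polynomial.eval₂RingHom (MvPolynomial.eval₂Hom ι ρ) S
  have key : (V.subtype.comp Φ).comp (MvPolynomial.finSuccEquiv k n).toRingHom =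
      (MvPolynomial.aeval (Fin.cons (S : K) (fun i => (ρ i : K)) : Fin (n + 1) → K)).toRingHom := by
    refine MvPolynomial.ringHom_ext (fun c => ?_) (fun i => ?_)
    · simp [Φ, MvPolynomial.finSuccEquiv_apply, hι]
    · refine Fin.cases ?_ (fun i => ?_) i
      · simp [Φ, MvPolynomial.finSuccEquiv_X_zero]
      · simp [Φ, MvPolynomial.finSuccEquiv_X_succ]
  have h0 : Φ (MvPolynomial.finSuccEquiv k n P) = 0 := by
    have := RingHom.congr_fun key P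
    exact Subtype.ext (this.trans hP)
  obtain ⟨Q, hQ1, hQ2⟩ := Polynomial.exists_eq_pow_rootMultiplicity_mul_and_not_dvd _ hQ 0
  rw [map_zero, sub_zero] at hQ1 hQ2
  rw [hQ1, map_mul, map_pow] at h0
  have hX : Φ Polynomial.X = S := Polynomial.eval₂_X _ _
  rw [hX] at h0
  have h1 : Φ Q = 0 := (mul_eq_zero.1 h0).resolve_left (pow_ne_zero _ hS0)
  rw [Polynomial.X_dvd_iff] at hQ2
  have h2 := hρ _ hQ2
  rw [← Polynomial.X_mul_divX_add Q, map_add, map_mul, hX] at h1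
  have h3 : Φ (Polynomial.C (Q.coeff 0)) = MvPolynomial.eval₂Hom ι ρ (Q.coeff 0) :=
    Polynomial.eval₂_C _ _
  rw [h3] at h1
  rw [eq_neg_of_add_eq_zero_right h1] at h2
  exact (mem_maximalIdeal _).1 (neg_mem (Ideal.mul_mem_right _ _ hS)) h2

/-- `n + 1` algebraically independent elements are not all algebraic over `n' ≤ n` elements
(`Algebra.trdeg`, `AlgebraicIndependent.lift_cardinalMk_le_trdeg`,
`Algebra.IsAlgebraic.trdeg_le_cardinalMk` inside the subalgebra of algebraic elements, or the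
matroid `AlgebraicIndependent.matroid`). -/
theorem not_algInd {k K : Type} [Field k] [Field K] [Algebra k K] {n : ℕ} (s : Finset K)
    (hs : s.card ≤ n) (y : Fin (n + 1) → K)
    (hy : ∀ i, IsAlgebraic (Algebra.adjoin k (s : Set K)) (y i)) : ¬ AlgebraicIndependent k y := by
  intro h
  have h1 : (AlgebraicIndependent.matroid k K).Indep (Set.range y) := h.to_subtype_range
  have h2 : Set.range y ⊆ (AlgebraicIndependent.matroid k K).closure s := by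
    rw [AlgebraicIndependent.matroid_closure_eq]
    rintro _ ⟨i, rfl⟩
    exact hy i
  have h3 := h1.encard_le_eRk_of_subset h2
  rw [Matroid.eRk_closure_eq] at h3
  have h4 := h.injective.encard_range.trans (h3.trans (Matroid.eRk_le_encard _ _))
  rw [Set.encard_coe_eq_coe_finsetCard] at h4
  simp only [ENat.card_eq_coe_fintype_card, Fintype.card_fin, Nat.cast_le] at h4
  omega

variable {p : ℕ} [Fact p.Prime] {k : Type} [Field k] [IsAlgClosed k] [CharP k p]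

/-- the exponent in `(m1)` -/
def jj (p N₀ : ℕ) : ℕ := (N₀ + 1) * p ^ (N₀ + 1)

/-- `(m1)`, valuative form.  With `n₁ = N₀ + 1`, `𝔍 = (p^n₁, [t]^n₁)`: `Ψ₁ ≡ Ψ₂ mod 𝔍` (`PS.sub_mem` with
`I = ([t])`, `teich_sub_mem`, `exists_iota`, `Psi_C`), so `Ψ₁(J₁ + J₂) ⊆ II F₁ t n₁` (`II.span_le`);
`[ξ_l]^N₀`, `[η_l]^N₀ ∈ II`, `nd` gives `t^(N₀+1) ∣ t^N₀`. -/
theorem m1_val {d : ℕ} {f : AA p k d} (hf : Dist f) {J₁ J₂ : Ideal (AA p k d)} {N₀ : ℕ}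
    (hN : maximalIdeal (AA p k d) ^ N₀ ≤ J₁ ⊔ J₂) {V : Type} [CommRing V] [IsDomain V]
    [ValuationRing V] [CharP V p] [PerfectRing V p] (ψ₁ ψ₂ : AA p k d →+* V)
    (hc : ∀ w, ψ₁ (MvPowerSeries.C w) = ψ₂ (MvPowerSeries.C w)) {t : V} (ht : t ∈ maximalIdeal V)
    (ht0 : t ≠ 0) (h1 : ∀ l, t ∣ ψ₁ (MvPowerSeries.X l)) (h2 : ∀ l, t ∣ ψ₂ (MvPowerSeries.X l))
    (h3 : ∃ l, ψ₁ (MvPowerSeries.X l) ∣ t ∨ ψ₂ (MvPowerSeries.X l) ∣ t)
    (hJ₁ : ∀ y ∈ J₁, Psi ψ₁ y ∈ Ideal.span {Psi ψ₁ f, (p : WittVector p V) ^ (N₀ + 1)})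
    (hJ₂ : ∀ y ∈ J₂, Psi ψ₂ y ∈ Ideal.span {Psi ψ₂ f, (p : WittVector p V) ^ (N₀ + 1)}) :
    ¬ ∀ l, t ^ jj p N₀ ∣ ψ₁ (MvPowerSeries.X l) - ψ₂ (MvPowerSeries.X l) := by
  intro hall
  obtain ⟨γ, hγ⟩ := Psi_dist ψ₁ hf h1
  obtain ⟨ι, hι⟩ := exists_iota ψ₁ (CharP.cast_eq_zero V p)
  have hp : (p : WittVector p V) ^ (N₀ + 1) ∈ II (FF t γ) t (N₀ + 1) := II.p_pow t γ _
  have htI : teichmuller p t ^ (N₀ + 1) ∈ II (FF t γ) t (N₀ + 1) :=
    Ideal.subset_span (by simp)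
  have hdiff : ∀ y, Psi ψ₁ y - Psi ψ₂ y ∈ II (FF t γ) t (N₀ + 1) := by
    intro y
    have h := PS.sub_mem (Psi ψ₁) (Psi ψ₂)
      (fun w => by rw [Psi_C ψ₁ ι hι, Psi_C ψ₂ ι fun w => (hc w).symm.trans (hι w)])
      (Ideal.span {teichmuller p t}) (II (FF t γ) t (N₀ + 1))
      (fun i => by
        rw [Psi_X]
        exact Ideal.mem_span_singleton.2 (map_dvd (teichmuller p) (h1 i)))
      (fun i => by
        rw [Psi_X]
        exact Ideal.mem_span_singleton.2 (map_dvd (teichmuller p) (h2 i)))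
      (fun i => by
        rw [Psi_X, Psi_X]
        refine (Ideal.span_le.2 ?_ : _ ≤ II (FF t γ) t (N₀ + 1)) (teich_sub_mem (hall i))
        rintro _ (rfl | rfl)
        · exact hp
        · exact htI) (N₀ + 1) y
    refine (sup_le le_rfl ?_ : _ ≤ II (FF t γ) t (N₀ + 1)) h
    rw [Ideal.span_singleton_pow, Ideal.span_singleton_le_iff_mem]
    exact htI
  have hf₁ : Psi ψ₁ f ∈ II (FF t γ) t (N₀ + 1) := by
    rw [hγ]
    exact II.self _ _ _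
  have hf₂ : Psi ψ₂ f ∈ II (FF t γ) t (N₀ + 1) := by
    simpa using sub_mem hf₁ (hdiff f)
  have hJ : J₁ ⊔ J₂ ≤ (II (FF t γ) t (N₀ + 1)).comap (Psi ψ₁) := by
    refine sup_le (fun y hy => ?_) fun y hy => ?_
    · refine (Ideal.span_le.2 ?_ : _ ≤ II (FF t γ) t (N₀ + 1)) (hJ₁ y hy)
      rintro _ (rfl | rfl)
      · exact hf₁
      · exact hp
    · have h4 : Psi ψ₂ y ∈ II (FF t γ) t (N₀ + 1) := by
        refine (Ideal.span_le.2 ?_ : _ ≤ II (FF t γ) t (N₀ + 1)) (hJ₂ y hy)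
        rintro _ (rfl | rfl)
        · exact hf₂
        · exact hp
      simpa using add_mem (hdiff y) h4
  obtain ⟨l, hl⟩ := h3
  have hX : (MvPowerSeries.X l : AA p k d) ∈ maximalIdeal (AA p k d) := by
    rw [AA_max]
    exact Ideal.mem_sup_right (Ideal.subset_span ⟨l, rfl⟩)
  have h5 : Psi ψ₁ (MvPowerSeries.X l ^ N₀) ∈ II (FF t γ) t (N₀ + 1) :=
    hJ (hN (Ideal.pow_mem_pow hX N₀))
  have h6 : Psi ψ₂ (MvPowerSeries.X l ^ N₀) ∈ II (FF t γ) t (N₀ + 1) := by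
    have := sub_mem h5 (hdiff (MvPowerSeries.X l ^ N₀))
    rwa [sub_sub_cancel] at this
  rw [map_pow, Psi_X, ← map_pow, ← mul_one (teichmuller p _)] at h5 h6
  have h7 : t ^ (N₀ + 1) ∣ t ^ N₀ := by
    rcases hl with hl | hl
    · exact (nd ht γ isUnit_one h5).trans (pow_dvd_pow_of_dvd hl _)
    · exact (nd ht γ isUnit_one h6).trans (pow_dvd_pow_of_dvd hl _)
  rw [pow_succ, ← mul_one (t ^ N₀), mul_assoc, one_mul,
    mul_dvd_mul_iff_left (pow_ne_zero _ ht0)] at h7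
  exact (mem_maximalIdeal _).1 ht (isUnit_of_dvd_one h7)

/-- `(U)`, valuative form.  With approximants `ξ~, η~`: `S~ = S(1 + 𝔪)`, `V~_i = S(cc_i + 𝔪)`,
`ρ_i = V~_i / S~ ≡ cc_i`; `Θ(ρ) ≡ Θ(cc) mod 𝔪` is a unit; `S~, ρ` are algebraic over the
`n₁ + n₂ ≤ d'` elements `ζ, ζ'` (`IsAlgebraic.add/mul/inv` over the domain `adjoin`, enlarge the
base by `IsAlgebraic.tower_top_of_subalgebra_le`); `algInd_cons`, `not_algInd`. -/
theorem u_val {d' : ℕ} (𝒱 : Vl p k) (ι : k →+* 𝒱.V) (hι : ∀ c, (ι c : 𝒱.K) = algebraMap k 𝒱.K c)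
    (Γ : Matrix (Fin (d' + 1)) (Fin (d' + 1)) k) (ξ η : Fin (d' + 1) → 𝒱.V) (cc : Fin d' → 𝒱.V)
    (hcc : ∀ Θ : MvPolynomial (Fin d') k, Θ ≠ 0 → IsUnit (MvPolynomial.eval₂Hom ι cc Θ))
    {t : 𝒱.V} (ht : t ∈ maximalIdeal 𝒱.V) {j n₁ n₂ : ℕ} (hS0 : vv ι Γ ξ η 0 ≠ 0)
    (hS : vv ι Γ ξ η 0 ∈ maximalIdeal 𝒱.V) (hj : vv ι Γ ξ η 0 ∣ t ^ j)
    (hu : ∀ i, ∃ μ ∈ maximalIdeal 𝒱.V,
      vv ι Γ ξ η i.succ - cc i * vv ι Γ ξ η 0 = vv ι Γ ξ η 0 * μ)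
    (h1 : 𝒱.Appr ξ t (j + 1) n₁) (h2 : 𝒱.Appr η t (j + 1) n₂) (hn : n₁ + n₂ ≤ d') : False := by
  classical
  obtain ⟨ζ, hζ⟩ := h1
  obtain ⟨ζ', hζ'⟩ := h2
  choose r hr hrt using hζ
  choose r' hr' hrt' using hζ'
  obtain ⟨a, ha⟩ := hj
  set S := vv ι Γ ξ η 0 with hSdef
  -- the approximants differ by multiples of `S 𝔪`
  have hd : ∀ i, ∃ ν ∈ maximalIdeal 𝒱.V, vv ι Γ r r' i = vv ι Γ ξ η i + S * ν := fun i => by
    have : t ^ (j + 1) ∣ vv ι Γ r r' i - vv ι Γ ξ η i := by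
      unfold vv
      rw [← Finset.sum_sub_distrib]
      refine Finset.dvd_sum (fun l _ => ?_)
      rw [show ι (Γ i l) * (r l - r' l) - ι (Γ i l) * (ξ l - η l) =
        ι (Γ i l) * ((η l - r' l) - (ξ l - r l)) by ring]
      exact Dvd.dvd.mul_left (dvd_sub (hrt' l) (hrt l)) _
    obtain ⟨b, hb⟩ := this
    refine ⟨t * (a * b), Ideal.mul_mem_right _ _ ht, ?_⟩
    rw [pow_succ, ha] at hb
    linear_combination hb
  choose ν hν hνe using hd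
  choose μ hμ hμe using hu
  have hres : ∀ x ∈ maximalIdeal 𝒱.V, residue 𝒱.V x = 0 := fun x hx => (residue_eq_zero_iff x).2 hx
  have he : IsUnit (1 + ν 0) := by
    rw [← residue_ne_zero_iff_isUnit, map_add, map_one, hres _ (hν 0), add_zero]
    exact one_ne_zero
  obtain ⟨e', he'⟩ := he.exists_left_inv
  have hre' : residue 𝒱.V e' = 1 := by
    have := congrArg (residue 𝒱.V) he'
    rwa [map_mul, map_add, map_one, hres _ (hν 0), add_zero, mul_one] at this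
  set ρ : Fin d' → 𝒱.V := fun i => e' * (cc i + μ i + ν i.succ) with hρ
  have hS' : vv ι Γ r r' 0 = S * (1 + ν 0) := by rw [hνe 0]; ring
  have hS'0 : vv ι Γ r r' 0 ≠ 0 := by rw [hS']; exact mul_ne_zero hS0 he.ne_zero
  have hρS : ∀ i, ρ i * vv ι Γ r r' 0 = vv ι Γ r r' i.succ := fun i => by
    rw [hS', hνe i.succ]
    simp only [hρ]
    linear_combination (S * (cc i + μ i + ν i.succ)) * he' - hμe i
  have hind := algInd_cons 𝒱.V ι hι (vv ι Γ r r' 0) ρ (hS' ▸ Ideal.mul_mem_right _ _ hS) hS'0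
    (fun Θ hΘ => by
      have h0 := hcc Θ hΘ
      rw [← residue_ne_zero_iff_isUnit, MvPolynomial.map_eval₂Hom] at h0 ⊢
      convert h0 using 4 with i
      simp only [hρ]
      rw [map_mul, hre', one_mul, map_add, map_add, hres _ (hμ i), hres _ (hν _), add_zero, add_zero])
  let s : Finset 𝒱.K := Finset.univ.image ζ ∪ Finset.univ.image ζ'
  have hs : s.card ≤ d' := by
    refine (Finset.card_union_le _ _).trans (le_trans (add_le_add Finset.card_image_le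
      Finset.card_image_le) ?_)
    simpa using hn
  have hA : ∀ i, ((vv ι Γ r r' i : 𝒱.V) : 𝒱.K) ∈
      Subalgebra.algebraicClosure (Algebra.adjoin k (s : Set 𝒱.K)) 𝒱.K := fun i => by
    have e1 : ((vv ι Γ r r' i : 𝒱.V) : 𝒱.K) =
        ∑ l, algebraMap k 𝒱.K (Γ i l) * ((r l : 𝒱.K) - r' l) := by
      have := map_sum 𝒱.V.subtype (fun l => ι (Γ i l) * (r l - r' l)) Finset.univ
      refine this.trans (Finset.sum_congr rfl (fun l _ => ?_))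
      rw [map_mul, map_sub, ← hι]; rfl
    rw [e1]
    refine Subalgebra.sum_mem _ (fun l _ => Subalgebra.mul_mem _ ?_ (Subalgebra.sub_mem _ ?_ ?_))
    · exact isAlgebraic_algebraMap (algebraMap k (Algebra.adjoin k (s : Set 𝒱.K)) (Γ i l))
    · refine (hr l).tower_top_of_subalgebra_le (Algebra.adjoin_mono ?_)
      rintro _ ⟨x, rfl⟩
      simp [s]
    · refine (hr' l).tower_top_of_subalgebra_le (Algebra.adjoin_mono ?_)
      rintro _ ⟨x, rfl⟩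
      simp [s]
  refine not_algInd s hs _ (fun i => ?_) hind
  refine Fin.cases (hA 0) (fun i => ?_) i
  have e2 : (ρ i : 𝒱.K) = ((vv ι Γ r r' i.succ : 𝒱.V) : 𝒱.K) * ((vv ι Γ r r' 0 : 𝒱.V) : 𝒱.K)⁻¹ := by
    rw [eq_mul_inv_iff_mul_eq₀ (fun h => hS'0 (Subtype.ext h)), ← hρS i]; rfl
  change IsAlgebraic _ (ρ i : 𝒱.K)
  rw [e2]
  exact IsAlgebraic.mul (hA _) (IsAlgebraic.inv (hA 0))

/-- `(E₁ ⊗_W E₂)/p` (`exists_po`) -/
theorem exists_T {d : ℕ} {E₁ E₂ : Type} [CommRing E₁] [CommRing E₂] (α₁ : AA p k d →+* E₁)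
    (α₂ : AA p k d →+* E₂) : ∃ (𝔗 : Type) (_ : CommRing 𝔗) (τ₁ : E₁ →+* 𝔗) (τ₂ : E₂ →+* 𝔗),
      (p : 𝔗) = 0 ∧ (∀ w, τ₁ (α₁ (MvPowerSeries.C w)) = τ₂ (α₂ (MvPowerSeries.C w))) ∧
      ∀ (L : Type) [CommRing L], (p : L) = 0 → ∀ (lam₁ : E₁ →+* L) (lam₂ : E₂ →+* L),
        (∀ w, lam₁ (α₁ (MvPowerSeries.C w)) = lam₂ (α₂ (MvPowerSeries.C w))) →
          ∃ θ : 𝔗 →+* L, (∀ y, θ (τ₁ y) = lam₁ y) ∧ ∀ y, θ (τ₂ y) = lam₂ y := by
  obtain ⟨D, _, i, j, h⟩ := exists_po (α₁.comp MvPowerSeries.C) (α₂.comp MvPowerSeries.C)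
  refine ⟨D ⧸ Ideal.span {(p : D)}, inferInstance, (Ideal.Quotient.mk _).comp i,
    (Ideal.Quotient.mk _).comp j, ?_, fun w => congrArg (Ideal.Quotient.mk _) (h.comm w),
    fun L _ hp lam₁ lam₂ hl => ?_⟩
  · rw [← map_natCast (Ideal.Quotient.mk (Ideal.span {(p : D)})), Ideal.Quotient.eq_zero_iff_mem]
    exact Ideal.mem_span_singleton_self _
  · obtain ⟨w, h1, h2⟩ := h.lift lam₁ lam₂ hl
    refine ⟨Ideal.Quotient.lift _ w fun a ha => ?_, fun y => h1 y, fun y => h2 y⟩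
    obtain ⟨b, rfl⟩ := Ideal.mem_span_singleton'.1 ha
    rw [map_mul, map_natCast, hp, mul_zero]

/-- SPECIALISATION.  Apply `val_crit'` in the localization of `U[c]` at the image of the nonzero
polynomials over `k` (`Localization ((nonZeroDivisors _).map (MvPolynomial.map ι))`); clear the
denominator (`IsLocalization.mem_map_algebraMap_iff`/`algebraMap_mem_map_algebraMap_iff`, `Ideal.map_mul`,
`map_pow`), evaluate at `c` (there `Θ(c)` is a unit), `R183.vala_of_mem`. -/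
theorem val_crit_generic {U : Type} [CommRing U] (ι : k →+* U) {n : ℕ} {κ : Type}
    (g : κ → MvPolynomial (Fin n) U) (b : U)
    (h : ∀ (K : Type) [Field K] [IsAlgClosed K] (O : ValuationSubring K) (ψ : U →+* O)
      (cc : Fin n → O),
      (∀ Θ : MvPolynomial (Fin n) k, Θ ≠ 0 → IsUnit (MvPolynomial.eval₂Hom (ψ.comp ι) cc Θ)) →
      ψ b ≠ 0 → (∀ i, ∃ μ ∈ maximalIdeal O, MvPolynomial.eval₂Hom ψ cc (g i) = ψ b * μ) → False) :
    ∃ (Θ : MvPolynomial (Fin n) k) (μ : ℕ), Θ ≠ 0 ∧ ∀ c : Fin n → k, MvPolynomial.eval c Θ ≠ 0 →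
      ∀ t, b ^ (t + μ) ∈
        Ideal.span (Set.range fun i => MvPolynomial.eval (fun l => ι (c l)) (g i)) ^ t := by
  let M : Submonoid (MvPolynomial (Fin n) U) :=
    (nonZeroDivisors (MvPolynomial (Fin n) k)).map (MvPolynomial.map ι)
  let a : MvPolynomial (Fin n) U →+* Localization M := algebraMap _ _
  obtain ⟨s, hs⟩ := val_crit' ((Ideal.span (Set.range g)).map a) (a (MvPolynomial.C b))
    fun K _ _ O ψ hb hi => by
      have e : MvPolynomial.eval₂Hom ((ψ.comp a).comp MvPolynomial.C)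
          (fun l => ψ (a (MvPolynomial.X l))) = ψ.comp a :=
        MvPolynomial.ringHom_ext (fun r => by simp) fun l => by simp
      refine h K O ((ψ.comp a).comp MvPolynomial.C) (fun l => ψ (a (MvPolynomial.X l)))
        (fun Θ hΘ => ?_) hb fun i => ?_
      · rw [← MvPolynomial.eval₂Hom_map_hom, e]
        exact (IsLocalization.map_units (Localization M)
          (⟨_, Θ, mem_nonZeroDivisors_of_ne_zero hΘ, rfl⟩ : M)).map ψ
      · rw [e]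
        exact hi _ (Ideal.mem_map_of_mem _ (Ideal.subset_span ⟨i, rfl⟩))
  have e : (Ideal.span (Set.range g)).map a * ((Ideal.span (Set.range g)).map a ⊔
      Ideal.span {a (MvPolynomial.C b)}) ^ s = (Ideal.span (Set.range g) *
        (Ideal.span (Set.range g) ⊔ Ideal.span {MvPolynomial.C b}) ^ s).map a := by
    rw [Ideal.map_mul, Ideal.map_pow, Ideal.map_sup, Ideal.map_span a {_}, Set.image_singleton]
  rw [e, ← map_pow] at hs
  obtain ⟨_, ⟨Θ, hΘ, rfl⟩, hm⟩ :=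
    (IsLocalization.algebraMap_mem_map_algebraMap_iff M (Localization M) _ _).1 hs
  refine ⟨Θ, s, nonZeroDivisors.ne_zero hΘ, fun c hc t => vala_of_mem ?_ t⟩
  have h1 := Ideal.mem_map_of_mem (MvPolynomial.eval fun l => ι (c l)) hm
  rw [Ideal.map_mul, Ideal.map_pow, Ideal.map_sup, Ideal.map_span _ {_}, Set.image_singleton,
    Ideal.map_span, ← Set.range_comp, map_mul, map_pow, MvPolynomial.eval_C] at h1
  have h2 : MvPolynomial.eval (fun l => ι (c l)) (MvPolynomial.map ι Θ) =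
      ι (MvPolynomial.eval c Θ) := by
    rw [MvPolynomial.eval_map, MvPolynomial.eval, MvPolynomial.coe_eval₂Hom,
      MvPolynomial.eval₂_comp_left, RingHom.comp_id]
    rfl
  rw [h2, Ideal.unit_mul_mem_iff_mem _ ((Ne.isUnit hc).map ι)] at h1
  exact h1

/-- the conclusion of `(m1)` in a ring `L` -/
def M1 {L : Type} [CommRing L] {d : ℕ} (x y : Fin d → L) (j' J Q : ℕ) : Prop :=
  ∀ l, x l ^ (j' * Q) ∈ Ideal.span (Set.range fun i => (x i - y i) ^ Q) ⊔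
    Ideal.span (Set.range fun i => x i ^ (J * Q)) ⊔ Ideal.span (Set.range fun i => y i ^ (J * Q))

/-- `(m1)`.  In `𝔗` (`exists_T`) apply `R183.val_crit` to `b = x_l^j` and the `3d` generators
`x_i - y_i, x_i^J, y_i^J` (index type `Fin d ⊕ Fin d ⊕ Fin d`); `t` = the coordinate dividing all
others (`R183.Valb_dvd_all`); `m1_val`; take the maximum over `l`; `pow_mem_span_pow`. -/
theorem m1B {d : ℕ} {f : AA p k d} (hf : Dist f) {J₁ J₂ : Ideal (AA p k d)} {N₀ : ℕ}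
    (hN : maximalIdeal (AA p k d) ^ N₀ ≤ J₁ ⊔ J₂) {n : ℕ} (hn : N₀ + 1 ≤ n) {E₁ E₂ : Type}
    [CommRing E₁] [CommRing E₂] (α₁ : AA p k d →+* E₁) (α₂ : AA p k d →+* E₂)
    (h1 : Deep α₁ f n J₁) (h2 : Deep α₂ f n J₂) {J : ℕ} (hJ : 1 ≤ J) :
    ∃ μ₀, ∀ Q, μ₀ < Q → ∀ (L : Type) [CommRing L], (p : L) = 0 →
      ∀ (lam₁ : E₁ →+* L) (lam₂ : E₂ →+* L),
        (∀ w, lam₁ (α₁ (MvPowerSeries.C w)) = lam₂ (α₂ (MvPowerSeries.C w))) →
        M1 (fun l => lam₁ (α₁ (MvPowerSeries.X l))) (fun l => lam₂ (α₂ (MvPowerSeries.X l)))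
          (jj p N₀ * (3 * d + 1)) J Q := by
  classical
  obtain ⟨𝔗, _, τ₁, τ₂, hp, hc, huniv⟩ := exists_T α₁ α₂
  let x : Fin d → 𝔗 := fun l => τ₁ (α₁ (MvPowerSeries.X l))
  let y : Fin d → 𝔗 := fun l => τ₂ (α₂ (MvPowerSeries.X l))
  let g : Fin d ⊕ Fin d ⊕ Fin d → 𝔗 :=
    Sum.elim (fun i => x i - y i) (Sum.elim (fun i => x i ^ J) fun i => y i ^ J)
  have hdeep : ∀ {E : Type} [CommRing E] (α : AA p k d →+* E) (J₀ : Ideal (AA p k d)),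
      Deep α f n J₀ → ∀ (V : Type) [CommRing V] [CharP V p] [PerfectRing V p] (ψ : E →+* V),
      ∀ a ∈ J₀, Psi (ψ.comp α) a ∈
        Ideal.span {Psi (ψ.comp α) f, (p : WittVector p V) ^ (N₀ + 1)} := by
    intro E _ α J₀ h V _ _ _ ψ a ha
    have h3 := h a ha V ψ
    rw [map_zero, teichmuller_zero, zero_sub, neg_mem_iff] at h3
    refine (Ideal.span_le.2 ?_ : _ ≤ Ideal.span _) h3
    rintro _ (rfl | rfl)
    · exact Ideal.subset_span (by simp)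
    · obtain ⟨m, rfl⟩ := Nat.exists_eq_add_of_le hn
      rw [pow_add _ (N₀ + 1)]
      exact Ideal.mul_mem_right _ _ (Ideal.subset_span (Or.inr rfl))
  have key : ∀ l, ∃ c, ∀ t, (x l ^ jj p N₀) ^ (t + c) ∈ Ideal.span (Set.range g) ^ t := by
    intro l
    refine val_crit _ _ fun K _ _ O ψ hb hI => ?_
    have : CharP O p := (CharP.charP_iff_prime_eq_zero Fact.out).2 (by
      rw [← map_natCast ψ, hp, map_zero])
    have : PerfectRing O p := perfect_valuationSubring O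
    have hg : ∀ i, ∃ μ ∈ maximalIdeal O, ψ (g i) = ψ (x l ^ jj p N₀) * μ := fun i =>
      hI _ (Ideal.subset_span ⟨i, rfl⟩)
    let z : Fin d ⊕ Fin d → O := Sum.elim (fun i => ψ (x i)) fun i => ψ (y i)
    have hz : ∀ i, z i ∈ maximalIdeal O := by
      rintro (i | i)
      · obtain ⟨μ, hμ, h⟩ := hg (Sum.inr (Sum.inl i))
        refine Valb_rad O ψ (k := J) ?_
        exact (show ψ (x i ^ J) = _ from h) ▸ Ideal.mul_mem_left _ _ hμ
      · obtain ⟨μ, hμ, h⟩ := hg (Sum.inr (Sum.inr i))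
        refine Valb_rad O ψ (k := J) ?_
        exact (show ψ (y i ^ J) = _ from h) ▸ Ideal.mul_mem_left _ _ hμ
    obtain ⟨i₀, -, hi₀⟩ := Valb_dvd_all Finset.univ ⟨Sum.inl l, Finset.mem_univ _⟩ z
    have hdx : ∀ i, z i₀ ∣ ψ (x i) := fun i => hi₀ (Sum.inl i) (Finset.mem_univ _)
    have hdy : ∀ i, z i₀ ∣ ψ (y i) := fun i => hi₀ (Sum.inr i) (Finset.mem_univ _)
    have hj : jj p N₀ ≠ 0 :=
      mul_ne_zero (Nat.succ_ne_zero _) (pow_ne_zero _ (Fact.out : p.Prime).ne_zero)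
    have hz0 : z i₀ ≠ 0 := by
      intro h
      have h3 := hdx l
      rw [h, zero_dvd_iff] at h3
      exact hb (by rw [map_pow, h3, zero_pow hj])
    refine m1_val hf hN ((ψ.comp τ₁).comp α₁) ((ψ.comp τ₂).comp α₂)
      (fun w => congrArg ψ (hc w)) (hz i₀) hz0 hdx hdy ?_ (hdeep α₁ J₁ h1 O _)
      (hdeep α₂ J₂ h2 O _) fun i => ?_
    · rcases i₀ with i | i
      · exact ⟨i, Or.inl dvd_rfl⟩
      · exact ⟨i, Or.inr dvd_rfl⟩
    · obtain ⟨μ, -, h⟩ := hg (Sum.inl i)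
      have h3 : ψ (x i) - ψ (y i) = ψ (x l) ^ jj p N₀ * μ := by
        rw [← map_sub, ← map_pow]
        exact h
      exact (show z i₀ ^ jj p N₀ ∣ ψ (x i) - ψ (y i) from
        h3 ▸ (pow_dvd_pow_of_dvd (hdx l) _).mul_right μ)
  choose c hc' using key
  refine ⟨Finset.univ.sup c, fun Q hQ L _ hL lam₁ lam₂ hlam l => ?_⟩
  obtain ⟨θ, hθ₁, hθ₂⟩ := huniv L hL lam₁ lam₂ hlam
  have h3 := pow_mem_span_pow g (hc' l)
    ((Finset.le_sup (f := c) (Finset.mem_univ l)).trans_lt hQ)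
  have h4 : Fintype.card (Fin d ⊕ Fin d ⊕ Fin d) = 3 * d := by
    simp only [Fintype.card_sum, Fintype.card_fin]
    ring
  have h5 := Ideal.mem_map_of_mem θ h3
  rw [h4, ← pow_mul, ← mul_assoc, map_pow, show θ (x l) = _ from hθ₁ _, Ideal.map_span] at h5
  refine (Ideal.span_le.2 ?_ : _ ≤ _) h5
  rintro _ ⟨_, ⟨i | i | i, rfl⟩, rfl⟩
  · refine Ideal.mem_sup_left (Ideal.mem_sup_left (Ideal.subset_span ⟨i, ?_⟩))
    simp only [g, x, y, Sum.elim_inl, map_pow, map_sub, hθ₁, hθ₂]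
  · refine Ideal.mem_sup_left (Ideal.mem_sup_right (Ideal.subset_span ⟨i, ?_⟩))
    simp only [g, x, Sum.elim_inl, Sum.elim_inr, map_pow, hθ₁, pow_mul]
  · refine Ideal.mem_sup_right (Ideal.subset_span ⟨i, ?_⟩)
    simp only [g, y, Sum.elim_inr, map_pow, hθ₂, pow_mul]

/-- the conclusion of `(U)` in a ring `L` -/
def UU {W L : Type} [CommRing W] [CommRing L] {d' : ℕ} (ω : W →+* L)
    (Γ : Matrix (Fin (d' + 1)) (Fin (d' + 1)) W) (c : Fin d' → W) (x y : Fin (d' + 1) → L)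
    {G : Type} (w : G → L) (m B Q : ℕ) : Prop :=
  vv ω Γ x y 0 ^ (m * Q) ∈ Ideal.span (Set.range fun i => uu ω Γ c x y i ^ Q) ⊔
    Ideal.span (Set.range fun γ => w γ ^ Q) ⊔ Ideal.span (Set.range fun i => x i ^ (B * Q)) ⊔
      Ideal.span (Set.range fun i => y i ^ (B * Q))

/-- the valuative input of `(U)`: with `j = jj p N₀`, `D ≥ 1` the maximum of the four constants of `aa`
(precision `j + 1`), `n₀ = max D (N₀ + 1)`.  `t` = the coordinate dividing all others; `t ∣ S`;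
`S ∣ ξ_l - η_l` (`span_vv`); `m1_val` gives `¬ t^j ∣ S`, so `S ∣ t^j`; from `S^(2D) ∣ σ₁ σ₂` all `σ₁` or
all `σ₂` are divisible by `t^D`; `II.teich`, `II.span_le`, `aa`, `u_val`. -/
theorem ub_val {d' : ℕ} {f : AA p k (d' + 1)} (hf : Dist f) {J₁ J₂ : Ideal (AA p k (d' + 1))}
    {N₀ : ℕ} (hN : maximalIdeal (AA p k (d' + 1)) ^ N₀ ≤ J₁ ⊔ J₂) {G₁ G₂ : Type}
    (a₁ : G₁ → AA p k (d' + 1)) (a₂ : G₂ → AA p k (d' + 1))
    (h1 : ∃ n₁ n₂, Dl (J₁ ⊔ Ideal.span (Set.range a₁)) n₁ ∧ Dl J₂ n₂ ∧ n₁ + n₂ ≤ d' + 2)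
    (h2 : ∃ n₁ n₂, Dl J₁ n₁ ∧ Dl (J₂ ⊔ Ideal.span (Set.range a₂)) n₂ ∧ n₁ + n₂ ≤ d' + 2) :
    ∃ D n₀, 1 ≤ D ∧ ∀ n, n₀ ≤ n → ∀ (𝒱 : Vl p k) (ψ₁ ψ₂ : AA p k (d' + 1) →+* 𝒱.V)
      (ι : k →+* 𝒱.V), (∀ c, (ι c : 𝒱.K) = algebraMap k 𝒱.K c) →
      (∀ w, ψ₁ (MvPowerSeries.C w) = ι (w.coeff 0)) → (∀ w, ψ₂ (MvPowerSeries.C w) = ι (w.coeff 0)) →
      (∀ y ∈ J₁, Psi ψ₁ y ∈ Ideal.span {Psi ψ₁ f, (p : WittVector p 𝒱.V) ^ n}) →
      (∀ y ∈ J₂, Psi ψ₂ y ∈ Ideal.span {Psi ψ₂ f, (p : WittVector p 𝒱.V) ^ n}) →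
      ∀ (s₁ : G₁ → 𝒱.V) (s₂ : G₂ → 𝒱.V),
      (∀ γ, teichmuller p (s₁ γ) - Psi ψ₁ (a₁ γ) ∈
        Ideal.span {Psi ψ₁ f, (p : WittVector p 𝒱.V) ^ n}) →
      (∀ γ, teichmuller p (s₂ γ) - Psi ψ₂ (a₂ γ) ∈
        Ideal.span {Psi ψ₂ f, (p : WittVector p 𝒱.V) ^ n}) →
      (∀ l, ψ₁ (MvPowerSeries.X l) ∈ maximalIdeal 𝒱.V) →
      (∀ l, ψ₂ (MvPowerSeries.X l) ∈ maximalIdeal 𝒱.V) →
      ∀ (Γ : Matrix (Fin (d' + 1)) (Fin (d' + 1)) k), IsUnit Γ.det → ∀ cc : Fin d' → 𝒱.V,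
      (∀ Θ : MvPolynomial (Fin d') k, Θ ≠ 0 → IsUnit (MvPolynomial.eval₂Hom ι cc Θ)) →
      ∀ S : 𝒱.V, S = vv ι Γ (fun l => ψ₁ (MvPowerSeries.X l)) (fun l => ψ₂ (MvPowerSeries.X l)) 0 →
      S ≠ 0 → (∀ i, ∃ μ ∈ maximalIdeal 𝒱.V,
        vv ι Γ (fun l => ψ₁ (MvPowerSeries.X l)) (fun l => ψ₂ (MvPowerSeries.X l)) i.succ -
          cc i * S = S * μ) →
      (∀ γ₁ γ₂, S ^ (2 * D) ∣ s₁ γ₁ * s₂ γ₂) → False := by
  obtain ⟨n₁, n₂, hd₁, hd₂, hn₁₂⟩ := h1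
  obtain ⟨n₃, n₄, hd₃, hd₄, hn₃₄⟩ := h2
  obtain ⟨D₁, hD₁⟩ := aa hf _ hd₁ (jj p N₀ + 1)
  obtain ⟨D₂, hD₂⟩ := aa hf _ hd₂ (jj p N₀ + 1)
  obtain ⟨D₃, hD₃⟩ := aa hf _ hd₃ (jj p N₀ + 1)
  obtain ⟨D₄, hD₄⟩ := aa hf _ hd₄ (jj p N₀ + 1)
  refine ⟨D₁ + D₂ + D₃ + D₄ + 1, D₁ + D₂ + D₃ + D₄ + 1 + (N₀ + 1), by omega, ?_⟩
  generalize hD : D₁ + D₂ + D₃ + D₄ + 1 = D
  intro n hn 𝒱 ψ₁ ψ₂ ι hι hc₁ hc₂ hJ₁ hJ₂ s₁ s₂ hs₁ hs₂ hm₁ hm₂ Γ hΓ cc hcc S hS hS0 hu hdv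
  obtain ⟨i₀, -, hi₀⟩ := Valb_dvd_all Finset.univ ⟨Sum.inl 0, Finset.mem_univ _⟩
    (Sum.elim (fun l => ψ₁ (MvPowerSeries.X l)) fun l => ψ₂ (MvPowerSeries.X l))
  generalize ht : Sum.elim (fun l => ψ₁ (MvPowerSeries.X l))
    (fun l => ψ₂ (MvPowerSeries.X l)) i₀ = t at hi₀
  have t₁ : ∀ l, t ∣ ψ₁ (MvPowerSeries.X l) := fun l => hi₀ (Sum.inl l) (Finset.mem_univ _)
  have t₂ : ∀ l, t ∣ ψ₂ (MvPowerSeries.X l) := fun l => hi₀ (Sum.inr l) (Finset.mem_univ _)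
  have tm : t ∈ maximalIdeal 𝒱.V := by
    rcases i₀ with l | l
    exacts [ht ▸ hm₁ l, ht ▸ hm₂ l]
  have t₃ : ∃ l, ψ₁ (MvPowerSeries.X l) ∣ t ∨ ψ₂ (MvPowerSeries.X l) ∣ t := by
    rcases i₀ with l | l
    exacts [⟨l, Or.inl (ht ▸ dvd_rfl)⟩, ⟨l, Or.inr (ht ▸ dvd_rfl)⟩]
  have tS : t ∣ S := hS ▸ Finset.dvd_sum fun l _ => (dvd_sub (t₁ l) (t₂ l)).mul_left _
  have t0 : t ≠ 0 := fun e => hS0 (zero_dvd_iff.1 (e ▸ tS))
  have hSd : ∀ l, S ∣ ψ₁ (MvPowerSeries.X l) - ψ₂ (MvPowerSeries.X l) := fun l => by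
    rw [← Ideal.mem_span_singleton]
    refine (?_ : Ideal.span (Set.range fun l => ψ₁ (MvPowerSeries.X l) -
      ψ₂ (MvPowerSeries.X l)) ≤ _) (Ideal.subset_span ⟨l, rfl⟩)
    rw [← span_vv ι Γ _ _ hΓ, Ideal.span_le]
    rintro _ ⟨i, rfl⟩
    refine Ideal.mem_span_singleton.2 ?_
    refine Fin.cases (hS ▸ dvd_rfl) (fun i => ?_) i
    obtain ⟨μ, -, e⟩ := hu i
    exact ⟨μ + cc i, by linear_combination e⟩
  have hle : ∀ F : WittVector p 𝒱.V, Ideal.span {F, (p : WittVector p 𝒱.V) ^ n} ≤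
      Ideal.span {F, (p : WittVector p 𝒱.V) ^ (N₀ + 1)} := fun F => by
    rw [Ideal.span_le, Set.insert_subset_iff, Set.singleton_subset_iff]
    refine ⟨Ideal.subset_span (by simp), ?_⟩
    obtain ⟨e, rfl⟩ : ∃ e, n = e + (N₀ + 1) := ⟨n - (N₀ + 1), by omega⟩
    rw [SetLike.mem_coe, pow_add _ e]
    exact Ideal.mul_mem_left _ _ (Ideal.subset_span (Or.inr rfl))
  have hm := m1_val hf hN ψ₁ ψ₂ (fun w => (hc₁ w).trans (hc₂ w).symm) tm t0 t₁ t₂ t₃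
    (fun y hy => hle _ (hJ₁ y hy)) fun y hy => hle _ (hJ₂ y hy)
  have hj : S ∣ t ^ jj p N₀ :=
    (ValuationRing.dvd_total _ _).resolve_right fun e => hm fun l => e.trans (hSd l)
  have ok₁ : 𝒱.Ok ψ₁ := fun w => by rw [hc₁, hι]
  have ok₂ : 𝒱.Ok ψ₂ := fun w => by rw [hc₂, hι]
  have key : ∀ (ψ : AA p k (d' + 1) →+* 𝒱.V), (∀ l, t ∣ ψ (MvPowerSeries.X l)) → ∀ D' ≤ D,
      Ideal.span {Psi ψ f, (p : WittVector p 𝒱.V) ^ n} ≤ II (Psi ψ f) t D' := fun ψ h D' hD' => by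
    obtain ⟨γ, e⟩ := Psi_dist ψ hf h
    rw [e]
    exact II.span_le t γ (by omega)
  have key' : ∀ (ψ : AA p k (d' + 1) →+* 𝒱.V) (J : Ideal (AA p k (d' + 1))) (G : Type)
      (a : G → AA p k (d' + 1)) (s : G → 𝒱.V), (∀ l, t ∣ ψ (MvPowerSeries.X l)) →
      (∀ y ∈ J, Psi ψ y ∈ Ideal.span {Psi ψ f, (p : WittVector p 𝒱.V) ^ n}) →
      (∀ γ, teichmuller p (s γ) - Psi ψ (a γ) ∈
        Ideal.span {Psi ψ f, (p : WittVector p 𝒱.V) ^ n}) → (∀ γ, t ^ D ∣ s γ) → ∀ D' ≤ D,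
      ∀ y ∈ J ⊔ Ideal.span (Set.range a), Psi ψ y ∈ II (Psi ψ f) t D' := by
    intro ψ J G a s h hJ hs hts D' hD'
    change J ⊔ Ideal.span (Set.range a) ≤ (II (Psi ψ f) t D').comap (Psi ψ)
    refine sup_le (fun y hy => key ψ h D' hD' (hJ y hy)) (Ideal.span_le.2 ?_)
    rintro _ ⟨γ, rfl⟩
    have h1 := sub_mem (II.teich (F := Psi ψ f) ((pow_dvd_pow t hD').trans (hts γ)))
      (key ψ h D' hD' (hs γ))
    rwa [sub_sub_cancel] at h1
  subst hS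
  by_cases hall : ∀ γ, t ^ D ∣ s₁ γ
  · obtain ⟨m₁, rfl, a1⟩ := hD₁ 𝒱 ψ₁ ok₁ t tm t₁ (key' ψ₁ J₁ G₁ a₁ s₁ t₁ hJ₁ hs₁ hall _ (by omega))
    obtain ⟨m₂, rfl, a2⟩ := hD₂ 𝒱 ψ₂ ok₂ t tm t₂ fun y hy => key ψ₂ t₂ _ (by omega) (hJ₂ y hy)
    exact u_val 𝒱 ι hι Γ _ _ cc hcc tm hS0 (Ideal.mem_of_dvd _ tS tm) hj hu a1 a2 (by omega)
  · obtain ⟨γ₁, hγ₁⟩ := not_forall.1 hall
    have h3 := (ValuationRing.dvd_total _ _).resolve_left hγ₁
    have hall' : ∀ γ, t ^ D ∣ s₂ γ := fun γ => by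
      have h4 := ((pow_dvd_pow_of_dvd tS _).trans (hdv γ₁ γ)).trans (mul_dvd_mul_right h3 _)
      rwa [two_mul, pow_add, mul_dvd_mul_iff_left (pow_ne_zero _ t0)] at h4
    obtain ⟨m₁, rfl, a1⟩ := hD₃ 𝒱 ψ₁ ok₁ t tm t₁ fun y hy => key ψ₁ t₁ _ (by omega) (hJ₁ y hy)
    obtain ⟨m₂, rfl, a2⟩ := hD₄ 𝒱 ψ₂ ok₂ t tm t₂ (key' ψ₂ J₂ G₂ a₂ s₂ t₂ hJ₂ hs₂ hall' _ (by omega))
    exact u_val 𝒱 ι hι Γ _ _ cc hcc tm hS0 (Ideal.mem_of_dvd _ tS tm) hj hu a1 a2 (by omega)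

theorem mue_root {O : Type} [CommRing O] [IsDomain O] [ValuationRing O] {U S μ : O} {N : ℕ}
    (hS : S ≠ 0) (hμ : μ ∈ maximalIdeal O) (h : U ^ N = S ^ N * μ) :
    ∃ μ' ∈ maximalIdeal O, U = S * μ' := by
  rcases ValuationRing.dvd_total S U with ⟨e, rfl⟩ | ⟨e, rfl⟩
  · rw [mul_pow] at h
    have h1 := mul_left_cancel₀ (pow_ne_zero N hS) h
    exact ⟨e, (maximalIdeal.isMaximal O).isPrime.mem_of_pow_mem N (h1 ▸ hμ), rfl⟩
  · have hU : U ≠ 0 := left_ne_zero_of_mul hS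
    rw [mul_pow, mul_assoc] at h
    have h1 : (1 : O) = e ^ N * μ := mul_left_cancel₀ (pow_ne_zero N hU) (by rw [mul_one, ← h])
    exact absurd ((Ideal.eq_top_iff_one _).2 (h1 ▸ Ideal.mul_mem_left _ _ hμ))
      (maximalIdeal.isMaximal O).ne_top

/-- `(U)`.  `B = 2D`, `m = B (ν + 1)` with `ν = card (Fin d' ⊕ G₁ × G₂ ⊕ Fin d ⊕ Fin d)`.  In `𝔗`
(`exists_T`, `exists_iota`) apply `val_crit_generic` to `b = S^B` and the generators
`(C v_{i+1} - X i * C S)^B`, `C (σ₁ σ₂)`, `C x^B''`, `C y^B''`, with `Γ.map constantCoeff`; give `K` the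
`k`-algebra structure from `ψ ∘ ι`, build the `Vl` (`R183.perfect_valuationSubring`), from
`U^B = S^B μ` get `U = S μ'` (`ValuationRing.dvd_total`), `ub_val`; then `pow_mem_span_pow` and map
along `θ` (`map_vv`, `map_uu`). -/
theorem uB {d' : ℕ} {f : AA p k (d' + 1)} (hf : Dist f) {J₁ J₂ : Ideal (AA p k (d' + 1))}
    {N₀ : ℕ} (hN : maximalIdeal (AA p k (d' + 1)) ^ N₀ ≤ J₁ ⊔ J₂) {G₁ G₂ : Type} [Fintype G₁]
    [Fintype G₂] (a₁ : G₁ → AA p k (d' + 1)) (a₂ : G₂ → AA p k (d' + 1))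
    (h1 : ∃ n₁ n₂, Dl (J₁ ⊔ Ideal.span (Set.range a₁)) n₁ ∧ Dl J₂ n₂ ∧ n₁ + n₂ ≤ d' + 2)
    (h2 : ∃ n₁ n₂, Dl J₁ n₁ ∧ Dl (J₂ ⊔ Ideal.span (Set.range a₂)) n₂ ∧ n₁ + n₂ ≤ d' + 2) :
    ∃ m n₀, ∀ n, n₀ ≤ n → ∀ (E₁ E₂ : Type) [CommRing E₁] [CommRing E₂]
      (α₁ : AA p k (d' + 1) →+* E₁) (α₂ : AA p k (d' + 1) →+* E₂) (σ₁ : G₁ → E₁) (σ₂ : G₂ → E₂),
      Deep α₁ f n J₁ → Deep α₂ f n J₂ → (∀ γ, Root α₁ f n (σ₁ γ) (a₁ γ)) →
      (∀ γ, Root α₂ f n (σ₂ γ) (a₂ γ)) → ∀ B, 1 ≤ B →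
      ∀ Γ : Matrix (Fin (d' + 1)) (Fin (d' + 1)) (WW p k), IsUnit Γ.det →
      ∃ (Θ : MvPolynomial (Fin d') k) (μ₀ : ℕ), Θ ≠ 0 ∧ ∀ c : Fin d' → WW p k,
        MvPolynomial.eval (fun i => (c i).coeff 0) Θ ≠ 0 → ∀ Q, μ₀ < Q →
        ∀ (L : Type) [CommRing L], (p : L) = 0 → ∀ (lam₁ : E₁ →+* L) (lam₂ : E₂ →+* L),
          (∀ w, lam₁ (α₁ (MvPowerSeries.C w)) = lam₂ (α₂ (MvPowerSeries.C w))) →
          UU ((lam₁.comp α₁).comp MvPowerSeries.C) Γ c (fun l => lam₁ (α₁ (MvPowerSeries.X l)))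
            (fun l => lam₂ (α₂ (MvPowerSeries.X l)))
            (fun γ : G₁ × G₂ => lam₁ (σ₁ γ.1) * lam₂ (σ₂ γ.2)) m B Q := by
  classical
  obtain ⟨D, n₀, hD, hval⟩ := ub_val hf hN a₁ a₂ h1 h2
  refine ⟨2 * D * (Fintype.card (Fin d' ⊕ (G₁ × G₂) ⊕ Fin (d' + 1) ⊕ Fin (d' + 1)) + 1), n₀, ?_⟩
  intro n hn E₁ E₂ _ _ α₁ α₂ σ₁ σ₂ hd₁ hd₂ hr₁ hr₂ B hB Γ hΓ
  obtain ⟨𝔗, _, τ₁, τ₂, hp, hτ, huniv⟩ := exists_T α₁ α₂
  obtain ⟨ι, hι⟩ := exists_iota (τ₁.comp α₁) hp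
  have hι₁ : ∀ w, τ₁ (α₁ (MvPowerSeries.C w)) = ι (w.coeff 0) := hι
  have hι₂ : ∀ w, τ₂ (α₂ (MvPowerSeries.C w)) = ι (w.coeff 0) := fun w => (hτ w).symm.trans (hι w)
  set x : Fin (d' + 1) → 𝔗 := fun l => τ₁ (α₁ (MvPowerSeries.X l)) with hx
  set y : Fin (d' + 1) → 𝔗 := fun l => τ₂ (α₂ (MvPowerSeries.X l)) with hy
  set Γ' : Matrix (Fin (d' + 1)) (Fin (d' + 1)) k := Γ.map WittVector.constantCoeff with hΓ'
  have hdet : IsUnit Γ'.det := by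
    have := hΓ.map (WittVector.constantCoeff : WW p k →+* k)
    rwa [RingHom.map_det] at this
  obtain ⟨Θ, μ₀, hΘ, hmain⟩ := val_crit_generic ι
    (κ := Fin d' ⊕ (G₁ × G₂) ⊕ Fin (d' + 1) ⊕ Fin (d' + 1))
    (Sum.elim (fun i => (MvPolynomial.C (vv ι Γ' x y i.succ) -
        MvPolynomial.X i * MvPolynomial.C (vv ι Γ' x y 0)) ^ (2 * D))
      (Sum.elim (fun γ => MvPolynomial.C (τ₁ (σ₁ γ.1) * τ₂ (σ₂ γ.2)))
        (Sum.elim (fun l => MvPolynomial.C (x l ^ B)) fun l => MvPolynomial.C (y l ^ B))))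
    (vv ι Γ' x y 0 ^ (2 * D)) (by
      intro K _ _ O ψ cc hcc hb hg
      have hpO : (p : O) = 0 := by rw [← map_natCast ψ, hp, map_zero]
      have : CharP O p := (CharP.charP_iff_prime_eq_zero Fact.out).2 hpO
      have : PerfectRing O p := perfect_valuationSubring O
      let _ : Algebra k K := (O.subtype.comp (ψ.comp ι)).toAlgebra
      have hS0 : ψ (vv ι Γ' x y 0) ≠ 0 := fun h0 => hb (by
        rw [map_pow, h0, zero_pow (by omega)])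
      have hmax : ∀ z : 𝔗, (∃ μ ∈ maximalIdeal O, MvPolynomial.eval₂Hom ψ cc
          (MvPolynomial.C (z ^ B)) = ψ (vv ι Γ' x y 0 ^ (2 * D)) * μ) → ψ z ∈ maximalIdeal O := by
        rintro z ⟨μ, hμ, h⟩
        rw [MvPolynomial.eval₂Hom_C, map_pow] at h
        exact (maximalIdeal.isMaximal O).isPrime.mem_of_pow_mem B (h ▸ Ideal.mul_mem_left _ _ hμ)
      refine hval n hn ⟨K, O⟩ ((ψ.comp τ₁).comp α₁) ((ψ.comp τ₂).comp α₂) (ψ.comp ι)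
        (fun _ => rfl) (fun w => congrArg ψ (hι₁ w)) (fun w => congrArg ψ (hι₂ w))
        (fun a ha => ?_) (fun a ha => ?_) (fun γ => ψ (τ₁ (σ₁ γ))) (fun γ => ψ (τ₂ (σ₂ γ)))
        (fun γ => hr₁ γ O (ψ.comp τ₁)) (fun γ => hr₂ γ O (ψ.comp τ₂))
        (fun l => hmax _ (hg (Sum.inr (Sum.inr (Sum.inl l)))))
        (fun l => hmax _ (hg (Sum.inr (Sum.inr (Sum.inr l))))) Γ' hdet cc hcc
        (ψ (vv ι Γ' x y 0)) (map_vv ι Γ' x y ψ 0) hS0 (fun i => ?_) (fun γ₁ γ₂ => ?_)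
      · have := hd₁ a ha O (ψ.comp τ₁)
        rwa [map_zero, teichmuller_zero, zero_sub, neg_mem_iff] at this
      · have := hd₂ a ha O (ψ.comp τ₂)
        rwa [map_zero, teichmuller_zero, zero_sub, neg_mem_iff] at this
      · obtain ⟨μ, hμ, h⟩ := hg (Sum.inl i)
        simp only [Sum.elim_inl, map_pow, map_sub, map_mul, MvPolynomial.eval₂Hom_C,
          MvPolynomial.eval₂Hom_X'] at h
        obtain ⟨μ', hμ', h'⟩ := mue_root hS0 hμ h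
        rw [map_vv ι Γ' x y ψ i.succ] at h'
        exact ⟨μ', hμ', h'⟩
      · obtain ⟨μ, -, h⟩ := hg (Sum.inr (Sum.inl (γ₁, γ₂)))
        simp only [Sum.elim_inr, Sum.elim_inl, map_pow, map_mul, MvPolynomial.eval₂Hom_C] at h
        exact ⟨μ, h⟩)
  refine ⟨Θ, μ₀, hΘ, fun c hc Q hQ L _ hL lam₁ lam₂ hlam => ?_⟩
  obtain ⟨θ, hθ₁, hθ₂⟩ := huniv L hL lam₁ lam₂ hlam
  have h3 := Ideal.mem_map_of_mem θ (pow_mem_span_pow _ (hmain _ hc) hQ)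
  have hω : ∀ w, θ (ι (WittVector.coeff w 0)) = lam₁ (α₁ (MvPowerSeries.C w)) := fun w => by
    rw [← hι₁, hθ₁]
  have hv : ∀ i, θ (vv ι Γ' x y i) = vv ((lam₁.comp α₁).comp MvPowerSeries.C) Γ
      (fun l => lam₁ (α₁ (MvPowerSeries.X l))) (fun l => lam₂ (α₂ (MvPowerSeries.X l))) i := by
    intro i
    simp only [vv, map_sum, map_mul, map_sub, hx, hy, hθ₁, hθ₂, hΓ', Matrix.map_apply,
      WittVector.constantCoeff_apply, hω, RingHom.comp_apply]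
  rw [map_pow, map_pow, hv, ← pow_mul, ← mul_assoc, Ideal.map_span] at h3
  refine (Ideal.span_le.2 ?_) h3
  rintro _ ⟨_, ⟨j, rfl⟩, rfl⟩
  rcases j with i | γ | l | l
  · refine Ideal.mem_sup_left (Ideal.mem_sup_left (Ideal.mem_sup_left ?_))
    simp only [Sum.elim_inl, map_pow, map_sub, map_mul, MvPolynomial.eval_C, MvPolynomial.eval_X,
      hv, hω]
    rw [← pow_mul]
    exact Ideal.mem_of_dvd _ (pow_dvd_pow _ (Nat.le_mul_of_pos_left Q (by omega)))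
      (Ideal.subset_span ⟨i, rfl⟩)
  · refine Ideal.mem_sup_left (Ideal.mem_sup_left (Ideal.mem_sup_right ?_))
    simp only [Sum.elim_inr, Sum.elim_inl, map_pow, map_mul, MvPolynomial.eval_C, hθ₁, hθ₂]
    exact Ideal.subset_span ⟨γ, rfl⟩
  · refine Ideal.mem_sup_left (Ideal.mem_sup_right ?_)
    simp only [Sum.elim_inr, Sum.elim_inl, map_pow, MvPolynomial.eval_C, hx, hθ₁, ← pow_mul]
    exact Ideal.subset_span ⟨l, rfl⟩
  · refine Ideal.mem_sup_right ?_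
    simp only [Sum.elim_inr, map_pow, MvPolynomial.eval_C, hy, hθ₂, ← pow_mul]
    exact Ideal.subset_span ⟨l, rfl⟩

/-! ### passage from the finest level to level `q₁` -/

theorem mua_frob {L : Type} [CommRing L] (hp : (p : L) = 0) (i : ℕ) :
    ∃ θ : L →+* L, ∀ a, θ a = a ^ p ^ i := by
  rcases subsingleton_or_nontrivial L with _ | _
  · exact ⟨RingHom.id L, fun _ => Subsingleton.elim _ _⟩
  · have : CharP L p := (CharP.charP_iff_prime_eq_zero Fact.out).2 hp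
    exact ⟨iterateFrobenius L p i, fun a => iterateFrobenius_def p i a⟩

/-- Frobenius: `(x - y)^Q = x^Q - y^Q` (if `L` is trivial there is nothing to prove; otherwise
`CharP L p`) -/
theorem M1.frob {L : Type} [CommRing L] (hp : (p : L) = 0) {d : ℕ} {x y : Fin d → L} {j' J i : ℕ}
    (h : M1 x y j' J (p ^ i)) : M1 (fun l => x l ^ p ^ i) (fun l => y l ^ p ^ i) j' J 1 := by
  obtain ⟨θ, hθ⟩ := mua_frob hp i
  intro l
  have e : ∀ l, (x l - y l) ^ p ^ i = x l ^ p ^ i - y l ^ p ^ i := fun l => by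
    rw [← hθ, map_sub, hθ, hθ]
  have := h l
  simpa only [e, mul_one, pow_one, ← pow_mul, mul_comm (p ^ i)] using this

theorem UU.frob {W L : Type} [CommRing W] [CommRing L] (hp : (p : L) = 0) {d' : ℕ} {ω ω' : W →+* L}
    {Γ : Matrix (Fin (d' + 1)) (Fin (d' + 1)) W} {c : Fin d' → W} {x y : Fin (d' + 1) → L}
    {G : Type} {w w' : G → L} {m B i : ℕ} (h : UU ω Γ c x y w m B (p ^ i))
    (hω : ∀ a, ω' a = ω a ^ p ^ i) (hw : ∀ γ, w' γ ∣ w γ ^ p ^ i) :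
    UU ω' Γ c (fun l => x l ^ p ^ i) (fun l => y l ^ p ^ i) w' m B 1 := by
  obtain ⟨θ, hθ⟩ := mua_frob hp i
  have hω' : ω' = θ.comp ω := RingHom.ext fun a => by rw [hω, RingHom.comp_apply, hθ]
  have ev : ∀ j, vv ω' Γ (fun l => x l ^ p ^ i) (fun l => y l ^ p ^ i) j =
      vv ω Γ x y j ^ p ^ i := fun j => by
    rw [← hθ, map_vv, hω']
    simp only [hθ]
  have eu : ∀ j, uu ω' Γ c (fun l => x l ^ p ^ i) (fun l => y l ^ p ^ i) j =
      uu ω Γ c x y j ^ p ^ i := fun j => by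
    rw [← hθ, map_uu, hω']
    simp only [hθ]
  unfold UU at h ⊢
  simp only [ev, eu, mul_one, pow_one, ← pow_mul, mul_comm (p ^ i)]
  have hle : Ideal.span (Set.range fun γ => w γ ^ p ^ i) ≤ Ideal.span (Set.range fun γ => w' γ) := by
    rw [Ideal.span_le]
    rintro _ ⟨γ, rfl⟩
    obtain ⟨r, hr⟩ := hw γ
    show w γ ^ p ^ i ∈ Ideal.span (Set.range fun γ => w' γ)
    rw [hr]
    exact Ideal.mul_mem_right _ _ (Ideal.subset_span ⟨γ, rfl⟩)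
  exact SetLike.le_def.1 (sup_le_sup_right (sup_le_sup_right (sup_le_sup_left hle _) _) _) h

end Crest.Agent.R188
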