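import Crest.Agent.R188.Asm

/-! # R188 / Main : the induction for standard rings, reduction to standard rings, the theorem. -/

set_option autoImplicit false
open IsLocalRing RingTheory.Sequence Crest.Agent.R183 MvPowerSeries

namespace Crest.Agent.R188

section Std
variable {p : ℕ} [Fact p.Prime] {k : Type} [Field k] [IsAlgClosed k] [CharP k p] {d : ℕ}
  {f : AA p k d} {R : Type} [CommRing R] [IsLocalRing R] [IsNoetherianRing R] {π : AA p k d →+* R}

theorem maina_prim {A B : Type} [CommRing A] [CommRing B] [IsLocalRing A] [IsLocalRing B] (π : A →+* B)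
    (hπ : Function.Surjective π) {I J : Ideal B} (h : Prim I J) : Prim (I.comap π) (J.comap π) := by
  have := rtd_prim (RingHom.id B) π Function.surjective_id hπ (f := Ideal.Quotient.mk I)
    (g := Ideal.Quotient.mk J) (by simpa using h)
  simpa [← RingHom.comap_ker] using this

theorem maina_chi {S X Y : Type} [CommRing S] [CommRing X] [CommRing Y] {u : S →+* X} {v : S →+* Y}
    (hu : Function.Surjective u) (hv : Function.Surjective v) (n : ℕ) :
    chi u v n = chim S (S ⧸ RingHom.ker u) (S ⧸ RingHom.ker v) n := by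
  rw [← chi_mk, chi, chi, tl_ker hu Ideal.Quotient.mk_surjective Ideal.mk_ker.symm, tl_symm,
    tl_ker hv Ideal.Quotient.mk_surjective Ideal.mk_ker.symm, tl_symm]

/-- MAIN CASE.  `d = d' + 1`; `P~ = P.comap π`, `Q~ = Q.comap π` (`dim_comap_surj`, `dl_iff_of_eq`,
`Ideal.map_comap_of_surjective`, `prim_iff`); `exists_ci` with `t = d - b`.  If `a + b = d`: `CI.pos` on
both sides, `assemble` with `pos = True` (convert `SD True False` to `SD True (¬ True)` by `simp`),
`CI.dl`.  If `a + b < d`: `CI.van` for a finite generating family of `P~`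
(`Submodule.fg_iff_exists_fin_generating_family`), `CI.van` with `G = Empty` and `SideOK.neutral` for
`Q~`, `assemble` with `pos = False` (`dl_zero_iff`).  Then `cmp_all` (`VanP.vanM`, `Pres.regLoc`),
`Pr.zero`, `Pr.pos`. -/
theorem main_case (hπ : Pres f π) {P Q : Ideal R} (hP : P.IsPrime) (hQ : Q.IsPrime) (hPQ : Prim P Q)
    {a b : ℕ} (ha : ringKrullDim (R ⧸ P) = a) (hb : ringKrullDim (R ⧸ Q) = b) (h1 : 1 ≤ a)
    (h2 : 1 ≤ b) (hp : (p : R) ∉ P) (hab : a + b ≤ d)
    (IH : ∀ (f' : AA p k d) (R' : Type) [CommRing R'] [IsLocalRing R'] [IsNoetherianRing R']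
      (π' : AA p k d →+* R'), Pres f' π' → VanP R' d (a + b)) :
    (a + b < d → chim R (R ⧸ P) (R ⧸ Q) d = 0) ∧ (a + b = d → 0 < chim R (R ⧸ P) (R ⧸ Q) d) := by
  obtain ⟨d', rfl⟩ : ∃ d', d = d' + 1 := ⟨d - 1, by omega⟩
  have hP' := hP.comap π
  have hQ' := hQ.comap π
  have ha' := (dim_comap_surj π hπ.surj P).trans ha
  have hb' := (dim_comap_surj π hπ.surj Q).trans hb
  have da := (dl_iff_of_eq ha').2 a.lt_succ_self
  have db := (dl_iff_of_eq hb').2 b.lt_succ_self
  have hf : ∀ I : Ideal R, f ∈ I.comap π := fun I => by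
    rw [Ideal.mem_comap, stc_zero hπ]
    exact I.zero_mem
  have hp' : (p : AA p k (d' + 1)) ∉ P.comap π := by rwa [Ideal.mem_comap, map_natCast]
  have hPQ' := maina_prim π hπ.surj hPQ
  obtain ⟨h₁, h₂, zs₁, zs₂, c₁, c₂, hJ⟩ := exists_ci (t := d' + 1 - b) hπ.std hP' hQ' (hf P) (hf Q) hPQ' da db
    hp' h1 h2 (by omega) (by omega)
  obtain ⟨zs₁, rfl⟩ := c₁.t1 hp'
  have l₁ := c₁.len
  have l₂ := c₂.len
  have d₁ := c₁.dl
  have d₂ := c₂.dl
  rw [List.length_cons] at l₁ d₁
  have key : ∀ (pos : Prop) (𝔞₁ 𝔞₂ : Ideal (AA p k (d' + 1))) (G₁ G₂ : Type) [Fintype G₁] [Fintype G₂]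
      (a₁ : G₁ → AA p k (d' + 1)) (a₂ : G₂ → AA p k (d' + 1)) (n₁ n₂ : ℕ),
      SD pos (¬ pos) f (P.comap π) (Ideal.span {f} ⊔ Ideal.span (Set.range h₁)) 𝔞₁
        ((p : AA p k (d' + 1)) :: zs₁) a₁ →
      SD pos False f (Q.comap π) (Ideal.span {f} ⊔ Ideal.span (Set.range h₂)) 𝔞₂ zs₂ a₂ →
      Dl (Ideal.span {f} ⊔ Ideal.span (Set.range h₁) ⊔ Ideal.span (Set.range a₁)) n₁ →
      Dl (Ideal.span {f} ⊔ Ideal.span (Set.range h₂) ⊔ Ideal.span (Set.range a₂)) n₂ →
      n₁ + b ≤ d' + 1 → n₂ ≤ b →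
      (pos → 0 < chim R (R ⧸ P) (R ⧸ Q) (d' + 1)) ∧ (¬ pos → chim R (R ⧸ P) (R ⧸ Q) (d' + 1) = 0) := by
    intro pos 𝔞₁ 𝔞₂ G₁ G₂ _ _ a₁ a₂ n₁ n₂ s₁ s₂ u₁ u₂ v₁ v₂
    obtain ⟨e₁, R', _, _, _, π', M₁, M₂, _, _, μ₁, μ₂, hπ', m₁, m₂, H₁, H₂⟩ :=
      assemble hπ.std s₁ s₂ hp' (by omega) hJ ⟨_, _, u₁, d₂, by omega⟩ ⟨_, _, d₁, u₂, by omega⟩
    have H := cmp_all hπ hπ' ((IH _ R π hπ).vanM hπ.regLoc) ((IH _ R' π' hπ').vanM hπ'.regLoc) hP' hQ'
      (s₁.Ja s₁.fJ) (s₂.Ja s₂.fJ) s₁.aP s₂.aP s₁.Pa s₂.Pa hPQ' da db m₁ m₂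
    rw [Ideal.map_comap_of_surjective π hπ.surj, Ideal.map_comap_of_surjective π hπ.surj] at H
    exact ⟨fun h => H.pos (H₁ h), fun h => H.zero (H₂ h)⟩
  refine ⟨fun h => ?_, fun h => ?_⟩
  · obtain ⟨n, a₁, e₁⟩ := Submodule.fg_iff_exists_fin_generating_family.1 (IsNoetherian.noetherian (P.comap π))
    have s₁ := c₁.van hπ.std.dist hP' (a := a₁) fun γ => e₁ ▸ Submodule.subset_span ⟨γ, rfl⟩
    have s₂ := c₂.van hπ.std.dist hQ' (a := (Empty.elim : Empty → _)) fun γ => γ.elim
    refine (key False _ _ _ _ a₁ (fun _ : Unit => 1) (a + 1) 0 (by simpa using s₁)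
      ⟨s₂.fJ, s₂.Ja, s₂.aP, s₂.Pa, s₂.max, s₂.prim, s₂.pz, s₂.ok.neutral⟩
      (da.mono (e₁.ge.trans le_sup_right) le_rfl) (dl_zero_iff.2 (by simp)) (by omega) b.zero_le).2 not_false
  · obtain ⟨𝔞₁, a₁, s₁, u₁⟩ := c₁.pos hπ.std.dist hP' (by rw [dl_iff_of_eq ha', List.length_cons]; omega)
    obtain ⟨𝔞₂, a₂, s₂, u₂⟩ := c₂.pos hπ.std.dist hQ' (by rw [dl_iff_of_eq hb']; omega)
    exact (key True _ _ _ _ a₁ a₂ _ _ (by simpa using s₁) s₂ u₁ u₂ (by rw [List.length_cons]; omega)
      (by omega)).1 trivial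

/-- BOTH PRIMES CONTAIN `p`.  `Rb = R/p` is also `k⟦x⟧/(f mod p)` (`AA_ker_red`, `map_surjective`,
`RingHom.liftOfSurjective`); `chi_theta` (`Pres.p_ne`, `Std.ndvd`, `regLoc_ps_field`), `tl_ker`,
`chi_mk`, `dim_comap_surj`, `eqChar`. -/
theorem theta_case (hπ : Pres f π) {P Q : Ideal R} (hP : P.IsPrime) (hQ : Q.IsPrime)
    (hPQ : Prim P Q) {a b : ℕ} (ha : ringKrullDim (R ⧸ P) = a) (hb : ringKrullDim (R ⧸ Q) = b)
    (h1 : (p : R) ∈ P) (h2 : (p : R) ∈ Q) :
    (a + b < d → chim R (R ⧸ P) (R ⧸ Q) d = 0) ∧ (a + b = d → 0 < chim R (R ⧸ P) (R ⧸ Q) d) := by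
  set red := MvPowerSeries.map (σ := Fin d) (WittVector.constantCoeff : WW p k →+* k) with hred
  have hs : Function.Surjective red := map_surjective _ (WittVector.constantCoeff_surjective p)
  have hk : RingHom.ker red = Ideal.span {(p : AA p k d)} := AA_ker_red p k d
  set πR := Ideal.Quotient.mk (Ideal.span {(p : R)}) with hπR
  have hp0 : πR p = 0 := Ideal.Quotient.eq_zero_iff_mem.2 (Ideal.mem_span_singleton_self _)
  obtain ⟨πS, hπS⟩ : ∃ πS : PS d k →+* R ⧸ Ideal.span {(p : R)}, ∀ y, πS (red y) = πR (π y) :=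
    ⟨RingHom.liftOfSurjective red hs ⟨πR.comp π, by
      rw [hk, Ideal.span_singleton_le_iff_mem, RingHom.mem_ker, RingHom.comp_apply, map_natCast, hp0]⟩,
      fun y => RingHom.liftOfRightInverse_comp_apply _ _ _ _ y⟩
  have s1 : Function.Surjective πR := Ideal.Quotient.mk_surjective
  have s2 : Function.Surjective πS := fun x => by
    obtain ⟨y, rfl⟩ := (s1.comp hπ.surj) x
    exact ⟨red y, hπS y⟩
  have hk' : RingHom.ker πS = Ideal.span {red f} := by
    refine le_antisymm (fun x hx => ?_) ?_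
    · obtain ⟨y, rfl⟩ := hs x
      rw [RingHom.mem_ker, hπS, Ideal.Quotient.eq_zero_iff_mem, Ideal.mem_span_singleton] at hx
      obtain ⟨z, hz⟩ := hx
      obtain ⟨z, rfl⟩ := hπ.surj z
      have h3 : y - p * z ∈ RingHom.ker π := by rw [RingHom.mem_ker, map_sub, map_mul, map_natCast, hz, sub_self]
      rw [hπ.ker] at h3
      have h4 := Ideal.mem_map_of_mem red h3
      have h5 : red p = 0 := RingHom.mem_ker.1 (hk ▸ Ideal.mem_span_singleton_self _)
      rwa [Ideal.map_span, Set.image_singleton, map_sub, map_mul, h5, zero_mul, sub_zero] at h4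
    · rw [Ideal.span_singleton_le_iff_mem, RingHom.mem_ker, hπS, stc_zero hπ, map_zero]
  have hf0 : red f ≠ 0 := fun h => hπ.std.ndvd (Ideal.mem_span_singleton.1 (hk ▸ RingHom.mem_ker.2 h))
  have l1 := (Ideal.span_singleton_le_iff_mem P).2 h1
  have l2 := (Ideal.span_singleton_le_iff_mem Q).2 h2
  have t1 := Ideal.Quotient.factor_surjective l1
  have t2 := Ideal.Quotient.factor_surjective l2
  have hpr : Prim (RingHom.ker ((Ideal.Quotient.factor l1).comp πR))
      (RingHom.ker ((Ideal.Quotient.factor l2).comp πR)) := by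
    rwa [hπR, Ideal.Quotient.factor_comp_mk, Ideal.Quotient.factor_comp_mk, Ideal.mk_ker, Ideal.mk_ker]
  have H := chi_theta hπ.regLoc (regLoc_ps_field d k) πR πS s1 s2 hπ.p_ne hf0 Ideal.mk_ker hk'
    (RingHom.Finite.of_surjective _ t1) (RingHom.Finite.of_surjective _ t2) hpr
  have u1 : Function.Surjective ((Ideal.Quotient.factor l1).comp πS) := t1.comp s2
  have u2 : Function.Surjective ((Ideal.Quotient.factor l2).comp πS) := t2.comp s2
  rw [hπR, Ideal.Quotient.factor_comp_mk, Ideal.Quotient.factor_comp_mk, chi_mk, maina_chi u1 u2] at H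
  have e1 := (ringKrullDim_eq_of_ringEquiv (RingHom.quotientKerEquivOfSurjective u1)).trans ha
  have e2 := (ringKrullDim_eq_of_ringEquiv (RingHom.quotientKerEquivOfSurjective u2)).trans hb
  have hpr' := rtd_prim πR πS s1 s2 hpr
  rw [H]
  exact ⟨(eqChar d k).1 _ _ (RingHom.ker_isPrime _) (RingHom.ker_isPrime _) hpr' a b e1 e2,
    (eqChar d k).2 _ _ (RingHom.ker_isPrime _) (RingHom.ker_isPrime _) hpr' a b e1 e2⟩

/-- a prime of dimension `0` is the maximal ideal -/
theorem eq_max_of_dim {P : Ideal R} (hP : P.IsPrime) (h : ringKrullDim (R ⧸ P) = (0 : ℕ)) :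
    P = maximalIdeal R := by
  obtain ⟨L, hL⟩ := dl_one_iff.1 ((dl_iff_of_eq h).2 one_pos)
  exact ((maximalIdeal.isMaximal R).eq_of_le hP.ne_top (hP.le_of_pow_le hL)).symm

theorem step_case (hπ : Pres f π) {P Q : Ideal R} (hP : P.IsPrime) (hQ : Q.IsPrime) (hPQ : Prim P Q)
    {a b : ℕ} (ha : ringKrullDim (R ⧸ P) = a) (hb : ringKrullDim (R ⧸ Q) = b) (hab : a + b ≤ d)
    (IH : ∀ (f' : AA p k d) (R' : Type) [CommRing R'] [IsLocalRing R'] [IsNoetherianRing R']
      (π' : AA p k d →+* R'), Pres f' π' → VanP R' d (a + b)) :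
    (a + b < d → chim R (R ⧸ P) (R ⧸ Q) d = 0) ∧ (a + b = d → 0 < chim R (R ⧸ P) (R ⧸ Q) d) := by
  rcases Nat.eq_zero_or_pos a with rfl | h1
  · obtain rfl := eq_max_of_dim hP ha
    simpa only [zero_add] using case_max hπ.regLoc hb
  rcases Nat.eq_zero_or_pos b with rfl | h2
  · obtain rfl := eq_max_of_dim hQ hb
    rw [chim_symm]
    simpa only [add_zero] using case_max hπ.regLoc ha
  by_cases hp : (p : R) ∈ P
  · by_cases hq : (p : R) ∈ Q
    · exact theta_case hπ hP hQ hPQ ha hb hp hq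
    · rw [chim_symm, add_comm]
      rw [add_comm] at hab IH
      exact main_case hπ hQ hP hPQ.symm hb ha h2 h1 hq hab IH
  · exact main_case hπ hP hQ hPQ ha hb h1 h2 hp hab IH

theorem std_van (s : ℕ) (hs : s ≤ d) : ∀ (f' : AA p k d) (R' : Type) [CommRing R'] [IsLocalRing R']
    [IsNoetherianRing R'] (π' : AA p k d →+* R'), Pres f' π' → VanP R' d s := by
  induction s with
  | zero => exact fun _ _ _ _ _ _ _ _ _ _ _ _ _ _ _ _ h => absurd h (Nat.not_lt_zero _)
  | succ s ih =>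
    intro f' R' _ _ _ π' h P Q hP hQ hPQ a b ha hb hab
    rcases (Nat.lt_succ_iff.1 hab).lt_or_eq with h1 | h1
    · exact ih (by omega) f' R' π' h P Q hP hQ hPQ a b ha hb h1
    · exact (step_case h hP hQ hPQ ha hb (by omega) (h1 ▸ ih (by omega))).1 (by omega)

theorem std_thm (hπ : Pres f π) : VanP R d d ∧ PosP R d :=
  ⟨std_van d le_rfl f R π hπ, fun _ _ hP hQ hPQ _ _ ha hb hab =>
    (step_case hπ hP hQ hPQ ha hb hab.le (std_van _ hab.le)).2 hab⟩

end Std

/-! ### reduction to the standard models -/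

theorem mainb_ev {C₀ P : Type} [CommRing C₀] [CLN C₀] [CommRing P] [IsLocalRing P]
    [IsAdicComplete (maximalIdeal P) P] {r : ℕ} (x : Fin r → P)
    (hx : Ideal.span (Set.range x) = maximalIdeal P) (ρ : C₀ →+* P)
    (hloc : (maximalIdeal C₀).map ρ ≤ maximalIdeal P) (hres : ∀ r, ∃ x, r - ρ x ∈ maximalIdeal P) :
    ∃ ev : PS r C₀ →+* P, Function.Surjective ev ∧ (XP r C₀).map ev = maximalIdeal P := by
  obtain ⟨ev, h1, h2⟩ := exists_eval ρ (maximalIdeal P) x fun i =>
    hx ▸ Ideal.subset_span ⟨i, rfl⟩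
  have e2 : (XP r C₀).map ev = maximalIdeal P := by
    rw [XP, Ideal.map_span, ← Set.range_comp, show ev ∘ X = x from funext h2]
    exact hx
  have h3 : (maximalIdeal (PS r C₀)).map ev = maximalIdeal P := by
    have e1 : ev.comp C = ρ := RingHom.ext h1
    rw [PS.max_eq, Ideal.map_sup, Ideal.map_map, e1, e2, sup_eq_right.2 hloc]
  refine ⟨ev, ?_, e2⟩
  have : IsHausdorff ((maximalIdeal (PS r C₀)).map ev) P := by
    rw [h3]
    infer_instance
  refine surjective_of_mk_map_comp_surjective (I := maximalIdeal (PS r C₀)) ev fun y => ?_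
  obtain ⟨y, rfl⟩ := Ideal.Quotient.mk_surjective y
  obtain ⟨c, hc⟩ := hres y
  refine ⟨C c, ?_⟩
  rw [RingHom.comp_apply, h1, eq_comm, Ideal.Quotient.eq, h3]
  exact hc

theorem mainb_core {P : Type} [CommRing P] [IsLocalRing P] [IsAdicComplete (maximalIdeal P) P]
    (hfg : (maximalIdeal P).FG) {l : Type} [Field l] (φ : P →+* l) [IsLocalHom φ] (W : Type)
    [CommRing W] [Coef W] (πW : W →+* l) (hs : Function.Surjective πW) (p : ℕ) [CharP l p]
    (hW : maximalIdeal W = Ideal.span {(p : W)}) (hp : p ≠ 0 → (p : W) ≠ 0) :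
    ∃ (c : ℕ) (S'' : Type) (_ : CommRing S'') (_ : CLN S'') (g : P →+* S'') (ψ : PS c W →+* S''),
      g.Flat ∧ (maximalIdeal P).map g = maximalIdeal S'' ∧ Function.Surjective ψ := by
  have : CharP (ResidueField l) p := (RingHom.charP_iff_charP (residue l) p).1 ‹_›
  obtain ⟨C₀, _, _, ρ, σ, -, hres, hC, hσ⟩ := exists_coef_pair φ πW hs p fun h0 n hn => by
    rw [hW, Ideal.span_singleton_pow, Ideal.mem_span_singleton,
      pow_dvd_pow_iff (hp h0) ((mem_maximalIdeal _).1 (hW.ge (Ideal.mem_span_singleton_self _)))] at hn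
    omega
  obtain ⟨r, x, hx⟩ := Submodule.fg_iff_exists_fin_generating_family.1 hfg
  obtain ⟨ev, hev, -⟩ := mainb_ev x hx ρ (by
    rw [hC, Ideal.map_span, Set.image_singleton, map_natCast, Ideal.span_singleton_le_iff_mem]
    exact fun hu => (hu.map φ).ne_zero (by rw [map_natCast, CharP.cast_eq_zero])) hres
  have hm := map_maximalIdeal_of_surjective ev hev
  have hfl : σ.Flat := by
    let := σ.toAlgebra
    have : FaithfulSMul C₀ W := (faithfulSMul_iff_algebraMap_injective C₀ W).2 hσ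
    exact RingHom.flat_algebraMap_iff.2 inferInstance
  have hmax : (maximalIdeal (PS r C₀)).map (MvPowerSeries.map σ) = maximalIdeal (PS r W) := by
    have e : (MvPowerSeries.map (σ := Fin r) σ).comp C = C.comp σ :=
      RingHom.ext fun a => MvPowerSeries.map_C σ a
    rw [PS.max_eq, PS.max_eq, Ideal.map_sup, Ideal.map_map, e, ← Ideal.map_map, hC, hW,
      Ideal.map_span σ, Set.image_singleton, map_natCast, psc_map_XP]
  have hnt : Nontrivial (PS r W ⧸ (RingHom.ker ev).map (MvPowerSeries.map σ)) :=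
    Ideal.Quotient.nontrivial_iff.2 (ne_top_of_le_ne_top (maximalIdeal.isMaximal _).ne_top
      ((Ideal.map_mono (le_maximalIdeal (RingHom.ker_ne_top ev))).trans hmax.le))
  have hcln := cln_of_surj (Ideal.Quotient.mk ((RingHom.ker ev).map (MvPowerSeries.map σ)))
    Ideal.Quotient.mk_surjective
  refine ⟨r, _, _, hcln, (Ideal.quotientMap _ (MvPowerSeries.map σ) Ideal.le_comap_map).comp
    (RingHom.quotientKerEquivOfSurjective hev).symm.toRingHom, Ideal.Quotient.mk _,
    (RingHom.Flat.of_bijective (RingEquiv.bijective _)).comp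
      (flat_quotientMap _ (PS.flat_map σ hfl) _), ?_, Ideal.Quotient.mk_surjective⟩
  rw [← hm, Ideal.map_map, ← map_maximalIdeal_of_surjective (Ideal.Quotient.mk _)
    Ideal.Quotient.mk_surjective, ← hmax, Ideal.map_map]
  congr 1
  refine RingHom.ext fun a => ?_
  have e : (RingHom.quotientKerEquivOfSurjective hev).symm (ev a) = Ideal.Quotient.mk _ a :=
    (RingEquiv.symm_apply_eq _).2 rfl
  exact (congrArg (Ideal.quotientMap _ (MvPowerSeries.map σ) Ideal.le_comap_map) e).trans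
    Ideal.quotientMap_mk

/-- GONFLEMENT.  Copy `exists_ps_surj`, `topb_core`, `exists_gonf` from `R183/Top.lean` (they only use
`R183.exists_coef_pair` and the power-series lemmas that are also in `R188/PSB.lean`; do NOT import
`R183.Top`), and take `ρ = ψ ∘ C` (`PS.res`). -/
theorem exists_gonf (S : Type) [CommRing S] [IsNoetherianRing S] [IsLocalRing S] {l : Type} [Field l]
    (ι : ResidueField S →+* l) (W : Type) [CommRing W] [Coef W] (πW : W →+* l)
    (hs : Function.Surjective πW) (p : ℕ) [CharP l p] (hW : maximalIdeal W = Ideal.span {(p : W)})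
    (hp : p ≠ 0 → (p : W) ≠ 0) :
    ∃ (S' : Type) (_ : CommRing S') (_ : CLN S') (g : S →+* S') (ρ : W →+* S'), g.Flat ∧
      (maximalIdeal S).map g = maximalIdeal S' ∧ (maximalIdeal W).map ρ ≤ maximalIdeal S' ∧
      ∀ y, ∃ w, y - ρ w ∈ maximalIdeal S' := by
  obtain ⟨c, S'', _, _, g, ψ, h1, h2, h3⟩ := mainb_core (P := AdicCompletion (maximalIdeal S) S)
    (by rw [AdicCompletion.maximalIdeal_eq_map]; exact (maximalIdeal S).fg_of_isNoetherianRing.map _)
    ((ι.comp (RingEquiv.ofBijective _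
      (AdicCompletion.residueField_map_bijective S)).symm.toRingHom).comp (residue _))
    W πW hs p hW hp
  have h4 := map_maximalIdeal_of_surjective ψ h3
  refine ⟨S'', _, ‹_›, g.comp (algebraMap S _), ψ.comp C,
    (RingHom.flat_algebraMap_iff.2 inferInstance).comp h1, ?_, ?_, fun y => ?_⟩
  · rw [← Ideal.map_map, ← AdicCompletion.maximalIdeal_eq_map, h2]
  · rw [← Ideal.map_map, ← h4, PS.max_eq]
    exact Ideal.map_mono le_sup_left
  · obtain ⟨z, rfl⟩ := h3 y
    obtain ⟨w, hw⟩ := PS.res z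
    refine ⟨w, ?_⟩
    rw [RingHom.comp_apply, ← map_sub, ← h4, PS.max_eq]
    exact Ideal.mem_map_of_mem _ (Ideal.mem_sup_right hw)

theorem RegLoc.of_flat {R S : Type} [CommRing R] [IsLocalRing R] [CommRing S] [IsLocalRing S]
    {d : ℕ} (h : RegLoc R d) (g : R →+* S) (hg : g.Flat)
    (hm : (maximalIdeal R).map g = maximalIdeal S) : RegLoc S d := by
  obtain ⟨xs, h1, h2, h3⟩ := h
  let := g.toAlgebra
  have : Module.Flat R S := hg
  refine ⟨xs.map g, by rw [List.length_map, h1], h2.of_flat, ?_⟩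
  rw [← Ideal.map_ofList, h3, hm]

/-- evaluation at regular parameters (as in `R183.exists_ps_surj`, with `x i = xs[i]`) -/
theorem exists_ev {W S : Type} [CommRing W] [CLN W] [CommRing S] [CLN S] {d : ℕ} (h : RegLoc S d)
    (ρ : W →+* S) (hl : (maximalIdeal W).map ρ ≤ maximalIdeal S)
    (hres : ∀ y, ∃ w, y - ρ w ∈ maximalIdeal S) : ∃ ev : PS d W →+* S, Function.Surjective ev ∧
      (XP d W).map ev = maximalIdeal S := by
  obtain ⟨xs, rfl, -, h3⟩ := h
  exact mainb_ev xs.get (by rw [Set.range_list_get]; exact h3) ρ hl hres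

/-- a surjection from a regular local ring onto a local ring of the same dimension is injective
(`RegLoc.isDomain`, `Dl.of_prime_lt` with `P = ⊥`, `dim_comap_surj`) -/
theorem RegLoc.inj_of_surj {R S : Type} [CommRing R] [IsLocalRing R] [IsNoetherianRing R]
    [CommRing S] [IsLocalRing S] [IsNoetherianRing S] {d : ℕ} (h : RegLoc R d) (h' : RegLoc S d)
    (g : R →+* S) (hg : Function.Surjective g) : Function.Injective g := by
  have := h.isDomain
  have e1 : ringKrullDim (R ⧸ (⊥ : Ideal R)) = d :=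
    (ringKrullDim_eq_of_ringEquiv (RingEquiv.quotientBot R)).trans h.dim
  have e2 : ringKrullDim (R ⧸ RingHom.ker g) = d :=
    (dim_comap_surj g hg ⊥).trans ((ringKrullDim_eq_of_ringEquiv (RingEquiv.quotientBot S)).trans h'.dim)
  rw [RingHom.injective_iff_ker_eq_bot]
  by_contra hne
  exact lt_irrefl d ((dl_iff_of_eq e2).1 (Dl.of_prime_lt Ideal.isPrime_bot
    ((dl_iff_of_eq e1).2 d.lt_succ_self) (bot_lt_iff_ne_bot.2 hne)))

/-- transport along an isomorphism (`descent` for the inverse of `RingEquiv.ofBijective`) -/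
theorem thm_of_bij {R S : Type} [CommRing R] [IsLocalRing R] [IsNoetherianRing R] [CommRing S]
    [IsLocalRing S] [IsNoetherianRing S] {d : ℕ} (h : RegLoc R d) (g : R →+* S)
    (hg : Function.Bijective g) (H : VanP R d d ∧ PosP R d) : VanP S d d ∧ PosP S d := by
  have hb := (RingEquiv.ofBijective g hg).symm.bijective
  exact descent (RingEquiv.ofBijective g hg).symm.toRingHom (RingHom.Flat.of_bijective hb)
    (map_maximalIdeal_of_surjective _ hb.2) h H.1 H.2

/-- `ev p ∈ 𝔪 = ev (XP)` gives `f = p - g ∈ ker ev`, `Dist f`.  If `p ∤ f`: `Std.exists_pres`,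
`Pres.lift`, `RegLoc.inj_of_surj`, `std_thm`, `thm_of_bij`.  If `p ∣ f` (`Dist.eq_unit`) `ev` factors
through `k⟦x⟧` (`AA_ker_red`, `map_surjective`); `eqChar`. -/
theorem thm_witt {p : ℕ} [Fact p.Prime] {k : Type} [Field k] [IsAlgClosed k] [CharP k p] {d : ℕ}
    {S : Type} [CommRing S] [IsLocalRing S] [IsNoetherianRing S] (h : RegLoc S d)
    (ev : AA p k d →+* S) (hev : Function.Surjective ev)
    (hm : (XP d (WW p k)).map ev = maximalIdeal S) : VanP S d d ∧ PosP S d := by
  have h1 : ev p ∈ (XP d (WW p k)).map ev := by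
    rw [hm, ← map_maximalIdeal_of_surjective ev hev]
    exact Ideal.mem_map_of_mem _ stc_p_mem
  obtain ⟨g, hg, h2⟩ := (Ideal.mem_map_iff_of_surjective ev hev).1 h1
  have hd : Dist ((p : AA p k d) - g) := by
    rw [Dist, sub_sub_cancel_left]
    exact neg_mem hg
  have h0 : ev (p - g) = 0 := by rw [map_sub, h2, sub_self]
  by_cases hp : (p : AA p k d) ∣ p - g
  · have hs := map_surjective (n := d) (WittVector.constantCoeff : WW p k →+* k)
      fun x => ⟨WittVector.teichmuller p x, by simp⟩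
    have hk : RingHom.ker (MvPowerSeries.map (σ := Fin d) (WittVector.constantCoeff : WW p k →+* k)) ≤
        RingHom.ker ev := by
      rw [AA_ker_red, ← hd.eq_unit hp, Ideal.span_singleton_le_iff_mem]
      exact h0
    have hμ : Function.Surjective (RingHom.liftOfSurjective _ hs ⟨ev, hk⟩) := fun y => by
      obtain ⟨z, rfl⟩ := hev y
      exact ⟨_, RingHom.liftOfRightInverse_comp_apply _ _ _ ⟨ev, hk⟩ z⟩
    exact thm_of_bij (regLoc_ps_field d k) _ ⟨(regLoc_ps_field d k).inj_of_surj h _ hμ, hμ⟩ (eqChar d k)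
  · obtain ⟨R, _, _, _, π, hπ⟩ := Std.exists_pres ⟨hd, hp⟩
    obtain ⟨μ, h3⟩ := hπ.lift ev h0
    have hμ : Function.Surjective μ := fun y => by
      obtain ⟨z, rfl⟩ := hev y
      exact ⟨_, h3 z⟩
    exact thm_of_bij hπ.regLoc μ ⟨hπ.regLoc.inj_of_surj h μ hμ, hμ⟩ (std_thm hπ)

/-- `l = AlgebraicClosure (ResidueField R)`, `W = l` or `𝕎 l` as in `R183.exists_gonf'`
(`Coef.of_field`, `Coef.of_witt`); `exists_gonf`, `RegLoc.of_flat`, `exists_ev`, `eqChar` /
`thm_witt`, `descent`. -/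
theorem thm_regLoc {R : Type} [CommRing R] [IsLocalRing R] [IsNoetherianRing R] {d : ℕ}
    (h : RegLoc R d) : VanP R d d ∧ PosP R d := by
  let l := AlgebraicClosure (ResidueField R)
  obtain ⟨p, hp⟩ := CharP.exists l
  rcases CharP.char_is_prime_or_zero l p with h1 | rfl
  · have : Fact p.Prime := ⟨h1⟩
    obtain ⟨_, h2, h3⟩ := Coef.of_witt p l
    obtain ⟨S, _, _, g, ρ, h4, h5, h6, h7⟩ := exists_gonf R (algebraMap (ResidueField R) l) (WittVector p l)
      WittVector.constantCoeff (fun x => ⟨WittVector.teichmuller p x, by simp⟩) p h2 fun _ => h3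
    have hS := h.of_flat g h4 h5
    obtain ⟨ev, h8, h9⟩ := exists_ev hS ρ h6 h7
    have H := thm_witt hS ev h8 h9
    exact descent g h4 h5 hS H.1 H.2
  · have := Coef.of_field l
    obtain ⟨S, _, _, g, ρ, h4, h5, h6, h7⟩ := exists_gonf R (algebraMap (ResidueField R) l) l
      (RingHom.id l) Function.surjective_id 0
      (by rw [maximalIdeal_eq_bot, Nat.cast_zero, Ideal.span_singleton_zero]) fun h => absurd rfl h
    have hS := h.of_flat g h4 h5
    obtain ⟨ev, h8, -⟩ := exists_ev hS ρ h6 h7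
    have H := thm_of_bij (regLoc_ps_field d l) ev ⟨(regLoc_ps_field d l).inj_of_surj hS ev h8, h8⟩
      (eqChar d l)
    exact descent g h4 h5 hS H.1 H.2

theorem mainc_pow {R : Type} [CommRing R] [IsLocalRing R] {X : Type} [AddCommGroup X] [Module R X]
    (h : IsFiniteLength R X) : ∃ L, maximalIdeal R ^ L ≤ Module.annihilator R X := by
  induction h with
  | of_subsingleton => exact ⟨0, by rw [Module.annihilator_eq_top_iff.2 inferInstance]; exact le_top⟩
  | @of_simple_quotient X _ _ Y _ _ ih =>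
    obtain ⟨L, hL⟩ := ih
    refine ⟨L + 1, ?_⟩
    have h1 : Module.annihilator R (X ⧸ Y) = maximalIdeal R :=
      eq_maximalIdeal IsSimpleModule.annihilator_isMaximal
    rw [pow_succ, Ideal.mul_le]
    intro a ha b hb
    rw [Module.mem_annihilator]
    intro x
    have h2 : b • x ∈ Y := by
      rw [← Submodule.Quotient.mk_eq_zero, Submodule.Quotient.mk_smul]
      exact Module.mem_annihilator.1 (h1 ▸ hb) _
    have h3 := Module.mem_annihilator.1 (hL ha) ⟨_, h2⟩
    rw [mul_smul]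
    exact congrArg Subtype.val h3

/-- finite length of `M ⊗ N`: `𝔪^L` kills `M ⊗ N`; a prime containing both annihilators is in the
support of `M ⊗ N` (`Module.mem_support_iff_of_finite`, `Module.support_tensorProduct`-type lemmas, or
localize and use Nakayama: `(M ⊗ N) ⊗ κ(𝔭) = (M ⊗ κ) ⊗ (N ⊗ κ) ≠ 0`); `dl_iff_primes`, `prim_iff`. -/
theorem prim_of_length {R : Type} [CommRing R] [IsLocalRing R] [IsNoetherianRing R] {M N : Type}
    [AddCommGroup M] [Module R M] [Module.Finite R M] [AddCommGroup N] [Module R N]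
    [Module.Finite R N] (h : IsFiniteLength R (TensorProduct R M N)) :
    Prim (Module.annihilator R M) (Module.annihilator R N) := by
  obtain ⟨L, hL⟩ := mainc_pow h
  rw [prim_iff, dl_iff_primes]
  intro q hq hle
  let 𝔮 : PrimeSpectrum R := ⟨q, hq⟩
  have h1 : 𝔮 ∈ Module.support R M := Module.mem_support_iff_of_finite.2 (le_sup_left.trans hle)
  have h2 : 𝔮 ∈ Module.support R N := Module.mem_support_iff_of_finite.2 (le_sup_right.trans hle)
  rw [Module.mem_support_iff_nontrivial_residueField_tensorProduct] at h1 h2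
  have h3 : 𝔮 ∈ Module.support R (TensorProduct R M N) := by
    rw [Module.mem_support_iff_nontrivial_residueField_tensorProduct,
      (TensorProduct.AlgebraTensorModule.distribBaseChange R 𝔮.asIdeal.ResidueField M
        N).nontrivial_congr, Module.FaithfullyFlat.nontrivial_tensorProduct_iff_right]
    exact h2
  exact dl_one_iff.2 ⟨L, hL.trans (Module.annihilator_le_of_mem_support h3)⟩

/-- `regLoc_of_isRegularLocalRing`, `thm_regLoc`, `PosP.posM`, `exists_dim`,
`Module.supportDim_eq_ringKrullDim_quotient_annihilator`, `length_Tor_eq`. -/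
theorem serre_pos (R : Type) [CommRing R] [IsRegularLocalRing R] (d : ℕ) (hd : ringKrullDim R = d)
    (M N : ModuleCat.{0} R) [Module.Finite R M] [Module.Finite R N] [Nontrivial M] [Nontrivial N]
    (hlen : IsFiniteLength R (TensorProduct R M N))
    (hdim : Module.supportDim R M + Module.supportDim R N = d) :
    0 < ∑ i ∈ Finset.range (d + 1), (-1 : ℤ) ^ i *
      ((Module.length R (((CategoryTheory.Tor (ModuleCat.{0} R) i).obj M).obj N)).toNat : ℤ) := by
  have hR := regLoc_of_isRegularLocalRing d R hd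
  obtain ⟨h0, h1⟩ := thm_regLoc hR
  have hM : Module.annihilator R M ≠ ⊤ := fun h =>
    not_subsingleton M (Module.annihilator_eq_top_iff.1 h)
  have hN : Module.annihilator R N ≠ ⊤ := fun h =>
    not_subsingleton N (Module.annihilator_eq_top_iff.1 h)
  obtain ⟨a, ha⟩ := exists_dim hM
  obtain ⟨b, hb⟩ := exists_dim hN
  rw [Module.supportDim_eq_ringKrullDim_quotient_annihilator,
    Module.supportDim_eq_ringKrullDim_quotient_annihilator, ha, hb] at hdim
  have hab : a + b = d := by exact_mod_cast hdim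
  simp only [length_Tor_eq]
  exact PosP.posM hR h0 h1 M N (prim_of_length hlen) a b ha hb hab

end Crest.Agent.R188
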