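import Mathlib

/-! # R188 / StdAuxA : Dwork's lemma for Witt vectors (auxiliary file of `R188/Std`). -/

set_option autoImplicit false
open Finset

namespace Crest.Agent.R188

/-- the `n`-th Witt polynomial evaluated at `x` -/
def dwA_G (p : ℕ) {A : Type} [CommRing A] (x : ℕ → A) (n : ℕ) : A :=
  ∑ i ∈ range (n + 1), (p : A) ^ i * x i ^ p ^ (n - i)

theorem dwA_ghost (p : ℕ) [Fact p.Prime] {A : Type} [CommRing A] (x : WittVector p A) (n : ℕ) :
    WittVector.ghostComponent n x = dwA_G p x.coeff n := by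
  rw [WittVector.ghostComponent_apply, aeval_wittPolynomial, dwA_G]

theorem dwA_G_succ (p : ℕ) {A : Type} [CommRing A] (x : ℕ → A) (n : ℕ) :
    dwA_G p x n = ∑ i ∈ range n, (p : A) ^ i * x i ^ p ^ (n - i) + (p : A) ^ n * x n := by
  rw [dwA_G, sum_range_succ, Nat.sub_self, pow_zero, pow_one]

theorem dwA_G_congr (p : ℕ) {A : Type} [CommRing A] {x y : ℕ → A} {n : ℕ}
    (h : ∀ i ≤ n, x i = y i) : dwA_G p x n = dwA_G p y n :=
  sum_congr rfl fun i hi => by rw [h i (Nat.lt_succ_iff.1 (mem_range.1 hi))]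

theorem dwA_pow_reg (p : ℕ) {A : Type} [CommRing A] (hp : ∀ y : A, (p : A) * y = 0 → y = 0)
    (n : ℕ) : ∀ y : A, (p : A) ^ n * y = 0 → y = 0 := by
  induction n with
  | zero => intro y h; simpa using h
  | succ n ih =>
    intro y h
    rw [pow_succ, mul_assoc] at h
    exact hp y (ih _ h)

theorem dwA_uniq (p : ℕ) {A : Type} [CommRing A] (hp : ∀ y : A, (p : A) * y = 0 → y = 0)
    {x y : ℕ → A} {n : ℕ} (h : ∀ m ≤ n, dwA_G p x m = dwA_G p y m) : ∀ i ≤ n, x i = y i := by
  intro i
  induction i using Nat.strong_induction_on with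
  | _ i ih =>
    intro hi
    have h1 := h i hi
    rw [dwA_G_succ, dwA_G_succ, sum_congr rfl (fun j hj => by
      rw [ih j (mem_range.1 hj) ((mem_range.1 hj).le.trans hi)]), add_right_inj] at h1
    exact sub_eq_zero.1 (dwA_pow_reg p hp i _ (by rw [mul_sub, h1, sub_self]))

theorem dwA_fin (p : ℕ) {A : Type} [CommRing A] (φ : A →+* A) (hφ : ∀ a, (p : A) ∣ φ a - a ^ p)
    (b : ℕ → A) (hb : ∀ n, b (n + 1) = φ (b n)) (n : ℕ) :
    ∃ x : ℕ → A, ∀ m ≤ n, dwA_G p x m = b m := by
  induction n with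
  | zero =>
    refine ⟨fun _ => b 0, fun m hm => ?_⟩
    obtain rfl := Nat.le_zero.1 hm
    simp [dwA_G]
  | succ n ih =>
    obtain ⟨x, hx⟩ := ih
    have hd : (p : A) ^ (n + 1) ∣
        b (n + 1) - ∑ i ∈ range (n + 1), (p : A) ^ i * x i ^ p ^ (n + 1 - i) := by
      rw [hb, ← hx n le_rfl, dwA_G, map_sum, ← sum_sub_distrib]
      refine dvd_sum fun i hi => ?_
      have hi' : i ≤ n := Nat.lt_succ_iff.1 (mem_range.1 hi)
      have h1 := dvd_sub_pow_of_dvd_sub (hφ (x i)) (n - i)
      have e1 : n + 1 - i = (n - i) + 1 := by omega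
      have e2 : (p : A) ^ (n + 1) = (p : A) ^ i * (p : A) ^ (n - i + 1) := by
        rw [← pow_add]; congr 1; omega
      rw [map_mul, map_pow, map_pow, map_natCast, ← mul_sub, e1, e2, pow_succ' p (n - i), pow_mul]
      exact mul_dvd_mul_left _ h1
    obtain ⟨y, hy⟩ := hd
    refine ⟨Function.update x (n + 1) y, fun m hm => ?_⟩
    rcases Nat.lt_or_eq_of_le hm with hm | rfl
    · rw [← hx m (Nat.lt_succ_iff.1 hm)]
      exact dwA_G_congr p fun i hi => Function.update_of_ne (by omega) _ _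
    · rw [dwA_G_succ, Function.update_self, ← hy, sum_congr rfl (fun i hi => by
        rw [Function.update_of_ne (mem_range.1 hi).ne])]
      ring

theorem dwA_ex (p : ℕ) [Fact p.Prime] {A : Type} [CommRing A]
    (hp : ∀ y : A, (p : A) * y = 0 → y = 0) (φ : A →+* A) (hφ : ∀ a, (p : A) ∣ φ a - a ^ p)
    (b : ℕ → A) (hb : ∀ n, b (n + 1) = φ (b n)) :
    ∃ x : WittVector p A, ∀ n, WittVector.ghostComponent n x = b n := by
  choose x hx using dwA_fin p φ hφ b hb
  refine ⟨WittVector.mk p (fun n => x n n), fun n => ?_⟩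
  rw [dwA_ghost, ← hx n n le_rfl]
  refine dwA_G_congr p fun i hi => ?_
  exact dwA_uniq p hp (x := x i) (y := x n) (n := i)
    (fun m hm => by rw [hx i m hm, hx n m (hm.trans hi)]) i le_rfl

theorem dwA_inj (p : ℕ) [Fact p.Prime] {A : Type} [CommRing A]
    (hp : ∀ y : A, (p : A) * y = 0 → y = 0) {x y : WittVector p A}
    (h : ∀ n, WittVector.ghostComponent n x = WittVector.ghostComponent n y) : x = y := by
  ext n
  exact dwA_uniq p hp (n := n) (fun m _ => by rw [← dwA_ghost, ← dwA_ghost, h]) n le_rfl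

theorem dwA_dwork (p : ℕ) [Fact p.Prime] {A : Type} [CommRing A]
    (hp : ∀ y : A, (p : A) * y = 0 → y = 0) (φ : A →+* A) (hφ : ∀ a, (p : A) ∣ φ a - a ^ p) :
    ∃ s : A →+* WittVector p A, ∀ n a, WittVector.ghostComponent n (s a) = (φ ^ n) a := by
  have h : ∀ a : A, ∃ x : WittVector p A, ∀ n, WittVector.ghostComponent n x = (φ ^ n) a :=
    fun a => dwA_ex p hp φ hφ (fun n => (φ ^ n) a) (fun n => by rw [pow_succ']; rfl)
  choose s hs using h
  refine ⟨{ toFun := s
            map_one' := dwA_inj p hp fun n => ?_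
            map_mul' := fun a b => dwA_inj p hp fun n => ?_
            map_zero' := dwA_inj p hp fun n => ?_
            map_add' := fun a b => dwA_inj p hp fun n => ?_ }, fun n a => hs a n⟩
  · rw [hs, map_one, map_one]
  · rw [hs, map_mul, map_mul, hs, hs]
  · rw [hs, map_zero, map_zero]
  · rw [hs, map_add, map_add, hs, hs]

theorem dwA_of_coeff (p : ℕ) [Fact p.Prime] {A : Type} [CommRing A] {x : WittVector p A} {n : ℕ}
    (h : ∀ j < n, x.coeff j = 0) : WittVector.ghostComponent n x = (p : A) ^ n * x.coeff n := by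
  rw [dwA_ghost, dwA_G_succ, sum_eq_zero, zero_add]
  intro i hi
  rw [h i (mem_range.1 hi), zero_pow (pow_ne_zero _ (Fact.out : p.Prime).ne_zero), mul_zero]

theorem dwA_isUnit {p : ℕ} [Fact p.Prime] {V : Type} [CommRing V] [CharP V p] [PerfectRing V p]
    {x : WittVector p V} (h : IsUnit (x.coeff 0)) : IsUnit x := by
  obtain ⟨v, hv⟩ := h.exists_right_inv
  have h1 : x * WittVector.teichmuller p v - 1 ∈ Ideal.span {(p : WittVector p V)} := by
    rw [← WittVector.ker_constantCoeff, RingHom.mem_ker, map_sub, map_mul, map_one,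
      WittVector.constantCoeff_apply, WittVector.constantCoeff_apply,
      WittVector.teichmuller_coeff_zero, hv, sub_self]
  have h2 := IsAdicComplete.le_jacobson_bot (Ideal.span {(p : WittVector p V)}) h1
  have h3 := (Ideal.mem_jacobson_bot.1 h2) 1
  rw [mul_one, sub_add_cancel] at h3
  exact isUnit_of_mul_isUnit_left h3

end Crest.Agent.R188
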