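import Crest.Agent.R188.Dim
import Crest.Agent.R183.Val
import Crest.Agent.R188.StdAuxA

/-! # R188 / Std : the ring `A = W(k)⟦x⟧`, its Frobenius lift, standard elements `f = p - g`, the Dwork
map `A → W(A)`, deep points. -/

set_option autoImplicit false
open IsLocalRing RingTheory.Sequence Crest.Agent.R183 MvPowerSeries

namespace Crest.Agent.R188

/-- DWORK'S LEMMA.  For a sequence `b` with `b (n+1) - φ (b n) ∈ (p^(n+1))` construct recursively
`x` with `ghostComponent n x = b n` (`aeval_wittPolynomial`; `φ x_i ≡ x_i^p mod p` implies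
`φ (p^i x_i^(p^(n-i))) ≡ p^i x_i^(p^(n+1-i)) mod p^(n+1)`, `dvd_sub_pow_of_dvd_sub`).  The ghost map is
injective as `A` has no `p`-torsion, which gives the ring axioms. -/
theorem exists_dwork (p : ℕ) [Fact p.Prime] {A : Type} [CommRing A]
    (hp : ∀ y : A, (p : A) * y = 0 → y = 0) (φ : A →+* A) (hφ : ∀ a, (p : A) ∣ φ a - a ^ p) :
    ∃ s : A →+* WittVector p A, ∀ n a, WittVector.ghostComponent n (s a) = (φ ^ n) a := by
  exact dwA_dwork p hp φ hφ

theorem ghost_inj (p : ℕ) [Fact p.Prime] {A : Type} [CommRing A]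
    (hp : ∀ y : A, (p : A) * y = 0 → y = 0) {x y : WittVector p A}
    (h : ∀ n, WittVector.ghostComponent n x = WittVector.ghostComponent n y) : x = y := by
  exact dwA_inj p hp h

/-- if the coefficients below `n` vanish, `w_n(x) = p^n x_n` -/
theorem ghost_of_coeff (p : ℕ) [Fact p.Prime] {A : Type} [CommRing A] {x : WittVector p A} {n : ℕ}
    (h : ∀ j < n, x.coeff j = 0) : WittVector.ghostComponent n x = (p : A) ^ n * x.coeff n := by
  exact dwA_of_coeff p h

/-- Witt vectors with vanishing first `n` coefficients form an ideal (`ker (truncate n)`) -/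
noncomputable def VI (p : ℕ) [Fact p.Prime] (A : Type) [CommRing A] (n : ℕ) :
    Ideal (WittVector p A) := RingHom.ker (WittVector.truncate n)

theorem mem_VI {p : ℕ} [Fact p.Prime] {A : Type} [CommRing A] {n : ℕ} {x : WittVector p A} :
    x ∈ VI p A n ↔ ∀ j < n, x.coeff j = 0 := WittVector.mem_ker_truncate n x

/-- over a perfect ring, a Witt vector with unit constant coefficient is a unit
(`WittVector.isAdicCompleteIdealSpanP`, `IsAdicComplete.le_jacobson_bot`) -/
theorem witt_isUnit {p : ℕ} [Fact p.Prime] {V : Type} [CommRing V] [CharP V p] [PerfectRing V p]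
    {x : WittVector p V} (h : IsUnit (x.coeff 0)) : IsUnit x := by
  exact dwA_isUnit h

variable (p : ℕ) [Fact p.Prime] (k : Type) [Field k] [IsAlgClosed k] [CharP k p] (d : ℕ)

abbrev WW : Type := WittVector p k

abbrev AA : Type := PS d (WittVector p k)

theorem WW_max : maximalIdeal (WW p k) = Ideal.span {(p : WW p k)} :=
  (WittVector.irreducible p).maximalIdeal_eq

instance : CLN (WW p k) where
  noeth := inferInstance
  compl := WW_max p k ▸ WittVector.isAdicCompleteIdealSpanP

/-- the Frobenius lift `x ↦ x^p` -/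
noncomputable def phi : AA p k d →+* AA p k d :=
  (expand (σ := Fin d) (R := WW p k) p (Fact.out : p.Prime).ne_zero).toRingHom.comp
    (MvPowerSeries.map WittVector.frobenius)

/-- `φ^e` -/
noncomputable def ph (e : ℕ) : AA p k d →+* AA p k d := phi p k d ^ e

theorem sdb_map_span : (Ideal.span {(p : WW p k)}).map (C : WW p k →+* AA p k d) =
    Ideal.span {(p : AA p k d)} := by
  rw [Ideal.map_span, Set.image_singleton, map_natCast]

theorem sdb_p_ne : (p : WW p k) ≠ 0 := (WittVector.irreducible p).ne_zero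

theorem AA_max : maximalIdeal (AA p k d) = Ideal.span {(p : AA p k d)} ⊔ XP d (WW p k) := by
  rw [PS.max_eq, WW_max, sdb_map_span]

theorem AA_regLoc : RegLoc (AA p k d) (d + 1) := by
  refine RegLoc.ps ⟨[(p : WW p k)], rfl, ?_, ?_⟩
  · rw [isWeaklyRegular_singleton_iff]
    exact fun x y h => mul_left_cancel₀ (sdb_p_ne p k) h
  · rw [WW_max, Ideal.ofList_singleton]

theorem AA_p_reg (y : AA p k d) (h : (p : AA p k d) * y = 0) : y = 0 := by
  ext1 μ
  have h1 := congrArg (coeff μ) h
  rw [← map_natCast (C : WW p k →+* AA p k d), coeff_C_mul, map_zero] at h1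
  exact (mul_eq_zero.1 h1).resolve_left (sdb_p_ne p k)

/-- the kernel of `map constantCoeff : A → k⟦x⟧` is `(p)` (`ker_map_eq`, `WittVector.ker_constantCoeff`) -/
theorem AA_ker_red : RingHom.ker (MvPowerSeries.map (σ := Fin d)
    (WittVector.constantCoeff : WW p k →+* k)) = Ideal.span {(p : AA p k d)} := by
  rw [ker_map_eq _ (IsNoetherian.noetherian _), WittVector.ker_constantCoeff, sdb_map_span]

theorem AA_p_prime : (Ideal.span {(p : AA p k d)}).IsPrime := by
  have : IsDomain (MvPowerSeries (Fin d) k) := NoZeroDivisors.to_isDomain _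
  rw [← AA_ker_red]
  exact RingHom.ker_isPrime _

theorem AA_res (y : AA p k d) : ∃ w, y - C w ∈ maximalIdeal (AA p k d) := by
  obtain ⟨w, hw⟩ := PS.res y
  exact ⟨w, AA_max p k d ▸ Ideal.mem_sup_right hw⟩

/-- `p`-torsion-free modules over the discrete valuation ring `W` are flat -/
theorem flat_of_p_reg {X : Type} [CommRing X] (ω : WW p k →+* X)
    (h : ∀ y : X, (p : X) * y = 0 → y = 0) : ω.Flat := by
  let := ω.toAlgebra
  refine Module.Flat.flat_iff_torsion_eq_bot_of_isBezout.2 (eq_bot_iff.2 ?_)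
  rintro x ⟨⟨a, ha⟩, hx⟩
  obtain ⟨n, u, rfl⟩ := IsDiscreteValuationRing.eq_unit_mul_pow_irreducible
    (nonZeroDivisors.ne_zero ha) (WittVector.irreducible p)
  have h1 : ω u * ((p : X) ^ n * x) = 0 := by
    rw [← mul_assoc, ← map_natCast ω, ← map_pow, ← map_mul]
    exact hx
  have h2 : (p : X) ^ n * x = 0 := (u.isUnit.map ω).mul_right_eq_zero.1 h1
  clear h1 hx ha
  rw [Submodule.mem_bot]
  induction n with
  | zero => simpa using h2
  | succ n ih => exact ih (h _ (by rw [← mul_assoc, ← pow_succ', h2]))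

variable {p k d}

theorem ph_zero (y : AA p k d) : ph p k d 0 y = y := rfl

theorem ph_succ (e : ℕ) (y : AA p k d) : ph p k d (e + 1) y = ph p k d e (phi p k d y) := rfl

theorem sdb_succ (e : ℕ) : ph p k d (e + 1) = (ph p k d e).comp (phi p k d) := rfl

theorem sdb_phi_X (i : Fin d) : phi p k d (X i) = X i ^ p := by
  simp [phi]

theorem sdb_phi_C (w : WW p k) : phi p k d (C w) = C (WittVector.frobenius w) := by
  simp [phi, expand_C]

theorem sdb_map_bij : Function.Bijective (MvPowerSeries.map (σ := Fin d)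
    (WittVector.frobenius : WW p k →+* WW p k)) := by
  have hb := WittVector.frobenius_bijective p k
  refine ⟨fun f g h => ?_, map_surjective _ hb.2⟩
  ext1 μ
  apply hb.1
  rw [← coeff_map, ← coeff_map, h]

theorem sdb_phi_sub (y : AA p k d) : (p : AA p k d) ∣ phi p k d y - y ^ p := by
  have hp : p ≠ 0 := (Fact.out : p.Prime).ne_zero
  have h1 : (WittVector.constantCoeff : WW p k →+* k).comp WittVector.frobenius =
      (frobenius k p).comp WittVector.constantCoeff := by
    ext1 w
    exact WittVector.coeff_frobenius_charP p w 0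
  rw [← Ideal.mem_span_singleton, ← AA_ker_red, RingHom.mem_ker, map_sub, map_pow,
    ← map_frobenius_expand p hp, map_expand, map_map, ← h1, ← map_map, ← map_expand, sub_eq_zero]
  rfl

theorem sdb_expand_finite {n : ℕ} {W : Type} [CommRing W] (q : ℕ) (hq : q ≠ 0) :
    (MvPowerSeries.expand (σ := Fin n) (R := W) q hq).toRingHom.Finite := by
  classical
  let M : Module (PS n W) (PS n W) :=
    (MvPowerSeries.expand (σ := Fin n) (R := W) q hq).toRingHom.toAlgebra.toModule
  refine @Module.Finite.of_fg_top _ _ _ _ M ((@Submodule.fg_def _ _ _ _ M _).2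
    ⟨Set.range fun m : Fin n → Fin q => monomial (psc_ex m) 1, Set.finite_range _,
      eq_top_iff.2 fun b _ => ?_⟩)
  rw [psc_eq_sum hq b]
  refine sum_mem fun m _ => ?_
  rw [mul_comm]
  exact @Submodule.smul_mem _ _ _ _ M _ _ (psc_sl q (psc_ex m) b)
    (@Submodule.subset_span _ _ _ _ M _ _ ⟨m, rfl⟩)

theorem ph_add (e e' : ℕ) (y : AA p k d) : ph p k d (e + e') y = ph p k d e (ph p k d e' y) := by
  rw [ph, pow_add]
  rfl

theorem ph_X (e : ℕ) (i : Fin d) : ph p k d e (X i) = X i ^ p ^ e := by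
  induction e with
  | zero => rw [ph_zero, pow_zero, pow_one]
  | succ e ih => rw [ph_succ, sdb_phi_X, map_pow, ih, ← pow_mul, pow_succ]

theorem ph_C (e : ℕ) (w : WW p k) : ∃ w', ph p k d e (C w) = C w' := by
  induction e generalizing w with
  | zero => exact ⟨w, rfl⟩
  | succ e ih => rw [ph_succ, sdb_phi_C]; exact ih _

theorem ph_C_surj (e : ℕ) (w : WW p k) : ∃ w', ph p k d e (C w') = C w := by
  induction e with
  | zero => exact ⟨w, rfl⟩
  | succ e ih =>
    obtain ⟨w', h⟩ := ih
    obtain ⟨w'', rfl⟩ := (WittVector.frobenius_bijective p k).2 w'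
    exact ⟨w'', by rw [ph_succ, sdb_phi_C, h]⟩

/-- reduce modulo `p` (`AA_ker_red`, `map_frobenius_expand`) -/
theorem ph_sub_pow (e : ℕ) (y : AA p k d) : (p : AA p k d) ∣ ph p k d e y - y ^ p ^ e := by
  induction e generalizing y with
  | zero => simp [ph_zero]
  | succ e ih =>
    have h1 := (ih (phi p k d y)).add ((sdb_phi_sub y).trans (sub_dvd_pow_sub_pow _ _ (p ^ e)))
    rwa [sub_add_sub_cancel, ← pow_mul, ← pow_succ'] at h1

/-- `psc_eq_sum`, `map_surjective` -/
theorem ph_finite (e : ℕ) : (ph p k d e).Finite := by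
  induction e with
  | zero => exact RingHom.Finite.id _
  | succ e ih =>
    rw [sdb_succ]
    exact ih.comp ((sdb_expand_finite _ _).comp (RingHom.Finite.of_surjective _ sdb_map_bij.2))

/-- `PS.flat_expand` -/
theorem ph_flat (e : ℕ) : (ph p k d e).Flat := by
  induction e with
  | zero => exact RingHom.Flat.id _
  | succ e ih =>
    rw [sdb_succ]
    exact ((RingHom.Flat.of_bijective sdb_map_bij).comp (PS.flat_expand _ _)).comp ih

theorem ph_inj (e : ℕ) : Function.Injective (ph p k d e) := by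
  induction e with
  | zero => exact Function.injective_id
  | succ e ih =>
    intro f g h
    refine sdb_map_bij.1 (MvPowerSeries.ext fun μ => ?_)
    rw [← coeff_expand_smul p (Fact.out : p.Prime).ne_zero,
      ← coeff_expand_smul p (Fact.out : p.Prime).ne_zero (map _ g)]
    exact congrArg _ (ih h)

theorem ph_max (e : ℕ) {y : AA p k d} (h : y ∈ maximalIdeal (AA p k d)) :
    ph p k d e y ∈ maximalIdeal (AA p k d) := by
  have h1 : ph p k d e y - y ^ p ^ e ∈ maximalIdeal (AA p k d) :=
    AA_max p k d ▸ Ideal.mem_sup_left (Ideal.mem_span_singleton.2 (ph_sub_pow e y))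
  simpa using add_mem h1 (Ideal.pow_mem_of_mem _ h _ (pow_pos (Fact.out : p.Prime).pos e))

theorem ph_XP (e : ℕ) {y : AA p k d} (h : y ∈ XP d (WW p k)) :
    ph p k d e y ∈ Ideal.span (Set.range fun i : Fin d => (X i : AA p k d) ^ p ^ e) := by
  have h1 := Ideal.mem_map_of_mem (ph p k d e) h
  rw [XP, Ideal.map_span, ← Set.range_comp] at h1
  simpa only [Function.comp_def, ph_X] using h1

theorem Dl.ph {I : Ideal (AA p k d)} {n : ℕ} (h : Dl I n) (e : ℕ) : Dl (I.map (ph p k d e)) n :=
  h.map_integral _ (ph_finite e).to_isIntegral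

theorem Prim.ph {I J : Ideal (AA p k d)} (h : Prim I J) (e : ℕ) :
    Prim (I.map (ph p k d e)) (J.map (ph p k d e)) := by
  rw [prim_iff, ← Ideal.map_sup]
  exact (prim_iff.1 h).ph e

/-- in characteristic `p`, `φ^e` is the `p^e`-th power -/
theorem map_ph {L : Type} [CommRing L] (hp : (p : L) = 0) (α : AA p k d →+* L) (e : ℕ)
    (y : AA p k d) : α (ph p k d e y) = α y ^ p ^ e := by
  obtain ⟨c, hc⟩ := ph_sub_pow e y
  rw [sub_eq_iff_eq_add.1 hc, map_add, map_mul, map_natCast, hp, zero_mul, zero_add, map_pow]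

/-- `f ≡ p mod (x)` -/
def Dist (f : AA p k d) : Prop := f - p ∈ XP d (WW p k)

/-- `f ≡ p mod (x)` and `p ∤ f` -/
structure Std (f : AA p k d) : Prop where
  dist : Dist f
  ndvd : ¬ (p : AA p k d) ∣ f

theorem stc_p_mem : (p : AA p k d) ∈ maximalIdeal (AA p k d) := by
  rw [AA_max]
  exact Ideal.mem_sup_left (Ideal.mem_span_singleton_self _)

theorem stc_p_ne : (p : AA p k d) ≠ 0 := fun h =>
  one_ne_zero (AA_p_reg p k d 1 (by rw [h, zero_mul]))

theorem stc_unit_add {A : Type} [CommRing A] [IsLocalRing A] {u x : A} (hu : IsUnit u)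
    (hx : x ∈ maximalIdeal A) : IsUnit (u + x) := by
  by_contra h
  have h1 := sub_mem ((mem_maximalIdeal _).2 h) hx
  rw [add_sub_cancel_right] at h1
  exact (mem_maximalIdeal _).1 h1 hu

theorem stc_cc {f : AA p k d} (h : Dist f) : constantCoeff f = (p : WW p k) := by
  have h1 := mem_XP_iff.1 h
  rwa [map_sub, map_natCast, sub_eq_zero] at h1

theorem stc_pred : p - 1 ≠ 0 := by
  have := (Fact.out : p.Prime).two_le
  omega

theorem stc_pow {A : Type} [CommRing A] (a : A) : a ^ p = a * a ^ (p - 1) :=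
  (mul_pow_sub_one (Fact.out : p.Prime).ne_zero a).symm

theorem Dist.ph {f : AA p k d} (h : Dist f) (e : ℕ) : Dist (ph p k d e f) := by
  have h1 := ph_XP e h
  rw [map_sub, map_natCast] at h1
  refine Ideal.span_le.2 ?_ h1
  rintro _ ⟨i, rfl⟩
  exact Ideal.pow_mem_of_mem _ (Ideal.subset_span (Set.mem_range_self i)) _
    (pow_pos (Fact.out : p.Prime).pos e)

theorem Dist.mem_max {f : AA p k d} (h : Dist f) : f ∈ maximalIdeal (AA p k d) := by
  rw [← sub_add_cancel f p]
  refine add_mem ?_ stc_p_mem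
  rw [AA_max]
  exact Ideal.mem_sup_right h

/-- `δ(f)` is a unit: `φ f = f^p + p δ`, constant coefficient of `δ` is `1 - p^(p-1)` -/
theorem Dist.delta {f : AA p k d} (h : Dist f) :
    ∃ δ : AA p k d, IsUnit δ ∧ phi p k d f = f ^ p + p * δ := by
  obtain ⟨δ, hδ⟩ := ph_sub_pow 1 f
  rw [pow_one] at hδ
  refine ⟨δ, ?_, by rw [← hδ, add_sub_cancel]; rfl⟩
  have h1 := congrArg constantCoeff hδ
  rw [map_sub, map_pow, map_mul, map_natCast, stc_cc (h.ph 1), stc_cc h, stc_pow,
    ← mul_one_sub] at h1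
  rw [isUnit_iff_constantCoeff, ← mul_left_cancel₀ (WittVector.p_nonzero p k) h1, sub_eq_add_neg]
  refine stc_unit_add isUnit_one (neg_mem (Ideal.pow_mem_of_mem _ ?_ _ (Nat.pos_of_ne_zero stc_pred)))
  rw [WW_max]
  exact Ideal.mem_span_singleton_self _

/-- `φ^e f ≡ p · unit mod φ^j f` for `j < e` (induction on `e`, `Dist.delta` for `φ^(e-1) f`) -/
theorem Dist.ph_assoc {f : AA p k d} (h : Dist f) {j e : ℕ} (hj : j < e) :
    ∃ υ y : AA p k d, IsUnit υ ∧ R188.ph p k d e f = p * υ + y * R188.ph p k d j f := by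
  have key : ∀ e, ∃ δ : AA p k d, IsUnit δ ∧
      R188.ph p k d (e + 1) f = R188.ph p k d e f ^ p + p * δ := fun e => by
    obtain ⟨δ, h1, h2⟩ := (h.ph e).delta
    exact ⟨δ, h1, by rw [add_comm e, ph_add]; exact h2⟩
  induction e, hj using Nat.le_induction with
  | base =>
    obtain ⟨δ, h1, h2⟩ := key j
    exact ⟨δ, R188.ph p k d j f ^ (p - 1), h1, by rw [h2, stc_pow]; ring⟩
  | succ e _ ih =>
    obtain ⟨υ, y, h1, h2⟩ := ih
    obtain ⟨δ, h3, h4⟩ := key e
    obtain ⟨z, hz⟩ := sub_dvd_pow_sub_pow (p * υ + y * R188.ph p k d j f) (p * υ) p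
    refine ⟨δ + p ^ (p - 1) * υ ^ p, y * z, stc_unit_add h3 (Ideal.mul_mem_right _ _
      (Ideal.pow_mem_of_mem _ stc_p_mem _ (Nat.pos_of_ne_zero stc_pred))), ?_⟩
    rw [mul_pow, stc_pow (p : AA p k d)] at hz
    rw [h4, h2]
    linear_combination hz

theorem Dist.eq_unit {f : AA p k d} (h : Dist f) (hd : (p : AA p k d) ∣ f) :
    Ideal.span {f} = Ideal.span {(p : AA p k d)} := by
  obtain ⟨u, rfl⟩ := hd
  have h1 := stc_cc h
  rw [map_mul, map_natCast] at h1
  have h2 : constantCoeff u = 1 :=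
    mul_left_cancel₀ (WittVector.p_nonzero p k) (h1.trans (mul_one _).symm)
  exact Ideal.span_singleton_mul_right_unit (isUnit_iff_constantCoeff.2 (h2 ▸ isUnit_one)) _

theorem Std.ph {f : AA p k d} (h : Std f) (e : ℕ) : Std (ph p k d e f) := by
  refine ⟨h.dist.ph e, fun hd => h.ndvd ?_⟩
  have h1 := dvd_sub hd (ph_sub_pow e f)
  rw [sub_sub_cancel] at h1
  exact Ideal.mem_span_singleton.1
    ((AA_p_prime p k d).mem_of_pow_mem _ (Ideal.mem_span_singleton.2 h1))

theorem Std.dl {f : AA p k d} (h : Std f) : Dl (Ideal.span {f} ⊔ Ideal.span {(p : AA p k d)}) d := by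
  have := (AA_regLoc p k d).isDomain
  have h0 : Dl (⊥ : Ideal (AA p k d)) (d + 1 + 1) :=
    (dl_iff_of_eq (a := d + 1) ((ringKrullDim_eq_of_ringEquiv (RingEquiv.quotientBot _)).trans
      (AA_regLoc p k d).dim)).2 (Nat.lt_succ_self _)
  have h1 : Dl (Ideal.span {(p : AA p k d)}) (d + 1) :=
    h0.of_prime_lt Ideal.isPrime_bot
      (bot_lt_iff_ne_bot.2 (mt Ideal.span_singleton_eq_bot.1 stc_p_ne))
  refine h1.of_prime_lt (AA_p_prime p k d) (lt_of_le_of_ne le_sup_right fun he => h.ndvd ?_)
  rw [← Ideal.mem_span_singleton, he]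
  exact Ideal.mem_sup_left (Ideal.mem_span_singleton_self _)

/-- presentation `R = A/(f)` of a standard ring -/
structure Pres (f : AA p k d) {R : Type} [CommRing R] (π : AA p k d →+* R) : Prop where
  std : Std f
  surj : Function.Surjective π
  ker : RingHom.ker π = Ideal.span {f}

theorem Std.exists_pres {f : AA p k d} (h : Std f) : ∃ (R : Type) (_ : CommRing R)
    (_ : IsLocalRing R) (_ : IsNoetherianRing R) (π : AA p k d →+* R), Pres f π := by
  have hne : Ideal.span {f} ≠ ⊤ := fun he =>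
    (mem_maximalIdeal _).1 h.dist.mem_max (Ideal.span_singleton_eq_top.1 he)
  have := Ideal.Quotient.nontrivial_iff.2 hne
  exact ⟨AA p k d ⧸ Ideal.span {f}, inferInstance,
    IsLocalRing.of_surjective' (Ideal.Quotient.mk _) Ideal.Quotient.mk_surjective, inferInstance,
    Ideal.Quotient.mk _, h, Ideal.Quotient.mk_surjective, Ideal.mk_ker⟩

section Pres
variable {f : AA p k d} {R : Type} [CommRing R] [IsLocalRing R] {π : AA p k d →+* R}

theorem stc_max {f : AA p k d} (h : Dist f) :
    maximalIdeal (AA p k d) = Ideal.span {f} ⊔ XP d (WW p k) := by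
  refine le_antisymm ?_ (sup_le ((Ideal.span_singleton_le_iff_mem _).2 h.mem_max) ?_)
  · rw [AA_max]
    refine sup_le ((Ideal.span_singleton_le_iff_mem _).2 ?_) le_sup_right
    rw [← sub_sub_cancel f p]
    exact sub_mem (Ideal.mem_sup_left (Ideal.mem_span_singleton_self _)) (Ideal.mem_sup_right h)
  · rw [AA_max]
    exact le_sup_right

omit [IsLocalRing R] in
theorem stc_zero (h : Pres f π) : π f = 0 := by
  rw [← RingHom.mem_ker, h.ker]
  exact Ideal.mem_span_singleton_self _

theorem Pres.max (h : Pres f π) :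
    maximalIdeal R = Ideal.span (Set.range fun i : Fin d => π (X i)) := by
  rw [← map_maximalIdeal_of_surjective π h.surj, stc_max h.std.dist, Ideal.map_sup, Ideal.map_span,
    Set.image_singleton, stc_zero h, Ideal.span_singleton_zero, bot_sup_eq, XP, Ideal.map_span,
    ← Set.range_comp]
  rfl

theorem Pres.map_max (h : Pres f π) : (maximalIdeal (AA p k d)).map π = maximalIdeal R := by
  exact map_maximalIdeal_of_surjective π h.surj

/-- `f :: X` is a system of parameters of `A` (`RegLoc.regular_of_params`, `isWeaklyRegular_of_ker`) -/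
theorem Pres.regLoc (h : Pres f π) : RegLoc R d := by
  have h1 : Ideal.ofList (f :: List.ofFn (X : Fin d → AA p k d)) = maximalIdeal (AA p k d) := by
    rw [Ideal.ofList_cons, dime_ofList_X, stc_max h.std.dist]
  have h2 := (AA_regLoc p k d).regular_of_params (f :: List.ofFn X) (by simp)
    (fun y hy => h1 ▸ Ideal.subset_span hy) (dl_one_iff.2 ⟨1, by rw [pow_one, h1]⟩)
  refine ⟨(List.ofFn X).map π, by simp, isWeaklyRegular_of_ker π h.surj [f] _
    (by rw [h.ker, Ideal.ofList_singleton]) h2, ?_⟩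
  rw [List.map_ofFn, dimb_ofList_ofFn, h.max]
  rfl

theorem Pres.p_ne (h : Pres f π) : (p : R) ≠ 0 := by
  intro h0
  have h1 : (p : AA p k d) ∈ RingHom.ker π := by rw [RingHom.mem_ker, map_natCast, h0]
  rw [h.ker, Ideal.mem_span_singleton] at h1
  obtain ⟨c, hc⟩ := h1
  have h2 : f * c ∈ Ideal.span {(p : AA p k d)} := hc ▸ Ideal.mem_span_singleton_self _
  rcases (AA_p_prime p k d).mem_or_mem h2 with h3 | h3
  · exact h.std.ndvd (Ideal.mem_span_singleton.1 h3)
  · obtain ⟨c', rfl⟩ := Ideal.mem_span_singleton.1 h3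
    have h4 := AA_p_reg p k d (f * c' - 1) (by linear_combination -hc)
    exact (mem_maximalIdeal _).1 h.std.dist.mem_max (IsUnit.of_mul_eq_one c' (sub_eq_zero.1 h4))

omit [IsLocalRing R] in
theorem Pres.lift (h : Pres f π) {M : Type} [CommRing M] (α : AA p k d →+* M) (hα : α f = 0) :
    ∃ μ : R →+* M, ∀ y, μ (π y) = α y := by
  have hle : RingHom.ker π ≤ RingHom.ker α := by
    rw [h.ker]
    exact (Ideal.span_singleton_le_iff_mem _).2 hα
  exact ⟨π.liftOfSurjective h.surj ⟨α, hle⟩, RingHom.liftOfSurjective_comp_apply π h.surj ⟨α, hle⟩⟩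

theorem Pres.prim (h : Pres f π) {I J : Ideal (AA p k d)} (hp : Prim I J) :
    Prim (I.map π) (J.map π) := by
  obtain ⟨L, hL⟩ := hp
  exact ⟨L, by rw [← h.map_max, ← Ideal.map_pow, ← Ideal.map_sup]; exact Ideal.map_mono hL⟩

theorem stc_length {S : Type} [CommRing S] [IsLocalRing S] [IsNoetherianRing S] {J : Ideal S}
    (h1 : J ≤ maximalIdeal S) {L : ℕ} (h2 : maximalIdeal S ^ L ≤ J) :
    0 < (Module.length S (S ⧸ J)).toNat := by
  have hne : J ≠ ⊤ := fun he => (maximalIdeal.isMaximal S).ne_top (top_le_iff.1 (he ▸ h1))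
  have := Ideal.Quotient.nontrivial_iff.2 hne
  have : IsArtinianRing (S ⧸ J) := quotient_artinian_of_mem_minimalPrimes_of_isLocalRing J
    ⟨⟨inferInstance, h1⟩, fun q hq _ => hq.1.le_of_pow_le (h2.trans hq.2)⟩
  have : IsArtinian S (S ⧸ J) :=
    isArtinian_of_surjective_algebraMap (R := S ⧸ J) Ideal.Quotient.mk_surjective
  exact ENat.toNat_pos Module.length_pos.ne' Module.length_ne_top

/-- flat base change `R → R' = A/(φ^e f)` (`R183.flat_quotientMap` or `colon`-free argument) -/
theorem Pres.bc (h : Pres f π) (e : ℕ) {R' : Type} [CommRing R'] [IsLocalRing R']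
    {π' : AA p k d →+* R'} (h' : Pres (ph p k d e f) π') : ∃ σ : R →+* R',
      (∀ y, σ (π y) = π' (ph p k d e y)) ∧ σ.Flat ∧ (maximalIdeal R).map σ ≤ maximalIdeal R' ∧
        0 < (Module.length R' (R' ⧸ (maximalIdeal R).map σ)).toNat := by
  obtain ⟨σ, hσ⟩ := h.lift (π'.comp (ph p k d e)) (stc_zero h' :)
  have hm : (maximalIdeal R).map σ = ((maximalIdeal (AA p k d)).map (ph p k d e)).map π' := by
    rw [← h.map_max, Ideal.map_map, Ideal.map_map]
    congr 1
    exact RingHom.ext hσ
  have hle : (maximalIdeal R).map σ ≤ maximalIdeal R' := by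
    rw [hm, ← h'.map_max]
    exact Ideal.map_mono (Ideal.map_le_iff_le_comap.2 fun y hy => ph_max e hy)
  refine ⟨σ, hσ, ?_, hle, ?_⟩
  · have hk : RingHom.ker π' = (RingHom.ker π).map (ph p k d e) := by
      rw [h.ker, h'.ker, Ideal.map_span, Set.image_singleton]
    let e₁ := RingHom.quotientKerEquivOfSurjective h.surj
    let e₂ := (Ideal.quotEquivOfEq hk.symm).trans (RingHom.quotientKerEquivOfSurjective h'.surj)
    have h1 := flat_quotientMap _ (ph_flat (p := p) (k := k) (d := d) e) (RingHom.ker π)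
    have h2 := ((RingHom.Flat.of_bijective (f := e₁.symm.toRingHom) e₁.symm.bijective).comp h1).comp
      (RingHom.Flat.of_bijective (f := e₂.toRingHom) e₂.bijective)
    convert h2
    ext x
    obtain ⟨y, rfl⟩ := h.surj x
    have h3 : e₁.symm (π y) = Ideal.Quotient.mk _ y := e₁.symm_apply_eq.2 rfl
    rw [hσ]
    change _ = e₂ (Ideal.quotientMap _ (ph p k d e) Ideal.le_comap_map (e₁.symm (π y)))
    rw [h3]
    rfl
  · have : IsNoetherianRing R' := isNoetherianRing_of_surjective _ _ π' h'.surj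
    have h1 : Prim (maximalIdeal (AA p k d)) (maximalIdeal (AA p k d)) := ⟨1, by simp⟩
    obtain ⟨L, hL⟩ := h'.prim (h1.ph e)
    rw [sup_idem, ← hm] at hL
    exact stc_length hle hL

end Pres

/-! ### the Dwork map -/

variable (p k d) in
noncomputable def dw : AA p k d →+* WittVector p (AA p k d) :=
  (exists_dwork p (AA_p_reg p k d) (phi p k d) fun a => by
    simpa [ph] using ph_sub_pow 1 a).choose

theorem dw_ghost (n : ℕ) (a : AA p k d) :
    WittVector.ghostComponent n (dw p k d a) = ph p k d n a :=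
  (exists_dwork p (AA_p_reg p k d) (phi p k d) fun a => by
    simpa [ph] using ph_sub_pow 1 a).choose_spec n a

theorem stdd_ghost_map {R S : Type} [CommRing R] [CommRing S] (g : R →+* S) (n : ℕ)
    (x : WittVector p R) :
    WittVector.ghostComponent n (WittVector.map g x) = g (WittVector.ghostComponent n x) := by
  simp only [WittVector.ghostComponent_apply, aeval_wittPolynomial, map_sum, map_mul, map_pow,
    map_natCast, WittVector.map_coeff]

theorem stdd_ghost_zero {R : Type} [CommRing R] (x : WittVector p R) :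
    WittVector.ghostComponent 0 x = x.coeff 0 := by
  simp [WittVector.ghostComponent_apply]

theorem stdd_ghost_one {R : Type} [CommRing R] (x : WittVector p R) :
    WittVector.ghostComponent 1 x = x.coeff 0 ^ p + p * x.coeff 1 := by
  simp [WittVector.ghostComponent_apply, add_comm]

theorem dw_coeff_zero (a : AA p k d) : (dw p k d a).coeff 0 = a := by
  rw [← stdd_ghost_zero, dw_ghost, ph_zero]

theorem dw_X (i : Fin d) : dw p k d (X i) = WittVector.teichmuller p (X i) := by
  refine ghost_inj p (AA_p_reg p k d) fun n => ?_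
  rw [dw_ghost, ph_X, WittVector.ghostComponent_teichmuller]

theorem frobenius_dw (a : AA p k d) :
    WittVector.frobenius (dw p k d a) = dw p k d (phi p k d a) := by
  refine ghost_inj p (AA_p_reg p k d) fun n => ?_
  rw [WittVector.ghostComponent_frobenius, dw_ghost, dw_ghost, ph_succ]

theorem map_phi_dw (a : AA p k d) :
    WittVector.map (phi p k d) (dw p k d a) = dw p k d (phi p k d a) := by
  refine ghost_inj p (AA_p_reg p k d) fun n => ?_
  rw [stdd_ghost_map, dw_ghost, dw_ghost, ← ph_succ, add_comm, ph_add, ph_succ, ph_zero]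

theorem Dist.dw_one {f : AA p k d} (h : Dist f) : IsUnit ((dw p k d f).coeff 1) := by
  obtain ⟨δ, hδ, e⟩ := h.delta
  have h1 := dw_ghost 1 f
  rw [stdd_ghost_one, dw_coeff_zero, ph_succ, ph_zero, e] at h1
  have h2 : (dw p k d f).coeff 1 - δ = 0 := AA_p_reg p k d _ (by linear_combination h1)
  rw [sub_eq_zero.1 h2]
  exact hδ

/-- the lift `A → W(V)` of a point `A → V` -/
noncomputable def Psi {V : Type} [CommRing V] (ψ : AA p k d →+* V) : AA p k d →+* WittVector p V :=
  (WittVector.map ψ).comp (dw p k d)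

section Psi
variable {V : Type} [CommRing V] (ψ : AA p k d →+* V)

theorem Psi_coeff_zero (a : AA p k d) : (Psi ψ a).coeff 0 = ψ a := by
  rw [Psi, RingHom.comp_apply, WittVector.map_coeff, dw_coeff_zero]

theorem Psi_X (i : Fin d) : Psi ψ (X i) = WittVector.teichmuller p (ψ (X i)) := by
  rw [Psi, RingHom.comp_apply, dw_X, WittVector.map_teichmuller]

theorem Psi_ghost (n : ℕ) (a : AA p k d) :
    WittVector.ghostComponent n (Psi ψ a) = ψ (ph p k d n a) := by
  rw [Psi, RingHom.comp_apply, stdd_ghost_map, dw_ghost]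

theorem Psi_comp {V' : Type} [CommRing V'] (θ : V →+* V') (a : AA p k d) :
    Psi (θ.comp ψ) a = WittVector.map θ (Psi ψ a) := by
  ext n
  simp only [Psi, RingHom.comp_apply, WittVector.map_coeff]

/-- in characteristic `p` the map on constants factors through `k` -/
theorem exists_iota (hp : (p : V) = 0) : ∃ ι : k →+* V, ∀ w, ψ (C w) = ι (w.coeff 0) := by
  have hk : RingHom.ker (WittVector.constantCoeff : WW p k →+* k) ≤
      RingHom.ker (ψ.comp (C : WW p k →+* AA p k d)) := by
    rw [WittVector.ker_constantCoeff, Ideal.span_le, Set.singleton_subset_iff]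
    simp [hp]
  refine ⟨WittVector.constantCoeff.liftOfSurjective (WittVector.constantCoeff_surjective p)
    ⟨ψ.comp C, hk⟩, fun w => ?_⟩
  exact (RingHom.liftOfRightInverse_comp_apply _ _ _ ⟨ψ.comp C, hk⟩ w).symm

theorem stdd_ph_teich (n : ℕ) (a : k) :
    ph p k d n (C (WittVector.teichmuller p a)) = C (WittVector.teichmuller p a) ^ p ^ n := by
  have h1 : phi p k d (C (WittVector.teichmuller p a)) = C (WittVector.teichmuller p a) ^ p := by
    have h2 : WittVector.frobenius (WittVector.teichmuller p a) =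
        WittVector.teichmuller p a ^ p := by
      rw [WittVector.frobenius_eq_map_frobenius, WittVector.map_teichmuller, frobenius_def, map_pow]
    rw [← map_pow, ← h2]
    simp [phi, MvPowerSeries.expand_C]
  induction n with
  | zero => simp [ph_zero]
  | succ n ih => rw [ph_succ, h1, map_pow, ih, ← pow_mul, pow_succ]

theorem stdd_dw_teich (a : k) : dw p k d (C (WittVector.teichmuller p a)) =
    WittVector.teichmuller p (C (WittVector.teichmuller p a)) := by
  refine ghost_inj p (AA_p_reg p k d) fun n => ?_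
  rw [dw_ghost, stdd_ph_teich, WittVector.ghostComponent_teichmuller]

/-- `dw (C [a]) = [C [a]]` by ghost components; two ring maps `W(k) → W(V)/p^n` that agree on
Teichmüller elements agree (`WittVector.eq_of_apply_teichmuller_eq`); `W(V)` is `p`-adically
separated. -/
theorem Psi_C [CharP V p] [PerfectRing V p] (ι : k →+* V) (h : ∀ w, ψ (C w) = ι (w.coeff 0))
    (w : WW p k) : Psi ψ (C w) = WittVector.map ι w := by
  ext m
  let I : Ideal (WittVector p V) := Ideal.span {(p : WittVector p V) ^ (m + 1)}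
  have hn : IsNilpotent (p : WittVector p V ⧸ I) := by
    refine ⟨m + 1, ?_⟩
    rw [← map_natCast (Ideal.Quotient.mk I), ← map_pow, Ideal.Quotient.eq_zero_iff_mem]
    exact Ideal.subset_span rfl
  have e := WittVector.eq_of_apply_teichmuller_eq
    ((Ideal.Quotient.mk I).comp ((Psi ψ).comp (C : WW p k →+* AA p k d)))
    ((Ideal.Quotient.mk I).comp (WittVector.map ι)) hn fun a => by
      simp only [RingHom.comp_apply, Psi, stdd_dw_teich, WittVector.map_teichmuller, h,
        WittVector.teichmuller_coeff_zero]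
  have e2 := RingHom.congr_fun e w
  simp only [RingHom.comp_apply] at e2
  rw [Ideal.Quotient.eq, WittVector.mem_span_p_pow_iff_le_coeff_eq_zero,
    ← WittVector.le_coeff_eq_iff_le_sub_coeff_eq_zero] at e2
  exact e2 m (Nat.lt_succ_self m)

theorem Psi_XP {t : V} (ht : ∀ i, t ∣ ψ (X i)) {y : AA p k d} (hy : y ∈ XP d (WW p k)) :
    WittVector.teichmuller p t ∣ Psi ψ y := by
  have hle : XP d (WW p k) ≤ (Ideal.span {WittVector.teichmuller p t}).comap (Psi ψ) := by
    rw [XP, Ideal.span_le]
    rintro _ ⟨i, rfl⟩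
    obtain ⟨c, hc⟩ := ht i
    rw [SetLike.mem_coe, Ideal.mem_comap, Ideal.mem_span_singleton, Psi_X, hc, map_mul]
    exact dvd_mul_right _ _
  exact Ideal.mem_span_singleton.1 (hle hy)

theorem Psi_dist {f : AA p k d} (hf : Dist f) {t : V} (ht : ∀ i, t ∣ ψ (X i)) :
    ∃ γ, Psi ψ f = p - WittVector.teichmuller p t * γ := by
  obtain ⟨c, hc⟩ := Psi_XP ψ ht hf
  rw [map_sub, map_natCast] at hc
  exact ⟨-c, by linear_combination hc⟩

/-- if `ψ f = 0` then `Ψ f = V(ε) = p F⁻¹ ε` with `ε₀ = ψ (δ f)` a unit -/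
theorem Psi_dist_zero [CharP V p] [PerfectRing V p] {f : AA p k d} (hf : Dist f) (h0 : ψ f = 0) :
    ∃ υ, IsUnit υ ∧ Psi ψ f = p * υ := by
  have h1 : (Psi ψ f).coeff 0 = 0 := by rw [Psi_coeff_zero, h0]
  rw [← WittVector.mem_span_p_iff_coeff_zero_eq_zero, Ideal.mem_span_singleton] at h1
  obtain ⟨υ, hυ⟩ := h1
  refine ⟨υ, witt_isUnit ?_, hυ⟩
  have h2 : IsUnit ((Psi ψ f).coeff 1) := by
    rw [Psi, RingHom.comp_apply, WittVector.map_coeff]
    exact hf.dw_one.map ψ
  rw [hυ, mul_comm, WittVector.mul_charP_coeff_succ] at h2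
  exact (isUnit_pow_iff (Fact.out : p.Prime).ne_zero).1 h2

end Psi

/-- `σ` is a "tilt" of `a` to precision `p^n` -/
def Root {E : Type} [CommRing E] (α : AA p k d →+* E) (f : AA p k d) (n : ℕ) (σ : E)
    (a : AA p k d) : Prop :=
  ∀ (V : Type) [CommRing V] [CharP V p] [PerfectRing V p] (ψ : E →+* V),
    WittVector.teichmuller p (ψ σ) - Psi (ψ.comp α) a ∈
      Ideal.span {Psi (ψ.comp α) f, (p : WittVector p V) ^ n}

/-- all points of `E` lie on `V(J)` to precision `p^n` -/
def Deep {E : Type} [CommRing E] (α : AA p k d →+* E) (f : AA p k d) (n : ℕ)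
    (J : Ideal (AA p k d)) : Prop := ∀ a ∈ J, Root α f n 0 a

section Root
variable {E : Type} [CommRing E] {α : AA p k d →+* E} {f : AA p k d} {n : ℕ}

theorem Root.one : Root α f n 1 1 := by
  intro V _ _ _ ψ
  simp

theorem Deep.span {H : Type} {h : H → AA p k d} (hh : ∀ l, Root α f n 0 (h l)) :
    Deep α f n (Ideal.span {f} ⊔ Ideal.span (Set.range h)) := by
  intro a ha V _ _ _ ψ
  have hle : Ideal.span {f} ⊔ Ideal.span (Set.range h) ≤
      (Ideal.span {Psi (ψ.comp α) f, (p : WittVector p V) ^ n}).comap (Psi (ψ.comp α)) := by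
    refine sup_le ?_ ?_
    · rw [Ideal.span_le, Set.singleton_subset_iff, SetLike.mem_coe, Ideal.mem_comap]
      exact Ideal.subset_span (Set.mem_insert _ _)
    · rw [Ideal.span_le]
      rintro _ ⟨l, rfl⟩
      have := hh l V ψ
      rw [map_zero, WittVector.teichmuller_zero, zero_sub, neg_mem_iff] at this
      exact this
  rw [map_zero, WittVector.teichmuller_zero, zero_sub, neg_mem_iff]
  exact hle ha

/-- `Psi_dist_zero`, `mem_span_p_iff_coeff_zero_eq_zero` -/
theorem Root.self (hf : Dist f) (h0 : α f = 0) (a : AA p k d) : Root α f n (α a) a := by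
  intro V _ _ _ ψ
  obtain ⟨υ, hυ, e⟩ := Psi_dist_zero (ψ.comp α) hf (by rw [RingHom.comp_apply, h0, map_zero])
  have h1 : (WittVector.teichmuller p (ψ (α a)) - Psi (ψ.comp α) a).coeff 0 = 0 := by
    rw [← WittVector.constantCoeff_apply, map_sub, WittVector.constantCoeff_apply,
      WittVector.constantCoeff_apply, Psi_coeff_zero, WittVector.teichmuller_coeff_zero,
      RingHom.comp_apply, sub_self]
  rw [← WittVector.mem_span_p_iff_coeff_zero_eq_zero] at h1
  refine (Ideal.span_le.2 (Set.singleton_subset_iff.2 ?_)) h1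
  obtain ⟨u, rfl⟩ := hυ
  have h2 : (p : WittVector p V) = (↑u⁻¹ : WittVector p V) * Psi (ψ.comp α) f := by
    rw [e, mul_comm, mul_assoc, Units.mul_inv, mul_one]
  have h3 : (↑u⁻¹ : WittVector p V) * Psi (ψ.comp α) f ∈
      Ideal.span {Psi (ψ.comp α) f, (p : WittVector p V) ^ n} :=
    Ideal.mul_mem_left _ _ (Ideal.subset_span (Set.mem_insert _ _))
  rw [← h2] at h3
  exact h3

theorem Deep.of_ker (hf : Dist f) (h0 : α f = 0) {J : Ideal (AA p k d)} (hJ : ∀ a ∈ J, α a = 0) :
    Deep α f n J := by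
  intro a ha
  have := Root.self (n := n) hf h0 a
  rwa [hJ a ha] at this

end Root

end Crest.Agent.R188
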