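import Crest.Agent.R188.Cx

/-! # R188 / Tor : resolutions, `T O M N i = H_i(M ⊗ Res N)`, acyclic resolutions, symmetry, change of
rings, comparison with Mathlib's `Tor`. -/

set_option autoImplicit false
open TensorProduct

namespace Crest.Agent.R188

variable (O : Type) [CommRing O]

theorem tora_step (K : ModuleCat.{0} O) : ∃ (F : ModuleCat.{0} O) (π : F →ₗ[O] K),
    Function.Surjective π ∧ Module.Projective O F ∧ (Module.Finite O K → Module.Finite O F) := by
  by_cases h : Module.Finite O K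
  · obtain ⟨n, π, hπ⟩ := Module.Finite.exists_fin' O K
    exact ⟨ModuleCat.of O (Fin n → O), π, hπ, inferInstanceAs (Module.Projective O (Fin n → O)),
      fun _ => inferInstanceAs (Module.Finite O (Fin n → O))⟩
  · exact ⟨ModuleCat.of O (K →₀ O), Finsupp.linearCombination O id,
      Finsupp.linearCombination_id_surjective O K,
      inferInstanceAs (Module.Projective O (K →₀ O)), fun h' => absurd h' h⟩

/-- iterated syzygies -/
def tora_syz (F : ModuleCat.{0} O → ModuleCat.{0} O) (π : ∀ K, F K →ₗ[O] K) (N : ModuleCat.{0} O) :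
    ℕ → ModuleCat.{0} O
  | 0 => N
  | i + 1 => ModuleCat.of O (LinearMap.ker (π (tora_syz F π N i)))

/-- Recursion on bundled modules: `syz 0 = N`, `syz (i+1) = ker (π (syz i))` in `ModuleCat.{0} O`, where
`π K : (ι K →₀ O) → K` is a chosen surjection with `ι K` finite if `K` is a finite module;
`X i = ι (syz i) →₀ O`, `d i = subtype ∘ π (syz (i+1))`. -/
theorem exists_res (N : Type) [AddCommGroup N] [Module O N] :
    ∃ (C : Cx O) (ε : C.X 0 →ₗ[O] N), C.IsRes ε ∧ C.Proj ∧
      (IsNoetherianRing O → Module.Finite O N → C.Fin) := by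
  choose F π h1 h2 h3 using tora_step O
  let syz : ℕ → ModuleCat.{0} O := tora_syz O F π (ModuleCat.of O N)
  let q : ∀ i, F (syz (i + 1)) →ₗ[O] LinearMap.ker (π (syz i)) := fun i => π (syz (i + 1))
  let C : Cx O :=
    { X := fun i => F (syz i)
      d := fun i => (LinearMap.ker (π (syz i))).subtype ∘ₗ q i
      dd := fun i x => by
        have : q i ((LinearMap.ker (π (syz (i + 1)))).subtype (q (i + 1) x)) = 0 :=
          (q (i + 1) x).2
        exact (congrArg (LinearMap.ker (π (syz i))).subtype this).trans (map_zero _) }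
  have hB : ∀ i (x : F (syz i)), π (syz i) x = 0 → ∃ y, C.d i y = x := fun i x hx => by
    obtain ⟨y, hy⟩ := h1 (syz (i + 1)) ⟨x, hx⟩
    exact ⟨y, congrArg Subtype.val hy⟩
  refine ⟨C, π (syz 0), ⟨h1 _, fun x => ⟨hB 0 x, ?_⟩, fun i x hx => hB (i + 1) x ?_⟩,
    fun i => h2 _, fun _ hN i => h3 _ ?_⟩
  · rintro ⟨y, rfl⟩
    exact (q 0 y).2
  · exact Subtype.ext hx
  · induction i with
    | zero => exact hN
    | succ i ih =>
      have := h3 _ ih
      exact inferInstanceAs (Module.Finite O (LinearMap.ker (π (syz i))))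

/-- the chosen projective resolution -/
noncomputable def Res (N : Type) [AddCommGroup N] [Module O N] : Cx O := (exists_res O N).choose

noncomputable def Res.ε (N : Type) [AddCommGroup N] [Module O N] : (Res O N).X 0 →ₗ[O] N :=
  (exists_res O N).choose_spec.choose

theorem Res.isRes (N : Type) [AddCommGroup N] [Module O N] : (Res O N).IsRes (Res.ε O N) :=
  (exists_res O N).choose_spec.choose_spec.1

theorem Res.proj (N : Type) [AddCommGroup N] [Module O N] : (Res O N).Proj :=
  (exists_res O N).choose_spec.choose_spec.2.1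

theorem Res.fin [IsNoetherianRing O] (N : Type) [AddCommGroup N] [Module O N] [Module.Finite O N] :
    (Res O N).Fin :=
  (exists_res O N).choose_spec.choose_spec.2.2 ‹_› ‹_›

/-- `Tor_i^O(M, N)` -/
abbrev T (M N : Type) [AddCommGroup M] [Module O M] [AddCommGroup N] [Module O N] (i : ℕ) : Type :=
  ((Res O N).tens M).H i

/-- length of `Tor_i^O(M, N)` -/
noncomputable def tlm (M N : Type) [AddCommGroup M] [Module O M] [AddCommGroup N] [Module O N]
    (i : ℕ) : ℕ∞ := Module.length O (T O M N i)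

/-- `∑_{i ≤ n} (-1)^i len Tor_i^O(M, N)` -/
noncomputable def chim (M N : Type) [AddCommGroup M] [Module O M] [AddCommGroup N] [Module O N]
    (n : ℕ) : ℤ := alt (tlm O M N) n

/-- `Tor_i` vanishes for `i > n` -/
def Bd (M N : Type) [AddCommGroup M] [Module O M] [AddCommGroup N] [Module O N] (n : ℕ) : Prop :=
  ∀ i, n < i → Subsingleton (T O M N i)

variable {O}

section
variable {M M' M'' N N' : Type} [AddCommGroup M] [Module O M] [AddCommGroup M'] [Module O M']
  [AddCommGroup M''] [Module O M''] [AddCommGroup N] [Module O N] [AddCommGroup N'] [Module O N']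

/-- long exact sequence in the first variable -/
theorem T_les (N : Type) [AddCommGroup N] [Module O N] (u : M →ₗ[O] M') (v : M' →ₗ[O] M'')
    (hu : Function.Injective u) (hex : Function.Exact u v) (hv : Function.Surjective v) :
    ∃ δ : ∀ i, T O M'' N (i + 1) →ₗ[O] T O M N i, LES ((Res O N).tH u) ((Res O N).tH v) δ :=
  Cx.les_tens (Res.proj O N).flat u v hu hex hv

theorem tlm_eq_zero_iff {i : ℕ} : tlm O M N i = 0 ↔ Subsingleton (T O M N i) :=
  Module.length_eq_zero_iff

theorem T_zero : Nonempty (T O M N 0 ≃ₗ[O] M ⊗[O] N) := by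
  obtain ⟨e, -⟩ := (Res O N).tens_H0 (Res.ε O N) (Res.isRes O N).surj (Res.isRes O N).ex0 M
  exact ⟨e⟩

theorem T_flat [Module.Flat O M] (i : ℕ) : Subsingleton (T O M N (i + 1)) := by
  exact (Cx.ex_iff _ _).1 (((Res.isRes O N).ex i).tens M)

theorem T_finite [IsNoetherianRing O] [Module.Finite O M] [Module.Finite O N] (i : ℕ) :
    Module.Finite O (T O M N i) := by
  have := Res.fin O N i
  have : Module.Finite O (((Res O N).tens M).X i) :=
    inferInstanceAs (Module.Finite O (M ⊗[O] (Res O N).X i))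
  exact Cx.finite_H i

theorem tora_nat (N : Type) [AddCommGroup N] [Module O N] (u : M →ₗ[O] M') :
    ∃ (e : T O M N 0 ≃ₗ[O] M ⊗[O] N) (e' : T O M' N 0 ≃ₗ[O] M' ⊗[O] N),
      ∀ x, e' ((Res O N).tH u 0 x) = u.rTensor N (e x) := by
  obtain ⟨e, he⟩ := (Res O N).tens_H0 (Res.ε O N) (Res.isRes O N).surj (Res.isRes O N).ex0 M
  obtain ⟨e', he'⟩ := (Res O N).tens_H0 (Res.ε O N) (Res.isRes O N).surj (Res.isRes O N).ex0 M'
  refine ⟨e, e', fun x => ?_⟩
  obtain ⟨z, rfl⟩ := ((Res O N).tens M).cls_surj 0 x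
  rw [Cx.tH, Cx.Hom.hmap_cls, he, he']
  change (Res.ε O N).lTensor M' (u.rTensor _ z.1) = u.rTensor N ((Res.ε O N).lTensor M z.1)
  rw [← LinearMap.comp_apply, ← LinearMap.comp_apply, LinearMap.rTensor_comp_lTensor,
    LinearMap.lTensor_comp_rTensor]

/-- if `Tor_1(M'', N) = 0` then `M ⊗ N → M' ⊗ N` is injective (`T_les`, `Cx.tens_H0`). -/
theorem rTensor_inj_of_T1 (u : M →ₗ[O] M') (v : M' →ₗ[O] M'') (hu : Function.Injective u)
    (hex : Function.Exact u v) (hv : Function.Surjective v) [Subsingleton (T O M'' N 1)] :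
    Function.Injective (u.rTensor N) := by
  obtain ⟨δ, h⟩ := T_les N u v hu hex hv
  obtain ⟨e, e', he⟩ := tora_nat N u
  intro x y hxy
  obtain ⟨x, rfl⟩ := e.surjective x
  obtain ⟨y, rfl⟩ := e.surjective y
  rw [← he, ← he] at hxy
  rw [h.inj_f 0 (e'.injective hxy)]

/-- if `Tor_1(M', N) = 0` then `Tor_1(M'', N) = ker (M ⊗ N → M' ⊗ N)`. -/
theorem T1_equiv_ker (u : M →ₗ[O] M') (v : M' →ₗ[O] M'') (hu : Function.Injective u)
    (hex : Function.Exact u v) (hv : Function.Surjective v) [Subsingleton (T O M' N 1)] :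
    Nonempty (T O M'' N 1 ≃ₗ[O] LinearMap.ker (u.rTensor N)) := by
  obtain ⟨δ, h⟩ := T_les N u v hu hex hv
  obtain ⟨e, e', he⟩ := tora_nat N u
  have h1 : Function.Injective (e.toLinearMap ∘ₗ δ 0) := e.injective.comp (les_inj (h.gδ 0))
  refine ⟨(LinearEquiv.ofInjective _ h1).trans (LinearEquiv.ofEq _ _ ?_)⟩
  ext y
  obtain ⟨y, rfl⟩ := e.surjective y
  rw [LinearMap.mem_ker, ← he, e'.map_eq_zero_iff, h.δf 0 y]
  exact ⟨fun ⟨x, hx⟩ => ⟨x, e.injective hx⟩, fun ⟨x, hx⟩ => ⟨x, congrArg e hx⟩⟩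

/-- the complex shifted down by one -/
def tora_shift (E : Cx O) : Cx O where
  X j := E.X (j + 1)
  d j := E.d (j + 1)
  dd j := E.dd (j + 1)

theorem tora_shift_res {E : Cx O} {ε : E.X 0 →ₗ[O] N} (hE : E.IsRes ε) :
    (tora_shift E).IsRes (LinearMap.codRestrict (LinearMap.ker ε) (E.d 0)
      fun x => hE.ex0.apply_apply_eq_zero x) where
  surj y := by
    obtain ⟨x, hx⟩ := (hE.ex0 y.1).1 y.2
    exact ⟨x, Subtype.ext hx⟩
  ex0 x := ⟨fun hx => hE.ex 0 (congrArg Subtype.val hx), fun ⟨y, hy⟩ => hy ▸ Subtype.ext (E.dd 0 y)⟩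
  ex j := hE.ex (j + 1)

theorem tora_H_equiv (C : Cx O) (i : ℕ) (g : C.Z i →ₗ[O] N) (hg : Function.Surjective g)
    (hk : ∀ x, g x = 0 ↔ x.1 ∈ C.B i) : Nonempty (C.H i ≃ₗ[O] N) :=
  ⟨(Submodule.quotEquivOfEq _ _ (Submodule.ext fun x => (hk x).symm)).trans
    (g.quotKerEquivOfSurjective hg)⟩

theorem tora_H1 (X : Type) [AddCommGroup X] [Module O X] {E : Cx O} {ε : E.X 0 →ₗ[O] N}
    (hE : E.IsRes ε) :
    Nonempty ((E.tens X).H 1 ≃ₗ[O] LinearMap.ker ((LinearMap.ker ε).subtype.rTensor X)) := by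
  have hE' := tora_shift_res hE
  set ε' : E.X 1 →ₗ[O] LinearMap.ker ε := LinearMap.codRestrict (LinearMap.ker ε) (E.d 0)
    fun x => hE.ex0.apply_apply_eq_zero x
  let g₀ : X ⊗[O] E.X 1 →ₗ[O] LinearMap.ker ε ⊗[O] X :=
    (TensorProduct.comm O X _).toLinearMap ∘ₗ ε'.lTensor X
  have h1 : ∀ x, (LinearMap.ker ε).subtype.rTensor X (g₀ x) =
      TensorProduct.comm O X _ ((E.d 0).lTensor X x) := fun x => by
    induction x with
    | zero => simp
    | tmul a y => rfl
    | add x y hx hy => simp only [map_add, hx, hy]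
  have h2 : ∀ x, g₀ x ∈ LinearMap.ker ((LinearMap.ker ε).subtype.rTensor X) ↔
      x ∈ (E.tens X).Z 1 := fun x => by
    rw [LinearMap.mem_ker, h1, LinearEquiv.map_eq_zero_iff]
    rfl
  let g : (E.tens X).Z 1 →ₗ[O] LinearMap.ker ((LinearMap.ker ε).subtype.rTensor X) :=
    g₀.restrict fun x hx => (h2 x).2 hx
  have hg : Function.Surjective g := fun y => by
    obtain ⟨x, hx⟩ := ((TensorProduct.comm O X _).surjective.comp
      (LinearMap.lTensor_surjective X hE'.surj)) y.1
    have hx' : g₀ x = y := hx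
    exact ⟨⟨x, (h2 x).1 (hx' ▸ y.2)⟩, Subtype.ext hx'⟩
  refine tora_H_equiv (N := LinearMap.ker ((LinearMap.ker ε).subtype.rTensor X)) (E.tens X) 1 g hg
    fun x => ?_
  refine Iff.trans ?_ (lTensor_exact X hE'.ex0 hE'.surj x.1)
  rw [Subtype.ext_iff]
  exact (TensorProduct.comm O X _).map_eq_zero_iff

/-- ACYCLIC RESOLUTION THEOREM.  Induct on `i` for all `(E, N, ε)`.  Let `K = ker ε` and let `E'` be
`E` shifted down (`E'.X j = E.X (j+1)`), resolving `K`.  `i = 0`: `tens_H0`, `T_zero`, `comm`.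
`i = 1`: `H_1(X ⊗ E) = ker (X ⊗ K → X ⊗ E₀)` as `X ⊗ K = coker (X ⊗ E₂ → X ⊗ E₁)`; `T1_equiv_ker`.
`i + 2`: `H_{i+2}(X ⊗ E) = H_{i+1}(X ⊗ E')` (same submodules) and `T N X (i+2) ≃ T K X (i+1)` by
`LES.bij_δ`. -/
theorem art (X : Type) [AddCommGroup X] [Module O X] (i : ℕ) (E : Cx O) (ε : E.X 0 →ₗ[O] N)
    (hE : E.IsRes ε) (hac : ∀ j l, Subsingleton (T O (E.X j) X (l + 1))) :
    Nonempty ((E.tens X).H i ≃ₗ[O] T O N X i) := by
  induction i using Nat.strong_induction_on generalizing N E with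
  | _ i ih =>
    have hk := LinearMap.exact_subtype_ker_map ε
    match i with
    | 0 =>
      obtain ⟨e, -⟩ := E.tens_H0 ε hE.surj hE.ex0 X
      obtain ⟨e'⟩ := T_zero (O := O) (M := N) (N := X)
      exact ⟨e.trans ((TensorProduct.comm O X N).trans e'.symm)⟩
    | 1 =>
      have := hac 0 0
      obtain ⟨e⟩ := tora_H1 X hE
      obtain ⟨e'⟩ := T1_equiv_ker (N := X) _ ε (Submodule.subtype_injective _) hk hE.surj
      exact ⟨e.trans e'.symm⟩
    | i + 2 =>
      have := hac 0 i
      have := hac 0 (i + 1)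
      obtain ⟨e⟩ := ih (i + 1) (by omega) (tora_shift E) _ (tora_shift_res hE)
        fun j l => hac (j + 1) l
      obtain ⟨δ, h⟩ := T_les X _ ε (Submodule.subtype_injective _) hk hE.surj
      exact ⟨LinearEquiv.trans (M₂ := T O (LinearMap.ker ε) X (i + 1)) e
        (LinearEquiv.ofBijective _ (h.bij_δ (i + 1))).symm⟩

/-- balancing -/
theorem T_symm (i : ℕ) : Nonempty (T O M N i ≃ₗ[O] T O N M i) :=
  art M i (Res O N) (Res.ε O N) (Res.isRes O N) fun j l => by
    have := (Res.proj O N).flat j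
    exact T_flat l

/-- any flat resolution computes `T` -/
theorem T_res (M : Type) [AddCommGroup M] [Module O M] (i : ℕ) (E : Cx O) (ε : E.X 0 →ₗ[O] N)
    (hE : E.IsRes ε) (hf : E.Flat) : Nonempty ((E.tens M).H i ≃ₗ[O] T O M N i) := by
  obtain ⟨e⟩ := art M i E ε hE fun j l => by
    have := hf j
    exact T_flat l
  obtain ⟨e'⟩ := T_symm (O := O) (M := N) (N := M) i
  exact ⟨e.trans e'⟩

theorem T_congr (e : M ≃ₗ[O] M') (e' : N ≃ₗ[O] N') (i : ℕ) :
    Nonempty (T O M N i ≃ₗ[O] T O M' N' i) := by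
  obtain ⟨e₁⟩ := (Res O N).tens_equiv e i
  obtain ⟨e₂⟩ := T_symm (O := O) (M := M') (N := N) i
  obtain ⟨e₃⟩ := (Res O M').tens_equiv e' i
  obtain ⟨e₄⟩ := T_symm (O := O) (M := N') (N := M') i
  exact ⟨e₁.trans (e₂.trans (e₃.trans e₄))⟩

theorem tlm_congr (e : M ≃ₗ[O] M') (e' : N ≃ₗ[O] N') : tlm O M N = tlm O M' N' := by
  funext i
  obtain ⟨g⟩ := T_congr e e' i
  exact g.length_eq

theorem chim_congr (e : M ≃ₗ[O] M') (e' : N ≃ₗ[O] N') (n : ℕ) : chim O M N n = chim O M' N' n := by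
  unfold chim
  rw [tlm_congr e e']

theorem Bd.congr {n : ℕ} (h : Bd O M N n) (e : M ≃ₗ[O] M') (e' : N ≃ₗ[O] N') : Bd O M' N' n := by
  intro i hi
  obtain ⟨g⟩ := T_congr e e' i
  have := h i hi
  exact g.symm.injective.subsingleton

theorem tlm_symm : tlm O M N = tlm O N M := by
  funext i
  obtain ⟨g⟩ := T_symm (O := O) (M := M) (N := N) i
  exact g.length_eq

theorem chim_symm (n : ℕ) : chim O M N n = chim O N M n := by
  unfold chim
  rw [tlm_symm]

theorem Bd.symm {n : ℕ} (h : Bd O M N n) : Bd O N M n := by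
  intro i hi
  obtain ⟨g⟩ := T_symm (O := O) (M := N) (N := M) i
  have := h i hi
  exact g.injective.subsingleton

theorem Bd.mono {n n' : ℕ} (h : Bd O M N n) (hn : n ≤ n') : Bd O M N n' :=
  fun i hi => h i (hn.trans_lt hi)

theorem T_sub_left [Subsingleton M] (i : ℕ) : Subsingleton (T O M N i) := by
  refine subsingleton_of_forall_eq 0 fun x => ?_
  rw [← (Res O N).tH_id i x, Subsingleton.elim (LinearMap.id : M →ₗ[O] M) 0, Cx.tH_zero]

theorem chim_sub_left [Subsingleton M] (n : ℕ) : chim O M N n = 0 := by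
  unfold chim alt
  refine Finset.sum_eq_zero fun i _ => ?_
  rw [tlm_eq_zero_iff.2 (T_sub_left i)]
  simp

theorem T_kill_left {a : O} (ha : a ∈ Module.annihilator O M) (i : ℕ) (x : T O M N i) :
    a • x = 0 := by
  have h0 : a • (LinearMap.id : M →ₗ[O] M) = 0 :=
    LinearMap.ext fun m => Module.mem_annihilator.1 ha m
  rw [← (Res O N).tH_id i x, ← Cx.tH_smul, h0, Cx.tH_zero]

theorem T_kill_right {a : O} (ha : a ∈ Module.annihilator O N) (i : ℕ) (x : T O M N i) :
    a • x = 0 := by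
  obtain ⟨g⟩ := T_symm (O := O) (M := M) (N := N) i
  apply g.injective
  rw [map_smul, map_zero, T_kill_left ha]

theorem torb_tH_add (C : Cx O) (u v : M →ₗ[O] M') (i : ℕ) (x : (C.tens M).H i) :
    C.tH (u + v) i x = C.tH u i x + C.tH v i x := by
  obtain ⟨z, rfl⟩ := (C.tens M).cls_surj i x
  simp only [Cx.tH, Cx.Hom.hmap_cls]
  rw [← map_add]
  congr 1
  refine Subtype.ext ?_
  change (u + v).rTensor _ z.1 = u.rTensor _ z.1 + v.rTensor _ z.1
  rw [LinearMap.rTensor_add, LinearMap.add_apply]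

theorem torb_tlm_prod (i : ℕ) : tlm O (M × M') N i = tlm O M N i + tlm O M' N i := by
  set C := Res O N
  refine Module.length_eq_add_of_exact (C.tH (LinearMap.inl O M M') i)
    (C.tH (LinearMap.snd O M M') i) ?_ ?_ ?_
  · refine Function.LeftInverse.injective (g := C.tH (LinearMap.fst O M M') i) fun x => ?_
    rw [← Cx.tH_comp, LinearMap.fst_comp_inl, Cx.tH_id]
  · refine Function.RightInverse.surjective (g := C.tH (LinearMap.inr O M M') i) fun x => ?_
    rw [← Cx.tH_comp, LinearMap.snd_comp_inr, Cx.tH_id]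
  · intro y
    constructor
    · intro hy
      refine ⟨C.tH (LinearMap.fst O M M') i y, ?_⟩
      have h1 : LinearMap.inl O M M' ∘ₗ LinearMap.fst O M M' +
          LinearMap.inr O M M' ∘ₗ LinearMap.snd O M M' = LinearMap.id := by
        ext <;> simp
      conv_rhs => rw [← C.tH_id i y, ← h1, torb_tH_add, Cx.tH_comp, Cx.tH_comp, hy, map_zero,
        add_zero]
    · rintro ⟨x, rfl⟩
      rw [← Cx.tH_comp, LinearMap.snd_comp_inl, Cx.tH_zero]

/-- `Tor` of a finite power -/
theorem tlm_pi (ρ : ℕ) (i : ℕ) : tlm O (Fin ρ → M) N i = tlm O M N i * ρ := by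
  induction ρ with
  | zero => rw [tlm_eq_zero_iff.2 (T_sub_left i), Nat.cast_zero, mul_zero]
  | succ ρ ih =>
    rw [tlm_congr (Fin.consLinearEquiv O fun _ : Fin (ρ + 1) => M).symm (LinearEquiv.refl O N),
      torb_tlm_prod, ih, Nat.cast_succ, mul_add, mul_one, add_comm]

end

section Change
variable {A B : Type} [CommRing A] [CommRing B] [Algebra A B]

theorem torb_bc_res {N N' : Type} [AddCommGroup N] [Module A N] [AddCommGroup N'] [Module B N']
    [Module A N'] [IsScalarTower A B N'] (f : N →ₗ[A] N') (hf : IsBaseChange B f)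
    (hac : Bd A B N 0) : ∃ ε : ((Res A N).bc B).X 0 →ₗ[B] N', ((Res A N).bc B).IsRes ε := by
  have hR := Res.isRes A N
  refine ⟨hf.equiv.toLinearMap ∘ₗ (Res.ε A N).baseChange B, ?_, ?_, fun i => ?_⟩
  · exact hf.equiv.surjective.comp (LinearMap.lTensor_surjective B hR.surj)
  · intro y
    exact (map_eq_zero_iff _ hf.equiv.injective).trans (lTensor_exact B hR.ex0 hR.surj y)
  · exact (Cx.ex_iff _ _).2 (((Res A N).bc_seq B (i + 1)).subsingleton_iff.1
      (hac (i + 1) (Nat.succ_pos i)))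

theorem torb_distrib {M P Q : Type} [AddCommGroup M] [Module A M] [AddCommGroup P] [Module A P]
    [AddCommGroup Q] [Module A Q] (d : P →ₗ[A] Q) (x : B ⊗[A] (M ⊗[A] P)) :
    AlgebraTensorModule.distribBaseChange A B M Q ((d.lTensor M).baseChange B x) =
      (d.baseChange B).lTensor (B ⊗[A] M) (AlgebraTensorModule.distribBaseChange A B M P x) := by
  induction x with
  | zero => simp
  | add x y hx hy => simp only [map_add, hx, hy]
  | tmul b y =>
    induction y with
    | zero => simp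
    | add x y hx hy => simp only [TensorProduct.tmul_add, map_add, hx, hy]
    | tmul m p => simp

/-- CHANGE OF RINGS.  `E = (Res A N).bc B` is a projective resolution of `N'`
(`Cx.bc_seq`, `Cx.ex_iff`; degree `0` by right exactness and `hf.equiv`); `T_res`,
`Cx.bc_tens_seq`. -/
theorem T_change {X N N' : Type} [AddCommGroup X] [Module B X] [Module A X] [IsScalarTower A B X]
    [AddCommGroup N] [Module A N] [AddCommGroup N'] [Module B N'] [Module A N']
    [IsScalarTower A B N'] (f : N →ₗ[A] N') (hf : IsBaseChange B f) (hac : Bd A B N 0) (i : ℕ) :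
    SEq (algebraMap A B) (T A X N i) (T B X N' i) := by
  obtain ⟨ε, hε⟩ := torb_bc_res f hf hac
  obtain ⟨e⟩ := T_res X i _ ε hε ((Res.proj A N).bc B).flat
  exact ((Res A N).bc_tens_seq B X i).equiv_right e

/-- FLAT BASE CHANGE.  `Cx.bc_H_flat` for `(Res A N).tens M`, compare
`B ⊗ (M ⊗ F)` with `M' ⊗_B (B ⊗ F)` by `Cx.seq_H` (`AlgebraTensorModule.distribBaseChange`), and
`T_res` as in `T_change`. -/
theorem T_flat_bc [Module.Flat A B] {M M' N N' : Type} [AddCommGroup M] [Module A M]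
    [AddCommGroup M'] [Module B M'] [Module A M'] [IsScalarTower A B M'] [AddCommGroup N]
    [Module A N] [AddCommGroup N'] [Module B N'] [Module A N'] [IsScalarTower A B N']
    (g : M →ₗ[A] M') (hg : IsBaseChange B g) (f : N →ₗ[A] N') (hf : IsBaseChange B f) (i : ℕ) :
    Nonempty (T B M' N' i ≃ₗ[B] B ⊗[A] T A M N i) := by
  obtain ⟨ε, hε⟩ := torb_bc_res f hf fun i hi => by
    obtain ⟨j, rfl⟩ := Nat.exists_eq_succ_of_ne_zero hi.ne'
    exact T_flat j
  obtain ⟨e₁⟩ := T_res M' i _ ε hε ((Res.proj A N).bc B).flat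
  obtain ⟨e₂⟩ := ((Res A N).bc B).tens_equiv hg.equiv i
  obtain ⟨e₃⟩ := ((Res A N).tens M).bc_H_flat B i
  obtain ⟨e₄⟩ := SEq.equiv (Cx.seq_H (RingHom.id B) (((Res A N).tens M).bc B)
    (((Res A N).bc B).tens (B ⊗[A] M))
    (fun i => (AlgebraTensorModule.distribBaseChange A B M
      ((Res A N).X i)).toLinearMap.toAddMonoidHom)
    (fun i => (AlgebraTensorModule.distribBaseChange A B M ((Res A N).X i)).bijective)
    (fun i a x => (AlgebraTensorModule.distribBaseChange A B M ((Res A N).X i)).map_smul a x)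
    (fun i x => torb_distrib _ x) i)
  exact ⟨e₁.symm.trans (e₂.symm.trans (e₄.symm.trans e₃))⟩

end Change

open CategoryTheory in
/-- the unbundled complex of a chain complex of modules -/
def torcCx {R : Type} [CommRing R] (K : ChainComplex (ModuleCat.{0} R) ℕ) : Cx R where
  X i := K.X i
  d i := (K.d (i + 1) i).hom
  dd i x := by
    rw [← LinearMap.comp_apply, ← ModuleCat.hom_comp, K.d_comp_d]
    rfl

open CategoryTheory in
theorem torc_sc {R : Type} [CommRing R] (S : ShortComplex (ModuleCat.{0} R)) (Z : Submodule R S.X₂)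
    (hZ : LinearMap.ker S.g.hom = Z) :
    Nonempty (S.homology ≃ₗ[R] Z ⧸ (LinearMap.range S.f.hom).submoduleOf Z) := by
  subst hZ
  refine ⟨S.moduleCatHomologyIso.toLinearEquiv.trans (Submodule.quotEquivOfEq _ _ ?_)⟩
  ext x
  constructor
  · rintro ⟨y, rfl⟩
    exact ⟨y, rfl⟩
  · rintro ⟨y, hy⟩
    exact ⟨y, Subtype.ext hy⟩

open CategoryTheory in
theorem torc_H {R : Type} [CommRing R] (K : ChainComplex (ModuleCat.{0} R) ℕ) (i : ℕ) :
    Nonempty (K.homology i ≃ₗ[R] (torcCx K).H i) := by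
  cases i with
  | zero =>
    obtain ⟨e⟩ := torc_sc (K.sc' 1 0 0) ⊤ (by
      change LinearMap.ker (K.d 0 0).hom = ⊤
      rw [K.shape 0 0 (by simp)]
      exact LinearMap.ker_zero)
    exact ⟨(K.homologyIsoSc' 1 0 0 (by simp) (by simp)).toLinearEquiv.trans e⟩
  | succ i =>
    obtain ⟨e⟩ := torc_sc (K.sc' (i + 2) (i + 1) i) _ rfl
    exact ⟨(K.homologyIsoSc' (i + 2) (i + 1) i (by simp) (by simp)).toLinearEquiv.trans e⟩

open CategoryTheory in
/-- BRIDGE TO MATHLIB.  Let `P = projectiveResolution N`.  `ProjectiveResolution.isoLeftDerivedObj`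
identifies `Tor_i(M,N)` with the homology of `(tensoringLeft.obj M).mapHomologicalComplex.obj P.complex`;
`ShortComplex.moduleCatHomologyIso`/`HomologicalComplex.homologyIsoSc'` identify it with
`ker/range`.  Turn `P.complex` into a `Cx` (`X i = P.complex.X i`, `d i = (P.complex.d (i+1) i).hom`),
it is `IsRes` (`P.exact_succ`, `P.exact₀`, `P.π` epi) and projective
(`IsProjective.iff_projective`), then `T_res`. -/
theorem length_Tor_eq (R : Type) [CommRing R] (M N : ModuleCat.{0} R) (i : ℕ) :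
    Module.length R (((CategoryTheory.Tor (ModuleCat.{0} R) i).obj M).obj N) = tlm R M N i := by
  let P := projectiveResolution N
  have hE : (torcCx P.complex).IsRes (P.π.f 0).hom := by
    refine ⟨(ModuleCat.epi_iff_surjective _).1 inferInstance, ?_, fun j => ?_⟩
    · exact LinearMap.exact_iff.2 P.exact₀.moduleCat_range_eq_ker.symm
    · exact (P.exact_succ j).moduleCat_range_eq_ker.ge
  have hf : (torcCx P.complex).Flat :=
    Cx.Proj.flat fun j => (IsProjective.iff_projective _).2 (P.projective j)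
  obtain ⟨e₁⟩ := torc_H ((((MonoidalCategory.tensoringLeft _).obj M).mapHomologicalComplex _).obj
    P.complex) i
  obtain ⟨e₂⟩ := T_res M i _ _ hE hf
  exact (((P.isoLeftDerivedObj ((MonoidalCategory.tensoringLeft _).obj M) i).toLinearEquiv.trans
    e₁).trans e₂).length_eq

end Crest.Agent.R188
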